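import Claimed.Agent.R285.E4.L43Late

/-!
# ROW 285, [E] L4.3, layer PHYS: the secants of the two PHYSICAL diagnostics at the matching index   (architect helper90; prefix `l43_`)

"To identify this secant, choose a canonical history with `s_k ≍ J` and `J` in its fixed interior range" ([E], proof of L4.3, (4.21)-(4.23)).
As in `Phys.lean` the information of the canonical histories is stored in statements about the physical tori:
* `l43_phys_deriv` : `∂_b torVar (b_c, n_j) / j → 𝒫/(π b_*)`,  `∂_b torPhase (b_c, n_j) / j + p_j 𝒫/(2 √(b_* H)) → 0`      (P4.1: `IsResp` + `p41_read`);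
* `l43_cut_taylor` : analytic continuation of the canonical history on the disk `ρ_j = 2 c0 j⁻² e^{-γ j}` and Cauchy for the second derivative of the two cutoff read-outs;
* `l43_phys_taylor`: transfer to the physical torus (`lipV`, `lipP`, `p41_phys`);
* `l43_phys_sec`   : GLUE, the limits of the physical secants along `J = Jf ε`, if `ε J⁴ e^{2γJ} → 0` ((4.22)).
-/

set_option autoImplicit false

namespace Claimed.Agent.R285.E4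

open Filter Topology Claims.C0459
open Claimed.Agent.R285.Flow

noncomputable section

theorem l43_pd_ptV (phys : ℝ) (Vx : ℂ) (Vn C e B P ε' : ℝ) (j : ℕ) (hB : 0 < B) (hj : 1 ≤ j) (hC : 0 ≤ C)
    (h1 : ‖(phys : ℂ) - Vx / (B : ℂ)‖ ≤ C * Vn / (j : ℝ) + e) (he : e ≤ 1)
    (h2 : ‖Vx / (j : ℂ) - P‖ ≤ ε') (hVn : Vn / (j : ℝ) ≤ |P| + ε') :
    |phys / (j : ℝ) - P / B| ≤ (C * (|P| + ε') + 1) / (j : ℝ) + 1 / B * ε' := by
  have hj0 : (0 : ℝ) < j := by exact_mod_cast hj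
  have hjc : (j : ℂ) ≠ 0 := by exact_mod_cast hj0.ne'
  have hBc : (B : ℂ) ≠ 0 := by exact_mod_cast hB.ne'
  have e1 : ((phys / (j : ℝ) - P / B : ℝ) : ℂ) = ((phys : ℂ) - Vx / (B : ℂ)) / (j : ℂ) + (Vx / (j : ℂ) - P) / (B : ℂ) := by
    push_cast
    field_simp
    ring
  rw [← Real.norm_eq_abs, ← Complex.norm_real, e1]
  refine (norm_add_le _ _).trans ?_
  rw [norm_div, norm_div, Complex.norm_natCast, Complex.norm_real, Real.norm_eq_abs, abs_of_pos hB]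
  have a1 : ‖(phys : ℂ) - Vx / (B : ℂ)‖ / (j : ℝ) ≤ (C * (|P| + ε') + 1) / (j : ℝ) := by
    have : C * Vn / (j : ℝ) = C * (Vn / (j : ℝ)) := by ring
    have h3 : C * (Vn / (j : ℝ)) ≤ C * (|P| + ε') := by gcongr
    gcongr
    linarith
  have a2 : ‖Vx / (j : ℂ) - P‖ / B ≤ 1 / B * ε' := by
    rw [div_eq_mul_one_div, mul_comm]
    gcongr
  linarith

theorem l43_pd_ptP (phys : ℝ) (Vy : ℂ) (Vn C e S pj Cp P ε' : ℝ) (j : ℕ) (hS : 0 < S) (hj : 1 ≤ j) (hC : 0 ≤ C)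
    (hpj0 : 0 ≤ pj) (hpj : pj ≤ Cp)
    (h1 : ‖(phys : ℂ) - (pj : ℂ) / (S : ℂ) * Vy‖ ≤ C * Vn / (j : ℝ) + e) (he : e ≤ 1)
    (h2 : ‖Vy / (j : ℂ) + P / 2‖ ≤ ε') (hVn : Vn / (j : ℝ) ≤ |P| + ε') :
    |phys / (j : ℝ) + pj * P / (2 * S)| ≤ (C * (|P| + ε') + 1) / (j : ℝ) + Cp / S * ε' := by
  have hj0 : (0 : ℝ) < j := by exact_mod_cast hj
  have hjc : (j : ℂ) ≠ 0 := by exact_mod_cast hj0.ne'
  have hSc : (S : ℂ) ≠ 0 := by exact_mod_cast hS.ne'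
  have e1 : ((phys / (j : ℝ) + pj * P / (2 * S) : ℝ) : ℂ)
      = ((phys : ℂ) - (pj : ℂ) / (S : ℂ) * Vy) / (j : ℂ) + ((pj / S : ℝ) : ℂ) * (Vy / (j : ℂ) + P / 2) := by
    push_cast
    field_simp
    ring
  rw [← Real.norm_eq_abs, ← Complex.norm_real, e1]
  refine (norm_add_le _ _).trans ?_
  have hq : 0 ≤ pj / S := by positivity
  rw [norm_div, norm_mul, Complex.norm_natCast, Complex.norm_real, Real.norm_eq_abs, abs_of_nonneg hq]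
  have a1 : ‖(phys : ℂ) - (pj : ℂ) / (S : ℂ) * Vy‖ / (j : ℝ) ≤ (C * (|P| + ε') + 1) / (j : ℝ) := by
    have : C * Vn / (j : ℝ) = C * (Vn / (j : ℝ)) := by ring
    have h3 : C * (Vn / (j : ℝ)) ≤ C * (|P| + ε') := by gcongr
    gcongr
    linarith
  have a2 : pj / S * ‖Vy / (j : ℂ) + P / 2‖ ≤ Cp / S * ε' := by
    have : 0 ≤ Cp / S := by have := hpj0.trans hpj; positivity
    gcongr
  linarith

theorem l43_pd_Vn (Vx Vy : ℂ) (P ε' : ℝ) (j : ℕ) (hj : 1 ≤ j)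
    (h1 : ‖Vx / (j : ℂ) - P‖ ≤ ε') (h2 : ‖Vy / (j : ℂ) + P / 2‖ ≤ ε') : max ‖Vx‖ ‖Vy‖ / (j : ℝ) ≤ |P| + ε' := by
  have hj0 : (0 : ℝ) < j := by exact_mod_cast hj
  have a1 : ‖Vx‖ / (j : ℝ) ≤ |P| + ε' := by
    have : ‖Vx / (j : ℂ)‖ ≤ ‖(P : ℂ)‖ + ‖Vx / (j : ℂ) - P‖ := by
      have e : Vx / (j : ℂ) = (P : ℂ) + (Vx / (j : ℂ) - P) := by ring
      calc ‖Vx / (j : ℂ)‖ = ‖(P : ℂ) + (Vx / (j : ℂ) - P)‖ := by rw [← e]
        _ ≤ _ := norm_add_le _ _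
    rw [norm_div, Complex.norm_natCast, Complex.norm_real, Real.norm_eq_abs] at this
    linarith
  have a2 : ‖Vy‖ / (j : ℝ) ≤ |P| + ε' := by
    have : ‖Vy / (j : ℂ)‖ ≤ ‖(P : ℂ) / 2‖ + ‖Vy / (j : ℂ) + P / 2‖ := by
      have e : Vy / (j : ℂ) = (Vy / (j : ℂ) + P / 2) - (P : ℂ) / 2 := by ring
      calc ‖Vy / (j : ℂ)‖ = ‖(Vy / (j : ℂ) + P / 2) - (P : ℂ) / 2‖ := by rw [← e]
        _ ≤ ‖Vy / (j : ℂ) + P / 2‖ + ‖(P : ℂ) / 2‖ := norm_sub_le _ _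
        _ = _ := add_comm _ _
    rw [norm_div, norm_div, Complex.norm_natCast, Complex.norm_real, Real.norm_eq_abs] at this
    have h3 : ‖(2 : ℂ)‖ = 2 := by simp
    rw [h3] at this
    have := abs_nonneg P
    linarith
  rw [← max_div_div_right hj0.le]
  exact max_le a1 a2

theorem l43_pd_tendsto (f : ℕ → ℝ) (K A : ℝ) (hA : 0 ≤ A)
    (h : ∀ ε' : ℝ, 0 < ε' → ε' ≤ 1 → ∀ᶠ j : ℕ in atTop, |f j| ≤ K / (j : ℝ) + A * ε') : Tendsto f atTop (𝓝 0) := by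
  rw [Metric.tendsto_nhds]
  intro δ hδ
  obtain ⟨ε', hε'⟩ : ∃ ε', ε' = min 1 (δ / (2 * (A + 1))) := ⟨_, rfl⟩
  have p0 : 0 < ε' := by rw [hε']; exact lt_min one_pos (by positivity)
  have p1 : ε' ≤ 1 := by rw [hε']; exact min_le_left _ _
  have p2 : A * ε' ≤ δ / 2 := by
    have : ε' ≤ δ / (2 * (A + 1)) := by rw [hε']; exact min_le_right _ _
    rw [le_div_iff₀ (by positivity)] at this
    nlinarith
  have hz : Tendsto (fun j : ℕ => K / (j : ℝ)) atTop (𝓝 0) := tendsto_const_div_atTop_nhds_zero_nat K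
  filter_upwards [h ε' p0 p1, hz.eventually (eventually_lt_nhds (by positivity : 0 < δ / 2))] with j h1 h2
  rw [Real.dist_eq, sub_zero]
  linarith

theorem l43_pd_log2_tendsto : Tendsto (Nat.log 2) atTop atTop :=
  tendsto_atTop_atTop.2 fun b => ⟨2 ^ b, fun _ hj => Nat.le_log_of_pow_le (by norm_num) hj⟩

/-- LEAF L43-P1 (PROVED, helper14; ~250 l.).  `obtain ⟨C₀, hG⟩ := p41_good hy hT`, `p : Par` as in `p41_response`, `p41_read p`, `p41_sp_good hG Nm` (`k = Nat.log 2 j`, `2^k ≤ j < 2^(k+1)`, `i = j - j0`), `hP.2 ε'` composed with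
`Nat.log 2 j → ∞`.  `‖physV/j - P/(π b_*)‖ ≤ (C Vn/j + e^{-c j})/j + ‖Vx/j - P‖/(π b_*)`, `Vn/j ≤ |P| + ε'`.  Phase: `‖physP/j + p_j P/(2√)‖ ≤ (C Vn/j + e^{-cj})/j + (p_j/√) ‖Vy/j + P/2‖`, `p_j ≤ κ.C`.
Real/complex: `|a| = ‖(a : ℂ)‖`. -/
theorem l43_phys_deriv {κ : MapC} {κe : EntC} {ρe ρt : ℝ} {H : ℕ → Hist} (hy : Hyp κ κe ρe ρt H) (hT : Tube κ ρt)
    (P : ℝ) (hP : IsResp hy P) :
    Tendsto (fun j : ℕ => physV κ j / (j : ℝ)) atTop (𝓝 (P / (Real.pi * κ.bs))) ∧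
    Tendsto (fun j : ℕ => physP κ j / (j : ℝ) + κ.p j * P / (2 * Real.sqrt (κ.bs * κ.Hq))) atTop (𝓝 0) := by
  obtain ⟨C₀, hG⟩ := p41_good hy hT
  obtain ⟨p, hp⟩ : ∃ p : Par, p = ⟨κ, κe, ρe, ρt, C₀, hy.crit.c1, hy.crit.C1, hT, hy.crit.hc1⟩ := ⟨_, rfl⟩
  have hG' : ∀ᶠ k : ℕ in atTop, Good p (hy.crit.sk k) ((fun k => H (hy.crit.sk k)) k) (2 ^ k) := by rw [hp]; exact hG
  have hpκ : p.κ = κ := by rw [hp]
  obtain ⟨C, c, Nm, hC, hc, hread⟩ := p41_read p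
  rw [hpκ] at hread
  have hB : 0 < Real.pi * κ.bs := mul_pos Real.pi_pos κ.bs_pos
  have hS : 0 < Real.sqrt (κ.bs * κ.Hq) := Real.sqrt_pos.2 (mul_pos κ.bs_pos κ.hH)
  have key : ∀ ε' : ℝ, 0 < ε' → ε' ≤ 1 → ∀ᶠ j : ℕ in atTop,
      |physV κ j / (j : ℝ) - P / (Real.pi * κ.bs)| ≤ (C * (|P| + 1) + 1) / (j : ℝ) + 1 / (Real.pi * κ.bs) * ε' ∧
      |physP κ j / (j : ℝ) + κ.p j * P / (2 * Real.sqrt (κ.bs * κ.Hq))|
        ≤ (C * (|P| + 1) + 1) / (j : ℝ) + κ.C / Real.sqrt (κ.bs * κ.Hq) * ε' := by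
    intro ε' h0 h1
    filter_upwards [p41_sp_good hG' Nm, l43_pd_log2_tendsto.eventually (hP.2 ε' h0), eventually_ge_atTop 1] with j hj hr hj1
    obtain ⟨g, -, hN, w1, w2, w3⟩ := hj
    obtain ⟨k, hk⟩ : ∃ k, k = Nat.log 2 j := ⟨_, rfl⟩
    rw [← hk] at g hN w1 w2 w3 hr
    obtain ⟨i, hi⟩ : ∃ i, i = j - (H (hy.crit.sk k)).j0 := ⟨_, rfl⟩
    rw [← hi] at w3
    have hpow : 2 ^ (k + 1) = 2 * 2 ^ k := by rw [pow_succ, mul_comm]
    obtain ⟨r1, r2⟩ := hread _ _ _ g hN i j w3 (by omega) (by omega)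
    have hj0 : (0 : ℝ) < j := by exact_mod_cast hj1
    have c1 : (1 / 2 : ℝ) * 2 ^ k ≤ (((H (hy.crit.sk k)).j0 + i : ℕ) : ℝ) := by
      rw [← w3]
      have : ((2 ^ k : ℕ) : ℝ) ≤ (j : ℝ) := by exact_mod_cast w1
      push_cast at this
      have h2 : (0 : ℝ) < 2 ^ k := by positivity
      linarith
    have c2 : (((H (hy.crit.sk k)).j0 + i : ℕ) : ℝ) ≤ (5 / 2 : ℝ) * 2 ^ k := by
      rw [← w3]
      have : (j : ℝ) ≤ ((2 ^ (k + 1) : ℕ) : ℝ) := by exact_mod_cast w2.le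
      rw [hpow] at this
      push_cast at this
      have h2 : (0 : ℝ) < 2 ^ k := by positivity
      linarith
    obtain ⟨s1, s2⟩ := hr i c1 c2
    rw [← w3] at s1 s2
    have hVn := l43_pd_Vn _ _ P ε' j hj1 s1 s2
    have hexp : Real.exp (-c * j) ≤ 1 := by
      rw [Real.exp_le_one_iff]
      have : 0 ≤ c * (j : ℝ) := by positivity
      linarith
    have eB : ((Real.pi * κ.bs : ℝ) : ℂ) = (Real.pi : ℂ) * (κ.bs : ℂ) := by push_cast; ring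
    have m1 : (C * (|P| + ε') + 1) / (j : ℝ) ≤ (C * (|P| + 1) + 1) / (j : ℝ) := by gcongr
    constructor
    · have := l43_pd_ptV (physV κ j) (Vx (H (hy.crit.sk k)) i) (Vn (H (hy.crit.sk k)) i) C _ (Real.pi * κ.bs) P ε' j hB hj1 hC
        (by rw [eB]; exact r1) hexp s1 hVn
      linarith
    · have := l43_pd_ptP (physP κ j) (Vy (H (hy.crit.sk k)) i) (Vn (H (hy.crit.sk k)) i) C _ (Real.sqrt (κ.bs * κ.Hq))
        (κ.p j) κ.C P ε' j hS hj1 hC (κ.hc.le.trans (κ.hp j).1) (κ.hp j).2 r2 hexp s2 hVn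
      linarith
  constructor
  · rw [← tendsto_sub_nhds_zero_iff]
    exact l43_pd_tendsto _ (C * (|P| + 1) + 1) (1 / (Real.pi * κ.bs)) (by positivity)
      (fun ε' h0 h1 => (key ε' h0 h1).mono fun j hj => hj.1)
  · have hCk := κ.hC
    exact l43_pd_tendsto _ (C * (|P| + 1) + 1) (κ.C / Real.sqrt (κ.bs * κ.Hq)) (by positivity)
      (fun ε' h0 h1 => (key ε' h0 h1).mono fun j hj => hj.2)

/-- radius arithmetic of `l43_cut_taylor` -/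
theorem l43_ct_radius (cE ρe ρt Ks D c0 s j E Ei r : ℝ)
    (hcE : 0 < cE) (hρe : 0 < ρe) (hρt : 0 < ρt) (hKs : 1 ≤ Ks) (hD : 0 < D) (hc0 : 0 < c0)
    (h1 : c0 ≤ cE / (8 * D ^ 2)) (h2 : c0 ≤ ρt * cE / (32 * Ks * ρe * D ^ 2))
    (hs0 : 0 < s) (hs : s ≤ 2 * D * j) (hj : 0 < j) (hE : 1 ≤ E) (hEi0 : 0 < Ei) (hEi : Ei ≤ E)
    (hr : r = 2 * c0 / (j ^ 2 * E)) :
    0 < r ∧ r ≤ cE / s ^ 2 ∧ ρt + Ks * (2 * ρe / (cE / s ^ 2) * r) * Ei ≤ 2 * ρt := by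
  have hE0 : 0 < E := by linarith
  have hr0 : 0 < r := by rw [hr]; positivity
  have hs2 : s ^ 2 ≤ 4 * D ^ 2 * j ^ 2 := by
    have : s ^ 2 ≤ (2 * D * j) ^ 2 := by gcongr
    calc s ^ 2 ≤ (2 * D * j) ^ 2 := this
      _ = 4 * D ^ 2 * j ^ 2 := by ring
  have hA : r * j ^ 2 * E = 2 * c0 := by rw [hr]; field_simp
  have hA1 : r * j ^ 2 ≤ 2 * c0 := by
    have : r * j ^ 2 ≤ r * j ^ 2 * E := le_mul_of_one_le_right (by positivity) hE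
    linarith
  have hA2 : r * j ^ 2 * Ei ≤ 2 * c0 := by
    have : r * j ^ 2 * Ei ≤ r * j ^ 2 * E := by gcongr
    linarith
  rw [le_div_iff₀ (by positivity)] at h1 h2
  refine ⟨hr0, ?_, ?_⟩
  · rw [le_div_iff₀ (by positivity)]
    calc r * s ^ 2 ≤ r * (4 * D ^ 2 * j ^ 2) := by gcongr
      _ = 4 * D ^ 2 * (r * j ^ 2) := by ring
      _ ≤ 4 * D ^ 2 * (2 * c0) := by gcongr
      _ = c0 * (8 * D ^ 2) := by ring
      _ ≤ cE := h1
  · have e1 : Ks * (2 * ρe / (cE / s ^ 2) * r) * Ei = 2 * Ks * ρe * (s ^ 2 * (r * Ei)) / cE := by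
      field_simp
    have e2 : s ^ 2 * (r * Ei) ≤ 8 * D ^ 2 * c0 := by
      calc s ^ 2 * (r * Ei) ≤ 4 * D ^ 2 * j ^ 2 * (r * Ei) := by gcongr
        _ = 4 * D ^ 2 * (r * j ^ 2 * Ei) := by ring
        _ ≤ 4 * D ^ 2 * (2 * c0) := by gcongr
        _ = 8 * D ^ 2 * c0 := by ring
    have e3 : 2 * Ks * ρe * (s ^ 2 * (r * Ei)) / cE ≤ ρt := by
      rw [div_le_iff₀ hcE]
      calc 2 * Ks * ρe * (s ^ 2 * (r * Ei)) ≤ 2 * Ks * ρe * (8 * D ^ 2 * c0) := by gcongr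
        _ = c0 * (32 * Ks * ρe * D ^ 2) / 2 := by ring
        _ ≤ ρt * cE / 2 := by linarith
        _ ≤ ρt * cE := by have : 0 < ρt * cE := by positivity
                          linarith
    rw [e1]; linarith

/-- the uniform bound of the two read-outs on the domain -/
def ctM (κ : MapC) : ℝ := (1 + 2 * κ.C) * κ.ρ + κ.C * (κ.ρ + κ.ρ ^ 2)

theorem l43_ctM_nonneg (κ : MapC) : 0 ≤ ctM κ := by
  have := κ.hC
  have := κ.hρ
  unfold ctM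
  positivity

theorem l43_ct_bd {κ : MapC} {κe : EntC} {s : ℕ} {H : Hist} (hR : ReadOK κ κe s H) {h : ℕ} (hv : Valid κ κe s H h)
    (X : (ℂ × ℂ) × H.T h h) (hX : X ∈ Metric.ball (0 : (ℂ × ℂ) × H.T h h) κ.ρ) :
    ‖H.rV h X‖ ≤ ctM κ ∧ ‖H.rP h X‖ ≤ ctM κ := by
  have hC := κ.hC
  have hρ := κ.hρ
  have hXn : ‖X‖ < κ.ρ := by rwa [mem_ball_zero_iff] at hX
  have hn1 : (1 : ℝ) ≤ (κ.n h : ℝ) := by
    have : 1 ≤ κ.n h := le_trans Nat.one_le_two_pow (p41_two_pow_le_n κ h)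
    exact_mod_cast this
  have hn0 : (0 : ℝ) < (κ.n h : ℝ) := by linarith
  have hsn : (s : ℝ) ≤ (κ.n h : ℝ) := by
    have h1 : s * 1 ≤ s * κe.P0 := Nat.mul_le_mul_left _ κe.hP
    have h2 : s ≤ κ.n h := by have := hv.2.1; omega
    exact_mod_cast h2
  have q1 : (s : ℝ) / κ.n h ≤ 1 := by rw [div_le_one hn0]; exact hsn
  have q0 : 0 ≤ (s : ℝ) / κ.n h := by positivity
  have q2 : 1 / (κ.n h : ℝ) ^ 2 ≤ 1 := by
    rw [div_le_one (by positivity)]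
    exact one_le_pow₀ hn1
  have q3 : ((s : ℝ) / κ.n h) ^ 2 ≤ 1 := pow_le_one₀ q0 q1
  have x1 : ‖X.1.1‖ ≤ κ.ρ := ((norm_fst_le X.1).trans (norm_fst_le X)).trans hXn.le
  have x2 : ‖X.1.2‖ ≤ κ.ρ := ((norm_snd_le X.1).trans (norm_fst_le X)).trans hXn.le
  have x3 : ‖X.2‖ ≤ κ.ρ := (norm_snd_le X).trans hXn.le
  have x4 : ‖X‖ ^ 2 ≤ κ.ρ ^ 2 := by gcongr
  have hrem : κ.C * (‖X.2‖ + ‖X‖ ^ 2) ≤ κ.C * (κ.ρ + κ.ρ ^ 2) := by gcongr
  have hpi : 1 / Real.pi ≤ 1 := by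
    rw [div_le_one Real.pi_pos]
    have := Real.pi_gt_three
    linarith
  constructor
  · have b1 := hR.rV_bd h hv.1 X hX
    have b2 := hR.kV_bd h hv.1
    have k1 : |H.kV h| ≤ 1 + 2 * κ.C := by
      have t1 : |H.kV h| ≤ |H.kV h - 1 / Real.pi| + |1 / Real.pi| := by
        have : H.kV h = (H.kV h - 1 / Real.pi) + 1 / Real.pi := by ring
        calc |H.kV h| = |(H.kV h - 1 / Real.pi) + 1 / Real.pi| := by rw [← this]
          _ ≤ _ := abs_add_le _ _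
      have t2 : |1 / Real.pi| = 1 / Real.pi := abs_of_pos (by positivity)
      have t3 : κ.C * ((s : ℝ) / κ.n h + 1 / (κ.n h : ℝ) ^ 2) ≤ κ.C * (1 + 1) := by gcongr
      linarith
    have n1 : ‖(H.kV h : ℂ) * X.1.1‖ ≤ (1 + 2 * κ.C) * κ.ρ := by
      rw [norm_mul, Complex.norm_real, Real.norm_eq_abs]
      exact mul_le_mul k1 x1 (norm_nonneg _) (by positivity)
    have n2 : ‖H.rV h X‖ ≤ ‖(H.kV h : ℂ) * X.1.1‖ + ‖H.rV h X - H.kV h * X.1.1‖ := by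
      have : H.rV h X = (H.kV h : ℂ) * X.1.1 + (H.rV h X - H.kV h * X.1.1) := by ring
      calc ‖H.rV h X‖ = ‖(H.kV h : ℂ) * X.1.1 + (H.rV h X - H.kV h * X.1.1)‖ := by rw [← this]
        _ ≤ _ := norm_add_le _ _
    unfold ctM
    linarith
  · have b1 := hR.rP_bd h hv.1 X hX
    have b2 := hR.kP_bd h hv.1
    have k1 : |H.kP h| ≤ 1 + 2 * κ.C := by
      have t1 : |H.kP h| ≤ |H.kP h - κ.p h| + |κ.p h| := by
        have : H.kP h = (H.kP h - κ.p h) + κ.p h := by ring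
        calc |H.kP h| = |(H.kP h - κ.p h) + κ.p h| := by rw [← this]
          _ ≤ _ := abs_add_le _ _
      have t2 : |κ.p h| ≤ κ.C := by
        rw [abs_of_nonneg (κ.hc.le.trans (κ.hp h).1)]
        exact (κ.hp h).2
      have t3 : κ.C * ((s : ℝ) / κ.n h) ^ 2 ≤ κ.C * 1 := by gcongr
      linarith
    have n1 : ‖(H.kP h : ℂ) * X.1.2‖ ≤ (1 + 2 * κ.C) * κ.ρ := by
      rw [norm_mul, Complex.norm_real, Real.norm_eq_abs]
      exact mul_le_mul k1 x2 (norm_nonneg _) (by positivity)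
    have n2 : ‖H.rP h X‖ ≤ ‖(H.kP h : ℂ) * X.1.2‖ + ‖H.rP h X - H.kP h * X.1.2‖ := by
      have : H.rP h X = (H.kP h : ℂ) * X.1.2 + (H.rP h X - H.kP h * X.1.2) := by ring
      calc ‖H.rP h X‖ = ‖(H.kP h : ℂ) * X.1.2 + (H.rP h X - H.kP h * X.1.2)‖ := by rw [← this]
        _ ≤ _ := norm_add_le _ _
    unfold ctM
    linarith

/-- second order Taylor remainder of a read-out along a holomorphic curve -/
theorem l43_ct_taylor {E : Type} [NormedAddCommGroup E] [NormedSpace ℂ E] (R : E → ℂ) (X : ℂ → E) (X' : E) (c : ℂ)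
    (ρ r M ε : ℝ) (hR : DifferentiableOn ℂ R (Metric.ball 0 ρ)) (hM : ∀ x ∈ Metric.ball (0 : E) ρ, ‖R x‖ ≤ M)
    (hX : DifferentiableOn ℂ X (Metric.ball c r)) (hXb : ∀ b ∈ Metric.ball c r, X b ∈ Metric.ball (0 : E) ρ)
    (hX' : HasDerivAt X X' c) (hε0 : 0 < ε) (hε : ε < r) :
    ‖R (X (c - ε)) - R (X c) + (ε : ℂ) * fderiv ℂ R (X c) X'‖ ≤ 3 * M * (ε / r) ^ 2 := by
  have hr : 0 < r := hε0.trans hε
  have hc : c ∈ Metric.ball c r := Metric.mem_ball_self hr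
  have hg : DifferentiableOn ℂ (fun b => R (X b)) (Metric.ball c r) := hR.comp hX hXb
  have hn : ‖(c - (ε : ℂ)) - c‖ = ε := by
    rw [sub_sub_cancel_left, norm_neg, Complex.norm_real, Real.norm_eq_abs, abs_of_pos hε0]
  have ht := cau_par_taylor2 (g := fun b => R (X b)) (c := c) (b := c - (ε : ℂ)) (R := r) (M := M) hg
    (fun b hb => hM _ (hXb b hb)) (by rw [hn]; exact hε)
  have hd : deriv (fun b => R (X b)) c = fderiv ℂ R (X c) X' :=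
    (((hR.differentiableAt (Metric.isOpen_ball.mem_nhds (hXb c hc))).hasFDerivAt).comp_hasDerivAt c hX').deriv
  rw [hd, hn] at ht
  have e : R (X (c - ε)) - R (X c) + (ε : ℂ) * fderiv ℂ R (X c) X'
      = R (X (c - ε)) - R (X c) - ((c - (ε : ℂ)) - c) • fderiv ℂ R (X c) X' := by
    rw [smul_eq_mul]; ring
  rw [e]
  exact ht

/-- LEAF L43-P2 (PROVED, helper14; ~400 l.).  Radius `r = 2 c0 j⁻² e^{-γ j}`, `c0 = min (κe.c/(8 (|C1|+1)²)) (ρt κe.c/(32 Ks ρe (|C1|+1)²))`; `s ≤ C1 N ≤ 2 C1 j`.  Then `r ≤ κe.c/s²` and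
`ρt + Ks (2 ρe/(κe.c/s²) r) (e^γ)^i ≤ 2 ρt` (`i ≤ j`), so `cau_cont_tor` (`Flow/CauchyTube.lean`; `h = j`, `I = i`, `Good.conf`, `conft`) gives: `b ↦ H.ts b j i` is holomorphic on `ball b_c r`,
`‖H.st b i'‖, ‖H.ts b j i'‖ ≤ 2 ρt < κ.ρ` for `i' ≤ i`.  `f_V b = H.rV j (H.ts b j i)` is holomorphic there (`ReadOK.rV_an`, `DifferentiableOn.comp`) and `‖f_V‖ ≤ M := (1/π + 2 κ.C) κ.ρ + κ.C (κ.ρ + κ.ρ²)`
(`rV_bd`, `kV_bd`, `s/n ≤ 1` from `Valid`).  `cau_par_taylor2`: `‖f_V b - f_V b_c - (b - b_c) f_V'(b_c)‖ ≤ 3 M (ε/r)²`; `deriv f_V b_c = gV H i` (`p41_ts_hasDeriv` + chain rule, or `cau_rV_hasDerivAt` + `ReadOK.fderiv_rV`);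
`(cV j b : ℂ) = v0 j + f_V b` for the real `b = b_c - ε` and for `b_c` (`repV`, `Hist.Inside` from the bounds above).  `subst` `j = H.j0 + i` first. -/
theorem l43_cut_taylor (p : Par) (hT2 : Tube2 p.κ p.ρt) (hρe : 0 < p.ρe) :
    ∃ (C c0 : ℝ) (Nm : ℕ), 0 ≤ C ∧ 0 < c0 ∧ ∀ (s N : ℕ) (H : Hist), Good p s H N → Nm ≤ N →
    ∀ i j : ℕ, j = H.j0 + i → N ≤ 2 * j → 2 * j ≤ 5 * N →
    ∀ ε : ℝ, 0 < ε → ε * (j : ℝ) ^ 2 * Real.exp (gam p.κ * j) ≤ c0 →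
      ((xyCritical - ε : ℝ) : ℂ) ∈ disk p.κe s ∧
      ‖((H.cV j (xyCritical - ε) - H.cV j xyCritical : ℝ) : ℂ) + (ε : ℂ) * gV H i‖
        ≤ C * ε ^ 2 * (j : ℝ) ^ 4 * Real.exp (2 * gam p.κ * j) ∧
      ‖((H.cP j (xyCritical - ε) - H.cP j xyCritical : ℝ) : ℂ) + (ε : ℂ) * gP H i‖
        ≤ C * ε ^ 2 * (j : ℝ) ^ 4 * Real.exp (2 * gam p.κ * j) := by
  have hlt := hT2.lt
  obtain ⟨ε0, hε0, hTu, hΛ, hεK⟩ := hT2
  have hρt : 0 < p.ρt := by have := hTu.pos; linarith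
  have hγ : 0 < gam p.κ := (p41_th1 p.κ).2.2.2.1
  have hKs := p.κ.one_le_Ks
  have hcE := p.κe.hc
  obtain ⟨D, hD⟩ : ∃ D, D = |p.C1| + 1 := ⟨_, rfl⟩
  have hD0 : 0 < D := by rw [hD]; positivity
  obtain ⟨c0, hc0d⟩ : ∃ c0, c0 = min (p.κe.c / (8 * D ^ 2)) (p.ρt * p.κe.c / (32 * p.κ.Ks * p.ρe * D ^ 2)) := ⟨_, rfl⟩
  have hc0 : 0 < c0 := by rw [hc0d]; exact lt_min (by positivity) (by positivity)
  have hc1 : c0 ≤ p.κe.c / (8 * D ^ 2) := by rw [hc0d]; exact min_le_left _ _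
  have hc2 : c0 ≤ p.ρt * p.κe.c / (32 * p.κ.Ks * p.ρe * D ^ 2) := by rw [hc0d]; exact min_le_right _ _
  have hM0 := l43_ctM_nonneg p.κ
  refine ⟨3 * ctM p.κ / (4 * c0 ^ 2), c0, 1, by positivity, hc0, ?_⟩
  intro s N H hG hN i j hj h1 h2 ε hε hsm
  subst hj
  obtain ⟨j, hjd⟩ : ∃ j : ℝ, j = ((H.j0 + i : ℕ) : ℝ) := ⟨_, rfl⟩
  rw [← hjd] at hsm ⊢
  have hj1 : 1 ≤ H.j0 + i := by omega
  have hj0 : 0 < j := by rw [hjd]; exact_mod_cast hj1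
  have hs1 := (p41_disk_nhds hG.sys.entry).1
  have hs0 : (0 : ℝ) < s := by exact_mod_cast hs1
  have hsD : (s : ℝ) ≤ 2 * D * j := by
    have a1 : (N : ℝ) ≤ 2 * j := by rw [hjd]; exact_mod_cast h1
    have a2 : p.C1 * N ≤ D * N := by
      have : p.C1 ≤ D := by rw [hD]; linarith [le_abs_self p.C1]
      gcongr
    calc (s : ℝ) ≤ p.C1 * N := hG.size.2
      _ ≤ D * N := a2
      _ ≤ D * (2 * j) := by gcongr
      _ = 2 * D * j := by ring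
  obtain ⟨E, hEd⟩ : ∃ E, E = Real.exp (gam p.κ * j) := ⟨_, rfl⟩
  have hE1 : 1 ≤ E := by rw [hEd]; exact Real.one_le_exp (by positivity)
  have hE0 : 0 < E := by linarith
  have hEi : Real.exp (gam p.κ) ^ i ≤ E := by
    rw [hEd, ← Real.exp_nat_mul, Real.exp_le_exp, mul_comm]
    have : (i : ℝ) ≤ j := by rw [hjd]; exact_mod_cast Nat.le_add_left _ _
    gcongr
  obtain ⟨r, hr⟩ : ∃ r, r = 2 * c0 / (j ^ 2 * E) := ⟨_, rfl⟩
  obtain ⟨hr0, hr1, hr2⟩ := l43_ct_radius p.κe.c p.ρe p.ρt p.κ.Ks D c0 s j E (Real.exp (gam p.κ) ^ i) r hcE hρe hρt hKs hD0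
    hc0 hc1 hc2 hs0 hsD hj0 hE1 (by positivity) hEi hr
  rw [← hEd] at hsm
  have hεr : ε < r := by
    have : ε ≤ c0 / (j ^ 2 * E) := by
      rw [le_div_iff₀ (by positivity)]
      linarith
    have e : r = 2 * (c0 / (j ^ 2 * E)) := by rw [hr]; ring
    have : 0 < c0 / (j ^ 2 * E) := by positivity
    linarith
  have hcont := cau_cont_tor hTu hε0 hΛ hεK hG.sys.map hG.sys.entry hr1 (h := H.j0 + i) (I := i) (ρt := p.ρt) le_rfl
    (fun i' hi' => ⟨(hG.conf i' (by omega)).le, (hG.conft (H.j0 + i) i' (by omega) (by omega) (by omega)).le⟩) hr2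
  have hbe : ((xyCritical - ε : ℝ) : ℂ) = (xyCritical : ℂ) - (ε : ℂ) := Complex.ofReal_sub _ _
  have hbn : ‖((xyCritical - ε : ℝ) : ℂ) - xyCritical‖ = ε := by
    rw [hbe, sub_sub_cancel_left, norm_neg, Complex.norm_real, Real.norm_eq_abs, abs_of_pos hε]
  have hbball : ((xyCritical - ε : ℝ) : ℂ) ∈ Metric.ball (xyCritical : ℂ) r := by
    rw [Metric.mem_ball, dist_eq_norm, hbn]; exact hεr
  have hbdisk : ((xyCritical - ε : ℝ) : ℂ) ∈ disk p.κe s := by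
    rw [cau_mem_disk, hbn]; exact lt_of_lt_of_le hεr hr1
  have hcdisk : ((xyCritical : ℝ) : ℂ) ∈ disk p.κe s := cau_center_mem_disk hs1
  have hval : Valid p.κ p.κe s H (H.j0 + i) := hG.valid _ (by omega) (by omega)
  have hin0 := p41_inside p s N H hG i h1 h2
  have hin1 : H.Inside p.κ.ρ ((xyCritical - ε : ℝ) : ℂ) (H.j0 + i) i := by
    intro i' hi'
    obtain ⟨-, -, hb⟩ := hcont i' hi'
    obtain ⟨-, -, b3, b4⟩ := hb _ hbball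
    exact ⟨lt_of_le_of_lt b3 hlt, lt_of_le_of_lt b4 hlt⟩
  have hts := p41_ts_hasDeriv hG.sys.map hG.sys.entry (H.j0 + i) i le_rfl (fun i' hi' => hin0 i' hi'.le) (hin0 i le_rfl).1
  obtain ⟨-, hdiff, hbd⟩ := hcont i le_rfl
  have hmaps : ∀ b ∈ Metric.ball (xyCritical : ℂ) r,
      H.ts b (H.j0 + i) i ∈ Metric.ball (0 : (ℂ × ℂ) × H.T (H.j0 + i) (H.j0 + i)) p.κ.ρ := by
    intro b hb
    rw [mem_ball_zero_iff]
    exact lt_of_le_of_lt (hbd b hb).2.2.2 hlt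
  have hfin : 3 * ctM p.κ * (ε / r) ^ 2 = 3 * ctM p.κ / (4 * c0 ^ 2) * ε ^ 2 * j ^ 4 * Real.exp (2 * gam p.κ * j) := by
    have : Real.exp (2 * gam p.κ * j) = E ^ 2 := by
      rw [hEd, sq, ← Real.exp_add]; congr 1; ring
    rw [this, hr]
    field_simp
    ring
  rw [← hfin]
  refine ⟨hbdisk, ?_, ?_⟩
  · have t := l43_ct_taylor (H.rV (H.j0 + i)) (fun b => H.ts b (H.j0 + i) i) (dts H (H.j0 + i) i) (xyCritical : ℂ)
      p.κ.ρ r (ctM p.κ) ε (hG.sys.read.rV_an _ (Nat.le_add_right _ _))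
      (fun x hx => (l43_ct_bd hG.sys.read hval x hx).1) hdiff hmaps hts hε hεr
    have r1 := hG.sys.read.repV (xyCritical - ε) i hbdisk hval hin1
    have r0 := hG.sys.read.repV xyCritical i hcdisk hval hin0
    have e : ((H.cV (H.j0 + i) (xyCritical - ε) - H.cV (H.j0 + i) xyCritical : ℝ) : ℂ)
        = H.rV (H.j0 + i) (H.ts ((xyCritical : ℂ) - (ε : ℂ)) (H.j0 + i) i)
          - H.rV (H.j0 + i) (H.ts (xyCritical : ℂ) (H.j0 + i) i) := by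
      rw [Complex.ofReal_sub, r1, r0, hbe]; ring
    rw [e]
    exact t
  · have t := l43_ct_taylor (H.rP (H.j0 + i)) (fun b => H.ts b (H.j0 + i) i) (dts H (H.j0 + i) i) (xyCritical : ℂ)
      p.κ.ρ r (ctM p.κ) ε (hG.sys.read.rP_an _ (Nat.le_add_right _ _))
      (fun x hx => (l43_ct_bd hG.sys.read hval x hx).2) hdiff hmaps hts hε hεr
    have r1 := hG.sys.read.repP (xyCritical - ε) i hbdisk hval hin1
    have r0 := hG.sys.read.repP xyCritical i hcdisk hval hin0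
    have e : ((H.cP (H.j0 + i) (xyCritical - ε) - H.cP (H.j0 + i) xyCritical : ℝ) : ℂ)
        = H.rP (H.j0 + i) (H.ts ((xyCritical : ℂ) - (ε : ℂ)) (H.j0 + i) i)
          - H.rP (H.j0 + i) (H.ts (xyCritical : ℂ) (H.j0 + i) i) := by
      rw [Complex.ofReal_sub, r1, r0, hbe]
    rw [e]
    exact t

theorem l43_pt_pt (D dC phys ε T e1 e2 e3 : ℝ) (g : ℂ) (hε : 0 < ε)
    (h1 : ‖((dC : ℝ) : ℂ) + (ε : ℂ) * g‖ ≤ T * ε) (h2 : |D - dC| ≤ ε * e1) (h3 : ‖(phys : ℂ) - g‖ ≤ e2)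
    (he1 : e1 ≤ e3) (he2 : e2 ≤ e3) : |D / (-ε) - phys| ≤ T + 2 * e3 := by
  have hεc : (ε : ℂ) ≠ 0 := by exact_mod_cast hε.ne'
  have e : ((D / (-ε) - phys : ℝ) : ℂ)
      = -((((dC : ℝ) : ℂ) + (ε : ℂ) * g) / (ε : ℂ)) - ((D - dC : ℝ) : ℂ) / (ε : ℂ) - ((phys : ℂ) - g) := by
    push_cast
    field_simp
    ring
  rw [← Real.norm_eq_abs, ← Complex.norm_real, e]
  refine (norm_sub_le _ _).trans ?_
  refine (add_le_add (norm_sub_le _ _) le_rfl).trans ?_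
  rw [norm_neg, norm_div, norm_div, Complex.norm_real ε, Complex.norm_real (D - dC), Real.norm_eq_abs, Real.norm_eq_abs,
    abs_of_pos hε]
  have a1 : ‖((dC : ℝ) : ℂ) + (ε : ℂ) * g‖ / ε ≤ T := by rwa [div_le_iff₀ hε]
  have a2 : |D - dC| / ε ≤ e1 := by rw [div_le_iff₀ hε]; linarith
  linarith

/-- LEAF L43-P3 (PROVED, helper14; ~200 l.).  `D = torVar (b_c - ε) - torVar b_c = (cV (b_c - ε) - cV b_c) + e`, `|e| ≤ ε e^{-c j}` (`ReadOK.lipV`, `p41_err_small`, `Good.valid`, `cau_center_mem_disk`, first part of `l43_cut_taylor`);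
`‖D/(-ε) - physV‖ ≤ ‖(cV(b_c-ε) - cV b_c + ε gV)/ε‖ + |e|/ε + ‖gV - physV‖` (`p41_phys`); take the minimum of the two rates `c`. -/
theorem l43_phys_taylor (p : Par) (hT2 : Tube2 p.κ p.ρt) (hρe : 0 < p.ρe) :
    ∃ (C c0 c : ℝ) (Nm : ℕ), 0 ≤ C ∧ 0 < c0 ∧ 0 < c ∧ ∀ (s N : ℕ) (H : Hist), Good p s H N → Nm ≤ N →
    ∀ i j : ℕ, j = H.j0 + i → N ≤ 2 * j → 2 * j ≤ 5 * N →
    ∀ ε : ℝ, 0 < ε → ε * (j : ℝ) ^ 2 * Real.exp (gam p.κ * j) ≤ c0 →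
      |(torVar (xyCritical - ε) (p.κ.n j) - torVar xyCritical (p.κ.n j)) / (-ε) - physV p.κ j|
        ≤ C * (ε * (j : ℝ) ^ 4 * Real.exp (2 * gam p.κ * j)) + 2 * Real.exp (-c * j) ∧
      |(torPhase (xyCritical - ε) (p.κ.n j) - torPhase xyCritical (p.κ.n j)) / (-ε) - physP p.κ j|
        ≤ C * (ε * (j : ℝ) ^ 4 * Real.exp (2 * gam p.κ * j)) + 2 * Real.exp (-c * j) := by
  obtain ⟨C, c0, N1, hC, hc0, Hct⟩ := l43_cut_taylor p hT2 hρe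
  obtain ⟨ca, N2, hca, Herr⟩ := p41_err_small p.κ p.κe p.c1 p.C1 p.hc1
  obtain ⟨cb, N3, hcb, Hphys⟩ := p41_phys p
  refine ⟨C, c0, min ca cb, max N1 (max N2 N3), hC, hc0, lt_min hca hcb, ?_⟩
  intro s N H hG hN i j hj h1 h2 ε hε hsm
  have n1 : N1 ≤ N := (le_max_left _ _).trans hN
  have n2 : N2 ≤ N := ((le_max_left _ _).trans (le_max_right _ _)).trans hN
  have n3 : N3 ≤ N := ((le_max_right _ _).trans (le_max_right _ _)).trans hN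
  obtain ⟨hbd, tV, tP⟩ := Hct s N H hG n1 i j hj h1 h2 ε hε hsm
  obtain ⟨er, -, -⟩ := Herr s N j n2 hG.size.1 hG.size.2 h1 h2
  obtain ⟨pV, pP⟩ := Hphys s N H hG n3 i j hj h1 h2
  have hs1 := (p41_disk_nhds hG.sys.entry).1
  have hcd : ((xyCritical : ℝ) : ℂ) ∈ disk p.κe s := cau_center_mem_disk hs1
  have hval : Valid p.κ p.κe s H j := hG.valid _ (by omega) (by omega)
  have hj0 : (0 : ℝ) ≤ (j : ℝ) := Nat.cast_nonneg _
  have x1 : Real.exp (-ca * j) ≤ Real.exp (-(min ca cb) * j) := by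
    rw [Real.exp_le_exp]
    have : min ca cb * (j : ℝ) ≤ ca * j := by gcongr; exact min_le_left _ _
    linarith
  have x2 : Real.exp (-cb * j) ≤ Real.exp (-(min ca cb) * j) := by
    rw [Real.exp_le_exp]
    have : min ca cb * (j : ℝ) ≤ cb * j := by gcongr; exact min_le_right _ _
    linarith
  have habs : |xyCritical - ε - xyCritical| = ε := by
    rw [sub_sub_cancel_left, abs_neg, abs_of_pos hε]
  have hT : C * ε ^ 2 * (j : ℝ) ^ 4 * Real.exp (2 * gam p.κ * j)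
      = C * (ε * (j : ℝ) ^ 4 * Real.exp (2 * gam p.κ * j)) * ε := by ring
  rw [hT] at tV tP
  have hC0 : 0 ≤ p.κe.C := le_trans zero_le_one p.κe.hC
  have hfirst : 0 ≤ p.κe.C * (p.κ.n j : ℝ) ^ 2 * ((s : ℝ) / p.κ.n j) ^ 4 := by positivity
  constructor
  · have l := hG.sys.read.lipV (xyCritical - ε) xyCritical j hbd hcd hval
    rw [habs] at l
    refine l43_pt_pt _ (H.cV j (xyCritical - ε) - H.cV j xyCritical) _ ε _ _ _ _ (gV H i) hε tV ?_ pV (er.trans x1) x2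
    refine le_trans (le_of_eq ?_) l
    congr 1
    ring
  · have l := hG.sys.read.lipP (xyCritical - ε) xyCritical j hbd hcd hval
    rw [habs] at l
    have er' : cutErr p.κ p.κe s j ≤ Real.exp (-ca * j) := by linarith
    refine l43_pt_pt _ (H.cP j (xyCritical - ε) - H.cP j xyCritical) _ ε _ (cutErr p.κ p.κe s j) _ _ (gP H i) hε tP ?_ pP
      (er'.trans x1) x2
    refine le_trans (le_of_eq ?_) l
    congr 1
    ring

/-- GLUE: the same for all large `j`, without histories. -/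
theorem l43_phys_taylor_ev {κ : MapC} {κe : EntC} {ρe ρt : ℝ} {H : ℕ → Hist} (hy : Hyp κ κe ρe ρt H) (hT : Tube κ ρt)
    (hT2 : Tube2 κ ρt) : ∃ C c0 c : ℝ, 0 ≤ C ∧ 0 < c0 ∧ 0 < c ∧ ∀ᶠ j : ℕ in atTop,
    ∀ ε : ℝ, 0 < ε → ε * (j : ℝ) ^ 2 * Real.exp (gam κ * j) ≤ c0 →
      |(torVar (xyCritical - ε) (κ.n j) - torVar xyCritical (κ.n j)) / (-ε) - physV κ j|
        ≤ C * (ε * (j : ℝ) ^ 4 * Real.exp (2 * gam κ * j)) + 2 * Real.exp (-c * j) ∧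
      |(torPhase (xyCritical - ε) (κ.n j) - torPhase xyCritical (κ.n j)) / (-ε) - physP κ j|
        ≤ C * (ε * (j : ℝ) ^ 4 * Real.exp (2 * gam κ * j)) + 2 * Real.exp (-c * j) := by
  obtain ⟨C₀, hG⟩ := p41_good hy hT
  set p : Par := ⟨κ, κe, ρe, ρt, C₀, hy.crit.c1, hy.crit.C1, hT, hy.crit.hc1⟩ with hp
  have hG' : ∀ᶠ k : ℕ in atTop, Good p (hy.crit.sk k) ((fun k => H (hy.crit.sk k)) k) (2 ^ k) := hG
  obtain ⟨C, c0, c, Nm, hC, hc0, hc, hst⟩ := l43_phys_taylor p hT2 hy.hρe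
  refine ⟨C, c0, c, hC, hc0, hc, ?_⟩
  filter_upwards [p41_sp_good hG' Nm] with j hj
  obtain ⟨g, _, hN, h1, h2, h3⟩ := hj
  refine hst _ _ _ g hN _ j h3 (by omega) ?_
  rw [pow_succ] at h2
  omega

/-- GLUE: **the physical secants** ((4.21)-(4.23) + P4.1). -/
theorem l43_phys_sec {κ : MapC} {κe : EntC} {ρe ρt : ℝ} {H : ℕ → Hist} (hy : Hyp κ κe ρe ρt H) (hT : Tube κ ρt)
    (hT2 : Tube2 κ ρt) (P : ℝ) (hP : IsResp hy P) (Jf : ℝ → ℕ) (hJ : Tendsto Jf (𝓝[>] (0 : ℝ)) atTop)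
    (hε : Tendsto (fun ε : ℝ => ε * (Jf ε : ℝ) ^ 4 * Real.exp (2 * gam κ * Jf ε)) (𝓝[>] 0) (𝓝 0)) :
    Tendsto (fun ε : ℝ => (torVar (xyCritical - ε) (κ.n (Jf ε)) - torVar xyCritical (κ.n (Jf ε))) / (-ε * Jf ε))
      (𝓝[>] 0) (𝓝 (P / (Real.pi * κ.bs))) ∧
    Tendsto (fun ε : ℝ => (torPhase (xyCritical - ε) (κ.n (Jf ε)) - torPhase xyCritical (κ.n (Jf ε))) / (-ε * Jf ε)
      + κ.p (Jf ε) * P / (2 * Real.sqrt (κ.bs * κ.Hq))) (𝓝[>] 0) (𝓝 0) := by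
  obtain ⟨C, c0, c, hC, hc0, hc, hev⟩ := l43_phys_taylor_ev hy hT hT2
  obtain ⟨hdV, hdP⟩ := l43_phys_deriv hy hT P hP
  have hγ : 0 < gam κ := (p41_th1 κ).2.2.2.1
  have hpos : ∀ᶠ ε in 𝓝[>] (0 : ℝ), 0 < ε := self_mem_nhdsWithin
  have hJr : Tendsto (fun ε => (Jf ε : ℝ)) (𝓝[>] (0 : ℝ)) atTop := tendsto_natCast_atTop_atTop.comp hJ
  have hJ1 : ∀ᶠ ε in 𝓝[>] (0 : ℝ), 1 ≤ Jf ε := hJ.eventually_ge_atTop 1
  -- the bound of the Taylor remainder tends to zero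
  have hexp : Tendsto (fun ε => Real.exp (-c * (Jf ε : ℝ))) (𝓝[>] (0 : ℝ)) (𝓝 0) := by
    have h1 : Tendsto (fun ε => c * (Jf ε : ℝ)) (𝓝[>] (0 : ℝ)) atTop := hJr.const_mul_atTop hc
    have h2 := Real.tendsto_exp_neg_atTop_nhds_zero.comp h1
    refine h2.congr ?_
    intro ε
    simp [Function.comp]
  have hbd : Tendsto (fun ε => C * (ε * (Jf ε : ℝ) ^ 4 * Real.exp (2 * gam κ * Jf ε)) + 2 * Real.exp (-c * (Jf ε : ℝ)))
      (𝓝[>] (0 : ℝ)) (𝓝 0) := by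
    have := (hε.const_mul C).add (hexp.const_mul 2)
    simpa using this
  have hsmall : ∀ᶠ ε in 𝓝[>] (0 : ℝ), ε * (Jf ε : ℝ) ^ 2 * Real.exp (gam κ * Jf ε) ≤ c0 := by
    filter_upwards [hε.eventually (eventually_lt_nhds hc0), hpos, hJ1] with ε h1 h2 h3
    refine le_trans ?_ h1.le
    have h4 : (1 : ℝ) ≤ Jf ε := by exact_mod_cast h3
    have h5 : (Jf ε : ℝ) ^ 2 ≤ (Jf ε : ℝ) ^ 4 := pow_le_pow_right₀ h4 (by norm_num)
    have h6 : Real.exp (gam κ * Jf ε) ≤ Real.exp (2 * gam κ * Jf ε) := by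
      rw [Real.exp_le_exp]
      nlinarith
    have h7 : 0 ≤ (Jf ε : ℝ) ^ 2 := by positivity
    gcongr
  have hkey := hJ.eventually hev
  have hinv : Tendsto (fun ε => 1 / (Jf ε : ℝ)) (𝓝[>] (0 : ℝ)) (𝓝 0) := by
    refine hJr.inv_tendsto_atTop.congr ?_
    intro ε
    simp [one_div]
  have hzV : Tendsto (fun ε => (torVar (xyCritical - ε) (κ.n (Jf ε)) - torVar xyCritical (κ.n (Jf ε))) / (-ε)
      - physV κ (Jf ε)) (𝓝[>] (0 : ℝ)) (𝓝 0) := by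
    refine squeeze_zero_norm' ?_ hbd
    filter_upwards [hkey, hpos, hsmall] with ε h1 h2 h3
    rw [Real.norm_eq_abs]
    exact (h1 ε h2 h3).1
  have hzP : Tendsto (fun ε => (torPhase (xyCritical - ε) (κ.n (Jf ε)) - torPhase xyCritical (κ.n (Jf ε))) / (-ε)
      - physP κ (Jf ε)) (𝓝[>] (0 : ℝ)) (𝓝 0) := by
    refine squeeze_zero_norm' ?_ hbd
    filter_upwards [hkey, hpos, hsmall] with ε h1 h2 h3
    rw [Real.norm_eq_abs]
    exact (h1 ε h2 h3).2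
  constructor
  · have h1 := (hzV.mul hinv).add (hdV.comp hJ)
    rw [mul_zero, zero_add] at h1
    refine h1.congr' ?_
    filter_upwards [hpos, hJ1] with ε h2 h3
    have h4 : (0 : ℝ) < Jf ε := by exact_mod_cast h3
    simp only [Function.comp]
    field_simp
    ring
  · have h1 := (hzP.mul hinv).add (hdP.comp hJ)
    rw [mul_zero, zero_add] at h1
    refine h1.congr' ?_
    filter_upwards [hpos, hJ1] with ε h2 h3
    have h4 : (0 : ℝ) < Jf ε := by exact_mod_cast h3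
    simp only [Function.comp]
    have hs : 0 < Real.sqrt (κ.bs * κ.Hq) := Real.sqrt_pos.2 (mul_pos κ.bs_pos κ.hH)
    field_simp
    ring

end

end Claimed.Agent.R285.E4
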