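import Claimed.Agent.R285.E4.L43Core
import Claimed.Agent.R285.E4.L43Phys

/-!
# ROW 285, [E] L4.3 (matching the temperature secant): ASSEMBLY   (architect helper90; prefix `l43_`)

`l43_secant` has verbatim the statement of `E4.secant` (`Read/E4.lean`).
* late side   : `l43_late_ev` (`L43Core.lean`):  `D_V = Δx/(π b_*) + O(|ΔW|/J) + o(ε)`, `D_P = p_J Δy/√(b_* H) + O(|ΔW|/J) + o(ε)`, remainders `≤ O(|ΔW|/J) + o(ε)`;
* physical side: `l43_phys_sec` (`L43Phys.lean`): `D_V/(-ε J) → 𝒫/(π b_*)`, `D_P/(-ε J) + p_J 𝒫/(2√(b_* H)) → 0`;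
* `l43_lim`   : the pure limit argument ((4.24) and the last paragraph of the proof).
-/

set_option autoImplicit false

namespace Claimed.Agent.R285.E4

open Filter Topology Claims.C0459
open Claimed.Agent.R285.Flow

noncomputable section

theorem l43_lim_pt1 (a c : ℂ) (DV DP e pj J α1 β1 c0 C M0 B1 B2 : ℝ) (hα1 : 0 < α1) (hβ1 : 0 < β1) (hc0 : 0 < c0)
    (hC : 0 ≤ C) (he : 0 < e) (hJ1 : 1 ≤ J) (hp : c0 ≤ pj) (hM1 : α1 ≤ M0) (hM2 : β1 / c0 ≤ M0) (hJ2 : 2 * M0 * C ≤ J)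
    (h1 : ‖(DV : ℂ) - a / (α1 : ℂ)‖ ≤ C / J * max ‖a‖ ‖c‖ + 1 * e)
    (h2 : ‖(DP : ℂ) - (pj : ℂ) / (β1 : ℂ) * c‖ ≤ C / J * max ‖a‖ ‖c‖ + 1 * e)
    (hB1 : |DV| ≤ B1 * (e * J)) (hB2 : |DP| ≤ B2 * (e * J)) :
    max ‖a‖ ‖c‖ ≤ 2 * M0 * (B1 + B2 + 1) * (e * J) := by
  obtain ⟨v, hv⟩ : ∃ v, v = max ‖a‖ ‖c‖ := ⟨_, rfl⟩
  rw [← hv] at h1 h2 ⊢
  have hv0 : 0 ≤ v := by rw [hv]; exact le_max_of_le_left (norm_nonneg _)
  have hJ0 : 0 < J := by linarith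
  have hM0 : 0 < M0 := by linarith
  have hpj : 0 < pj := by linarith
  obtain ⟨R, hR⟩ : ∃ R, R = C / J * v + 1 * e := ⟨_, rfl⟩
  rw [← hR] at h1 h2
  have hR0 : 0 ≤ R := by rw [hR]; positivity
  have na : ‖a‖ ≤ α1 * (|DV| + R) := by
    have e1 : ‖a / (α1 : ℂ)‖ = ‖a‖ / α1 := by
      rw [norm_div, Complex.norm_real, Real.norm_eq_abs, abs_of_pos hα1]
    have e2 : ‖(DV : ℂ)‖ = |DV| := by rw [Complex.norm_real, Real.norm_eq_abs]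
    have e3 : ‖a / (α1 : ℂ)‖ ≤ ‖(DV : ℂ)‖ + ‖(DV : ℂ) - a / (α1 : ℂ)‖ := by
      have : a / (α1 : ℂ) = (DV : ℂ) - ((DV : ℂ) - a / (α1 : ℂ)) := by ring
      calc ‖a / (α1 : ℂ)‖ = ‖(DV : ℂ) - ((DV : ℂ) - a / (α1 : ℂ))‖ := by rw [← this]
        _ ≤ _ := norm_sub_le _ _
    rw [e1, e2] at e3
    have : ‖a‖ / α1 ≤ |DV| + R := by linarith
    rw [div_le_iff₀ hα1] at this
    linarith
  have nc : ‖c‖ ≤ β1 / c0 * (|DP| + R) := by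
    have e1 : ‖(pj : ℂ) / (β1 : ℂ) * c‖ = pj / β1 * ‖c‖ := by
      rw [norm_mul, norm_div, Complex.norm_real, Complex.norm_real, Real.norm_eq_abs, Real.norm_eq_abs,
        abs_of_pos hβ1, abs_of_pos hpj]
    have e2 : ‖(DP : ℂ)‖ = |DP| := by rw [Complex.norm_real, Real.norm_eq_abs]
    have e3 : ‖(pj : ℂ) / (β1 : ℂ) * c‖ ≤ ‖(DP : ℂ)‖ + ‖(DP : ℂ) - (pj : ℂ) / (β1 : ℂ) * c‖ := by
      have : (pj : ℂ) / (β1 : ℂ) * c = (DP : ℂ) - ((DP : ℂ) - (pj : ℂ) / (β1 : ℂ) * c) := by ring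
      calc ‖(pj : ℂ) / (β1 : ℂ) * c‖ = ‖(DP : ℂ) - ((DP : ℂ) - (pj : ℂ) / (β1 : ℂ) * c)‖ := by rw [← this]
        _ ≤ _ := norm_sub_le _ _
    rw [e1, e2] at e3
    have e4 : c0 / β1 * ‖c‖ ≤ pj / β1 * ‖c‖ := by gcongr
    have e5 : c0 / β1 * ‖c‖ ≤ |DP| + R := by linarith
    have e6 : ‖c‖ = β1 / c0 * (c0 / β1 * ‖c‖) := by field_simp
    rw [e6]
    gcongr
  have hS0 : 0 ≤ |DV| := abs_nonneg _
  have hS1 : 0 ≤ |DP| := abs_nonneg _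
  have hv1 : v ≤ M0 * (|DV| + |DP| + R) := by
    rw [hv]
    apply max_le
    · calc ‖a‖ ≤ α1 * (|DV| + R) := na
        _ ≤ M0 * (|DV| + R) := by gcongr
        _ ≤ M0 * (|DV| + |DP| + R) := by gcongr; linarith
    · calc ‖c‖ ≤ β1 / c0 * (|DP| + R) := nc
        _ ≤ M0 * (|DP| + R) := by gcongr
        _ ≤ M0 * (|DV| + |DP| + R) := by gcongr; linarith
  have hhalf : M0 * (C / J) ≤ 1 / 2 := by
    have : M0 * (C / J) = M0 * C / J := by ring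
    rw [this, div_le_iff₀ hJ0]
    linarith
  have hv2 : M0 * (C / J * v) ≤ v / 2 := by
    calc M0 * (C / J * v) = M0 * (C / J) * v := by ring
      _ ≤ 1 / 2 * v := by gcongr
      _ = v / 2 := by ring
  have hv3 : v ≤ 2 * (M0 * (|DV| + |DP| + e)) := by
    have : M0 * (|DV| + |DP| + R) = M0 * (|DV| + |DP| + e) + M0 * (C / J * v) := by rw [hR]; ring
    linarith
  have heJ : e ≤ e * J := by nlinarith
  calc v ≤ 2 * (M0 * (|DV| + |DP| + e)) := hv3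
    _ ≤ 2 * (M0 * (B1 * (e * J) + B2 * (e * J) + e * J)) := by gcongr
    _ = 2 * M0 * (B1 + B2 + 1) * (e * J) := by ring

theorem l43_lim_nE (e : ℝ) (J : ℕ) (he : 0 < e) : ‖(-(e : ℂ) * J)‖ = e * J := by
  rw [norm_mul, norm_neg, Complex.norm_real, Complex.norm_natCast, Real.norm_eq_abs, abs_of_pos he]

theorem l43_lim_pt2 (a : ℂ) (DV e α1 P R : ℝ) (J : ℕ) (hα1 : 0 < α1) (he : 0 < e) (hJ : 1 ≤ J)
    (h : ‖(DV : ℂ) - a / (α1 : ℂ)‖ ≤ R * e) :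
    ‖a / (-(e : ℂ) * J) - P‖ ≤ α1 * (R / J) + α1 * |DV / (-e * J) - P / α1| := by
  have hJ0 : (0 : ℝ) < J := by exact_mod_cast hJ
  have hne : (-(e : ℂ) * J) ≠ 0 := by
    apply mul_ne_zero
    · rw [neg_ne_zero]; exact_mod_cast he.ne'
    · exact_mod_cast hJ0.ne'
  have hα : (α1 : ℂ) ≠ 0 := by exact_mod_cast hα1.ne'
  have e1 : a / (-(e : ℂ) * J) - P = -(α1 : ℂ) * (((DV : ℂ) - a / (α1 : ℂ)) / (-(e : ℂ) * J))
      + (α1 : ℂ) * ((DV / (-e * J) - P / α1 : ℝ) : ℂ) := by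
    push_cast
    field_simp
    ring
  rw [e1]
  refine (norm_add_le _ _).trans ?_
  rw [norm_mul, norm_mul, norm_neg, Complex.norm_real, Complex.norm_real, norm_div, l43_lim_nE e J he,
    Real.norm_eq_abs, Real.norm_eq_abs, abs_of_pos hα1]
  have : ‖(DV : ℂ) - a / (α1 : ℂ)‖ / (e * J) ≤ R / J := by
    rw [div_le_div_iff₀ (by positivity) hJ0]
    calc ‖(DV : ℂ) - a / (α1 : ℂ)‖ * J ≤ R * e * J := by gcongr
      _ = R * (e * J) := by ring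
  have h2 : α1 * (‖(DV : ℂ) - a / (α1 : ℂ)‖ / (e * J)) ≤ α1 * (R / J) := by gcongr
  linarith

theorem l43_lim_pt3 (c : ℂ) (DP e pj β1 c0 P R : ℝ) (J : ℕ) (hβ1 : 0 < β1) (hc0 : 0 < c0) (hp : c0 ≤ pj) (he : 0 < e)
    (hJ : 1 ≤ J) (h : ‖(DP : ℂ) - (pj : ℂ) / (β1 : ℂ) * c‖ ≤ R * e) :
    ‖c / (-(e : ℂ) * J) - (-(P : ℂ) / 2)‖ ≤ β1 / c0 * (R / J) + β1 / c0 * |DP / (-e * J) + pj * P / (2 * β1)| := by
  have hJ0 : (0 : ℝ) < J := by exact_mod_cast hJ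
  have hpj : 0 < pj := by linarith
  have hne : (-(e : ℂ) * J) ≠ 0 := by
    apply mul_ne_zero
    · rw [neg_ne_zero]; exact_mod_cast he.ne'
    · exact_mod_cast hJ0.ne'
  have hβ : (β1 : ℂ) ≠ 0 := by exact_mod_cast hβ1.ne'
  have hpc : (pj : ℂ) ≠ 0 := by exact_mod_cast hpj.ne'
  have e1 : c / (-(e : ℂ) * J) - (-(P : ℂ) / 2)
      = -((β1 / pj : ℝ) : ℂ) * (((DP : ℂ) - (pj : ℂ) / (β1 : ℂ) * c) / (-(e : ℂ) * J))
      + ((β1 / pj : ℝ) : ℂ) * ((DP / (-e * J) + pj * P / (2 * β1) : ℝ) : ℂ) := by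
    push_cast
    field_simp
    ring
  have hq : 0 < β1 / pj := by positivity
  have hqq : β1 / pj ≤ β1 / c0 := by gcongr
  obtain ⟨q, hqd⟩ : ∃ q, q = β1 / pj := ⟨_, rfl⟩
  rw [← hqd] at e1 hq hqq
  rw [e1]
  refine (norm_add_le _ _).trans ?_
  rw [norm_mul, norm_mul, norm_neg, Complex.norm_real, Complex.norm_real, norm_div, l43_lim_nE e J he,
    Real.norm_eq_abs, Real.norm_eq_abs, abs_of_pos hq]
  have : ‖(DP : ℂ) - (pj : ℂ) / (β1 : ℂ) * c‖ / (e * J) ≤ R / J := by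
    rw [div_le_div_iff₀ (by positivity) hJ0]
    calc ‖(DP : ℂ) - (pj : ℂ) / (β1 : ℂ) * c‖ * J ≤ R * e * J := by gcongr
      _ = R * (e * J) := by ring
  have h2 : q * (‖(DP : ℂ) - (pj : ℂ) / (β1 : ℂ) * c‖ / (e * J)) ≤ β1 / c0 * (R / J) := by
    calc q * (‖(DP : ℂ) - (pj : ℂ) / (β1 : ℂ) * c‖ / (e * J))
        ≤ β1 / c0 * (‖(DP : ℂ) - (pj : ℂ) / (β1 : ℂ) * c‖ / (e * J)) := by gcongr
      _ ≤ β1 / c0 * (R / J) := by gcongr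
  have h3 : q * |DP / (-e * J) + pj * P / (2 * β1)| ≤ β1 / c0 * |DP / (-e * J) + pj * P / (2 * β1)| := by
    gcongr
  linarith

/-- `|D| = |D / (-(e J))| (e J)` -/
theorem l43_lim_abs (D e B : ℝ) (J : ℕ) (he : 0 < e) (hJ : 1 ≤ J) (h : |D / (-e * J)| ≤ B) : |D| ≤ B * (e * J) := by
  have hJ0 : (0 : ℝ) < J := by exact_mod_cast hJ
  have hE : 0 < e * J := by positivity
  have : |D / (-e * J)| = |D| / (e * J) := by
    rw [abs_div]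
    congr 1
    rw [show -e * (J : ℝ) = -(e * J) by ring, abs_neg, abs_of_pos hE]
  rw [this, div_le_iff₀ hE] at h
  exact h

/-- LEAF L43-L (PROVED, helper14; ~300 l., Mathlib only).  Put `v = max ‖a‖ ‖c‖`, `M₀ = max α1 (β1/c0)`.
(1) `‖a‖ ≤ α1 (|DV| + (C/J) v + η e)`, `‖c‖ ≤ (β1/c0) (|DP| + (C/J) v + η e)` (as `pj/β1 ≥ c0/β1`); with `η = 1` and `J ≥ 2 M₀ C`:  `v ≤ 2 M₀ (|DV| + |DP| + e)`.
(2) `h2`, `h3`, `pj ≤ C0`: eventually `|DV| ≤ (|P|/α1 + 1) e J`, `|DP| ≤ (C0 |P|/(2 β1) + 1) e J`; so `v ≤ M e J` (`J ≥ 1`).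
(3) `‖a/(-(e J)) - α1 DV/(-(e J))‖ = α1 ‖DV - a/α1‖/(e J) ≤ α1 (C M/J + η/J) → 0`, and `α1 DV/(-(e J)) → P`.
(4) `‖c/(-(e J)) - (β1/pj) DP/(-(e J))‖ ≤ (β1/c0)(C M/J + η/J)`, and `(β1/pj) DP/(-(e J)) + P/2 = (β1/pj) (DP/(-(e J)) + pj P/(2 β1)) → 0` because `β1/pj ≤ β1/c0`. -/
theorem l43_lim {α : Type} {l : Filter α} (a c : α → ℂ) (DV DP e pj : α → ℝ) (J : α → ℕ) (α1 β1 c0 C0 P C : ℝ)
    (hα1 : 0 < α1) (hβ1 : 0 < β1) (hc0 : 0 < c0) (hC : 0 ≤ C)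
    (he : ∀ᶠ x in l, 0 < e x) (hJ : Tendsto J l atTop) (hp : ∀ x, c0 ≤ pj x ∧ pj x ≤ C0)
    (h1 : ∀ η : ℝ, 0 < η → ∀ᶠ x in l,
      ‖(DV x : ℂ) - a x / (α1 : ℂ)‖ ≤ C / (J x : ℝ) * max ‖a x‖ ‖c x‖ + η * e x ∧
      ‖(DP x : ℂ) - (pj x : ℂ) / (β1 : ℂ) * c x‖ ≤ C / (J x : ℝ) * max ‖a x‖ ‖c x‖ + η * e x)
    (h2 : Tendsto (fun x => DV x / (-e x * J x)) l (𝓝 (P / α1)))
    (h3 : Tendsto (fun x => DP x / (-e x * J x) + pj x * P / (2 * β1)) l (𝓝 0)) :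
    Tendsto (fun x => a x / (-(e x : ℂ) * J x)) l (𝓝 (P : ℂ)) ∧
    Tendsto (fun x => c x / (-(e x : ℂ) * J x)) l (𝓝 (-(P : ℂ) / 2)) ∧
    ∃ M : ℝ, 0 ≤ M ∧ ∀ᶠ x in l, max ‖a x‖ ‖c x‖ ≤ M * (e x * J x) := by
  obtain ⟨M0, hM0⟩ : ∃ M0, M0 = max α1 (β1 / c0) := ⟨_, rfl⟩
  have hM1 : α1 ≤ M0 := by rw [hM0]; exact le_max_left _ _
  have hM2 : β1 / c0 ≤ M0 := by rw [hM0]; exact le_max_right _ _
  have hM0p : 0 < M0 := by linarith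
  obtain ⟨B1, hB1⟩ : ∃ B1, B1 = |P| / α1 + 1 := ⟨_, rfl⟩
  obtain ⟨B2, hB2⟩ : ∃ B2, B2 = C0 * |P| / (2 * β1) + 1 := ⟨_, rfl⟩
  have hB1p : 0 ≤ B1 := by rw [hB1]; positivity
  obtain ⟨M, hM⟩ : ∃ M, M = 2 * M0 * (B1 + B2 + 1) := ⟨_, rfl⟩
  have hJ1 : ∀ᶠ x in l, 1 ≤ J x := hJ.eventually_ge_atTop 1
  have hJ2 : ∀ᶠ x in l, 2 * M0 * C ≤ (J x : ℝ) := by
    filter_upwards [hJ.eventually_ge_atTop ⌈2 * M0 * C⌉₊] with x hx
    exact (Nat.le_ceil _).trans (by exact_mod_cast hx)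
  have hd2 : ∀ᶠ x in l, |DV x / (-e x * J x)| ≤ B1 := by
    filter_upwards [Metric.tendsto_nhds.1 h2 1 one_pos] with x hx
    rw [Real.dist_eq] at hx
    have t1 : |DV x / (-e x * J x)| ≤ |DV x / (-e x * J x) - P / α1| + |P / α1| := by
      have : DV x / (-e x * J x) = (DV x / (-e x * J x) - P / α1) + P / α1 := by ring
      calc |DV x / (-e x * J x)| = |(DV x / (-e x * J x) - P / α1) + P / α1| := by rw [← this]
        _ ≤ _ := abs_add_le _ _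
    have t2 : |P / α1| = |P| / α1 := by rw [abs_div, abs_of_pos hα1]
    rw [hB1]; linarith
  have hd3 : ∀ᶠ x in l, |DP x / (-e x * J x)| ≤ B2 := by
    filter_upwards [Metric.tendsto_nhds.1 h3 1 one_pos] with x hx
    rw [Real.dist_eq, sub_zero] at hx
    have t1 : |DP x / (-e x * J x)| ≤ |DP x / (-e x * J x) + pj x * P / (2 * β1)| + |pj x * P / (2 * β1)| := by
      have : DP x / (-e x * J x) = (DP x / (-e x * J x) + pj x * P / (2 * β1)) - pj x * P / (2 * β1) := by ring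
      calc |DP x / (-e x * J x)| = |(DP x / (-e x * J x) + pj x * P / (2 * β1)) - pj x * P / (2 * β1)| := by
            rw [← this]
        _ ≤ _ := abs_sub _ _
    have hpx : 0 < pj x := lt_of_lt_of_le hc0 (hp x).1
    have t2 : |pj x * P / (2 * β1)| ≤ C0 * |P| / (2 * β1) := by
      rw [abs_div, abs_mul, abs_of_pos hpx, abs_of_pos (by positivity : 0 < 2 * β1)]
      have := (hp x).2
      gcongr
    rw [hB2]; linarith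
  have hV : ∀ᶠ x in l, max ‖a x‖ ‖c x‖ ≤ M * (e x * J x) := by
    filter_upwards [he, hJ1, hJ2, h1 1 one_pos, hd2, hd3] with x q1 q2 q3 q4 q5 q6
    rw [hM]
    exact l43_lim_pt1 (a x) (c x) (DV x) (DP x) (e x) (pj x) (J x) α1 β1 c0 C M0 B1 B2 hα1 hβ1 hc0 hC q1
      (by exact_mod_cast q2) (hp x).1 hM1 hM2 q3 q4.1 q4.2 (l43_lim_abs _ _ _ _ q1 q2 q5) (l43_lim_abs _ _ _ _ q1 q2 q6)
  have hR : ∀ᶠ x in l, C / (J x : ℝ) * max ‖a x‖ ‖c x‖ + 1 * e x ≤ (C * M + 1) * e x := by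
    filter_upwards [hV, hJ1] with x q1 q2
    have hJ0 : (0 : ℝ) < J x := by exact_mod_cast q2
    have : C / (J x : ℝ) * max ‖a x‖ ‖c x‖ ≤ C / (J x : ℝ) * (M * (e x * J x)) := by gcongr
    have e1 : C / (J x : ℝ) * (M * (e x * J x)) = C * M * e x := by field_simp
    linarith
  have hJr : Tendsto (fun x => (J x : ℝ)) l atTop := tendsto_natCast_atTop_atTop.comp hJ
  have hz : Tendsto (fun x => (C * M + 1) / (J x : ℝ)) l (𝓝 0) := hJr.const_div_atTop _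
  refine ⟨?_, ?_, ?_⟩
  · rw [tendsto_iff_norm_sub_tendsto_zero]
    have g : Tendsto (fun x => α1 * ((C * M + 1) / (J x : ℝ)) + α1 * |DV x / (-e x * J x) - P / α1|) l (𝓝 0) := by
      have g1 : Tendsto (fun x => |DV x / (-e x * J x) - P / α1|) l (𝓝 0) := by
        have := (h2.sub_const (P / α1)).abs
        simpa using this
      have := (hz.const_mul α1).add (g1.const_mul α1)
      simpa using this
    refine squeeze_zero' (Eventually.of_forall fun x => norm_nonneg _) ?_ g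
    filter_upwards [he, hJ1, h1 1 one_pos, hR] with x q1 q2 q3 q4
    exact l43_lim_pt2 (a x) (DV x) (e x) α1 P (C * M + 1) (J x) hα1 q1 q2 (q3.1.trans q4)
  · rw [tendsto_iff_norm_sub_tendsto_zero]
    have g : Tendsto (fun x => β1 / c0 * ((C * M + 1) / (J x : ℝ))
        + β1 / c0 * |DP x / (-e x * J x) + pj x * P / (2 * β1)|) l (𝓝 0) := by
      have g1 : Tendsto (fun x => |DP x / (-e x * J x) + pj x * P / (2 * β1)|) l (𝓝 0) := by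
        have := h3.abs
        simpa using this
      have := (hz.const_mul (β1 / c0)).add (g1.const_mul (β1 / c0))
      simpa using this
    refine squeeze_zero' (Eventually.of_forall fun x => norm_nonneg _) ?_ g
    filter_upwards [he, hJ1, h1 1 one_pos, hR] with x q1 q2 q3 q4
    exact l43_lim_pt3 (c x) (DP x) (e x) (pj x) β1 c0 P (C * M + 1) (J x) hβ1 hc0 (hp x).1 q1 q2 (q3.2.trans q4)
  · by_cases hbot : l = ⊥
    · refine ⟨0, le_rfl, ?_⟩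
      rw [hbot]; exact Filter.eventually_bot
    · have : l.NeBot := ⟨hbot⟩
      refine ⟨M, ?_, hV⟩
      obtain ⟨x, hx⟩ := (hd3.and (hd2.and hJ1)).exists
      have : 0 ≤ B2 := (abs_nonneg _).trans hx.1
      rw [hM]; positivity

theorem l43_sv_eq (H : Hist) (b : ℂ) (i : ℕ) :
    sv H b i = max ‖H.x b i - H.x xyCritical i‖ ‖H.y b i - H.y xyCritical i‖ := rfl

/-- **[E] L4.3**: ASSEMBLY (verbatim `E4.secant`). -/
theorem l43_secant (κ : MapC) : ∃ ρt1 : ℝ, 0 < ρt1 ∧ ∀ ρt : ℝ, ρt ≤ ρt1 → ∃ ρe1 : ℝ, 0 < ρe1 ∧ ∀ ρe : ℝ, ρe ≤ ρe1 →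
    ∀ (κe : EntC) (H : ℕ → Hist) (hy : Hyp κ κe ρe ρt H) (P : ℝ), IsResp hy P →
    ∀ sf : ℝ → ℕ, Sides κ κe sf →
      Tendsto (fun ε : ℝ => ((H (sf ε)).x ((xyCritical - ε : ℝ) : ℂ) (JJ κ (sf ε) - (H (sf ε)).j0)
          - (H (sf ε)).x xyCritical (JJ κ (sf ε) - (H (sf ε)).j0)) / (-(ε : ℂ) * JJ κ (sf ε))) (𝓝[>] 0) (𝓝 (P : ℂ)) ∧
      Tendsto (fun ε : ℝ => ((H (sf ε)).y ((xyCritical - ε : ℝ) : ℂ) (JJ κ (sf ε) - (H (sf ε)).j0)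
          - (H (sf ε)).y xyCritical (JJ κ (sf ε) - (H (sf ε)).j0)) / (-(ε : ℂ) * JJ κ (sf ε))) (𝓝[>] 0) (𝓝 (-(P : ℂ) / 2)) ∧
      ∀ A : ℝ, ∃ C : ℝ, ∀ᶠ ε in 𝓝[>] (0 : ℝ),
        ‖((H (sf ε)).st ((xyCritical - ε : ℝ) : ℂ) (JJ κ (sf ε) - (H (sf ε)).j0)).2.2
          - ((H (sf ε)).st xyCritical (JJ κ (sf ε) - (H (sf ε)).j0)).2.2‖ ≤ C * ε ∧
        ∀ h : ℕ, JJ κ (sf ε) ≤ h → (h : ℝ) ≤ A / Real.sqrt ε →
          ‖(H (sf ε)).tor ((xyCritical - ε : ℝ) : ℂ) h (JJ κ (sf ε) - (H (sf ε)).j0)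
            - (H (sf ε)).tor xyCritical h (JJ κ (sf ε) - (H (sf ε)).j0)‖ ≤ C * ε := by
  obtain ⟨ρa, ha0, hlate⟩ := l43_late_ev κ
  obtain ⟨ρb, hb0, hT⟩ := p41_tube κ
  obtain ⟨ρc, hc0, hT2⟩ := l43_tube2 κ
  refine ⟨min ρa (min ρb ρc), lt_min ha0 (lt_min hb0 hc0), fun ρt hρt => ?_⟩
  obtain ⟨ρe1, he0, hlate2⟩ := hlate ρt (hρt.trans (min_le_left _ _))
  refine ⟨ρe1, he0, fun ρe hρe κe H hy P hP sf hsf => ?_⟩
  have hTu := hT ρt (hρt.trans ((min_le_right _ _).trans (min_le_left _ _)))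
  have hTu2 := hT2 ρt hy.hρt (hρt.trans ((min_le_right _ _).trans (min_le_right _ _)))
  have hsft := p44_sf_tendsto hsf
  have hJ : Tendsto (fun ε => JJ κ (sf ε)) (𝓝[>] (0 : ℝ)) atTop := (l42_JJ_tendsto κ).comp hsft
  obtain ⟨hpV, hpP⟩ := l43_phys_sec hy hTu hTu2 P hP (fun ε => JJ κ (sf ε)) hJ (l43_num_taylor hsf)
  obtain ⟨C, hC, hl⟩ := hlate2 ρe hρe κe H hy sf hsf 0
  have hpos : ∀ᶠ ε in 𝓝[>] (0 : ℝ), 0 < ε := self_mem_nhdsWithin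
  have hα1 : 0 < Real.pi * κ.bs := mul_pos Real.pi_pos κ.bs_pos
  have hβ1 : 0 < Real.sqrt (κ.bs * κ.Hq) := Real.sqrt_pos.2 (mul_pos κ.bs_pos κ.hH)
  obtain ⟨r1, r2, M, hM0, hM⟩ := l43_lim
    (fun ε : ℝ => (H (sf ε)).x ((xyCritical - ε : ℝ) : ℂ) (JJ κ (sf ε) - (H (sf ε)).j0)
          - (H (sf ε)).x xyCritical (JJ κ (sf ε) - (H (sf ε)).j0))
    (fun ε : ℝ => (H (sf ε)).y ((xyCritical - ε : ℝ) : ℂ) (JJ κ (sf ε) - (H (sf ε)).j0)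
          - (H (sf ε)).y xyCritical (JJ κ (sf ε) - (H (sf ε)).j0))
    (fun ε : ℝ => torVar (xyCritical - ε) (κ.n (JJ κ (sf ε))) - torVar xyCritical (κ.n (JJ κ (sf ε))))
    (fun ε : ℝ => torPhase (xyCritical - ε) (κ.n (JJ κ (sf ε))) - torPhase xyCritical (κ.n (JJ κ (sf ε))))
    (fun ε : ℝ => ε) (fun ε : ℝ => κ.p (JJ κ (sf ε))) (fun ε : ℝ => JJ κ (sf ε))
    (Real.pi * κ.bs) (Real.sqrt (κ.bs * κ.Hq)) κ.c κ.C P C hα1 hβ1 κ.hc hC hpos hJ (fun ε => κ.hp _)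
    (fun η hη => by
      filter_upwards [hl η hη] with ε hε
      have h1 := hε.rV
      have h2 := hε.rP
      rw [l43_sv_eq] at h1 h2
      refine ⟨?_, h2⟩
      have e : ((Real.pi * κ.bs : ℝ) : ℂ) = (Real.pi : ℂ) * (κ.bs : ℂ) := by push_cast; ring
      rw [e]
      exact h1)
    hpV hpP
  refine ⟨r1, r2, fun A => ?_⟩
  obtain ⟨CA, hCA, hlA⟩ := hlate2 ρe hρe κe H hy sf hsf A
  refine ⟨CA * M + 1, ?_⟩
  filter_upwards [hlA 1 one_pos, hM, hpos, hJ.eventually_ge_atTop 1] with ε h1 h2 h3 h4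
  have hJpos : (0 : ℝ) < (JJ κ (sf ε) : ℝ) := by exact_mod_cast h4
  have hsv : sv (H (sf ε)) ((xyCritical - ε : ℝ) : ℂ) (JJ κ (sf ε) - (H (sf ε)).j0) ≤ M * (ε * (JJ κ (sf ε) : ℝ)) := by
    rw [l43_sv_eq]; exact h2
  have hbound : CA / (JJ κ (sf ε) : ℝ) * sv (H (sf ε)) ((xyCritical - ε : ℝ) : ℂ) (JJ κ (sf ε) - (H (sf ε)).j0) + 1 * ε
      ≤ (CA * M + 1) * ε := by
    have h5 : CA / (JJ κ (sf ε) : ℝ) * sv (H (sf ε)) ((xyCritical - ε : ℝ) : ℂ) (JJ κ (sf ε) - (H (sf ε)).j0)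
        ≤ CA / (JJ κ (sf ε) : ℝ) * (M * (ε * (JJ κ (sf ε) : ℝ))) := mul_le_mul_of_nonneg_left hsv (by positivity)
    have e : CA / (JJ κ (sf ε) : ℝ) * (M * (ε * (JJ κ (sf ε) : ℝ))) = CA * M * ε := by field_simp
    rw [e] at h5
    linarith
  exact ⟨h1.sQ.trans hbound, fun h a1 a2 => (h1.sT h a1 a2).trans hbound⟩

end

end Claimed.Agent.R285.E4
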