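import Claimed.Agent.R285.E4.P41Read

/-!
# ROW 285, [E] P4.1 (nonzero temperature response): the spliced sequence and the ASSEMBLY   (architect helper103; prefix `p41_`)

`p41_response` has verbatim the statement of `E4.response` (`Read/E4.lean`).

A family `Hk k` of histories with `Good p (sk k) (Hk k) (2 ^ k)` for large `k`.  Spliced sequence: at the absolute index `j` use the history `k = Nat.log 2 j` (`2^k ≤ j < 2^(k+1)`).
* ordinary step (`p41_step_same`): (4.3) + slaving + `Vn ≥ c`: error `C log (2+j) / j² * Vn`;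
* change of entry (`p41_step_change`, `j + 1 = 2^(k+1)`): ordinary step of the old history + overlap at `j + 1`: error `(C / j) Vn`;
* `p41_seq` (no epochs) gives `P ≠ 0`;  overlap gives the uniform statement on `[N/2, 5N/2]` (`p41_uniform`);  `physV ≥ 0` gives `P > 0` (`p41_sign`).
-/

set_option autoImplicit false

namespace Claimed.Agent.R285.E4

open Filter Topology Claims.C0459
open Claimed.Agent.R285.Flow

noncomputable section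

/-- real arithmetic behind `p41_step_same`. -/
theorem p41_step_same_aux (C₂ C₄ c₄ c₅ Lg x V dq e : ℝ) (hC2 : 0 ≤ C₂) (hC4 : 0 ≤ C₄) (hc4 : 0 < c₄)
    (hc5 : 0 < c₅) (hL : 1 / 2 ≤ Lg) (hx : 0 < x) (hV : c₅ ≤ V) (hdq : dq ≤ C₄ * V / x + e)
    (he : e ≤ 1 / (c₄ * x)) :
    C₂ * Lg / x ^ 2 * V + C₂ / x * dq ≤ (C₂ + 2 * C₂ * C₄ + 2 * C₂ / (c₄ * c₅)) * (Lg / x ^ 2) * V := by
  have hV0 : 0 < V := lt_of_lt_of_le hc5 hV
  have hx2 : 0 < x ^ 2 := by positivity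
  have h1 : C₂ / x * dq ≤ C₂ / x * (C₄ * V / x + 1 / (c₄ * x)) :=
    mul_le_mul_of_nonneg_left (by linarith) (by positivity)
  have e1 : C₂ / x * (C₄ * V / x + 1 / (c₄ * x)) = C₂ * C₄ * V / x ^ 2 + C₂ / c₄ / x ^ 2 := by
    field_simp
  have h2 : C₂ * C₄ * V / x ^ 2 ≤ 2 * C₂ * C₄ * (Lg / x ^ 2) * V := by
    have e2 : 2 * C₂ * C₄ * (Lg / x ^ 2) * V = (C₂ * C₄ * V / x ^ 2) * (2 * Lg) := by ring
    rw [e2]
    have : 0 ≤ C₂ * C₄ * V / x ^ 2 := by positivity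
    nlinarith
  have h3 : C₂ / c₄ / x ^ 2 ≤ 2 * C₂ / (c₄ * c₅) * (Lg / x ^ 2) * V := by
    have e3 : 2 * C₂ / (c₄ * c₅) * (Lg / x ^ 2) * V = (C₂ / c₄ / x ^ 2) * ((2 * Lg) * (V / c₅)) := by
      field_simp
    rw [e3]
    have h0 : 0 ≤ C₂ / c₄ / x ^ 2 := by positivity
    have h4 : 1 ≤ V / c₅ := by rwa [one_le_div hc5]
    have h5 : 1 ≤ (2 * Lg) * (V / c₅) := by nlinarith
    nlinarith
  have e4 : (C₂ + 2 * C₂ * C₄ + 2 * C₂ / (c₄ * c₅)) * (Lg / x ^ 2) * V =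
      C₂ * Lg / x ^ 2 * V + 2 * C₂ * C₄ * (Lg / x ^ 2) * V + 2 * C₂ / (c₄ * c₅) * (Lg / x ^ 2) * V := by
    ring
  rw [e4]
  linarith

/-- LEAF.  Ordinary step: `p41_rec_V`, `p41_slaving`, `p41_lower` (`(C/j) e^{-c j} ≤ (log (2+j) / j²) Vn / c₅` for large `j`). -/
theorem p41_step_same (p : Par) : ∃ (C : ℝ) (Nm : ℕ), 0 ≤ C ∧ ∀ (s N : ℕ) (H : Hist), Good p s H N → Nm ≤ N →
    ∀ i j : ℕ, j = H.j0 + i → N ≤ 2 * j → 2 * j ≤ 5 * N →
      ‖Vx H (i + 1) - (Vx H i - 2 / (j : ℂ) * Vy H i)‖ ≤ C * (Real.log (2 + j) / (j : ℝ) ^ 2) * Vn H i ∧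
      ‖Vy H (i + 1) - (Vy H i - 1 / (j : ℂ) * (Vx H i + Vy H i))‖ ≤ C * (Real.log (2 + j) / (j : ℝ) ^ 2) * Vn H i := by
  obtain ⟨C₂, N2, hC2, hrec⟩ := p41_rec_V p
  obtain ⟨C₄, c₄, N4, hC4, hc4, hsl⟩ := p41_slaving p
  obtain ⟨c₅, N5, hc5, hlow⟩ := p41_lower p
  refine ⟨C₂ + 2 * C₂ * C₄ + 2 * C₂ / (c₄ * c₅), N2 + N4 + N5 + 1, by positivity, ?_⟩
  intro s N H hG hN i j hj h1 h2
  have hj1 : 1 ≤ j := by omega
  have hx : (0 : ℝ) < (j : ℝ) := by exact_mod_cast hj1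
  obtain ⟨r1, r2⟩ := hrec s N H hG (by omega) i j hj (by omega) (by omega)
  have hdq := (hsl s N H hG (by omega) i j hj h1 h2).1
  have hV := hlow s N H hG (by omega) i j hj h1 h2
  have he : Real.exp (-c₄ * j) ≤ 1 / (c₄ * j) := by
    have := p41_exp_le_inv (x := c₄ * j) (by positivity)
    rwa [← neg_mul] at this
  have key := p41_step_same_aux C₂ C₄ c₄ c₅ (Real.log (2 + j)) j (Vn H i) (dQ H i) _ hC2 hC4 hc4 hc5
    (p41_log_half j) hx hV hdq he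
  exact ⟨r1.trans key, r2.trans key⟩

/-- LEAF.  Consequence of `p41_step_same`: `Vn (i+1) ≤ 4 Vn i` (any constant). -/
theorem p41_step_bound (p : Par) : ∃ Nm : ℕ, ∀ (s N : ℕ) (H : Hist), Good p s H N → Nm ≤ N →
    ∀ i j : ℕ, j = H.j0 + i → N ≤ 2 * j → 2 * j ≤ 5 * N → Vn H (i + 1) ≤ 4 * Vn H i := by
  obtain ⟨C, N1, hC, hst⟩ := p41_step_same p
  have hev : ∀ᶠ j : ℕ in atTop, C * (Real.log (2 + j) / (j : ℝ)) < 1 := by
    have := p41_log_div.const_mul C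
    rw [mul_zero] at this
    exact this.eventually (eventually_lt_nhds (b := 1) one_pos)
  obtain ⟨jm, hjm⟩ := eventually_atTop.1 hev
  refine ⟨N1 + 2 * (jm + 2), ?_⟩
  intro s N H hG hN i j hj h1 h2
  have hj2 : 2 ≤ j := by omega
  have hx : (2 : ℝ) ≤ (j : ℝ) := by exact_mod_cast hj2
  have hx0 : (0 : ℝ) < (j : ℝ) := by linarith
  obtain ⟨r1, r2⟩ := hst s N H hG (by omega) i j hj h1 h2
  have hsm := (hjm j (by omega)).le
  have hV0 : 0 ≤ Vn H i := le_max_of_le_left (norm_nonneg _)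
  have hxV : ‖Vx H i‖ ≤ Vn H i := le_max_left _ _
  have hyV : ‖Vy H i‖ ≤ Vn H i := le_max_right _ _
  have hLg : 0 ≤ Real.log (2 + j) := by have := p41_log_half j; linarith
  have herr : C * (Real.log (2 + j) / (j : ℝ) ^ 2) * Vn H i ≤ Vn H i := by
    have e : C * (Real.log (2 + j) / (j : ℝ) ^ 2) = C * (Real.log (2 + j) / (j : ℝ)) * (1 / (j : ℝ)) := by
      field_simp
    have h3 : 1 / (j : ℝ) ≤ 1 := by
      rw [div_le_one hx0]; linarith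
    have h4 : 0 ≤ C * (Real.log (2 + j) / (j : ℝ)) := by positivity
    have h5 : C * (Real.log (2 + j) / (j : ℝ)) * (1 / (j : ℝ)) ≤ 1 := by
      have h6 : 0 ≤ 1 / (j : ℝ) := by positivity
      nlinarith
    rw [e]
    nlinarith
  have hinv : 1 / (j : ℝ) ≤ 1 / 2 := one_div_le_one_div_of_le (by norm_num) hx
  have hn2 : ‖(2 : ℂ) / (j : ℂ)‖ = 2 / (j : ℝ) := by
    rw [norm_div, Complex.norm_natCast]; simp
  have hn1 : ‖(1 : ℂ) / (j : ℂ)‖ = 1 / (j : ℝ) := by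
    rw [norm_div, Complex.norm_natCast]; simp
  unfold Vn at *
  refine max_le ?_ ?_
  · have t : ‖Vx H (i + 1)‖ ≤ ‖Vx H (i + 1) - (Vx H i - 2 / (j : ℂ) * Vy H i)‖ + (‖Vx H i‖ + ‖2 / (j : ℂ) * Vy H i‖) := by
      calc ‖Vx H (i + 1)‖ = ‖(Vx H (i + 1) - (Vx H i - 2 / (j : ℂ) * Vy H i)) + (Vx H i - 2 / (j : ℂ) * Vy H i)‖ := by
            congr 1; ring
        _ ≤ _ := (norm_add_le _ _).trans (add_le_add le_rfl (norm_sub_le _ _))
    rw [norm_mul, hn2] at t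
    have t2 : 2 / (j : ℝ) * ‖Vy H i‖ ≤ 1 * max ‖Vx H i‖ ‖Vy H i‖ :=
      mul_le_mul (by rw [div_le_one hx0]; exact hx) hyV (norm_nonneg _) (by norm_num)
    linarith
  · have t : ‖Vy H (i + 1)‖ ≤ ‖Vy H (i + 1) - (Vy H i - 1 / (j : ℂ) * (Vx H i + Vy H i))‖ + (‖Vy H i‖ + ‖1 / (j : ℂ) * (Vx H i + Vy H i)‖) := by
      calc ‖Vy H (i + 1)‖ = ‖(Vy H (i + 1) - (Vy H i - 1 / (j : ℂ) * (Vx H i + Vy H i))) + (Vy H i - 1 / (j : ℂ) * (Vx H i + Vy H i))‖ := by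
            congr 1; ring
        _ ≤ _ := (norm_add_le _ _).trans (add_le_add le_rfl (norm_sub_le _ _))
    rw [norm_mul, hn1] at t
    have t3 : ‖Vx H i + Vy H i‖ ≤ 2 * max ‖Vx H i‖ ‖Vy H i‖ := (norm_add_le _ _).trans (by linarith)
    have t2 : 1 / (j : ℝ) * ‖Vx H i + Vy H i‖ ≤ 1 / 2 * (2 * max ‖Vx H i‖ ‖Vy H i‖) :=
      mul_le_mul hinv t3 (norm_nonneg _) (by norm_num)
    linarith

/-- LEAF.  Consequence of `p41_overlap`: the norms are comparable, `Vn H' i' ≤ 3 Vn H i` (for `j ≥ 2 C`...). -/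
theorem p41_overlap_norm (p : Par) : ∃ Nm : ℕ, ∀ (s N : ℕ) (H : Hist) (s' N' : ℕ) (H' : Hist),
    Good p s H N → Good p s' H' N' → Nm ≤ N → Nm ≤ N' →
    ∀ i i' j : ℕ, j = H.j0 + i → j = H'.j0 + i' → N ≤ 2 * j → 2 * j ≤ 5 * N → N' ≤ 2 * j → 2 * j ≤ 5 * N' →
      Vn H' i' ≤ 3 * Vn H i := by
  obtain ⟨C, N1, hC, hov⟩ := p41_overlap p
  obtain ⟨jm, hjm⟩ := exists_nat_ge (2 * C)
  refine ⟨N1 + 2 * (jm + 1), ?_⟩
  intro s N H s' N' H' hG hG' hN hN' i i' j hj hj' h1 h2 h3 h4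
  have hjj : jm + 1 ≤ j := by omega
  have hx : (jm : ℝ) + 1 ≤ (j : ℝ) := by exact_mod_cast hjj
  have hx0 : (0 : ℝ) < (j : ℝ) := by
    have : (0 : ℝ) ≤ (jm : ℝ) := by positivity
    linarith
  obtain ⟨r1, r2⟩ := hov s N H s' N' H' hG hG' (by omega) (by omega) i i' j hj hj' h1 h2 h3 h4
  have hV0 : 0 ≤ Vn H i := le_max_of_le_left (norm_nonneg _)
  have hV0' : 0 ≤ Vn H' i' := le_max_of_le_left (norm_nonneg _)
  have hxV : ‖Vx H i‖ ≤ Vn H i := le_max_left _ _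
  have hyV : ‖Vy H i‖ ≤ Vn H i := le_max_right _ _
  have hCj : C / (j : ℝ) ≤ 1 / 2 := by
    rw [div_le_iff₀ hx0]; linarith
  have hb : C / (j : ℝ) * (Vn H i + Vn H' i') ≤ 1 / 2 * (Vn H i + Vn H' i') :=
    mul_le_mul_of_nonneg_right hCj (by linarith)
  have hm : Vn H' i' ≤ Vn H i + 1 / 2 * (Vn H i + Vn H' i') := by
    have a1 : ‖Vx H' i'‖ ≤ ‖Vx H i‖ + ‖Vx H i - Vx H' i'‖ := by
      have := norm_sub_le (Vx H i) (Vx H i - Vx H' i')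
      simpa using this
    have a2 : ‖Vy H' i'‖ ≤ ‖Vy H i‖ + ‖Vy H i - Vy H' i'‖ := by
      have := norm_sub_le (Vy H i) (Vy H i - Vy H' i')
      simpa using this
    have : Vn H' i' = max ‖Vx H' i'‖ ‖Vy H' i'‖ := rfl
    rw [this]
    refine max_le ?_ ?_ <;> linarith
  linarith

/-- LEAF.  Change of entry at `j + 1 = 2 N`: `p41_step_same` for `H` at `j`, `p41_overlap` at `j + 1` between `(H, N, i + 1)` and `(H', 2 N, i')`, `p41_step_bound`, `p41_overlap_norm`. -/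
theorem p41_step_change (p : Par) : ∃ (C : ℝ) (Nm : ℕ), 0 ≤ C ∧ ∀ (s N : ℕ) (H : Hist) (s' : ℕ) (H' : Hist),
    Good p s H N → Good p s' H' (2 * N) → Nm ≤ N →
    ∀ i i' j : ℕ, j = H.j0 + i → j + 1 = H'.j0 + i' → j + 1 = 2 * N →
      ‖Vx H' i' - (Vx H i - 2 / (j : ℂ) * Vy H i)‖ ≤ C / (j : ℝ) * Vn H i ∧
      ‖Vy H' i' - (Vy H i - 1 / (j : ℂ) * (Vx H i + Vy H i))‖ ≤ C / (j : ℝ) * Vn H i := by
  obtain ⟨C, N1, hC, hst⟩ := p41_step_same p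
  obtain ⟨N2, hsb⟩ := p41_step_bound p
  obtain ⟨N3, hon⟩ := p41_overlap_norm p
  obtain ⟨C', N4, hC', hov⟩ := p41_overlap p
  refine ⟨2 * C + 16 * C', N1 + N2 + N3 + N4 + 1, by positivity, ?_⟩
  intro s N H s' H' hG hG' hN i i' j hj hj' hjN
  have hj1 : 1 ≤ j := by omega
  have hx : (1 : ℝ) ≤ (j : ℝ) := by exact_mod_cast hj1
  have hx0 : (0 : ℝ) < (j : ℝ) := by linarith
  obtain ⟨r1, r2⟩ := hst s N H hG (by omega) i j hj (by omega) (by omega)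
  have b1 := hsb s N H hG (by omega) i j hj (by omega) (by omega)
  have b2 := hon s N H s' (2 * N) H' hG hG' (by omega) (by omega) (i + 1) i' (j + 1) (by omega) hj'
    (by omega) (by omega) (by omega) (by omega)
  obtain ⟨o1, o2⟩ := hov s N H s' (2 * N) H' hG hG' (by omega) (by omega) (i + 1) i' (j + 1) (by omega) hj'
    (by omega) (by omega) (by omega) (by omega)
  have hV0 : 0 ≤ Vn H i := le_max_of_le_left (norm_nonneg _)
  have hlog : Real.log (2 + j) / (j : ℝ) ^ 2 ≤ 2 / (j : ℝ) := by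
    have h1 : Real.log (2 + j) ≤ 2 + (j : ℝ) - 1 := Real.log_le_sub_one_of_pos (by linarith)
    rw [div_le_div_iff₀ (by positivity) hx0]
    nlinarith
  have e1 : C * (Real.log (2 + j) / (j : ℝ) ^ 2) * Vn H i ≤ 2 * C / (j : ℝ) * Vn H i := by
    have := mul_le_mul_of_nonneg_left hlog hC
    have e : 2 * C / (j : ℝ) = C * (2 / (j : ℝ)) := by ring
    rw [e]
    exact mul_le_mul_of_nonneg_right this hV0
  have e2 : C' / ((j + 1 : ℕ) : ℝ) * (Vn H (i + 1) + Vn H' i') ≤ 16 * C' / (j : ℝ) * Vn H i := by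
    have h1 : C' / ((j + 1 : ℕ) : ℝ) ≤ C' / (j : ℝ) := by
      apply div_le_div_of_nonneg_left hC' hx0
      push_cast; linarith
    have h2 : Vn H (i + 1) + Vn H' i' ≤ 16 * Vn H i := by linarith
    have h3 : 0 ≤ Vn H (i + 1) + Vn H' i' :=
      add_nonneg (le_max_of_le_left (norm_nonneg _)) (le_max_of_le_left (norm_nonneg _))
    have := mul_le_mul h1 h2 h3 (by positivity)
    have e : 16 * C' / (j : ℝ) * Vn H i = C' / (j : ℝ) * (16 * Vn H i) := by ring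
    rw [e]
    exact this
  have e3 : (2 * C + 16 * C') / (j : ℝ) * Vn H i = 2 * C / (j : ℝ) * Vn H i + 16 * C' / (j : ℝ) * Vn H i := by
    ring
  rw [e3]
  constructor
  · have t : ‖Vx H' i' - (Vx H i - 2 / (j : ℂ) * Vy H i)‖ ≤
        ‖Vx H (i + 1) - Vx H' i'‖ + ‖Vx H (i + 1) - (Vx H i - 2 / (j : ℂ) * Vy H i)‖ := by
      calc ‖Vx H' i' - (Vx H i - 2 / (j : ℂ) * Vy H i)‖
          = ‖(Vx H (i + 1) - (Vx H i - 2 / (j : ℂ) * Vy H i)) - (Vx H (i + 1) - Vx H' i')‖ := by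
            congr 1; ring
        _ ≤ _ := (norm_sub_le _ _).trans (by linarith)
    linarith
  · have t : ‖Vy H' i' - (Vy H i - 1 / (j : ℂ) * (Vx H i + Vy H i))‖ ≤
        ‖Vy H (i + 1) - Vy H' i'‖ + ‖Vy H (i + 1) - (Vy H i - 1 / (j : ℂ) * (Vx H i + Vy H i))‖ := by
      calc ‖Vy H' i' - (Vy H i - 1 / (j : ℂ) * (Vx H i + Vy H i))‖
          = ‖(Vy H (i + 1) - (Vy H i - 1 / (j : ℂ) * (Vx H i + Vy H i))) - (Vy H (i + 1) - Vy H' i')‖ := by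
            congr 1; ring
        _ ≤ _ := (norm_sub_le _ _).trans (by linarith)
    linarith

/-! ## The spliced sequence -/

/-- the spliced sequences -/
def spX (Hk : ℕ → Hist) (j : ℕ) : ℂ := Vx (Hk (Nat.log 2 j)) (j - (Hk (Nat.log 2 j)).j0)
def spY (Hk : ℕ → Hist) (j : ℕ) : ℂ := Vy (Hk (Nat.log 2 j)) (j - (Hk (Nat.log 2 j)).j0)

/-- the summable error -/
def spErr (C : ℝ) (j : ℕ) : ℝ :=
  C * (Real.log (2 + j) / (j : ℝ) ^ 2 + Set.indicator {j : ℕ | ∃ k : ℕ, j + 1 = 2 ^ k} (fun j : ℕ => 1 / (j : ℝ)) j)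

/-- LEAF. -/
theorem p41_spErr (C : ℝ) (hC : 0 ≤ C) : (∀ j, 0 ≤ spErr C j) ∧ Summable (spErr C) := by
  constructor
  · intro j
    unfold spErr
    have h1 : 0 ≤ Real.log (2 + j) := by have := p41_log_half j; linarith
    have h2 : 0 ≤ Set.indicator {j : ℕ | ∃ k : ℕ, j + 1 = 2 ^ k} (fun j : ℕ => 1 / (j : ℝ)) j :=
      Set.indicator_nonneg (fun j _ => by positivity) _
    positivity
  · exact (p41_summable_log.add p41_summable_pow2).mul_left C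

variable {p : Par} {sk : ℕ → ℕ} {Hk : ℕ → Hist}

variable {p : Par} {sk : ℕ → ℕ} {Hk : ℕ → Hist}

/-- LEAF.  For large `j`, with `k = Nat.log 2 j`: `Good` at `k` and `k + 1`, `2^k ≤ j < 2^(k+1)`, `(Hk k).j0 ≤ j`
(`Nat.pow_log_le_self`, `Nat.lt_pow_succ_log_self`, `Nat.log` tends to infinity). -/
theorem p41_sp_good (hG : ∀ᶠ k : ℕ in atTop, Good p (sk k) (Hk k) (2 ^ k)) (Nm : ℕ) :
    ∀ᶠ j : ℕ in atTop, Good p (sk (Nat.log 2 j)) (Hk (Nat.log 2 j)) (2 ^ Nat.log 2 j) ∧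
      Good p (sk (Nat.log 2 j + 1)) (Hk (Nat.log 2 j + 1)) (2 ^ (Nat.log 2 j + 1)) ∧
      Nm ≤ 2 ^ Nat.log 2 j ∧ 2 ^ Nat.log 2 j ≤ j ∧ j < 2 ^ (Nat.log 2 j + 1) ∧
      j = (Hk (Nat.log 2 j)).j0 + (j - (Hk (Nat.log 2 j)).j0) := by
  obtain ⟨k0, hk0⟩ := eventually_atTop.1 hG
  refine eventually_atTop.2 ⟨2 ^ (k0 + Nm), fun j hj => ?_⟩
  have hj0 : j ≠ 0 := by
    have : 0 < 2 ^ (k0 + Nm) := by positivity
    omega
  have hk : k0 + Nm ≤ Nat.log 2 j := Nat.le_log_of_pow_le (by norm_num) hj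
  have g1 := hk0 (Nat.log 2 j) (by omega)
  have g2 := hk0 (Nat.log 2 j + 1) (by omega)
  have h1 : 2 ^ Nat.log 2 j ≤ j := Nat.pow_log_le_self 2 hj0
  have h2 : j < 2 ^ (Nat.log 2 j + 1) := Nat.lt_pow_succ_log_self (by norm_num) j
  have h3 : Nm ≤ 2 ^ Nat.log 2 j :=
    (Nat.lt_two_pow_self).le.trans (Nat.pow_le_pow_right (by norm_num) (by omega))
  have h4 := g1.j0
  exact ⟨g1, g2, h3, h1, h2, by omega⟩

/-- LEAF.  The recursion of the spliced sequence.  Case `j + 1 < 2^(k+1)`: `Nat.log 2 (j+1) = k`, `p41_step_same`; case `j + 1 = 2^(k+1)`: `Nat.log 2 (j+1) = k + 1`, `p41_step_change`. -/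
theorem p41_sp_step (hG : ∀ᶠ k : ℕ in atTop, Good p (sk k) (Hk k) (2 ^ k)) : ∃ C : ℝ, 0 ≤ C ∧ ∀ᶠ j : ℕ in atTop,
    ‖spX Hk (j + 1) - (spX Hk j - 2 / (j : ℂ) * spY Hk j)‖ ≤ spErr C j * max ‖spX Hk j‖ ‖spY Hk j‖ ∧
    ‖spY Hk (j + 1) - (spY Hk j - 1 / (j : ℂ) * (spX Hk j + spY Hk j))‖ ≤ spErr C j * max ‖spX Hk j‖ ‖spY Hk j‖ := by
  obtain ⟨C1, N1, hC1, hst⟩ := p41_step_same p
  obtain ⟨C2, N2, hC2, hch⟩ := p41_step_change p
  refine ⟨C1 + C2, by positivity, ?_⟩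
  filter_upwards [p41_sp_good hG (N1 + N2)] with j hj
  obtain ⟨g1, g2, hN, h1, h2, h3⟩ := hj
  obtain ⟨k, hk⟩ : ∃ k, k = Nat.log 2 j := ⟨_, rfl⟩
  have hV : max ‖spX Hk j‖ ‖spY Hk j‖ = Vn (Hk k) (j - (Hk k).j0) := by rw [hk]; rfl
  have hXj : spX Hk j = Vx (Hk k) (j - (Hk k).j0) := by rw [hk]; rfl
  have hYj : spY Hk j = Vy (Hk k) (j - (Hk k).j0) := by rw [hk]; rfl
  rw [hV, hXj, hYj]
  rw [← hk] at g1 g2 hN h1 h2 h3
  have hV0 : 0 ≤ Vn (Hk k) (j - (Hk k).j0) := le_max_of_le_left (norm_nonneg _)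
  have hLg : 0 ≤ Real.log (2 + j) / (j : ℝ) ^ 2 := by
    have := p41_log_half j
    have h0 : 0 ≤ Real.log (2 + j) := by linarith
    positivity
  have hind : 0 ≤ Set.indicator {j : ℕ | ∃ k : ℕ, j + 1 = 2 ^ k} (fun j : ℕ => 1 / (j : ℝ)) j :=
    Set.indicator_nonneg (fun j _ => by positivity) _
  have hp : 2 ^ (k + 1) = 2 * 2 ^ k := by rw [pow_succ, mul_comm]
  rcases Nat.lt_or_ge (j + 1) (2 ^ (k + 1)) with hc | hc
  · have hlog : Nat.log 2 (j + 1) = k :=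
      Nat.log_eq_of_pow_le_of_lt_pow (by omega) hc
    have hX1 : spX Hk (j + 1) = Vx (Hk k) (j - (Hk k).j0 + 1) := by
      unfold spX
      rw [hlog]
      congr 1
      omega
    have hY1 : spY Hk (j + 1) = Vy (Hk k) (j - (Hk k).j0 + 1) := by
      unfold spY
      rw [hlog]
      congr 1
      omega
    rw [hX1, hY1]
    obtain ⟨r1, r2⟩ := hst _ _ _ g1 (by omega) (j - (Hk k).j0) j h3 (by omega) (by omega)
    have hle : C1 * (Real.log (2 + j) / (j : ℝ) ^ 2) * Vn (Hk k) (j - (Hk k).j0) ≤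
        spErr (C1 + C2) j * Vn (Hk k) (j - (Hk k).j0) := by
      apply mul_le_mul_of_nonneg_right _ hV0
      unfold spErr
      nlinarith
    exact ⟨r1.trans hle, r2.trans hle⟩
  · have hjeq : j + 1 = 2 ^ (k + 1) := by omega
    have hlog : Nat.log 2 (j + 1) = k + 1 := by
      rw [hjeq]
      exact Nat.log_pow (by norm_num) _
    have hX1 : spX Hk (j + 1) = Vx (Hk (k + 1)) (j + 1 - (Hk (k + 1)).j0) := by
      unfold spX
      rw [hlog]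
    have hY1 : spY Hk (j + 1) = Vy (Hk (k + 1)) (j + 1 - (Hk (k + 1)).j0) := by
      unfold spY
      rw [hlog]
    rw [hX1, hY1]
    have hj0' := g2.j0
    rw [hp] at g2
    obtain ⟨r1, r2⟩ := hch _ _ _ _ _ g1 g2 (by omega) (j - (Hk k).j0) (j + 1 - (Hk (k + 1)).j0) j h3
      (by omega) (by omega)
    have hmem : j ∈ {j : ℕ | ∃ k : ℕ, j + 1 = 2 ^ k} := ⟨k + 1, hjeq⟩
    have hle : C2 / (j : ℝ) * Vn (Hk k) (j - (Hk k).j0) ≤
        spErr (C1 + C2) j * Vn (Hk k) (j - (Hk k).j0) := by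
      apply mul_le_mul_of_nonneg_right _ hV0
      unfold spErr
      rw [Set.indicator_of_mem hmem]
      have h0 : 0 ≤ 1 / (j : ℝ) := by positivity
      have e : C2 / (j : ℝ) = C2 * (1 / (j : ℝ)) := by ring
      rw [e]
      nlinarith
    exact ⟨r1.trans hle, r2.trans hle⟩

/-- LEAF.  `p41_lower` along the spliced sequence. -/
theorem p41_sp_lower (hG : ∀ᶠ k : ℕ in atTop, Good p (sk k) (Hk k) (2 ^ k)) :
    ∃ c : ℝ, 0 < c ∧ ∀ᶠ j : ℕ in atTop, c ≤ max ‖spX Hk j‖ ‖spY Hk j‖ := by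
  obtain ⟨c, N1, hc, hlow⟩ := p41_lower p
  refine ⟨c, hc, ?_⟩
  filter_upwards [p41_sp_good hG N1] with j hj
  obtain ⟨g1, g2, hN, h1, h2, h3⟩ := hj
  have hp : 2 ^ (Nat.log 2 j + 1) = 2 * 2 ^ Nat.log 2 j := by rw [pow_succ, mul_comm]
  exact hlow _ _ _ g1 hN (j - (Hk (Nat.log 2 j)).j0) j h3 (by omega) (by omega)

/-- GLUE: `p41_seq`. -/
theorem p41_sp_limit (hG : ∀ᶠ k : ℕ in atTop, Good p (sk k) (Hk k) (2 ^ k)) :
    ∃ P : ℂ, P ≠ 0 ∧ Tendsto (fun j : ℕ => spX Hk j / (j : ℂ)) atTop (𝓝 P) ∧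
      Tendsto (fun j : ℕ => spY Hk j / (j : ℂ)) atTop (𝓝 (-P / 2)) := by
  obtain ⟨C, hC, hstep⟩ := p41_sp_step hG
  obtain ⟨c, hc, hlow⟩ := p41_sp_lower hG
  exact p41_seq (spX Hk) (spY Hk) (spErr C) (p41_spErr C hC).1 (p41_spErr C hC).2 c hc
    (hstep.mono fun _ h => h.1) (hstep.mono fun _ h => h.2) hlow

/-- `(C / j) * (max ‖spX j‖ ‖spY j‖ / j) → 0`. -/
theorem p41_sp_small (P : ℂ)
    (hX : Tendsto (fun j : ℕ => spX Hk j / (j : ℂ)) atTop (𝓝 P))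
    (hY : Tendsto (fun j : ℕ => spY Hk j / (j : ℂ)) atTop (𝓝 (-P / 2))) (C : ℝ) :
    Tendsto (fun j : ℕ => C / (j : ℝ) * (max ‖spX Hk j‖ ‖spY Hk j‖ / (j : ℝ))) atTop (𝓝 0) := by
  have h1 := hX.norm.max hY.norm
  have h2 : Tendsto (fun j : ℕ => C / (j : ℝ)) atTop (𝓝 0) := tendsto_const_div_atTop_nhds_zero_nat C
  have h3 := h2.mul h1
  rw [zero_mul] at h3
  refine h3.congr fun j => ?_
  rw [norm_div, norm_div, Complex.norm_natCast, max_div_div_right (by positivity)]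

/-- LEAF.  The sign: `physV p.κ j / j → P / (π b_*)` (`p41_read` along the spliced sequence; `Vn / j` is bounded, so `C Vn / j² → 0`), and `physV ≥ 0` eventually
(`p41_phys_lower`, `p41_n_tendsto`): the limit of nonnegative reals is a nonnegative real. -/
theorem p41_sign (hG : ∀ᶠ k : ℕ in atTop, Good p (sk k) (Hk k) (2 ^ k)) (P : ℂ)
    (hX : Tendsto (fun j : ℕ => spX Hk j / (j : ℂ)) atTop (𝓝 P))
    (hY : Tendsto (fun j : ℕ => spY Hk j / (j : ℂ)) atTop (𝓝 (-P / 2))) : ∃ Pr : ℝ, 0 ≤ Pr ∧ P = (Pr : ℂ) := by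
  obtain ⟨C, c, N1, hC, hc, hrd⟩ := p41_read p
  obtain ⟨c0, hc0, hpl⟩ := p41_phys_lower
  have hbs := p41_bs_pos p.κ
  have hpb : 0 < Real.pi * p.κ.bs := mul_pos Real.pi_pos hbs
  have hpbC : ((Real.pi : ℂ) * (p.κ.bs : ℂ)) ≠ 0 := by
    exact_mod_cast hpb.ne'
  -- the error tends to zero
  have herr : Tendsto (fun j : ℕ => C / (j : ℝ) * (max ‖spX Hk j‖ ‖spY Hk j‖ / (j : ℝ)) + 1 / (j : ℝ)) atTop (𝓝 0) := by
    have := (p41_sp_small P hX hY C).add (tendsto_const_div_atTop_nhds_zero_nat (1 : ℝ))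
    rwa [add_zero] at this
  have hdiff : Tendsto (fun j : ℕ => ((physV p.κ j / (j : ℝ) : ℝ) : ℂ) - spX Hk j / (j : ℂ) / (Real.pi * p.κ.bs)) atTop (𝓝 0) := by
    apply squeeze_zero_norm' _ herr
    filter_upwards [p41_sp_good hG N1, eventually_ge_atTop 1] with j hj hj1
    obtain ⟨g1, g2, hN, h1, h2, h3⟩ := hj
    have hp : 2 ^ (Nat.log 2 j + 1) = 2 * 2 ^ Nat.log 2 j := by rw [pow_succ, mul_comm]
    have r := (hrd _ _ _ g1 hN (j - (Hk (Nat.log 2 j)).j0) j h3 (by omega) (by omega)).1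
    have hx : (0 : ℝ) < (j : ℝ) := by exact_mod_cast hj1
    have hxC : (j : ℂ) ≠ 0 := by exact_mod_cast hx.ne'
    have e : ((physV p.κ j / (j : ℝ) : ℝ) : ℂ) - spX Hk j / (j : ℂ) / (Real.pi * p.κ.bs) =
        ((physV p.κ j : ℂ) - spX Hk j / (Real.pi * p.κ.bs)) / (j : ℂ) := by
      push_cast
      field_simp
    rw [e, norm_div, Complex.norm_natCast]
    have hexp : Real.exp (-c * j) ≤ 1 := by
      rw [Real.exp_le_one_iff]
      have : 0 ≤ c * (j : ℝ) := by positivity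
      linarith
    have r' : ‖(physV p.κ j : ℂ) - spX Hk j / (Real.pi * p.κ.bs)‖ ≤ C * max ‖spX Hk j‖ ‖spY Hk j‖ / (j : ℝ) + 1 :=
      r.trans (add_le_add le_rfl hexp)
    have := div_le_div_of_nonneg_right r' hx.le
    refine this.trans (le_of_eq ?_)
    field_simp
  have hlim : Tendsto (fun j : ℕ => ((physV p.κ j / (j : ℝ) : ℝ) : ℂ)) atTop (𝓝 (P / (Real.pi * p.κ.bs))) := by
    have := hdiff.add (hX.div_const ((Real.pi : ℂ) * p.κ.bs))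
    rw [zero_add] at this
    refine this.congr fun j => ?_
    ring
  have hre := (Complex.continuous_re.tendsto _).comp hlim
  have him := (Complex.continuous_im.tendsto _).comp hlim
  have hpos : ∀ᶠ j : ℕ in atTop, 0 ≤ physV p.κ j / (j : ℝ) := by
    filter_upwards [(p41_n_tendsto p.κ).eventually hpl] with j hj
    have : 0 ≤ physV p.κ j := hc0.le.trans hj
    positivity
  have hre0 : 0 ≤ (P / (Real.pi * p.κ.bs)).re := by
    refine ge_of_tendsto hre ?_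
    filter_upwards [hpos] with j hj
    simpa using hj
  have him0 : (P / (Real.pi * p.κ.bs)).im = 0 := by
    refine tendsto_nhds_unique him ?_
    have : (Complex.im ∘ fun j : ℕ => ((physV p.κ j / (j : ℝ) : ℝ) : ℂ)) = fun _ => 0 := by
      funext j
      simp only [Function.comp, Complex.ofReal_im]
    rw [this]
    exact tendsto_const_nhds
  refine ⟨(P / (Real.pi * p.κ.bs)).re * (Real.pi * p.κ.bs), by positivity, ?_⟩
  have hQ : P / (Real.pi * p.κ.bs) = (((P / (Real.pi * p.κ.bs)).re : ℝ) : ℂ) := by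
    apply Complex.ext
    · simp
    · rw [him0]; simp
  push_cast
  rw [← hQ, div_mul_cancel₀ _ hpbC]

/-- LEAF.  Uniform statement on the inner window of EVERY history: for `j` in the inner window of `k`, `k'' = Nat.log 2 j ≥ k - 1` is large, `j` lies in the inner window of `k''`
(`2^k'' ≤ j < 2 * 2^k''`); `p41_overlap` + `p41_overlap_norm` between `(Hk k, i)` and `(Hk k'', j - j0'')` (no case distinction `k'' = k`):
`‖Vx (Hk k) i / j - spX j / j‖ ≤ (C / j) * 4 * max ‖spX j‖ ‖spY j‖ / j → 0`. -/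
theorem p41_uniform (hG : ∀ᶠ k : ℕ in atTop, Good p (sk k) (Hk k) (2 ^ k)) (P : ℂ)
    (hX : Tendsto (fun j : ℕ => spX Hk j / (j : ℂ)) atTop (𝓝 P))
    (hY : Tendsto (fun j : ℕ => spY Hk j / (j : ℂ)) atTop (𝓝 (-P / 2))) (ε : ℝ) (hε : 0 < ε) :
    ∀ᶠ k : ℕ in atTop, ∀ i j : ℕ, j = (Hk k).j0 + i → 2 ^ k ≤ 2 * j → 2 * j ≤ 5 * 2 ^ k →
      ‖Vx (Hk k) i / (j : ℂ) - P‖ ≤ ε ∧ ‖Vy (Hk k) i / (j : ℂ) + P / 2‖ ≤ ε := by
  obtain ⟨C, N1, hC, hov⟩ := p41_overlap p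
  obtain ⟨N2, hon⟩ := p41_overlap_norm p
  have hε2 : 0 < ε / 2 := by positivity
  have e1 : ∀ᶠ j : ℕ in atTop, ‖spX Hk j / (j : ℂ) - P‖ < ε / 2 := by
    have := (tendsto_iff_norm_sub_tendsto_zero.1 hX).eventually (eventually_lt_nhds (b := ε / 2) hε2)
    exact this
  have e2 : ∀ᶠ j : ℕ in atTop, ‖spY Hk j / (j : ℂ) - (-P / 2)‖ < ε / 2 := by
    have := (tendsto_iff_norm_sub_tendsto_zero.1 hY).eventually (eventually_lt_nhds (b := ε / 2) hε2)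
    exact this
  have e3 : ∀ᶠ j : ℕ in atTop, 4 * C / (j : ℝ) * (max ‖spX Hk j‖ ‖spY Hk j‖ / (j : ℝ)) < ε / 2 :=
    (p41_sp_small P hX hY (4 * C)).eventually (eventually_lt_nhds (b := ε / 2) hε2)
  obtain ⟨j0, hj0⟩ := eventually_atTop.1 (((e1.and e2).and e3).and (p41_sp_good hG (N1 + N2)))
  have hN : ∀ᶠ k : ℕ in atTop, 2 * (j0 + 1) + N1 + N2 ≤ 2 ^ k :=
    (tendsto_pow_atTop_atTop_of_one_lt (by norm_num : 1 < 2)).eventually_ge_atTop _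
  filter_upwards [hG, hN] with k gk hNk i j hj w1 w2
  obtain ⟨⟨⟨a1, a2⟩, a3⟩, g1, g2, hNn, h1, h2, h3⟩ := hj0 j (by omega)
  have hp : 2 ^ (Nat.log 2 j + 1) = 2 * 2 ^ Nat.log 2 j := by rw [pow_succ, mul_comm]
  have hj1 : 1 ≤ j := by omega
  have hx : (0 : ℝ) < (j : ℝ) := by exact_mod_cast hj1
  have hxC : (j : ℂ) ≠ 0 := by exact_mod_cast hx.ne'
  obtain ⟨o1, o2⟩ := hov _ _ _ _ _ _ gk g1 (by omega) (by omega) i (j - (Hk (Nat.log 2 j)).j0) j hj h3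
    w1 w2 (by omega) (by omega)
  have o3 := hon _ _ _ _ _ _ g1 gk (by omega) (by omega) (j - (Hk (Nat.log 2 j)).j0) i j h3 hj
    (by omega) (by omega) w1 w2
  obtain ⟨W, hW⟩ : ∃ W : ℝ, W = max ‖spX Hk j‖ ‖spY Hk j‖ := ⟨_, rfl⟩
  have hWV : Vn (Hk (Nat.log 2 j)) (j - (Hk (Nat.log 2 j)).j0) = W := by rw [hW]; rfl
  rw [hWV] at o1 o2 o3
  rw [← hW] at a3
  have hW0 : 0 ≤ W := by rw [hW]; exact le_max_of_le_left (norm_nonneg _)
  have hb : C / (j : ℝ) * (Vn (Hk k) i + W) / (j : ℝ) ≤ 4 * C / (j : ℝ) * (W / (j : ℝ)) := by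
    have h4 : Vn (Hk k) i + W ≤ 4 * W := by linarith
    have h5 : C / (j : ℝ) * (Vn (Hk k) i + W) ≤ C / (j : ℝ) * (4 * W) :=
      mul_le_mul_of_nonneg_left h4 (by positivity)
    have h6 := div_le_div_of_nonneg_right h5 hx.le
    refine h6.trans (le_of_eq ?_)
    ring
  constructor
  · have t : ‖Vx (Hk k) i / (j : ℂ) - P‖ ≤ ‖Vx (Hk k) i - spX Hk j‖ / (j : ℝ) + ‖spX Hk j / (j : ℂ) - P‖ := by
      have e : Vx (Hk k) i / (j : ℂ) - P = (Vx (Hk k) i - spX Hk j) / (j : ℂ) + (spX Hk j / (j : ℂ) - P) := by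
        ring
      rw [e]
      refine (norm_add_le _ _).trans ?_
      rw [norm_div, Complex.norm_natCast]
    have o1' : ‖Vx (Hk k) i - spX Hk j‖ / (j : ℝ) ≤ C / (j : ℝ) * (Vn (Hk k) i + W) / (j : ℝ) :=
      div_le_div_of_nonneg_right o1 hx.le
    linarith
  · have t : ‖Vy (Hk k) i / (j : ℂ) + P / 2‖ ≤ ‖Vy (Hk k) i - spY Hk j‖ / (j : ℝ) + ‖spY Hk j / (j : ℂ) - (-P / 2)‖ := by
      have e : Vy (Hk k) i / (j : ℂ) + P / 2 = (Vy (Hk k) i - spY Hk j) / (j : ℂ) + (spY Hk j / (j : ℂ) - (-P / 2)) := by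
        ring
      rw [e]
      refine (norm_add_le _ _).trans ?_
      rw [norm_div, Complex.norm_natCast]
    have o2' : ‖Vy (Hk k) i - spY Hk j‖ / (j : ℝ) ≤ C / (j : ℝ) * (Vn (Hk k) i + W) / (j : ℝ) :=
      div_le_div_of_nonneg_right o2 hx.le
    linarith

/-- LEAF (casts).  The real windows of `Read/E4.lean` are the natural inner window. -/
theorem p41_window (k j : ℕ) (h1 : (1 / 2 : ℝ) * 2 ^ k ≤ (j : ℝ)) (h2 : (j : ℝ) ≤ (5 / 2 : ℝ) * 2 ^ k) :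
    2 ^ k ≤ 2 * j ∧ 2 * j ≤ 5 * 2 ^ k := by
  constructor
  · have : ((2 ^ k : ℕ) : ℝ) ≤ ((2 * j : ℕ) : ℝ) := by
      push_cast
      linarith
    exact_mod_cast this
  · have : ((2 * j : ℕ) : ℝ) ≤ ((5 * 2 ^ k : ℕ) : ℝ) := by
      push_cast
      linarith
    exact_mod_cast this

/-- **[E] P4.1** (nonzero temperature response): ASSEMBLY. -/
theorem p41_response (κ : MapC) : ∃ ρt1 : ℝ, 0 < ρt1 ∧ ∀ ρt : ℝ, ρt ≤ ρt1 → ∃ ρe1 : ℝ, 0 < ρe1 ∧ ∀ ρe : ℝ, ρe ≤ ρe1 →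
    ∀ (κe : EntC) (H : ℕ → Hist) (hy : Hyp κ κe ρe ρt H),
      (∃ P : ℝ, IsResp hy P) ∧
      ∃ C c : ℝ, 0 < c ∧ ∀ᶠ k : ℕ in atTop, ∀ i : ℕ,
        (1 / 2 : ℝ) * 2 ^ k ≤ (((H (hy.crit.sk k)).j0 + i : ℕ) : ℝ) →
        (((H (hy.crit.sk k)).j0 + i : ℕ) : ℝ) ≤ (5 / 2 : ℝ) * 2 ^ k →
          dQ (H (hy.crit.sk k)) i ≤ C * Vn (H (hy.crit.sk k)) i / ((H (hy.crit.sk k)).j0 + i : ℕ)
            + Real.exp (-c * ((H (hy.crit.sk k)).j0 + i : ℕ)) ∧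
          ∀ h, (H (hy.crit.sk k)).j0 + i ≤ h → h ≤ 4 * 2 ^ k →
            dT (H (hy.crit.sk k)) h i ≤ C * Vn (H (hy.crit.sk k)) i / ((H (hy.crit.sk k)).j0 + i : ℕ)
              + Real.exp (-c * ((H (hy.crit.sk k)).j0 + i : ℕ)) := by
  obtain ⟨ρt1, hρt1, hT⟩ := p41_tube κ
  refine ⟨ρt1, hρt1, fun ρt hρt => ⟨1, one_pos, fun ρe _ κe H hy => ?_⟩⟩
  obtain ⟨C₀, hG⟩ := p41_good hy (hT ρt hρt)
  set p : Par := ⟨κ, κe, ρe, ρt, C₀, hy.crit.c1, hy.crit.C1, hT ρt hρt, hy.crit.hc1⟩ with hp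
  have hG' : ∀ᶠ k : ℕ in atTop, Good p (hy.crit.sk k) ((fun k => H (hy.crit.sk k)) k) (2 ^ k) := hG
  constructor
  · obtain ⟨P, hP0, hX, hY⟩ := p41_sp_limit hG'
    obtain ⟨Pr, hPr0, hPr⟩ := p41_sign hG' P hX hY
    refine ⟨Pr, ?_, ?_⟩
    · rcases hPr0.lt_or_eq with h | h
      · exact h
      · exact absurd (by rw [hPr, ← h]; simp) hP0
    · intro ε hε
      filter_upwards [p41_uniform hG' P hX hY ε hε] with k hk i h1 h2
      obtain ⟨w1, w2⟩ := p41_window k _ h1 h2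
      have := hk i _ rfl w1 w2
      rw [hPr] at this
      exact this
  · obtain ⟨C₄, c₄, Nm, _, hc₄, hS⟩ := p41_slaving p
    refine ⟨C₄, c₄, hc₄, ?_⟩
    have hN : ∀ᶠ k : ℕ in atTop, Nm ≤ 2 ^ k :=
      (tendsto_pow_atTop_atTop_of_one_lt (by norm_num : 1 < 2)).eventually_ge_atTop Nm
    filter_upwards [hG', hN] with k hk hNk i h1 h2
    obtain ⟨w1, w2⟩ := p41_window k _ h1 h2
    exact hS _ _ _ hk hNk i _ rfl w1 w2

end

end Claimed.Agent.R285.E4
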