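import Claimed.Agent.R285.E4.P44Asym

/-!
# ROW 285, cut of [E] P4.4, LEAF P44-EV (PROVED, helper14): `p44_Start` holds eventually (filter glue of the contracts L4.2, L4.3, (4.16), `Crit.conf` and of `P44Asym`)

The contracts of the OTHER posts enter as hypotheses (`p44_LateStmt κ` is verbatim the statement of `E4.late_critical κ`, `p44_SecStmt κ` of `E4.secant κ`, `p44_InsStmt κ` of `E4.secant_inside κ`),
so that `Read/E4.lean` can import this folder.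

Proof of `p44_start_ev`: `ρt1 := min` of the three `ρt1` and of `κ.ρ`; `ρe1 := min` of the three.  `Km := p44_horizon hsf A`.  `late` with `K := Km` gives `C_l`; third part of `sec` at `A` gives `C_s`;
`Cl := max 1 (max C_l C_s)` (`CritAt`, `CritTor` are monotone in the constant).  `∀ᶠ s in atTop` is transported by `p44_sf_tendsto`.  For given `τ`: `filter_upwards` with
`Sides.adm`, late, `hy.crit.conf Km`, the two limits of `sec` (as `‖… - P‖ ≤ τ`, `Metric.tendsto_nhds`), its third part, `ins` at `A`, `p44_disk_ev`, `p44_j0_le` (with `EntryOK.side`), `p44_scales_ev`, `p44_valid_ev`,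
`p44_horizon`, `self_mem_nhdsWithin`.
* `crit`, `critT`: `J/2 ≤ J ≤ j0 + i`, `j0 + i ≤ K1 ≤ A/√ε ≤ Km s` (cast), `j0 + (J - j0) = J`.      * `crit_in`: `conf` gives `< ρt ≤ κ.ρ`.
* `sec_x`: `Δx + ε J P = (-(ε J)) (Δx/(-(ε J)) - P)`, `ε J > 0`.   `sec_y`: `Δy - ε J P/2 = (-(ε J)) (Δy/(-(ε J)) + P/2)`.
* `valid`: `Valid = (j0 ≤ h) ∧ (s P0 ≤ n_h) ∧ (cutErr ≤ 1)` by unfolding.
-/

set_option autoImplicit false

namespace Claimed.Agent.R285.E4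

open Filter Topology Claims.C0459
open Claimed.Agent.R285.Flow

/-- verbatim the statement of `E4.late_critical κ` -/
def p44_LateStmt (κ : MapC) : Prop :=
  ∃ ρt1 : ℝ, 0 < ρt1 ∧ ∀ ρt : ℝ, ρt ≤ ρt1 → ∃ ρe1 : ℝ, 0 < ρe1 ∧ ∀ ρe : ℝ, ρe ≤ ρe1 →
    ∀ (κe : EntC) (H : ℕ → Hist) (_ : Hyp κ κe ρe ρt H) (K : ℕ → ℕ),
      Tendsto (fun s => (K s : ℝ) / (s : ℝ) ^ 2) atTop (𝓝 0) →
      ∃ C : ℝ, ∀ᶠ s : ℕ in atTop, Adm κ κe s → ∀ i : ℕ,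
        (JJ κ s : ℝ) / 2 ≤ (((H s).j0 + i : ℕ) : ℝ) → (H s).j0 + i ≤ K s →
          CritAt (H s) C i ∧ ∀ h, (H s).j0 + i ≤ h → h ≤ K s → CritTor (H s) C h i

/-- verbatim the statement of `E4.secant κ` -/
def p44_SecStmt (κ : MapC) : Prop :=
  ∃ ρt1 : ℝ, 0 < ρt1 ∧ ∀ ρt : ℝ, ρt ≤ ρt1 → ∃ ρe1 : ℝ, 0 < ρe1 ∧ ∀ ρe : ℝ, ρe ≤ ρe1 →
    ∀ (κe : EntC) (H : ℕ → Hist) (hy : Hyp κ κe ρe ρt H) (P : ℝ), IsResp hy P →
    ∀ sf : ℝ → ℕ, Sides κ κe sf →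
      Tendsto (fun ε : ℝ => ((H (sf ε)).x ((xyCritical - ε : ℝ) : ℂ) (JJ κ (sf ε) - (H (sf ε)).j0)
          - (H (sf ε)).x xyCritical (JJ κ (sf ε) - (H (sf ε)).j0)) / (-(ε : ℂ) * JJ κ (sf ε))) (𝓝[>] 0) (𝓝 (P : ℂ)) ∧
      Tendsto (fun ε : ℝ => ((H (sf ε)).y ((xyCritical - ε : ℝ) : ℂ) (JJ κ (sf ε) - (H (sf ε)).j0)
          - (H (sf ε)).y xyCritical (JJ κ (sf ε) - (H (sf ε)).j0)) / (-(ε : ℂ) * JJ κ (sf ε))) (𝓝[>] 0) (𝓝 (-(P : ℂ) / 2)) ∧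
      ∀ A : ℝ, ∃ C : ℝ, ∀ᶠ ε in 𝓝[>] (0 : ℝ),
        ‖((H (sf ε)).st ((xyCritical - ε : ℝ) : ℂ) (JJ κ (sf ε) - (H (sf ε)).j0)).2.2
          - ((H (sf ε)).st xyCritical (JJ κ (sf ε) - (H (sf ε)).j0)).2.2‖ ≤ C * ε ∧
        ∀ h : ℕ, JJ κ (sf ε) ≤ h → (h : ℝ) ≤ A / Real.sqrt ε →
          ‖(H (sf ε)).tor ((xyCritical - ε : ℝ) : ℂ) h (JJ κ (sf ε) - (H (sf ε)).j0)
            - (H (sf ε)).tor xyCritical h (JJ κ (sf ε) - (H (sf ε)).j0)‖ ≤ C * ε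

/-- NEW CONTRACT `E4.secant_inside κ` = [E] (4.16) (crude proximity, first step of the proof of L4.3) + `Crit.conf`: up to the matching index the perturbed history and its
stopped tori stay in the domain of the maps -/
def p44_InsStmt (κ : MapC) : Prop :=
  ∃ ρt1 : ℝ, 0 < ρt1 ∧ ∀ ρt : ℝ, ρt ≤ ρt1 → ∃ ρe1 : ℝ, 0 < ρe1 ∧ ∀ ρe : ℝ, ρe ≤ ρe1 →
    ∀ (κe : EntC) (H : ℕ → Hist) (_ : Hyp κ κe ρe ρt H) (sf : ℝ → ℕ), Sides κ κe sf → ∀ A : ℝ,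
      ∀ᶠ ε in 𝓝[>] (0 : ℝ), ∀ i : ℕ, (H (sf ε)).j0 + i ≤ JJ κ (sf ε) →
        ‖(H (sf ε)).st ((xyCritical - ε : ℝ) : ℂ) i‖ < κ.ρ ∧
        ∀ h : ℕ, JJ κ (sf ε) ≤ h → (h : ℝ) ≤ A / Real.sqrt ε → ‖(H (sf ε)).ts ((xyCritical - ε : ℝ) : ℂ) h i‖ < κ.ρ

theorem p44_critAt_mono {H : Hist} {C C' : ℝ} {i : ℕ} (h : CritAt H C i) (hC : C ≤ C') : CritAt H C' i := by
  obtain ⟨h1, h2, h3⟩ := h
  have hl : 0 ≤ Real.log (2 + ((H.j0 + i : ℕ) : ℝ)) := by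
    apply Real.log_nonneg
    have : (0 : ℝ) ≤ ((H.j0 + i : ℕ) : ℝ) := Nat.cast_nonneg _
    linarith
  have hm : C * Real.log (2 + ((H.j0 + i : ℕ) : ℝ)) / ((H.j0 + i : ℕ) : ℝ) ^ 2
      ≤ C' * Real.log (2 + ((H.j0 + i : ℕ) : ℝ)) / ((H.j0 + i : ℕ) : ℝ) ^ 2 := by
    gcongr
  have hm2 : C / ((H.j0 + i : ℕ) : ℝ) ^ 2 ≤ C' / ((H.j0 + i : ℕ) : ℝ) ^ 2 := by
    gcongr
  exact ⟨h1.trans hm, h2.trans hm, h3.trans hm2⟩

theorem p44_critTor_mono {H : Hist} {C C' : ℝ} {h i : ℕ} (hh : CritTor H C h i) (hC : C ≤ C') : CritTor H C' h i := by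
  have hm2 : C / ((H.j0 + i : ℕ) : ℝ) ^ 2 ≤ C' / ((H.j0 + i : ℕ) : ℝ) ^ 2 := by
    gcongr
  exact le_trans hh hm2

theorem p44_ev_sec (d c : ℂ) (ε τ : ℝ) (J : ℕ) (hε : 0 < ε) (hJ : 1 ≤ J) (h : ‖d / (-(ε : ℂ) * J) - c‖ ≤ τ) :
    ‖d + (ε : ℂ) * J * c‖ ≤ τ * ε * J := by
  have hJ0 : (0 : ℝ) < J := by exact_mod_cast hJ
  have hne : (-(ε : ℂ) * J) ≠ 0 := by
    apply mul_ne_zero
    · rw [neg_ne_zero]; exact_mod_cast hε.ne'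
    · exact_mod_cast hJ0.ne'
  have e : d + (ε : ℂ) * J * c = (-(ε : ℂ) * J) * (d / (-(ε : ℂ) * J) - c) := by
    rw [mul_sub, mul_div_cancel₀ _ hne]; ring
  have n : ‖(-(ε : ℂ) * J)‖ = ε * J := by
    rw [norm_mul, norm_neg, Complex.norm_real, Complex.norm_natCast, Real.norm_eq_abs, abs_of_pos hε]
  rw [e, norm_mul, n]
  have : ε * J * ‖d / (-(ε : ℂ) * J) - c‖ ≤ ε * J * τ := by
    apply mul_le_mul_of_nonneg_left h (by positivity)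
  linarith

theorem p44_start_ev (κ : MapC) (late : p44_LateStmt κ) (sec : p44_SecStmt κ) (ins : p44_InsStmt κ) :
    ∃ ρt1 : ℝ, 0 < ρt1 ∧ ∀ ρt : ℝ, ρt ≤ ρt1 → ∃ ρe1 : ℝ, 0 < ρe1 ∧ ∀ ρe : ℝ, ρe ≤ ρe1 →
    ∀ (κe : EntC) (H : ℕ → Hist) (hy : Hyp κ κe ρe ρt H) (P : ℝ), IsResp hy P →
    ∀ sf : ℝ → ℕ, Sides κ κe sf → ∀ A : ℝ, 0 < A →
      ∃ Cl : ℝ, 1 ≤ Cl ∧ ∀ τ : ℝ, 0 < τ → ∀ᶠ ε in 𝓝[>] (0 : ℝ), ∃ K1 : ℕ,
        p44_Start κ κe ρe (sf ε) (H (sf ε)) P Cl A ε τ K1 := by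
  obtain ⟨r1, hr1, L1⟩ := late
  obtain ⟨r2, hr2, L2⟩ := sec
  obtain ⟨r3, hr3, L3⟩ := ins
  refine ⟨min (min r1 r2) (min r3 κ.ρ), lt_min (lt_min hr1 hr2) (lt_min hr3 κ.hρ), ?_⟩
  intro ρt hρt
  have a1 : ρt ≤ r1 := hρt.trans ((min_le_left _ _).trans (min_le_left _ _))
  have a2 : ρt ≤ r2 := hρt.trans ((min_le_left _ _).trans (min_le_right _ _))
  have a3 : ρt ≤ r3 := hρt.trans ((min_le_right _ _).trans (min_le_left _ _))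
  have a4 : ρt ≤ κ.ρ := hρt.trans ((min_le_right _ _).trans (min_le_right _ _))
  obtain ⟨e1, he1, L1⟩ := L1 ρt a1
  obtain ⟨e2, he2, L2⟩ := L2 ρt a2
  obtain ⟨e3, he3, L3⟩ := L3 ρt a3
  refine ⟨min e1 (min e2 e3), lt_min he1 (lt_min he2 he3), ?_⟩
  intro ρe hρe κe H hy P hP sf hsf A hA
  have b1 : ρe ≤ e1 := hρe.trans (min_le_left _ _)
  have b2 : ρe ≤ e2 := hρe.trans ((min_le_right _ _).trans (min_le_left _ _))
  have b3 : ρe ≤ e3 := hρe.trans ((min_le_right _ _).trans (min_le_right _ _))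
  obtain ⟨Km, hKm, hKmA⟩ := p44_horizon hsf A
  obtain ⟨C1, hC1⟩ := L1 ρe b1 κe H hy Km hKm
  obtain ⟨sx, sy, s3⟩ := L2 ρe b2 κe H hy P hP sf hsf
  obtain ⟨C2, hC2⟩ := s3 A
  have hins := L3 ρe b3 κe H hy sf hsf A
  have hconf := hy.crit.conf Km hKm
  have hsft := p44_sf_tendsto hsf
  refine ⟨max 1 (max C1 C2), le_max_left _ _, ?_⟩
  have c1 : C1 ≤ max 1 (max C1 C2) := (le_max_left _ _).trans (le_max_right _ _)
  have c2 : C2 ≤ max 1 (max C1 C2) := (le_max_right _ _).trans (le_max_right _ _)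
  intro τ hτ
  have hsx := Metric.tendsto_nhds.1 sx τ hτ
  have hsy := Metric.tendsto_nhds.1 sy τ hτ
  filter_upwards [hsf.adm, hsft.eventually hC1, hsft.eventually hconf, hsx, hsy, hC2, hins, p44_disk_ev hsf,
    hsft.eventually (p44_j0_le κ κe), p44_scales_ev hsf A τ hA hτ, p44_valid_ev hsf A τ hτ, hKmA,
    self_mem_nhdsWithin] with ε hadm hlate hcf hx hy' h2 hin hdisk hj0 hsc hval hK hε
  have hε : 0 < ε := hε
  obtain ⟨hlog, K1, hJK, hK1A, heps, hlogK⟩ := hsc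
  refine ⟨K1, ?_⟩
  have hsys := hy.sys _ hadm
  obtain ⟨hj0J, hJ1⟩ := hj0 _ hsys.entry.side
  have hK1m : K1 ≤ Km (sf ε) := by exact_mod_cast hK1A.trans hK
  have hJe : (H (sf ε)).j0 + (JJ κ (sf ε) - (H (sf ε)).j0) = JJ κ (sf ε) := Nat.add_sub_of_le hj0J
  have hJ0 : (0 : ℝ) ≤ (JJ κ (sf ε) : ℝ) := Nat.cast_nonneg _
  rw [dist_eq_norm] at hx hy'
  refine
    { sys := hsys, hb := hdisk.1, hbc := hdisk.2, j0J := hj0J, J_pos := hJ1, JK := hJK,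
      crit := ?_, critT := ?_, crit_in := ?_, sec_x := ?_, sec_y := ?_, sec_q := ?_, sec_t := ?_,
      inside := hin, valid := ?_, logJ := hlog, epsK := heps, logK := hlogK }
  · intro i hi1 hi2
    have : (JJ κ (sf ε) : ℝ) / 2 ≤ (((H (sf ε)).j0 + i : ℕ) : ℝ) := by
      have : (JJ κ (sf ε) : ℝ) ≤ (((H (sf ε)).j0 + i : ℕ) : ℝ) := by exact_mod_cast hi1
      linarith
    exact p44_critAt_mono (hlate hadm i this (hi2.trans hK1m)).1 c1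
  · intro h hh1 hh2
    have hhm : h ≤ Km (sf ε) := by exact_mod_cast hh2.trans hK
    have : (JJ κ (sf ε) : ℝ) / 2 ≤ (((H (sf ε)).j0 + (JJ κ (sf ε) - (H (sf ε)).j0) : ℕ) : ℝ) := by
      rw [hJe]; linarith
    exact p44_critTor_mono ((hlate hadm (JJ κ (sf ε) - (H (sf ε)).j0) this (by rw [hJe]; exact hJK.trans hK1m)).2 h
      (by rw [hJe]; exact hh1) hhm) c1
  · intro i hi
    exact lt_of_lt_of_le (hcf hadm i (hi.trans hK1m)).1 a4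
  · have := p44_ev_sec _ _ ε τ (JJ κ (sf ε)) hε hJ1 hx.le
    convert this using 3
    push_cast; ring
  · have := p44_ev_sec _ _ ε τ (JJ κ (sf ε)) hε hJ1 hy'.le
    convert this using 2
    push_cast; ring
  · refine h2.1.trans ?_
    gcongr
  · intro h hh1 hh2
    refine (h2.2 h hh1 hh2).trans ?_
    gcongr
  · intro h hh1 hh2
    obtain ⟨v1, v2, v3, v4⟩ := hval h hh1 hh2
    exact ⟨⟨hj0J.trans hh1, v1, v2⟩, v3, v4⟩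

end Claimed.Agent.R285.E4
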