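import Claimed.Agent.R285.E4.P44Core
import Claimed.Agent.R285.E4.P44Ev

/-!
# ROW 285, cut of [E] P4.4, TOP: `p44_passage_time` = the statement of `E4.passage_time`, PROVED from `p44_start_ev` and `p44_core`      (architect helper14)

The contracts L4.2, L4.3, (4.16), `sides_exist` are hypotheses; `Read/E4.lean` instantiates them.
-/

set_option autoImplicit false

namespace Claimed.Agent.R285.E4

open Filter Topology Claims.C0459
open Claimed.Agent.R285.Flow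

theorem p44_sqrt_mul (P ε : ℝ) (hP : 0 < P) : Real.sqrt (3 * P * ε) = Real.sqrt (3 * P) * Real.sqrt ε :=
  Real.sqrt_mul (by positivity) ε

theorem p44_passage_time (κ : MapC) (late : p44_LateStmt κ) (sec : p44_SecStmt κ) (ins : p44_InsStmt κ)
    (sides : ∀ κe : EntC, (∃ j1, κe.q0 ∣ κ.L ^ j1) → ∃ sf : ℝ → ℕ, Sides κ κe sf) :
    ∃ ρt1 : ℝ, 0 < ρt1 ∧ ∀ ρt : ℝ, ρt ≤ ρt1 → ∃ ρe1 : ℝ, 0 < ρe1 ∧ ∀ ρe : ℝ, ρe ≤ ρe1 →
    ∀ (κe : EntC) (H : ℕ → Hist) (hy : Hyp κ κe ρe ρt H) (P : ℝ), IsResp hy P →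
      PassageConcl κ.L κ.D0 (Real.pi / Real.sqrt (3 * P)) := by
  obtain ⟨ρt1, hρt1, H1⟩ := p44_start_ev κ late sec ins
  refine ⟨ρt1, hρt1, fun ρt hρt => ?_⟩
  obtain ⟨ρe1, hρe1, H2⟩ := H1 ρt hρt
  refine ⟨ρe1, hρe1, fun ρe hρe κe H hy P hP => ?_⟩
  obtain ⟨sf, hsf⟩ := sides κe hy.dvd
  have hP0 : 0 < P := hP.1
  set k0 : ℝ := Real.sqrt (3 * P) with hk0
  have hk0pos : 0 < k0 := Real.sqrt_pos.2 (by positivity)
  have hApos : 0 < (Real.pi + 1) / k0 := div_pos (by positivity) hk0pos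
  obtain ⟨Cl, hCl, H3⟩ := H2 ρe hρe κe H hy P hP sf hsf ((Real.pi + 1) / k0) hApos
  obtain ⟨d, c, hd, hc, Hexit, Hbefore⟩ := p44_core κ P Cl ((Real.pi + 1) / k0) hP0 hCl le_rfl
  refine ⟨?_, ?_⟩
  · intro ε j w hε hε0 hw hwT hj
    rw [Metric.tendsto_nhds]
    intro ϖ hϖ
    have hkw : k0 * w < Real.pi := by
      rw [lt_div_iff₀ hk0pos] at hwT
      linarith
    set ζ : ℝ := (Real.pi - k0 * w) / 2 with hζdef
    have hζ : 0 < ζ := by rw [hζdef]; linarith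
    obtain ⟨τ1, hτ1, Hb⟩ := Hbefore ζ hζ (ϖ / 2) (by linarith)
    set τ : ℝ := min τ1 (w / 2) with hτdef
    have hτ : 0 < τ := lt_min hτ1 (by linarith)
    have htend : Tendsto ε atTop (𝓝[>] (0 : ℝ)) :=
      tendsto_nhdsWithin_iff.2 ⟨hε0, Filter.Eventually.of_forall fun k => hε k⟩
    have hev := htend.eventually (H3 τ hτ)
    have hlo : ∀ᶠ k in atTop, w / 2 < Real.sqrt (ε k) * (j k : ℝ) :=
      hj.eventually (lt_mem_nhds (by linarith))
    have hhi : ∀ᶠ k in atTop, Real.sqrt (ε k) * (j k : ℝ) < w + ζ / k0 :=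
      hj.eventually (gt_mem_nhds (by have := div_pos hζ hk0pos; linarith))
    filter_upwards [hev, hlo, hhi] with k hk hlo hhi
    obtain ⟨K1, hS⟩ := hk
    have hmain := Hb κe ρe (sf (ε k)) (H (sf (ε k))) (ε k) τ K1 (hε k) hτ (min_le_left _ _) hS (j k) ?_ ?_
    · rw [Real.dist_eq]
      linarith
    · by_contra hcon
      have hlt : (j k : ℝ) ≤ (K1 : ℝ) := by exact_mod_cast (not_le.mp hcon).le
      have hsq : (Real.sqrt (ε k) * (K1 : ℝ)) ^ 2 ≤ τ ^ 2 := by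
        rw [mul_pow, Real.sq_sqrt (hε k).le]
        exact hS.epsK
      have hle : Real.sqrt (ε k) * (K1 : ℝ) ≤ τ := by
        have h0 : 0 ≤ Real.sqrt (ε k) * (K1 : ℝ) := by positivity
        exact (pow_le_pow_iff_left₀ h0 hτ.le (by norm_num)).1 hsq
      have h1 : Real.sqrt (ε k) * (j k : ℝ) ≤ Real.sqrt (ε k) * (K1 : ℝ) :=
        mul_le_mul_of_nonneg_left hlt (Real.sqrt_nonneg _)
      have h2 : τ ≤ w / 2 := min_le_right _ _
      linarith
    · rw [p44_sqrt_mul P (ε k) hP0, ← hk0, mul_assoc]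
      have h1 : k0 * (Real.sqrt (ε k) * (j k : ℝ)) ≤ k0 * (w + ζ / k0) :=
        mul_le_mul_of_nonneg_left hhi.le hk0pos.le
      have h2 : k0 * (w + ζ / k0) = k0 * w + ζ := by field_simp
      rw [h2] at h1
      have h3 : k0 * w + ζ = Real.pi - ζ := by rw [hζdef]; ring
      linarith
  · refine ⟨c, fun ε => p44_exit d (JJ κ (sf ε)) (p44_x (H (sf ε)) (xyCritical - ε)), hc, ?_, ?_⟩
    · rw [Metric.tendsto_nhds]
      intro η hη
      have hζ : 0 < η * k0 / 2 := by positivity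
      obtain ⟨τ1, hτ1, He⟩ := Hexit (η * k0 / 2) hζ
      filter_upwards [H3 τ1 hτ1, self_mem_nhdsWithin] with ε hk hε
      obtain ⟨K1, hS⟩ := hk
      have hε0 : 0 < ε := hε
      have hmain := (He κe ρe (sf ε) (H (sf ε)) ε τ1 K1 hε0 hτ1 le_rfl hS).1
      rw [p44_sqrt_mul P ε hP0, ← hk0, mul_assoc] at hmain
      rw [Real.dist_eq]
      set z : ℝ := Real.sqrt ε * (p44_exit d (JJ κ (sf ε)) (p44_x (H (sf ε)) (xyCritical - ε)) : ℝ) with hz
      have h1 : z - Real.pi / k0 = (k0 * z - Real.pi) / k0 := by field_simp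
      rw [h1, abs_div, abs_of_pos hk0pos, div_lt_iff₀ hk0pos]
      have : η * k0 / 2 < η * k0 := by linarith
      linarith
    · obtain ⟨τ1, hτ1, He⟩ := Hexit 1 one_pos
      filter_upwards [H3 τ1 hτ1, self_mem_nhdsWithin] with ε hk hε
      obtain ⟨K1, hS⟩ := hk
      exact (He κe ρe (sf ε) (H (sf ε)) ε τ1 K1 hε hτ1 le_rfl hS).2

end Claimed.Agent.R285.E4
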