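import Claimed.Agent.R285.E4.Defs

/-!
# ROW 285, [E] Section 4.3, first lines: "consecutive admissible sides have a fixed ratio"   (architect helper90; prefix `sd_`)
PAPER-FREE.
-/

set_option autoImplicit false

namespace Claimed.Agent.R285.E4

open Filter Topology Claims.C0459
open Claimed.Agent.R285.Flow

noncomputable section

/-- between `t / L` and `t` there is a number `d L^m` -/
theorem sd_pick (L d : ℕ) (hL : 2 ≤ L) (hd : 1 ≤ d) (t : ℝ) (ht : (d : ℝ) ≤ t) :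
    1 / (L : ℝ) * t ≤ ((d * L ^ Nat.log L ⌊t / d⌋₊ : ℕ) : ℝ) ∧ ((d * L ^ Nat.log L ⌊t / d⌋₊ : ℕ) : ℝ) ≤ 1 * t := by
  have hd0 : (0 : ℝ) < d := by exact_mod_cast hd
  have hL0 : (0 : ℝ) < L := by exact_mod_cast (by omega : 0 < L)
  have h1 : 1 ≤ t / d := by rwa [le_div_iff₀ hd0, one_mul]
  have hN : 1 ≤ ⌊t / d⌋₊ := Nat.le_floor (by exact_mod_cast h1)
  obtain ⟨N, hNdef⟩ : ∃ N, N = ⌊t / d⌋₊ := ⟨_, rfl⟩
  rw [← hNdef] at hN ⊢
  have a1 : L ^ Nat.log L N ≤ N := Nat.pow_log_le_self L (by omega)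
  have a2 : N < L ^ (Nat.log L N).succ := Nat.lt_pow_succ_log_self (by omega) N
  have b1 : (N : ℝ) ≤ t / d := by rw [hNdef]; exact Nat.floor_le (by linarith)
  have b2 : t / d < (N : ℝ) + 1 := by rw [hNdef]; exact Nat.lt_floor_add_one _
  have a1' : ((L ^ Nat.log L N : ℕ) : ℝ) ≤ (N : ℝ) := by exact_mod_cast a1
  have a2' : (N : ℝ) + 1 ≤ ((L ^ (Nat.log L N).succ : ℕ) : ℝ) := by exact_mod_cast a2
  obtain ⟨p, hp⟩ : ∃ p : ℝ, p = ((L ^ Nat.log L N : ℕ) : ℝ) := ⟨_, rfl⟩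
  have e1 : ((d * L ^ Nat.log L N : ℕ) : ℝ) = d * p := by rw [hp]; push_cast; ring
  have e2 : ((L ^ (Nat.log L N).succ : ℕ) : ℝ) = p * L := by rw [hp, pow_succ]; push_cast; ring
  rw [e1]
  rw [e2] at a2'
  rw [← hp] at a1'
  constructor
  · have : t / d < p * L := lt_of_lt_of_le b2 a2'
    rw [div_lt_iff₀ hd0] at this
    rw [one_div, inv_mul_le_iff₀ hL0]
    linarith
  · have : p ≤ t / d := a1'.trans b1
    rw [le_div_iff₀ hd0] at this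
    linarith

/-- LEAF SIDES (PROVED, helper14, with `Nat.log` instead of `Real.logb`; ~200 l.; verbatim `E4.sides_exist`).  `obtain ⟨j1, d, hd⟩ := h` (`L^{j1} = q0 d`, `d ≥ 1`).  The sides `s_m = d L^m` satisfy `q0 s_m = L^{j1+m}`.  Put `t = ε^{-1/3}` and
`sf ε = d * L ^ ⌊Real.logb L (t / d)⌋₊`.  For `t ≥ d`: `m ≤ logb L (t/d) < m + 1` (`Nat.floor_le`, `Nat.lt_floor_add_one`), i.e. `d L^m ≤ t < d L^{m+1}` (`Real.rpow_logb`, `Real.rpow_natCast`, monotonicity of `L^x`),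
so `t / L < sf ε ≤ t`: `Sides.size` with `c = 1/L`, `C = 1`.  `t → ∞` as `ε → 0+` (`tendsto_rpow_neg_nhdsGT_zero` or `Real.rpow_neg` + `tendsto_inv_nhdsGT_zero`), so eventually `sf ε > t/L ≥ s0`: `Sides.adm`. -/
theorem sd_sides_exist (κ : MapC) (κe : EntC) (h : ∃ j1, κe.q0 ∣ κ.L ^ j1) : ∃ sf : ℝ → ℕ, Sides κ κe sf := by
  obtain ⟨j1, d, hd⟩ := h
  have hL := κ.hL
  have hL0 : (0 : ℝ) < κ.L := by exact_mod_cast (by omega : 0 < κ.L)
  have hd1 : 1 ≤ d := by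
    rcases Nat.eq_zero_or_pos d with h0 | h0
    · rw [h0, mul_zero] at hd
      have : 0 < κ.L ^ j1 := pow_pos (by omega) _
      omega
    · exact h0
  have ht : Tendsto (fun ε : ℝ => ε ^ (-(1 / 3) : ℝ)) (𝓝[>] (0 : ℝ)) atTop :=
    tendsto_rpow_neg_nhdsGT_zero (by norm_num)
  refine ⟨fun ε => d * κ.L ^ Nat.log κ.L ⌊ε ^ (-(1 / 3) : ℝ) / d⌋₊, ?_, ?_⟩
  · filter_upwards [ht.eventually_ge_atTop (d : ℝ), ht.eventually_ge_atTop ((κ.L : ℝ) * κe.s0)] with ε h1 h2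
    obtain ⟨p1, -⟩ := sd_pick κ.L d hL hd1 _ h1
    constructor
    · have : (κe.s0 : ℝ) ≤ 1 / (κ.L : ℝ) * ε ^ (-(1 / 3) : ℝ) := by
        rw [one_div, le_inv_mul_iff₀ hL0]
        exact h2
      exact_mod_cast this.trans p1
    · refine ⟨j1 + Nat.log κ.L ⌊ε ^ (-(1 / 3) : ℝ) / d⌋₊, ?_⟩
      rw [pow_add, hd, mul_assoc]
  · refine ⟨1 / (κ.L : ℝ), 1, by positivity, ?_⟩
    filter_upwards [ht.eventually_ge_atTop (d : ℝ)] with ε h1
    exact sd_pick κ.L d hL hd1 _ h1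

end

end Claimed.Agent.R285.E4
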