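import Claimed.Agent.R285.E4.Defs

/-!
# ROW 285, [E] Section 4: package CAUCHY (owner helper103; prefix `e4c_`)

Design decision F2 of `Base/Flow.lean`: the interface has NO differentiated bounds.  Every map is holomorphic on a fixed complex ball and
bounded there by displayed orders; all Taylor bounds follow from the three lemmas of this file:

* `e4c_dir`    : `‖Df(Y) ξ‖ ≤ (B / r) ‖ξ‖` if `‖f‖ ≤ B` on the complex disk `Y + c ξ`, `‖c ξ‖ ≤ r`;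
* `e4c_pair`   : block form on `E₁ × E₂` (torus states `((t, z), R)`);
* `e4c_triple` : block form on `ℂ × ℂ × E` (plane states `(x, y, Q)`), with `wn ξ = max |ξ_x| |ξ_y|`.
The radius `r` is free: `r = 1 / j` at a point with the critical asymptotics, `r = ρt` or `√ρt` in the tube.
-/

set_option autoImplicit false

namespace Claimed.Agent.R285.E4

open Filter Topology
open Claimed.Agent.R285.Flow

noncomputable section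

variable {E E₁ E₂ F : Type*} [NormedAddCommGroup E] [NormedSpace ℂ E]
  [NormedAddCommGroup E₁] [NormedSpace ℂ E₁] [NormedAddCommGroup E₂] [NormedSpace ℂ E₂]
  [NormedAddCommGroup F] [NormedSpace ℂ F]

/-- directional Cauchy estimate -/
theorem e4c_dir {f : E → F} {ρ : ℝ} (hf : DifferentiableOn ℂ f (Metric.ball 0 ρ)) {Y ξ : E} {r B : ℝ}
    (hr : 0 < r) (hY : ‖Y‖ + r < ρ) (hB : ∀ c : ℂ, ‖c • ξ‖ ≤ r → ‖f (Y + c • ξ)‖ ≤ B) :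
    ‖fderiv ℂ f Y ξ‖ ≤ B / r * ‖ξ‖ := by
  by_cases hξ : ξ = 0
  · simp [hξ]
  have hξn : 0 < ‖ξ‖ := norm_pos_iff.mpr hξ
  set R : ℝ := r / ‖ξ‖ with hRdef
  have hR : 0 < R := div_pos hr hξn
  set g : ℂ → F := fun c => f (Y + c • ξ) with hg
  have hmem : ∀ c : ℂ, ‖c‖ ≤ R → Y + c • ξ ∈ Metric.ball (0 : E) ρ := by
    intro c hc
    rw [mem_ball_zero_iff]
    have h1 : ‖c • ξ‖ ≤ r := by
      rw [norm_smul]
      calc ‖c‖ * ‖ξ‖ ≤ R * ‖ξ‖ := by gcongr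
        _ = r := by rw [hRdef]; field_simp
    calc ‖Y + c • ξ‖ ≤ ‖Y‖ + ‖c • ξ‖ := norm_add_le _ _
      _ ≤ ‖Y‖ + r := by gcongr
      _ < ρ := hY
  have hlin : ∀ c : ℂ, HasDerivAt (fun c : ℂ => Y + c • ξ) ξ c := by
    intro c
    have := ((hasDerivAt_id c).smul_const ξ).const_add Y
    simpa using this
  have hdiff : ∀ c : ℂ, ‖c‖ ≤ R → DifferentiableAt ℂ g c := by
    intro c hc
    have h1 : DifferentiableAt ℂ f (Y + c • ξ) :=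
      (hf _ (hmem c hc)).differentiableAt (Metric.isOpen_ball.mem_nhds (hmem c hc))
    exact h1.comp c (hlin c).differentiableAt
  have hd : DiffContOnCl ℂ g (Metric.ball 0 R) := by
    apply DifferentiableOn.diffContOnCl
    intro c hc
    rw [closure_ball (0 : ℂ) hR.ne'] at hc
    exact (hdiff c (by simpa using hc)).differentiableWithinAt
  have hC : ∀ z ∈ Metric.sphere (0 : ℂ) R, ‖g z‖ ≤ B := by
    intro z hz
    have hz' : ‖z‖ = R := by simpa using hz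
    apply hB
    rw [norm_smul, hz', hRdef]
    field_simp
    exact le_refl _
  have key := Complex.norm_deriv_le_of_forall_mem_sphere_norm_le hR hd hC
  have hderiv : deriv g 0 = fderiv ℂ f Y ξ := by
    have h1 : DifferentiableAt ℂ f (Y + (0 : ℂ) • ξ) :=
      (hf _ (hmem 0 (by simpa using hR.le))).differentiableAt
        (Metric.isOpen_ball.mem_nhds (hmem 0 (by simpa using hR.le)))
    have h2 := h1.hasFDerivAt.comp_hasDerivAt (0 : ℂ) (hlin 0)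
    have h3 : deriv g 0 = fderiv ℂ f (Y + (0 : ℂ) • ξ) ξ := h2.deriv
    simpa using h3
  rw [← hderiv]
  calc ‖deriv g 0‖ ≤ B / R := key
    _ = B / r * ‖ξ‖ := by rw [hRdef]; field_simp

/-- block form on a product -/
theorem e4c_pair {f : E₁ × E₂ → F} {ρ : ℝ} (hf : DifferentiableOn ℂ f (Metric.ball 0 ρ))
    {X : E₁ × E₂} {r B₁ B₂ : ℝ} (hr : 0 < r) (hX : ‖X‖ + r < ρ)
    (h₁ : ∀ η : E₁, ‖η‖ ≤ r → ‖f (X.1 + η, X.2)‖ ≤ B₁)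
    (h₂ : ∀ η : E₂, ‖η‖ ≤ r → ‖f (X.1, X.2 + η)‖ ≤ B₂) (ξ : E₁ × E₂) :
    ‖fderiv ℂ f X ξ‖ ≤ B₁ / r * ‖ξ.1‖ + B₂ / r * ‖ξ.2‖ := by
  have hsplit : ξ = (ξ.1, 0) + (0, ξ.2) := by ext <;> simp
  have e1 : ‖fderiv ℂ f X (ξ.1, 0)‖ ≤ B₁ / r * ‖((ξ.1, 0) : E₁ × E₂)‖ := by
    apply e4c_dir hf hr hX
    intro c hc
    have : X + c • ((ξ.1, 0) : E₁ × E₂) = (X.1 + c • ξ.1, X.2) := by ext <;> simp
    rw [this]
    apply h₁
    have h3 : ‖c • ((ξ.1, 0) : E₁ × E₂)‖ = ‖c • ξ.1‖ := by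
      simp only [Prod.smul_mk, smul_zero, Prod.norm_def, norm_zero]
      exact max_eq_left (norm_nonneg _)
    rw [← h3]; exact hc
  have e2 : ‖fderiv ℂ f X (0, ξ.2)‖ ≤ B₂ / r * ‖((0, ξ.2) : E₁ × E₂)‖ := by
    apply e4c_dir hf hr hX
    intro c hc
    have : X + c • ((0, ξ.2) : E₁ × E₂) = (X.1, X.2 + c • ξ.2) := by ext <;> simp
    rw [this]
    apply h₂
    have h3 : ‖c • ((0, ξ.2) : E₁ × E₂)‖ = ‖c • ξ.2‖ := by
      simp only [Prod.smul_mk, smul_zero, Prod.norm_def, norm_zero]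
      exact max_eq_right (norm_nonneg _)
    rw [← h3]; exact hc
  have n1 : ‖((ξ.1, 0) : E₁ × E₂)‖ = ‖ξ.1‖ := by simp [Prod.norm_def]
  have n2 : ‖((0, ξ.2) : E₁ × E₂)‖ = ‖ξ.2‖ := by simp [Prod.norm_def]
  rw [n1] at e1
  rw [n2] at e2
  calc ‖fderiv ℂ f X ξ‖ = ‖fderiv ℂ f X (ξ.1, 0) + fderiv ℂ f X (0, ξ.2)‖ := by
        rw [← map_add, ← hsplit]
    _ ≤ ‖fderiv ℂ f X (ξ.1, 0)‖ + ‖fderiv ℂ f X (0, ξ.2)‖ := norm_add_le _ _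
    _ ≤ B₁ / r * ‖ξ.1‖ + B₂ / r * ‖ξ.2‖ := add_le_add e1 e2

/-- block form on plane states `(x, y, Q)` -/
theorem e4c_triple {G : Type} [NormedAddCommGroup G] [NormedSpace ℂ G] {f : ℂ × ℂ × G → F} {ρ : ℝ} (hf : DifferentiableOn ℂ f (Metric.ball 0 ρ))
    {Y : ℂ × ℂ × G} {r B₁ B₂ : ℝ} (hr : 0 < r) (hY : ‖Y‖ + r < ρ)
    (h₁ : ∀ a b : ℂ, ‖a‖ ≤ r → ‖b‖ ≤ r → ‖f (Y.1 + a, Y.2.1 + b, Y.2.2)‖ ≤ B₁)
    (h₂ : ∀ η : G, ‖η‖ ≤ r → ‖f (Y.1, Y.2.1, Y.2.2 + η)‖ ≤ B₂) (ξ : ℂ × ℂ × G) :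
    ‖fderiv ℂ f Y ξ‖ ≤ B₁ / r * wn ξ + B₂ / r * ‖ξ.2.2‖ := by
  have hsplit : ξ = (ξ.1, ξ.2.1, 0) + (0, 0, ξ.2.2) := by ext <;> simp
  have n1 : ‖((ξ.1, ξ.2.1, 0) : ℂ × ℂ × G)‖ = wn ξ := by simp [Prod.norm_def, wn]
  have n2 : ‖((0, 0, ξ.2.2) : ℂ × ℂ × G)‖ = ‖ξ.2.2‖ := by simp [Prod.norm_def]
  have e1 : ‖fderiv ℂ f Y (ξ.1, ξ.2.1, 0)‖ ≤ B₁ / r * ‖((ξ.1, ξ.2.1, 0) : ℂ × ℂ × G)‖ := by
    apply e4c_dir hf hr hY
    intro c hc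
    have : Y + c • ((ξ.1, ξ.2.1, 0) : ℂ × ℂ × G) = (Y.1 + c * ξ.1, Y.2.1 + c * ξ.2.1, Y.2.2) := by
      ext <;> simp
    rw [this]
    have h3 : ‖c • ((ξ.1, ξ.2.1, 0) : ℂ × ℂ × G)‖ = max ‖c * ξ.1‖ ‖c * ξ.2.1‖ := by
      simp only [Prod.smul_mk, smul_zero, Prod.norm_def, norm_zero, smul_eq_mul]
      rw [max_eq_left (norm_nonneg (c * ξ.2.1))]
    rw [h3] at hc
    exact h₁ _ _ (le_trans (le_max_left _ _) hc) (le_trans (le_max_right _ _) hc)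
  have e2 : ‖fderiv ℂ f Y (0, 0, ξ.2.2)‖ ≤ B₂ / r * ‖((0, 0, ξ.2.2) : ℂ × ℂ × G)‖ := by
    apply e4c_dir hf hr hY
    intro c hc
    have : Y + c • ((0, 0, ξ.2.2) : ℂ × ℂ × G) = (Y.1, Y.2.1, Y.2.2 + c • ξ.2.2) := by
      ext <;> simp
    rw [this]
    apply h₂
    have h3 : ‖c • ((0, 0, ξ.2.2) : ℂ × ℂ × G)‖ = ‖c • ξ.2.2‖ := by
      simp only [Prod.smul_mk, smul_zero, Prod.norm_def, norm_zero]
      rw [max_eq_right (norm_nonneg _), max_eq_right (norm_nonneg _)]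
    rw [← h3]; exact hc
  rw [n1] at e1
  rw [n2] at e2
  calc ‖fderiv ℂ f Y ξ‖ = ‖fderiv ℂ f Y (ξ.1, ξ.2.1, 0) + fderiv ℂ f Y (0, 0, ξ.2.2)‖ := by
        rw [← map_add, ← hsplit]
    _ ≤ ‖fderiv ℂ f Y (ξ.1, ξ.2.1, 0)‖ + ‖fderiv ℂ f Y (0, 0, ξ.2.2)‖ := norm_add_le _ _
    _ ≤ B₁ / r * wn ξ + B₂ / r * ‖ξ.2.2‖ := add_le_add e1 e2

end

end Claimed.Agent.R285.E4
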