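import Claimed.Agent.R285.Base.Flow

/-!
# ROW 285, [E] Section 4: the DEFINITIONS of `Read/E4.lean`, moved here verbatim (helper103, 14:00Z) so that the files
`R285/E4/P41*.lean`, `L42*.lean`, `L43*.lean`, `P44*.lean` can import them and `Read/E4.lean` can import those files at the end.
K1 verdicts, plan and the contracts themselves: `R285/Read/E4.lean` (owner helper27).
-/

set_option autoImplicit false

namespace Claimed.Agent.R285.E4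

open Filter Topology Claims.C0459
open Claimed.Agent.R285.Flow

noncomputable section

/-! ## 0. The fixed choices of the beginning of Section 4 (explicit functions of the map constants) -/

/-- `θ₁` -/
def th1 (κ : MapC) : ℝ := (1 + κ.θ) / 2
/-- `r ∈ (θ₁, 1)` -/
def rr (κ : MapC) : ℝ := (1 + th1 κ) / 2
/-- `C_*`: `C_* log L > 1000`, `2 / C_* < - log r / 100` -/
def Cs (κ : MapC) : ℝ := 1001 / Real.log κ.L + 201 / (-Real.log (rr κ))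
/-- `γ`: `γ C_* < 1/100`, `γ < - log r / 100` -/
def gam (κ : MapC) : ℝ := min (1 / (101 * Cs κ)) (-Real.log (rr κ) / 101)
/-- the matching index `J = ⌊C_* log s⌋` -/
def JJ (κ : MapC) (s : ℕ) : ℕ := ⌊Cs κ * Real.log s⌋₊

/-! ## 1. [E] P3.6 as a hypothesis -/

/-- the critical asymptotics (3.20) at stage `i` -/
def CritAt (H : Hist) (C : ℝ) (i : ℕ) : Prop :=
  ‖H.x xyCritical i - 1 / ((H.j0 + i : ℕ) : ℂ)‖ ≤ C * Real.log (2 + (H.j0 + i : ℕ)) / ((H.j0 + i : ℕ) : ℝ) ^ 2 ∧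
  ‖H.y xyCritical i - 1 / ((H.j0 + i : ℕ) : ℂ)‖ ≤ C * Real.log (2 + (H.j0 + i : ℕ)) / ((H.j0 + i : ℕ) : ℝ) ^ 2 ∧
  H.q xyCritical i ≤ C / ((H.j0 + i : ℕ) : ℝ) ^ 2

/-- the torus remainder at stage `i` behind the stop `h` -/
def CritTor (H : Hist) (C : ℝ) (h i : ℕ) : Prop := ‖H.tor xyCritical h i‖ ≤ C / ((H.j0 + i : ℕ) : ℝ) ^ 2

/-- [E] P3.6 (critical histories), for the tube of radius `ρt` -/
structure Crit (κ : MapC) (κe : EntC) (H : ℕ → Hist) (ρt : ℝ) where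
  sk : ℕ → ℕ
  c1 : ℝ
  C1 : ℝ
  hc1 : 0 < c1
  adm : ∀ k, Adm κ κe (sk k)
  size : ∀ k, c1 * 2 ^ k ≤ (sk k : ℝ) ∧ (sk k : ℝ) ≤ C1 * 2 ^ k
  asym : ∀ c c' : ℝ, 0 < c → c < c' → c' < 3 → ∃ C : ℝ, ∀ᶠ k : ℕ in atTop, ∀ i : ℕ,
    c * 2 ^ k ≤ (((H (sk k)).j0 + i : ℕ) : ℝ) → (((H (sk k)).j0 + i : ℕ) : ℝ) ≤ c' * 2 ^ k →
      CritAt (H (sk k)) C i ∧ ∀ h, (H (sk k)).j0 + i ≤ h → h ≤ 4 * 2 ^ k → CritTor (H (sk k)) C h i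
  conf : ∀ Jm : ℕ → ℕ, Tendsto (fun s => (Jm s : ℝ) / (s : ℝ) ^ 2) atTop (𝓝 0) →
    ∀ᶠ s : ℕ in atTop, Adm κ κe s → ∀ i, (H s).j0 + i ≤ Jm s →
      ‖(H s).st xyCritical i‖ < ρt ∧
      ∀ h, (H s).j0 + i ≤ h → h ≤ Jm s → Valid κ κe s (H s) h → ‖(H s).ts xyCritical h i‖ < ρt

/-! ## 2. Temperature derivatives -/

def Vx (H : Hist) (i : ℕ) : ℂ := deriv (fun b : ℂ => H.x b i) xyCritical
def Vy (H : Hist) (i : ℕ) : ℂ := deriv (fun b : ℂ => H.y b i) xyCritical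
def Vn (H : Hist) (i : ℕ) : ℝ := max ‖Vx H i‖ ‖Vy H i‖
def dQ (H : Hist) (i : ℕ) : ℝ := ‖deriv (fun b : ℂ => (H.st b i).2.2) xyCritical‖
def dT (H : Hist) (h i : ℕ) : ℝ := ‖deriv (fun b : ℂ => H.tor b h i) xyCritical‖

/-- the standing hypotheses of Section 4 -/
structure Hyp (κ : MapC) (κe : EntC) (ρe ρt : ℝ) (H : ℕ → Hist) where
  hρe : 0 < ρe
  hρt : 0 < ρt
  dvd : ∃ j1, κe.q0 ∣ κ.L ^ j1
  sys : ∀ s, Adm κ κe s → SysOK κ κe ρe s (H s)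
  crit : Crit κ κe H ρt

/-- `𝒫` is the response constant of the canonical family: (4.2) -/
def IsResp {κ : MapC} {κe : EntC} {ρe ρt : ℝ} {H : ℕ → Hist} (hy : Hyp κ κe ρe ρt H) (P : ℝ) : Prop :=
  0 < P ∧ ∀ ε : ℝ, 0 < ε → ∀ᶠ k : ℕ in atTop, ∀ i : ℕ,
    (1 / 2 : ℝ) * 2 ^ k ≤ (((H (hy.crit.sk k)).j0 + i : ℕ) : ℝ) →
    (((H (hy.crit.sk k)).j0 + i : ℕ) : ℝ) ≤ (5 / 2 : ℝ) * 2 ^ k →
      ‖Vx (H (hy.crit.sk k)) i / ((H (hy.crit.sk k)).j0 + i : ℕ) - P‖ ≤ ε ∧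
      ‖Vy (H (hy.crit.sk k)) i / ((H (hy.crit.sk k)).j0 + i : ℕ) + P / 2‖ ≤ ε

/-- a choice of admissible sides `s ≍ ε^{-1/3}` -/
structure Sides (κ : MapC) (κe : EntC) (sf : ℝ → ℕ) : Prop where
  adm : ∀ᶠ ε in 𝓝[>] (0 : ℝ), Adm κ κe (sf ε)
  size : ∃ c C : ℝ, 0 < c ∧ ∀ᶠ ε in 𝓝[>] (0 : ℝ), c * ε ^ (-(1 / 3) : ℝ) ≤ sf ε ∧ (sf ε : ℝ) ≤ C * ε ^ (-(1 / 3) : ℝ)

/-- the physical conclusions of [E] P4.4, with `T = π / √(3 𝒫)` -/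
def PassageConcl (L D0 : ℕ) (T : ℝ) : Prop :=
  (∀ (ε : ℕ → ℝ) (j : ℕ → ℕ) (w : ℝ), (∀ k, 0 < ε k) → Tendsto ε atTop (𝓝 0) → 0 < w → w < T →
      Tendsto (fun k => Real.sqrt (ε k) * (j k : ℝ)) atTop (𝓝 w) →
      Tendsto (fun k => torVar (xyCritical - ε k) (D0 * L ^ j k)) atTop (𝓝 (1 / Real.pi))) ∧
  (∃ (c : ℝ) (je : ℝ → ℕ), 0 < c ∧
      Tendsto (fun ε => Real.sqrt ε * (je ε : ℝ)) (𝓝[>] 0) (𝓝 T) ∧
      ∀ᶠ ε in 𝓝[>] 0, torVar (xyCritical - ε) (D0 * L ^ je ε) ≤ 1 / Real.pi - c)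

end

end Claimed.Agent.R285.E4
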