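import Claimed.Agent.R285.E4.Phys

/-!
# ROW 285, [E] L4.2 (critical estimates after a logarithmic initial interval)   (architect helper90; prefix `l42_`)

`l42_late_critical` has verbatim the statement of `E4.late_critical` (`Read/E4.lean`).

`Late κ κe ρe ρt s H ja Km` collects everything L4.2 (and the late side of L4.3) uses about ONE history whose entry is far below the stops `h ∈ [ja, Km]`: no filters.
The canonical histories enter only through `PhysAt κ Cp j` (`Phys.lean`).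

Plan ([E], proof of L4.2, with `B` instead of the maximum `R_i`):
* `l42_scalar`   (4.13): if `‖Q_i‖, ‖tor_{i|j}‖ ≤ B` then `|W_i|, |(t_i, z_i)| ≤ C₁/j + a B`, `a` depending on `κ` only;
* `l42_contract` (4.14): `RB i B → RB (i+1) (θ₁ B + A/j²)`, `RB` = bound for `Q_i` and ALL tori behind stops in `[j, Km]`;
* `l42_decay`    : iteration from `ja`: `RB i (A₂/j²)` for `j ≥ 2 ja`;
* `l42_refine`   : second read-out comparison: `CritAt`.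
ORDER OF CONSTANTS: the smallness `ρt1` of the tube depends on `κ` only, it is chosen BEFORE `Cp` (which depends on the histories, hence on `ρt`).
-/

set_option autoImplicit false

namespace Claimed.Agent.R285.E4

open Filter Topology Claims.C0459
open Claimed.Agent.R285.Flow

noncomputable section

/-- one history, all stops `h ∈ [ja, Km]` far behind the entry -/
structure Late (κ : MapC) (κe : EntC) (ρe ρt : ℝ) (s : ℕ) (H : Hist) (ja Km : ℕ) : Prop where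
  sys : SysOK κ κe ρe s H
  spos : 0 < s
  ja1 : 1 ≤ ja
  j0 : H.j0 ≤ ja
  conf : ∀ i, H.j0 + i ≤ Km → ‖H.st xyCritical i‖ < ρt
  conft : ∀ h i, ja ≤ h → h ≤ Km → H.j0 + i ≤ h → ‖H.ts xyCritical h i‖ < ρt
  valid : ∀ h, ja ≤ h → h ≤ Km → Valid κ κe s H h
  err : ∀ h, ja ≤ h → h ≤ Km → errAll κ κe s h ≤ 1 / (h : ℝ) ^ 2

/-- the remainder bound at stage `i`: plane remainder and all tori behind stops `≤ Km` -/
def RB (H : Hist) (Km i : ℕ) (B : ℝ) : Prop :=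
  ‖(H.st xyCritical i).2.2‖ ≤ B ∧ ∀ h, H.j0 + i ≤ h → h ≤ Km → ‖H.tor xyCritical h i‖ ≤ B

/-- the start index `⌈J/100⌉` -/
def jA (κ : MapC) (s : ℕ) : ℕ := ⌈(JJ κ s : ℝ) / 100⌉₊

/-! ## 1. Late histories -/

/-- LEAF L42-1 (~150 l., filters).  `filter_upwards` with `hy.crit.conf K hK`, `l42_err_small κ κe K hK` (gives `h0`), `l42_JJ_far κ`, `l42_JJ_tendsto κ` (so `max h0 jmin ≤ jA κ s`, via `Nat.le_ceil`),
`eventually_gt_atTop 0`.  `sys := hy.sys s hadm`; `j0`: last part of `l42_err_small` at `h = jA κ s` with `EntryOK.side`; `Far κ s h` for `h ≥ jA κ s` since `J/100 ≤ jA ≤ h`;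
`valid`: `Valid = (j0 ≤ h) ∧ (s P0 ≤ n_h) ∧ (cutErr ≤ 1)` (unfold `Valid`, `cutErr`); `conft` from the second part of `conf` + `valid`. -/
theorem l42_late {κ : MapC} {κe : EntC} {ρe ρt : ℝ} {H : ℕ → Hist} (hy : Hyp κ κe ρe ρt H) (K : ℕ → ℕ)
    (hK : Tendsto (fun s : ℕ => (K s : ℝ) / (s : ℝ) ^ 2) atTop (𝓝 0)) (jmin : ℕ) :
    ∀ᶠ s : ℕ in atTop, Adm κ κe s → Late κ κe ρe ρt s (H s) (jA κ s) (K s) ∧ jmin ≤ jA κ s := by
  obtain ⟨h0, herr⟩ := l42_err_small κ κe K hK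
  obtain ⟨h1, hfar⟩ := l42_far_small κ κe
  filter_upwards [hy.crit.conf K hK, herr, l42_JJ_far κ,
    (l42_JJ_tendsto κ).eventually_ge_atTop (100 * (h0 + h1 + jmin + 1)), eventually_gt_atTop 0]
    with s hconf he hF hJ hs hadm
  have hceil : (JJ κ s : ℝ) / 100 ≤ (jA κ s : ℝ) := Nat.le_ceil _
  have hbig : h0 + h1 + jmin + 1 ≤ jA κ s := by
    have h2 : ((100 * (h0 + h1 + jmin + 1) : ℕ) : ℝ) ≤ (JJ κ s : ℝ) := by exact_mod_cast hJ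
    have h3 : ((h0 + h1 + jmin + 1 : ℕ) : ℝ) ≤ (jA κ s : ℝ) := by
      push_cast at h2 ⊢
      linarith
    exact_mod_cast h3
  have hFar : ∀ h : ℕ, jA κ s ≤ h → Far κ s h := by
    intro h hh
    apply hF h
    have : (jA κ s : ℝ) ≤ (h : ℝ) := by exact_mod_cast hh
    linarith
  have hsys := hy.sys s hadm
  have hj0 : ∀ h : ℕ, jA κ s ≤ h → (H s).j0 ≤ h := by
    intro h hh
    exact (hfar s h (by omega) (hFar h hh)).2.2 _ hsys.entry.side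
  have hvalid : ∀ h, jA κ s ≤ h → h ≤ K s → Valid κ κe s (H s) h := by
    intro h hh hhK
    obtain ⟨_, a2, a3, _⟩ := he h (by omega) (hFar h hh) hhK
    exact ⟨hj0 h hh, a2, a3⟩
  refine ⟨⟨hsys, hs, by omega, hj0 _ le_rfl, fun i hi => (hconf hadm i hi).1, ?_, hvalid, ?_⟩, by omega⟩
  · intro h i hh hhK hi
    exact (hconf hadm i (hi.trans hhK)).2 h hi hhK (hvalid h hh hhK)
  · intro h hh hhK
    exact (he h (by omega) (hFar h hh) hhK).1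

theorem Late.inside {κ : MapC} {κe : EntC} {ρe ρt : ℝ} {s : ℕ} {H : Hist} {ja Km : ℕ} (hL : Late κ κe ρe ρt s H ja Km)
    (hρ : ρt ≤ κ.ρ) {h i : ℕ} (h1 : ja ≤ h) (h2 : h ≤ Km) (h3 : H.j0 + i ≤ h) : H.Inside κ.ρ xyCritical h i := by
  intro i' hi'
  exact ⟨lt_of_lt_of_le (hL.conf i' (by omega)) hρ, lt_of_lt_of_le (hL.conft h i' h1 h2 (by omega)) hρ⟩

/-! ## 2. The two inequalities (4.13), (4.14) -/

/-- arithmetic of (4.13), unbalanced scalars -/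
theorem l42_ar_d {d B u η m C ρ cp : ℝ} (hm : 0 < m) (hd : 0 ≤ d) (hB : 0 ≤ B) (hC : 0 ≤ C)
    (hρ1 : ρ ≤ 1) (hη : η ≤ m / 4) (hη2 : η ≤ u) (hρ : C * ρ ≤ m / 4)
    (h : m * d ≤ cp * u + η * (2 + d) + C * (B + ρ * (d + B))) :
    d ≤ 2 / m * (cp + 2) * u + 4 * C / m * B := by
  have h1 : η * d ≤ m / 4 * d := by gcongr
  have h2 : C * ρ * d ≤ m / 4 * d := by gcongr
  have h3 : C * B * ρ ≤ C * B * 1 := by
    have : 0 ≤ C * B := mul_nonneg hC hB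
    gcongr
  have h4 : m / 2 * d ≤ (cp + 2) * u + 2 * C * B := by nlinarith
  have e : d = 2 / m * (m / 2 * d) := by field_simp
  rw [e]
  calc 2 / m * (m / 2 * d) ≤ 2 / m * ((cp + 2) * u + 2 * C * B) := by gcongr
    _ = 2 / m * (cp + 2) * u + 4 * C / m * B := by ring

/-- arithmetic of (4.13), normal coordinates -/
theorem l42_ar_w {w d B e l C ρ : ℝ} (hl : 0 < l) (hw : 0 ≤ w)
    (he : C * e ≤ l / 4) (hρ : C * ρ ≤ l / 4) (h : l * w ≤ d + C * ((e + ρ) * w + B)) :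
    w ≤ 2 / l * d + 2 * C / l * B := by
  have h1 : C * e * w ≤ l / 4 * w := by gcongr
  have h2 : C * ρ * w ≤ l / 4 * w := by gcongr
  have h4 : l / 2 * w ≤ d + C * B := by nlinarith
  have e : w = 2 / l * (l / 2 * w) := by field_simp
  rw [e]
  calc 2 / l * (l / 2 * w) ≤ 2 / l * (d + C * B) := by gcongr
    _ = 2 / l * d + 2 * C / l * B := by ring

/-- `log (2 + j) / j² ≤ 2 / j` -/
theorem l42_log_sq {j : ℕ} (hj : 1 ≤ j) (C : ℝ) : C * Real.log (2 + j) / (j : ℝ) ^ 2 ≤ 2 * |C| * (1 / (j : ℝ)) := by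
  have hj1 : (1 : ℝ) ≤ j := by exact_mod_cast hj
  have hj0 : (0 : ℝ) < j := by linarith
  have hL0 : 0 ≤ Real.log (2 + (j : ℝ)) := Real.log_nonneg (by linarith)
  have hL1 : Real.log (2 + (j : ℝ)) ≤ 2 * j := by
    have := Real.log_le_sub_one_of_pos (by linarith : (0 : ℝ) < 2 + j)
    linarith
  calc C * Real.log (2 + j) / (j : ℝ) ^ 2 ≤ |C| * (2 * j) / (j : ℝ) ^ 2 := by
        gcongr
        exact le_abs_self _
    _ = 2 * |C| * (1 / (j : ℝ)) := by field_simp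

/-- the physical diagnostics have size `O(1/j)` -/
theorem l42_phys_size (κ : MapC) (Cp : ℝ) {j : ℕ} (hj : 1 ≤ j) (hP : PhysAt κ Cp j) :
    |torVar xyCritical (κ.n j) - 1 / Real.pi|
      ≤ (1 / (Real.pi * κ.bs) + κ.C / Real.sqrt (κ.bs * κ.Hq) + 2 * |Cp|) * (1 / (j : ℝ)) ∧
    |torPhase xyCritical (κ.n j)|
      ≤ (1 / (Real.pi * κ.bs) + κ.C / Real.sqrt (κ.bs * κ.Hq) + 2 * |Cp|) * (1 / (j : ℝ)) := by
  have hbs := κ.bs_pos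
  have hpi := Real.pi_pos
  have hsq : 0 < Real.sqrt (κ.bs * κ.Hq) := Real.sqrt_pos.2 (mul_pos hbs κ.hH)
  have hC0 : 0 ≤ κ.C := le_trans zero_le_one κ.hC
  have hj1 : (1 : ℝ) ≤ j := by exact_mod_cast hj
  have hj0 : (0 : ℝ) < j := by linarith
  have hu0 : 0 ≤ 1 / (j : ℝ) := by positivity
  obtain ⟨p1, p2⟩ := hP
  have L := l42_log_sq hj Cp
  obtain ⟨pa, pb⟩ := κ.hp j
  have hp0 : 0 ≤ κ.p j := le_trans κ.hc.le pa
  constructor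
  · have e : torVar xyCritical (κ.n j) - 1 / Real.pi
        = (torVar xyCritical (κ.n j) - (1 / Real.pi + 1 / (Real.pi * κ.bs * j))) + 1 / (Real.pi * κ.bs * j) := by ring
    rw [e]
    refine (abs_add_le _ _).trans ?_
    have a1 : |1 / (Real.pi * κ.bs * (j : ℝ))| = 1 / (Real.pi * κ.bs) * (1 / (j : ℝ)) := by
      rw [abs_of_nonneg (by positivity)]
      field_simp
    rw [a1]
    have a2 : 0 ≤ κ.C / Real.sqrt (κ.bs * κ.Hq) * (1 / (j : ℝ)) := by positivity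
    nlinarith
  · have e : torPhase xyCritical (κ.n j)
        = (torPhase xyCritical (κ.n j) - κ.p j / (Real.sqrt (κ.bs * κ.Hq) * j)) + κ.p j / (Real.sqrt (κ.bs * κ.Hq) * j) := by ring
    rw [e]
    refine (abs_add_le _ _).trans ?_
    have a1 : |κ.p j / (Real.sqrt (κ.bs * κ.Hq) * (j : ℝ))| ≤ κ.C / Real.sqrt (κ.bs * κ.Hq) * (1 / (j : ℝ)) := by
      rw [abs_of_nonneg (by positivity)]
      have : κ.p j / (Real.sqrt (κ.bs * κ.Hq) * (j : ℝ)) = κ.p j / Real.sqrt (κ.bs * κ.Hq) * (1 / (j : ℝ)) := by field_simp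
      rw [this]
      gcongr
    have a2 : 0 ≤ 1 / (Real.pi * κ.bs) * (1 / (j : ℝ)) := by positivity
    nlinarith

/-- (4.13), first half: the two read-outs control the unbalanced scalars -/
theorem l42_md {κ : MapC} {κe : EntC} {ρe ρt : ℝ} {s : ℕ} {H : Hist} {ja Km : ℕ} (hL : Late κ κe ρe ρt s H ja Km)
    (hρκ : ρt ≤ κ.ρ) {i : ℕ} (hja : ja ≤ H.j0 + i) (hKm : H.j0 + i ≤ Km) {Cp : ℝ} (hP : PhysAt κ Cp (H.j0 + i))
    {B : ℝ} (hT : ‖H.tor xyCritical (H.j0 + i) i‖ ≤ B) :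
    min (1 / Real.pi) κ.c * ‖H.sc (H.j0 + i) (H.st xyCritical i)‖
      ≤ (1 / (Real.pi * κ.bs) + κ.C / Real.sqrt (κ.bs * κ.Hq) + 2 * |Cp|) * (1 / ((H.j0 + i : ℕ) : ℝ))
        + 1 / ((H.j0 + i : ℕ) : ℝ) ^ 2 * (2 + ‖H.sc (H.j0 + i) (H.st xyCritical i)‖)
        + κ.C * (B + ρt * (‖H.sc (H.j0 + i) (H.st xyCritical i)‖ + B)) := by
  have hpi := Real.pi_pos
  have hC0 : 0 ≤ κ.C := le_trans zero_le_one κ.hC
  have hj : 1 ≤ H.j0 + i := le_trans hL.ja1 hja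
  obtain ⟨P1, P2⟩ := l42_phys_size κ Cp hj hP
  set cp : ℝ := 1 / (Real.pi * κ.bs) + κ.C / Real.sqrt (κ.bs * κ.Hq) + 2 * |Cp| with hcp
  set jr : ℝ := ((H.j0 + i : ℕ) : ℝ) with hjr
  set X := H.ts xyCritical (H.j0 + i) i with hXdef
  set d : ℝ := ‖H.sc (H.j0 + i) (H.st xyCritical i)‖ with hd
  have hX1 : X.1 = H.sc (H.j0 + i) (H.st xyCritical i) := rfl
  have hX2 : X.2 = H.tor xyCritical (H.j0 + i) i := rfl
  have hX : ‖X‖ < ρt := hL.conft (H.j0 + i) i hja hKm le_rfl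
  have hρt0 : 0 < ρt := lt_of_le_of_lt (norm_nonneg _) hX
  have hB0 : 0 ≤ B := le_trans (norm_nonneg _) hT
  have hd0 : 0 ≤ d := norm_nonneg _
  have ht : ‖X.1.1‖ ≤ d := by rw [hd, ← hX1]; exact norm_fst_le _
  have hz : ‖X.1.2‖ ≤ d := by rw [hd, ← hX1]; exact norm_snd_le _
  have hXd : ‖X‖ ≤ d + B := by
    rw [Prod.norm_def]
    apply max_le
    · rw [hX1]; linarith
    · rw [hX2]; linarith
  have hXsq : ‖X‖ ^ 2 ≤ ρt * (d + B) := by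
    rw [sq]
    exact mul_le_mul hX.le hXd (norm_nonneg _) hρt0.le
  obtain ⟨r1, r2⟩ := ph_read hL.sys (cau_center_mem_disk hL.spos) (hL.valid _ hja hKm) (hL.inside hρκ hja hKm le_rfl)
    (hL.err _ hja hKm)
  have hη0 : 0 ≤ 1 / jr ^ 2 := by positivity
  have hR : κ.C * (‖H.tor xyCritical (H.j0 + i) i‖ + ‖X‖ ^ 2) ≤ κ.C * (B + ρt * (d + B)) := by gcongr
  have T1 : min (1 / Real.pi) κ.c * ‖X.1.1‖ ≤ cp * (1 / jr) + 1 / jr ^ 2 * (2 + d) + κ.C * (B + ρt * (d + B)) := by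
    have a1 : min (1 / Real.pi) κ.c * ‖X.1.1‖ ≤ 1 / Real.pi * ‖X.1.1‖ := by
      gcongr
      exact min_le_left _ _
    have a2 : 1 / Real.pi * ‖X.1.1‖ = ‖X.1.1 / (Real.pi : ℂ)‖ := by
      rw [norm_div, Complex.norm_real, Real.norm_of_nonneg hpi.le]
      ring
    have e : X.1.1 / (Real.pi : ℂ) = (((torVar xyCritical (κ.n (H.j0 + i)) - 1 / Real.pi : ℝ)) : ℂ)
        - (((torVar xyCritical (κ.n (H.j0 + i)) : ℝ) : ℂ) - (1 + X.1.1) / Real.pi) := by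
      push_cast
      ring
    have a3 : ‖X.1.1 / (Real.pi : ℂ)‖ ≤ |torVar xyCritical (κ.n (H.j0 + i)) - 1 / Real.pi|
        + ‖((torVar xyCritical (κ.n (H.j0 + i)) : ℝ) : ℂ) - (1 + X.1.1) / Real.pi‖ := by
      rw [e]
      refine (norm_sub_le _ _).trans ?_
      rw [Complex.norm_real, Real.norm_eq_abs]
    have a4 : 1 / jr ^ 2 * (2 + ‖X.1.1‖) ≤ 1 / jr ^ 2 * (2 + d) := by gcongr
    linarith
  have T2 : min (1 / Real.pi) κ.c * ‖X.1.2‖ ≤ cp * (1 / jr) + 1 / jr ^ 2 * (2 + d) + κ.C * (B + ρt * (d + B)) := by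
    obtain ⟨pa, _⟩ := κ.hp (H.j0 + i)
    have hp0 : 0 ≤ κ.p (H.j0 + i) := le_trans κ.hc.le pa
    have a1 : min (1 / Real.pi) κ.c * ‖X.1.2‖ ≤ κ.p (H.j0 + i) * ‖X.1.2‖ := by
      gcongr
      exact (min_le_right _ _).trans pa
    have a2 : κ.p (H.j0 + i) * ‖X.1.2‖ = ‖(κ.p (H.j0 + i) : ℂ) * X.1.2‖ := by
      rw [norm_mul, Complex.norm_real, Real.norm_of_nonneg hp0]
    have e : (κ.p (H.j0 + i) : ℂ) * X.1.2 = ((torPhase xyCritical (κ.n (H.j0 + i)) : ℝ) : ℂ)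
        - (((torPhase xyCritical (κ.n (H.j0 + i)) : ℝ) : ℂ) - κ.p (H.j0 + i) * X.1.2) := by ring
    have a3 : ‖(κ.p (H.j0 + i) : ℂ) * X.1.2‖ ≤ |torPhase xyCritical (κ.n (H.j0 + i))|
        + ‖((torPhase xyCritical (κ.n (H.j0 + i)) : ℝ) : ℂ) - κ.p (H.j0 + i) * X.1.2‖ := by
      rw [e]
      refine (norm_sub_le _ _).trans ?_
      rw [Complex.norm_real, Real.norm_eq_abs]
      simp
    have a4 : 1 / jr ^ 2 * (1 + ‖X.1.2‖) ≤ 1 / jr ^ 2 * (2 + d) := by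
      gcongr
      linarith
    linarith
  have hdmax : d = max ‖X.1.1‖ ‖X.1.2‖ := by rw [hd, ← hX1, Prod.norm_def]
  rcases max_cases ‖X.1.1‖ ‖X.1.2‖ with ⟨h, _⟩ | ⟨h, _⟩
  · have : d = ‖X.1.1‖ := hdmax.trans h
    calc min (1 / Real.pi) κ.c * d = min (1 / Real.pi) κ.c * ‖X.1.1‖ := by rw [← this]
      _ ≤ _ := T1
  · have : d = ‖X.1.2‖ := hdmax.trans h
    calc min (1 / Real.pi) κ.c * d = min (1 / Real.pi) κ.c * ‖X.1.2‖ := by rw [← this]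
      _ ≤ _ := T2

/-- (4.13), second half: the unbalanced scalars control the normal coordinates -/
theorem l42_lw {κ : MapC} {κe : EntC} {ρe ρt : ℝ} {s : ℕ} {H : Hist} {ja Km : ℕ} (hL : Late κ κe ρe ρt s H ja Km)
    (hρκ : ρt ≤ κ.ρ) {i : ℕ} (hKm : H.j0 + i ≤ Km) {B : ℝ} (hQ : ‖(H.st xyCritical i).2.2‖ ≤ B) :
    min (1 / κ.bs) (1 / Real.sqrt (κ.bs * κ.Hq)) * wn (H.st xyCritical i)
      ≤ ‖H.sc (H.j0 + i) (H.st xyCritical i)‖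
        + κ.C * ((Real.exp (-κ.c * ((H.j0 + i : ℕ) : ℝ)) + ρt) * wn (H.st xyCritical i) + B) := by
  have hbs := κ.bs_pos
  have hsq : 0 < Real.sqrt (κ.bs * κ.Hq) := Real.sqrt_pos.2 (mul_pos hbs κ.hH)
  have hC0 : 0 ≤ κ.C := le_trans zero_le_one κ.hC
  set Y := H.st xyCritical i with hYdef
  set d : ℝ := ‖H.sc (H.j0 + i) Y‖ with hd
  set w : ℝ := wn Y with hw
  set e : ℝ := Real.exp (-κ.c * ((H.j0 + i : ℕ) : ℝ)) with he
  have he0 : 0 ≤ e := (Real.exp_pos _).le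
  have hY : ‖Y‖ < ρt := hL.conf i hKm
  have hρt0 : 0 < ρt := lt_of_le_of_lt (norm_nonneg _) hY
  have hw0 : 0 ≤ w := cau_wn_nonneg _
  have hwρ : w ≤ ρt := (cau_wn_le_norm Y).trans hY.le
  have hw2 : w ^ 2 ≤ ρt * w := by
    rw [sq]
    gcongr
  have hYb : Y ∈ Metric.ball (0 : ℂ × ℂ × H.Q (H.j0 + i)) κ.ρ := mem_ball_zero_iff.2 (lt_of_lt_of_le hY hρκ)
  have s1 := hL.sys.map.sc_t (H.j0 + i) (Nat.le_add_right _ _) Y hYb
  have s2 := hL.sys.map.sc_z (H.j0 + i) (Nat.le_add_right _ _) Y hYb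
  have ht : ‖(H.sc (H.j0 + i) Y).1‖ ≤ d := norm_fst_le _
  have hz : ‖(H.sc (H.j0 + i) Y).2‖ ≤ d := norm_snd_le _
  have hy : ‖Y.2.1‖ ≤ w := le_max_right _ _
  have T1 : min (1 / κ.bs) (1 / Real.sqrt (κ.bs * κ.Hq)) * ‖Y.1‖ ≤ d + κ.C * ((e + ρt) * w + B) := by
    have a1 : min (1 / κ.bs) (1 / Real.sqrt (κ.bs * κ.Hq)) * ‖Y.1‖ ≤ 1 / κ.bs * ‖Y.1‖ := by
      gcongr
      exact min_le_left _ _
    have a2 : 1 / κ.bs * ‖Y.1‖ = ‖Y.1 / (κ.bs : ℂ)‖ := by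
      rw [norm_div, Complex.norm_real, Real.norm_of_nonneg hbs.le]
      ring
    have a3 : ‖Y.1 / (κ.bs : ℂ)‖ ≤ ‖(H.sc (H.j0 + i) Y).1‖ + ‖(H.sc (H.j0 + i) Y).1 - Y.1 / κ.bs‖ := by
      have := norm_sub_le (H.sc (H.j0 + i) Y).1 ((H.sc (H.j0 + i) Y).1 - Y.1 / κ.bs)
      simpa using this
    have a4 : κ.C * (w ^ 2 + ‖Y.2.2‖) ≤ κ.C * ((e + ρt) * w + B) := by
      have : ρt * w ≤ (e + ρt) * w := by nlinarith
      gcongr
      linarith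
    linarith
  have T2 : min (1 / κ.bs) (1 / Real.sqrt (κ.bs * κ.Hq)) * ‖Y.2.1‖ ≤ d + κ.C * ((e + ρt) * w + B) := by
    have a1 : min (1 / κ.bs) (1 / Real.sqrt (κ.bs * κ.Hq)) * ‖Y.2.1‖ ≤ 1 / Real.sqrt (κ.bs * κ.Hq) * ‖Y.2.1‖ := by
      gcongr
      exact min_le_right _ _
    have a2 : 1 / Real.sqrt (κ.bs * κ.Hq) * ‖Y.2.1‖ = ‖Y.2.1 / (Real.sqrt (κ.bs * κ.Hq) : ℂ)‖ := by
      rw [norm_div, Complex.norm_real, Real.norm_of_nonneg hsq.le]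
      ring
    have a3 : ‖Y.2.1 / (Real.sqrt (κ.bs * κ.Hq) : ℂ)‖
        ≤ ‖(H.sc (H.j0 + i) Y).2‖ + ‖(H.sc (H.j0 + i) Y).2 - Y.2.1 / Real.sqrt (κ.bs * κ.Hq)‖ := by
      have := norm_sub_le (H.sc (H.j0 + i) Y).2 ((H.sc (H.j0 + i) Y).2 - Y.2.1 / Real.sqrt (κ.bs * κ.Hq))
      simpa using this
    have a4 : κ.C * (e * ‖Y.2.1‖ + w ^ 2 + ‖Y.2.2‖) ≤ κ.C * ((e + ρt) * w + B) := by
      have : e * ‖Y.2.1‖ ≤ e * w := by gcongr
      gcongr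
      nlinarith
    linarith
  rcases max_cases ‖Y.1‖ ‖Y.2.1‖ with ⟨h, _⟩ | ⟨h, _⟩
  · have : w = ‖Y.1‖ := h
    calc min (1 / κ.bs) (1 / Real.sqrt (κ.bs * κ.Hq)) * w = min (1 / κ.bs) (1 / Real.sqrt (κ.bs * κ.Hq)) * ‖Y.1‖ := by
          rw [← this]
      _ ≤ _ := T1
  · have : w = ‖Y.2.1‖ := h
    calc min (1 / κ.bs) (1 / Real.sqrt (κ.bs * κ.Hq)) * w = min (1 / κ.bs) (1 / Real.sqrt (κ.bs * κ.Hq)) * ‖Y.2.1‖ := by
          rw [← this]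
      _ ≤ _ := T2

/-- LEAF L42-2 (~300 l.).  **(4.13).**  Notation `X = H.ts b_c j i = ((t, z), T)`, `Y = H.st b_c i = (x, y, Q)`, `η = 1/j²`, `m = min (1/π) κ.c`, `d = max |t| |z|`.
`ph_read` (with `Late.inside`, `valid`, `err`, `cau_center_mem_disk`):  `|t|/π ≤ |torVar - 1/π| + η (2 + |t|) + C (B + ‖X‖²)`, `κ.c |z| ≤ p_j |z| ≤ |torPhase| + η (1 + |z|) + C (B + ‖X‖²)`;
`‖X‖² ≤ ρt ‖X‖ ≤ ρt (d + B)`;  `PhysAt`: `|torVar - 1/π|, |torPhase| ≤ c_p/j` (`log (2+j) ≤ 2 j`).  With `η ≤ m/4` (`j ≥ j1`), `C ρt1 ≤ m/4`, `ρt1 ≤ 1`:  `d ≤ (2/m)(c_p + 2)/j + (4 C/m) B`.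
`sc_t` (interface F7: error `wn Y ^ 2 ≤ ρt w`, `w = wn Y`): `|x|/b_* ≤ |t| + C (ρt w + B)`;  `sc_z`: `|y|/√(b_* H) ≤ |z| + C (e^{-c j} w + ρt w + B)`;  with `M = max b_* √(b_* H)`:
`w ≤ M (d + C ρt w + C e^{-c j} w + C B)`, absorb with `M C ρt1 ≤ 1/4` and `M C e^{-c j} ≤ 1/4` for `j ≥ j1`. -/
theorem l42_scalar (κ : MapC) : ∃ ρt1 a : ℝ, 0 < ρt1 ∧ ρt1 ≤ κ.ρ ∧ 0 ≤ a ∧ ∀ Cp : ℝ, ∃ (C1 : ℝ) (j1 : ℕ), 0 ≤ C1 ∧ 1 ≤ j1 ∧
    ∀ (κe : EntC) (ρe ρt : ℝ) (s : ℕ) (H : Hist) (ja Km : ℕ), ρt ≤ ρt1 → Late κ κe ρe ρt s H ja Km →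
    ∀ i j : ℕ, j = H.j0 + i → ja ≤ j → j1 ≤ j → j ≤ Km → PhysAt κ Cp j →
    ∀ B : ℝ, ‖(H.st xyCritical i).2.2‖ ≤ B → ‖H.tor xyCritical j i‖ ≤ B →
      wn (H.st xyCritical i) ≤ C1 / j + a * B ∧ ‖H.sc (H.j0 + i) (H.st xyCritical i)‖ ≤ C1 / j + a * B := by
  have hbs := κ.bs_pos
  have hpi := Real.pi_pos
  have hsq : 0 < Real.sqrt (κ.bs * κ.Hq) := Real.sqrt_pos.2 (mul_pos hbs κ.hH)
  have hC0 : 0 < κ.C := lt_of_lt_of_le one_pos κ.hC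
  have hκc := κ.hc
  set m : ℝ := min (1 / Real.pi) κ.c with hm
  have hm0 : 0 < m := lt_min (by positivity) κ.hc
  set l : ℝ := min (1 / κ.bs) (1 / Real.sqrt (κ.bs * κ.Hq)) with hl
  have hl0 : 0 < l := lt_min (by positivity) (by positivity)
  set ρ1 : ℝ := min (min κ.ρ 1) (min (m / (4 * κ.C)) (l / (4 * κ.C))) with hρ1
  have hρ10 : 0 < ρ1 := lt_min (lt_min κ.hρ one_pos) (lt_min (by positivity) (by positivity))
  refine ⟨ρ1, 4 * κ.C / m + 2 / l * (4 * κ.C / m) + 2 * κ.C / l, hρ10, (min_le_left _ _).trans (min_le_left _ _),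
    by positivity, fun Cp => ?_⟩
  set cp : ℝ := 1 / (Real.pi * κ.bs) + κ.C / Real.sqrt (κ.bs * κ.Hq) + 2 * |Cp| with hcp
  have hcp0 : 0 ≤ cp := by positivity
  set D : ℝ := 2 / m * (cp + 2) with hD
  have hD0 : 0 ≤ D := by positivity
  refine ⟨D + 2 / l * D, ⌈4 / m⌉₊ + ⌈4 * κ.C / (κ.c * l)⌉₊ + 1, by positivity, by omega, ?_⟩
  intro κe ρe ρt s H ja Km hρ hL i j hj hja hj1 hKm hP B hQ hT
  subst hj
  set jr : ℝ := ((H.j0 + i : ℕ) : ℝ) with hjr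
  have hjA : 4 / m ≤ jr := by
    refine (Nat.le_ceil _).trans ?_
    rw [hjr]
    exact_mod_cast (by omega : ⌈4 / m⌉₊ ≤ H.j0 + i)
  have hjB : 4 * κ.C / (κ.c * l) ≤ jr := by
    refine (Nat.le_ceil _).trans ?_
    rw [hjr]
    exact_mod_cast (by omega : ⌈4 * κ.C / (κ.c * l)⌉₊ ≤ H.j0 + i)
  have hjr1 : (1 : ℝ) ≤ jr := by
    rw [hjr]
    exact_mod_cast (by omega : 1 ≤ H.j0 + i)
  have hjr0 : (0 : ℝ) < jr := by linarith
  have hρκ : ρt ≤ κ.ρ := hρ.trans ((min_le_left _ _).trans (min_le_left _ _))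
  have hρone : ρt ≤ 1 := hρ.trans ((min_le_left _ _).trans (min_le_right _ _))
  have hCρm : κ.C * ρt ≤ m / 4 := by
    have : ρt ≤ m / (4 * κ.C) := hρ.trans ((min_le_right _ _).trans (min_le_left _ _))
    calc κ.C * ρt ≤ κ.C * (m / (4 * κ.C)) := by gcongr
      _ = m / 4 := by field_simp
  have hCρl : κ.C * ρt ≤ l / 4 := by
    have : ρt ≤ l / (4 * κ.C) := hρ.trans ((min_le_right _ _).trans (min_le_right _ _))
    calc κ.C * ρt ≤ κ.C * (l / (4 * κ.C)) := by gcongr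
      _ = l / 4 := by field_simp
  have hu : 1 / jr ≤ m / 4 := by
    rw [div_le_iff₀ hm0] at hjA
    rw [div_le_iff₀ hjr0]
    linarith
  have hη2 : 1 / jr ^ 2 ≤ 1 / jr := by
    apply one_div_le_one_div_of_le hjr0
    nlinarith
  have hCe : κ.C * Real.exp (-κ.c * jr) ≤ l / 4 := by
    have a1 := cau_exp_neg_le hκc hjr0
    have a2 : κ.C * (1 / jr / κ.c) ≤ l / 4 := by
      rw [div_le_iff₀ (by positivity)] at hjB
      have e : κ.C * (1 / jr / κ.c) = κ.C / (jr * κ.c) := by field_simp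
      rw [e, div_le_iff₀ (by positivity)]
      nlinarith
    exact (mul_le_mul_of_nonneg_left a1 hC0.le).trans a2
  have hB0 : 0 ≤ B := le_trans (norm_nonneg _) hQ
  have M1 := l42_md hL hρκ hja hKm hP hT
  have M2 := l42_lw hL hρκ hKm hQ
  set d : ℝ := ‖H.sc (H.j0 + i) (H.st xyCritical i)‖ with hd
  set w : ℝ := wn (H.st xyCritical i) with hw
  have hd0 : 0 ≤ d := norm_nonneg _
  have hw0 : 0 ≤ w := cau_wn_nonneg _
  have Dd : d ≤ D * (1 / jr) + 4 * κ.C / m * B :=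
    l42_ar_d hm0 hd0 hB0 hC0.le hρone (hη2.trans hu) hη2 hCρm M1
  have Dw : w ≤ 2 / l * d + 2 * κ.C / l * B := l42_ar_w hl0 hw0 hCe hCρl M2
  have hu0 : 0 ≤ 1 / jr := by positivity
  have e1 : (D + 2 / l * D) / jr = D * (1 / jr) + 2 / l * (D * (1 / jr)) := by ring
  rw [e1]
  have p1 : 0 ≤ 2 / l * (D * (1 / jr)) := by positivity
  have p2 : 0 ≤ 2 / l * (4 * κ.C / m) * B := by positivity
  have p3 : 0 ≤ 2 * κ.C / l * B := by positivity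
  have p4 : 0 ≤ D * (1 / jr) := by positivity
  have p5 : 0 ≤ 4 * κ.C / m * B := by positivity
  have eB : (4 * κ.C / m + 2 / l * (4 * κ.C / m) + 2 * κ.C / l) * B
      = 4 * κ.C / m * B + 2 / l * (4 * κ.C / m) * B + 2 * κ.C / l * B := by ring
  rw [eB]
  constructor
  · have h1 : 2 / l * d ≤ 2 / l * (D * (1 / jr) + 4 * κ.C / m * B) := by gcongr
    have h2 : 2 / l * (D * (1 / jr) + 4 * κ.C / m * B) = 2 / l * (D * (1 / jr)) + 2 / l * (4 * κ.C / m) * B := by ring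
    linarith
  · linarith

/-- arithmetic of (4.14) -/
theorem l42_ar_c {x θ C c a B ρ u : ℝ} (hC : 0 ≤ C) (_hc : 0 ≤ c) (_ha : 0 ≤ a) (hB : 0 ≤ B) (hBρ : B ≤ ρ) (_hu : 0 ≤ u)
    (hx0 : 0 ≤ x) (hx : x ≤ c * u + a * B) (hρ : 2 * C * a ^ 2 * ρ ≤ (1 - θ) / 2) :
    θ * B + C * x ^ 2 ≤ (1 + θ) / 2 * B + 2 * C * c ^ 2 * u ^ 2 := by
  have h1 : x ^ 2 ≤ (c * u + a * B) ^ 2 := by gcongr
  have h2 : (c * u + a * B) ^ 2 ≤ 2 * (c * u) ^ 2 + 2 * (a * B) ^ 2 := by nlinarith [sq_nonneg (c * u - a * B)]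
  have h3 : 2 * C * a ^ 2 * B * B ≤ 2 * C * a ^ 2 * ρ * B := by
    have : 0 ≤ 2 * C * a ^ 2 := by positivity
    gcongr
  have h4 : 2 * C * a ^ 2 * ρ * B ≤ (1 - θ) / 2 * B := by gcongr
  have h5 : C * x ^ 2 ≤ C * (2 * (c * u) ^ 2 + 2 * (a * B) ^ 2) := by
    gcongr
    exact h1.trans h2
  nlinarith

/-- LEAF L42-3 (~250 l.).  **(4.14).**  Replace `B` by `B' = min B ρt` (`RB i B'` by `Late.conf`, `conft`, `cau_q_le_norm`, `norm_snd_le`).  `l42_scalar` at `B'`.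
`N_q`: `‖Q₊‖ ≤ θ B' + C (C₁/j + a B')² ≤ (θ + 2 C a² ρt) B' + 2 C C₁²/j²`;  `Ψ_bd` at `X = H.ts b_c h i`, `h ≥ j + 1`: `‖X‖ ≤ C₁/j + (a+1) B'`.  `ρt1` with `2 C (a+1)² ρt1 ≤ (1-θ)/2`. -/
theorem l42_contract (κ : MapC) : ∃ ρt1 : ℝ, 0 < ρt1 ∧ ρt1 ≤ κ.ρ ∧ ∀ Cp : ℝ, ∃ (A : ℝ) (j1 : ℕ), 0 ≤ A ∧ 1 ≤ j1 ∧
    ∀ (κe : EntC) (ρe ρt : ℝ) (s : ℕ) (H : Hist) (ja Km : ℕ), ρt ≤ ρt1 → Late κ κe ρe ρt s H ja Km →
    ∀ i j : ℕ, j = H.j0 + i → ja ≤ j → j1 ≤ j → j + 1 ≤ Km → PhysAt κ Cp j →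
    ∀ B : ℝ, RB H Km i B → RB H Km (i + 1) (th1 κ * B + A / (j : ℝ) ^ 2) := by
  obtain ⟨ρa, a, ha0, ha1, haa, hsc⟩ := l42_scalar κ
  have hC0 : 0 < κ.C := lt_of_lt_of_le one_pos κ.hC
  have hθ := κ.hθ
  have hθ0 := κ.hθ0
  set ρ1 : ℝ := min ρa ((1 - κ.θ) / 2 / (2 * κ.C * (a + 1) ^ 2)) with hρ1
  have hρ10 : 0 < ρ1 := lt_min ha0 (by
    have : 0 < 1 - κ.θ := by linarith
    positivity)
  refine ⟨ρ1, hρ10, (min_le_left _ _).trans ha1, fun Cp => ?_⟩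
  obtain ⟨C1, j1, hC1, hj1, hS⟩ := hsc Cp
  refine ⟨2 * κ.C * C1 ^ 2, j1, by positivity, hj1, ?_⟩
  intro κe ρe ρt s H ja Km hρ hL i j hj hja hjj hKm hP B hRB
  subst hj
  have hρκ : ρt ≤ κ.ρ := hρ.trans ((min_le_left _ _).trans ha1)
  have hY : ‖H.st xyCritical i‖ < ρt := hL.conf i (by omega)
  have hρt0 : 0 < ρt := lt_of_le_of_lt (norm_nonneg _) hY
  have hρsm : 2 * κ.C * (a + 1) ^ 2 * ρt ≤ (1 - κ.θ) / 2 := by
    have h1 : ρt ≤ (1 - κ.θ) / 2 / (2 * κ.C * (a + 1) ^ 2) := hρ.trans (min_le_right _ _)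
    rw [le_div_iff₀ (by positivity)] at h1
    linarith
  have hρsm' : 2 * κ.C * a ^ 2 * ρt ≤ (1 - κ.θ) / 2 := by
    refine le_trans ?_ hρsm
    have : a ^ 2 ≤ (a + 1) ^ 2 := by nlinarith
    gcongr
  -- replace `B` by `B' = min B ρt`
  set B' : ℝ := min B ρt with hB'
  have hB'B : B' ≤ B := min_le_left _ _
  have hB'ρ : B' ≤ ρt := min_le_right _ _
  have hQ' : ‖(H.st xyCritical i).2.2‖ ≤ B' := le_min hRB.1 ((cau_q_le_norm _).trans hY.le)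
  have hT' : ∀ h, H.j0 + i ≤ h → h ≤ Km → ‖H.tor xyCritical h i‖ ≤ B' := by
    intro h h1 h2
    refine le_min (hRB.2 h h1 h2) ?_
    have := (norm_snd_le (H.ts xyCritical h i)).trans (hL.conft h i (by omega) h2 h1).le
    exact this
  have hB'0 : 0 ≤ B' := le_trans (norm_nonneg _) hQ'
  obtain ⟨sw, sd⟩ := hS κe ρe ρt s H ja Km (hρ.trans (min_le_left _ _)) hL i (H.j0 + i) rfl hja hjj (by omega) hP B' hQ'
    (hT' _ le_rfl (by omega))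
  set jr : ℝ := ((H.j0 + i : ℕ) : ℝ) with hjr
  have hjr1 : (1 : ℝ) ≤ jr := by
    rw [hjr]
    exact_mod_cast (by omega : 1 ≤ H.j0 + i)
  have hjr0 : (0 : ℝ) < jr := by linarith
  have hu0 : 0 ≤ 1 / jr := by positivity
  have eC : C1 / jr = C1 * (1 / jr) := by ring
  rw [eC] at sw sd
  have efin : ∀ x : ℝ, x ≤ (1 + κ.θ) / 2 * B' + 2 * κ.C * C1 ^ 2 * (1 / jr) ^ 2 → x ≤ th1 κ * B + 2 * κ.C * C1 ^ 2 / jr ^ 2 := by
    intro x hx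
    refine hx.trans ?_
    have e1 : 2 * κ.C * C1 ^ 2 * (1 / jr) ^ 2 = 2 * κ.C * C1 ^ 2 / jr ^ 2 := by ring
    rw [e1]
    have : (1 + κ.θ) / 2 * B' ≤ th1 κ * B := by
      unfold th1
      gcongr
    linarith
  have hYb : H.st xyCritical i ∈ Metric.ball (0 : ℂ × ℂ × H.Q (H.j0 + i)) κ.ρ :=
    mem_ball_zero_iff.2 (lt_of_lt_of_le hY hρκ)
  refine ⟨?_, ?_⟩
  · -- the plane remainder
    have n1 := hL.sys.map.N_q (H.j0 + i) (Nat.le_add_right _ _) _ hYb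
    have n2 : κ.θ * ‖(H.st xyCritical i).2.2‖ ≤ κ.θ * B' := by gcongr
    have n3 := l42_ar_c (θ := κ.θ) hC0.le hC1 haa hB'0 hB'ρ hu0 (cau_wn_nonneg _) sw hρsm'
    apply efin
    have e : H.st xyCritical (i + 1) = H.N (H.j0 + i) (H.st xyCritical i) := rfl
    rw [e]
    linarith
  · intro h h1 h2
    have hX : ‖H.ts xyCritical h i‖ < ρt := hL.conft h i (by omega) h2 (by omega)
    have hXb : H.ts xyCritical h i ∈ Metric.ball (0 : (ℂ × ℂ) × H.T (H.j0 + i) h) κ.ρ :=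
      mem_ball_zero_iff.2 (lt_of_lt_of_le hX hρκ)
    have n1 := hL.sys.map.Ψ_bd (H.j0 + i) h (Nat.le_add_right _ _) (by omega) _ hXb
    have hTh := hT' h (by omega) h2
    have hXn : ‖H.ts xyCritical h i‖ ≤ C1 * (1 / jr) + (a + 1) * B' := by
      rw [Prod.norm_def]
      apply max_le
      · have : (H.ts xyCritical h i).1 = H.sc (H.j0 + i) (H.st xyCritical i) := rfl
        rw [this]
        nlinarith
      · have : (H.ts xyCritical h i).2 = H.tor xyCritical h i := rfl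
        rw [this]
        have : 0 ≤ C1 * (1 / jr) := by positivity
        nlinarith
    have n2 : κ.θ * ‖(H.ts xyCritical h i).2‖ ≤ κ.θ * B' := by
      gcongr
      exact hTh
    have n3 := l42_ar_c (θ := κ.θ) hC0.le hC1 (by linarith : 0 ≤ a + 1) hB'0 hB'ρ hu0 (norm_nonneg _) hXn hρsm
    apply efin
    have e : H.tor xyCritical h (i + 1) = H.Ψ (H.j0 + i) h (H.ts xyCritical h i) := rfl
    rw [e]
    linarith

/-! ## 3. Iteration -/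

/-- LEAF L42-4a (~80 l., Mathlib only).  `A' = 2 A/(1-θ)`; `(j/(j+1))² ≥ (1+θ)/2` for large `j`. -/
theorem l42_num_step (θ A : ℝ) (hθ0 : 0 ≤ θ) (hθ : θ < 1) (hA : 0 ≤ A) : ∃ (A' : ℝ) (j1 : ℕ), 0 ≤ A' ∧ 1 ≤ j1 ∧
    ∀ j : ℕ, j1 ≤ j → θ * (A' / (j : ℝ) ^ 2) + A / (j : ℝ) ^ 2 ≤ A' / ((j + 1 : ℕ) : ℝ) ^ 2 := by
  have h1θ : 0 < 1 - θ := by linarith
  obtain ⟨N, hN⟩ := exists_nat_ge (6 / (1 - θ))
  refine ⟨2 * A / (1 - θ), N + 1, by positivity, by omega, fun j hj => ?_⟩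
  have hj1 : (1 : ℝ) ≤ j := by
    have : 1 ≤ j := by omega
    exact_mod_cast this
  have hjN : 6 / (1 - θ) ≤ (j : ℝ) := hN.trans (by
    have : N ≤ j := by omega
    exact_mod_cast this)
  rw [div_le_iff₀ h1θ] at hjN
  have hj0 : (0 : ℝ) < j := by linarith
  have key : (1 + θ) / 2 * ((j : ℝ) + 1) ^ 2 ≤ (j : ℝ) ^ 2 := by nlinarith
  have e : θ * (2 * A / (1 - θ) / (j : ℝ) ^ 2) + A / (j : ℝ) ^ 2 =
      (2 * A / (1 - θ)) * ((1 + θ) / 2) / (j : ℝ) ^ 2 := by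
    field_simp
    ring
  rw [e, div_le_div_iff₀ (by positivity) (by positivity)]
  push_cast
  have hA' : 0 ≤ 2 * A / (1 - θ) := by positivity
  calc 2 * A / (1 - θ) * ((1 + θ) / 2) * ((j : ℝ) + 1) ^ 2
      = 2 * A / (1 - θ) * ((1 + θ) / 2 * ((j : ℝ) + 1) ^ 2) := by ring
    _ ≤ 2 * A / (1 - θ) * (j : ℝ) ^ 2 := mul_le_mul_of_nonneg_left key hA'

/-- LEAF L42-4b (~80 l., Mathlib only).  `θ^m ≤ (√θ)^j`-type bound, or: `j² θ^{m} ≤ (2m)² θ^m → 0` (`tendsto_pow_const_mul_const_pow_of_abs_lt_one`). -/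
theorem l42_num_pow (θ : ℝ) (hθ0 : 0 ≤ θ) (hθ : θ < 1) : ∃ j1 : ℕ, 1 ≤ j1 ∧
    ∀ j m : ℕ, j1 ≤ j → j ≤ 2 * m → θ ^ m ≤ 1 / (j : ℝ) ^ 2 := by
  have ht := tendsto_pow_const_mul_const_pow_of_abs_lt_one 2 (r := θ) (by rwa [abs_of_nonneg hθ0])
  have hev : ∀ᶠ m : ℕ in atTop, (m : ℝ) ^ 2 * θ ^ m < 1 / 4 :=
    (tendsto_order.1 ht).2 _ (by norm_num)
  obtain ⟨M, hM⟩ := eventually_atTop.1 hev
  refine ⟨2 * M + 1, by omega, fun j m hj hjm => ?_⟩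
  have hm := hM m (by omega)
  have hj0 : (0 : ℝ) < j := by
    have : 0 < j := by omega
    exact_mod_cast this
  have hjm' : (j : ℝ) ≤ 2 * m := by exact_mod_cast hjm
  have hp : 0 ≤ θ ^ m := pow_nonneg hθ0 m
  rw [le_div_iff₀ (by positivity)]
  have h2 : (j : ℝ) ^ 2 ≤ (2 * (m : ℝ)) ^ 2 := pow_le_pow_left₀ hj0.le hjm' 2
  calc θ ^ m * (j : ℝ) ^ 2 ≤ θ ^ m * (2 * (m : ℝ)) ^ 2 := mul_le_mul_of_nonneg_left h2 hp
    _ = 4 * ((m : ℝ) ^ 2 * θ ^ m) := by ring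
    _ ≤ 1 := by linarith

theorem RB.mono {H : Hist} {Km i : ℕ} {B B' : ℝ} (h : RB H Km i B) (hB : B ≤ B') : RB H Km i B' :=
  ⟨h.1.trans hB, fun h' a b => (h.2 h' a b).trans hB⟩

/-- GLUE: iteration of `l42_contract` from `ja`. -/
theorem l42_iter (κ : MapC) : ∃ ρt1 : ℝ, 0 < ρt1 ∧ ρt1 ≤ κ.ρ ∧ ∀ Cp : ℝ, ∃ (A' : ℝ) (j1 : ℕ), 0 ≤ A' ∧ 1 ≤ j1 ∧
    ∀ (κe : EntC) (ρe ρt : ℝ) (s : ℕ) (H : Hist) (ja Km : ℕ), ρt ≤ ρt1 → Late κ κe ρe ρt s H ja Km → j1 ≤ ja →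
    (∀ j, ja ≤ j → j ≤ Km → PhysAt κ Cp j) →
    ∀ j : ℕ, ja ≤ j → j ≤ Km → RB H Km (j - H.j0) (th1 κ ^ (j - ja) * ρt + A' / (j : ℝ) ^ 2) := by
  obtain ⟨ρt1, h0, h1, hc⟩ := l42_contract κ
  refine ⟨ρt1, h0, h1, fun Cp => ?_⟩
  obtain ⟨A, j1, hA, hj1, hstep⟩ := hc Cp
  have hth0 : 0 ≤ th1 κ := by unfold th1; have := κ.hθ0; linarith
  have hth1 : th1 κ < 1 := by unfold th1; have := κ.hθ; linarith
  obtain ⟨A', j2, hA', hj2, hnum⟩ := l42_num_step (th1 κ) A hth0 hth1 hA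
  refine ⟨A', max j1 j2, hA', hj1.trans (le_max_left _ _), ?_⟩
  intro κe ρe ρt s H ja Km hρ hL hja hP j hj
  induction j, hj using Nat.le_induction with
  | base =>
    intro hKm
    have hp : 0 ≤ A' / (ja : ℝ) ^ 2 := by positivity
    have e : H.j0 + (ja - H.j0) = ja := Nat.add_sub_cancel' hL.j0
    simp only [Nat.sub_self, pow_zero, one_mul]
    refine ⟨?_, fun h a b => ?_⟩
    · have := (cau_q_le_norm (H.st xyCritical (ja - H.j0))).trans (hL.conf (ja - H.j0) (by omega)).le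
      linarith
    · have := (norm_snd_le (H.ts xyCritical h (ja - H.j0))).trans (hL.conft h (ja - H.j0) (by omega) b a).le
      have e2 : (H.ts xyCritical h (ja - H.j0)).2 = H.tor xyCritical h (ja - H.j0) := rfl
      rw [e2] at this
      linarith
  | succ j hj ih =>
    intro hKm
    have ih' := ih (by omega)
    have hj0 : H.j0 ≤ j := hL.j0.trans hj
    have e : j = H.j0 + (j - H.j0) := (Nat.add_sub_cancel' hj0).symm
    have h2 := hstep κe ρe ρt s H ja Km hρ hL (j - H.j0) j e hj ((le_max_left _ _).trans (hja.trans hj)) hKm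
      (hP j hj (by omega)) _ ih'
    have e3 : j + 1 - H.j0 = j - H.j0 + 1 := by omega
    rw [e3]
    refine h2.mono ?_
    have h3 := hnum j ((le_max_right _ _).trans (hja.trans hj))
    have e4 : j + 1 - ja = (j - ja) + 1 := by omega
    have e5 : th1 κ ^ (j + 1 - ja) = th1 κ ^ (j - ja) * th1 κ := by rw [e4, pow_succ]
    rw [e5]
    have : th1 κ * (th1 κ ^ (j - ja) * ρt + A' / (j : ℝ) ^ 2) + A / (j : ℝ) ^ 2
        = th1 κ ^ (j - ja) * th1 κ * ρt + (th1 κ * (A' / (j : ℝ) ^ 2) + A / (j : ℝ) ^ 2) := by ring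
    rw [this]
    linarith

/-- GLUE: `R_i = O(i⁻²)` for `j ≥ 2 ja`. -/
theorem l42_decay (κ : MapC) : ∃ ρt1 : ℝ, 0 < ρt1 ∧ ρt1 ≤ κ.ρ ∧ ∀ Cp : ℝ, ∃ (A2 : ℝ) (j1 : ℕ), 0 ≤ A2 ∧ 1 ≤ j1 ∧
    ∀ (κe : EntC) (ρe ρt : ℝ) (s : ℕ) (H : Hist) (ja Km : ℕ), ρt ≤ ρt1 → Late κ κe ρe ρt s H ja Km → j1 ≤ ja →
    (∀ j, ja ≤ j → j ≤ Km → PhysAt κ Cp j) →
    ∀ j : ℕ, 2 * ja ≤ j → j ≤ Km → RB H Km (j - H.j0) (A2 / (j : ℝ) ^ 2) := by
  obtain ⟨ρt1, h0, h1, hc⟩ := l42_iter κ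
  refine ⟨min ρt1 1, lt_min h0 one_pos, (min_le_left _ _).trans h1, fun Cp => ?_⟩
  obtain ⟨A', j1, hA', hj1, hit⟩ := hc Cp
  have hth0 : 0 ≤ th1 κ := by unfold th1; have := κ.hθ0; linarith
  have hth1 : th1 κ < 1 := by unfold th1; have := κ.hθ; linarith
  obtain ⟨j2, hj2, hpow⟩ := l42_num_pow (th1 κ) hth0 hth1
  refine ⟨1 + A', max j1 j2, by linarith, hj1.trans (le_max_left _ _), ?_⟩
  intro κe ρe ρt s H ja Km hρ hL hja hP j hj hKm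
  have h2 := hit κe ρe ρt s H ja Km (hρ.trans (min_le_left _ _)) hL ((le_max_left _ _).trans hja) hP j (by omega) hKm
  refine h2.mono ?_
  have h3 := hpow j (j - ja) (by have := (le_max_right j1 j2).trans hja; omega) (by omega)
  have hρ1 : ρt ≤ 1 := hρ.trans (min_le_right _ _)
  have hp : 0 ≤ th1 κ ^ (j - ja) := pow_nonneg hth0 _
  have h4 : th1 κ ^ (j - ja) * ρt ≤ 1 / (j : ℝ) ^ 2 := (mul_le_of_le_one_right hp hρ1).trans h3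
  have : (1 + A') / (j : ℝ) ^ 2 = 1 / (j : ℝ) ^ 2 + A' / (j : ℝ) ^ 2 := by ring
  rw [this]
  linarith

/-! ## 4. The second read-out comparison -/

/-- `m d ≤ C / x² + Cp Lg / x²`, `m ≥ m₀ > 0` gives `d ≤ ((2 C + |Cp|) / m₀) Lg / x²`. -/
theorem l42_refine_arith (C Cp m m₀ Lg x d : ℝ) (hC : 0 ≤ C) (hm0 : 0 < m₀) (hm : m₀ ≤ m) (hL : 1 / 2 ≤ Lg) (hx : 0 < x)
    (hd0 : 0 ≤ d) (hd : m * d ≤ C / x ^ 2 + Cp * Lg / x ^ 2) :
    d ≤ (2 * C + |Cp|) / m₀ * Lg / x ^ 2 := by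
  have hx2 : 0 < x ^ 2 := by positivity
  have h1 : C / x ^ 2 ≤ 2 * C * Lg / x ^ 2 := by
    apply div_le_div_of_nonneg_right _ hx2.le
    nlinarith
  have h2 : Cp * Lg / x ^ 2 ≤ |Cp| * Lg / x ^ 2 := by
    apply div_le_div_of_nonneg_right _ hx2.le
    exact mul_le_mul_of_nonneg_right (le_abs_self _) (by linarith)
  have h3 : m₀ * d ≤ m * d := mul_le_mul_of_nonneg_right hm hd0
  have h4 : m₀ * d ≤ (2 * C + |Cp|) * Lg / x ^ 2 := by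
    have e : (2 * C + |Cp|) * Lg / x ^ 2 = 2 * C * Lg / x ^ 2 + |Cp| * Lg / x ^ 2 := by ring
    rw [e]
    linarith
  have e2 : (2 * C + |Cp|) / m₀ * Lg / x ^ 2 = ((2 * C + |Cp|) * Lg / x ^ 2) / m₀ := by ring
  rw [e2, le_div_iff₀ hm0]
  linarith

/-- LEAF L42-5 (~200 l.).  `ph_link κ A` + `PhysAt`:  `‖x/(π b_*) - 1/(π b_* j)‖ ≤ C/j² + Cp log (2+j)/j²`, multiply by `π b_*`;  `‖p_j/√(b_* H) (y - 1/j)‖ ≤ ...`, divide by `p_j/√(b_* H) ≥ κ.c/√(b_* H)`;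
`1/j² ≤ 2 log (2+j)/j²` (`p41_log_half`).  Casts: `‖((a : ℝ) : ℂ) - ((r : ℝ) : ℂ)‖ = |a - r|`. -/
theorem l42_refine (κ : MapC) (Cp A : ℝ) : ∃ (C : ℝ) (jm : ℕ), 0 ≤ C ∧
    ∀ (κe : EntC) (ρe ρt : ℝ) (s : ℕ) (H : Hist) (ja Km : ℕ), ρt ≤ κ.ρ → Late κ κe ρe ρt s H ja Km →
    ∀ i j : ℕ, j = H.j0 + i → ja ≤ j → jm ≤ j → j ≤ Km → PhysAt κ Cp j →
      wn (H.st xyCritical i) ≤ A / j → ‖(H.st xyCritical i).2.2‖ ≤ A / (j : ℝ) ^ 2 →
      ‖H.tor xyCritical j i‖ ≤ A / (j : ℝ) ^ 2 → CritAt H C i := by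
  obtain ⟨C, jm, hC, hjm1, hlink⟩ := ph_link κ A
  have hbs := κ.bs_pos
  have hpi := Real.pi_pos
  have hr : 0 < Real.sqrt (κ.bs * κ.Hq) := Real.sqrt_pos.2 (mul_pos hbs κ.hH)
  obtain ⟨r, hrd⟩ : ∃ r : ℝ, r = Real.sqrt (κ.bs * κ.Hq) := ⟨_, rfl⟩
  rw [← hrd] at hr
  have hc := κ.hc
  obtain ⟨Ca, hCa⟩ : ∃ D : ℝ, D = (2 * C + |Cp|) / (1 / (Real.pi * κ.bs)) := ⟨_, rfl⟩
  obtain ⟨Cb, hCb⟩ : ∃ D : ℝ, D = (2 * C + |Cp|) / (κ.c / r) := ⟨_, rfl⟩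
  have hCa0 : 0 ≤ Ca := by rw [hCa]; positivity
  have hCb0 : 0 ≤ Cb := by rw [hCb]; positivity
  refine ⟨Ca + Cb + |A|, jm, by positivity, ?_⟩
  intro κe ρe ρt s H ja Km hρ hL i j hj hja hjjm hjK hP hw hq hτ
  have hj1 : 1 ≤ j := by omega
  have hx : (0 : ℝ) < (j : ℝ) := by exact_mod_cast hj1
  have hx2 : (0 : ℝ) < (j : ℝ) ^ 2 := by positivity
  obtain ⟨L1, L2⟩ := hlink κe ρe s H hL.sys hL.spos i j hj hjjm (hL.valid j hja hjK)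
    (hL.inside hρ hja hjK (by omega)) (hL.err j hja hjK) hw hq hτ
  obtain ⟨P1, P2⟩ := hP
  rw [← hrd] at L2 P2
  have hLg := p41_log_half j
  have hLg0 : 0 ≤ Real.log (2 + j) / (j : ℝ) ^ 2 := by
    have : 0 ≤ Real.log (2 + j) := by linarith
    positivity
  have hxC : (j : ℂ) ≠ 0 := by exact_mod_cast hx.ne'
  have hpiC : (Real.pi : ℂ) ≠ 0 := by exact_mod_cast hpi.ne'
  have hbsC : (κ.bs : ℂ) ≠ 0 := by exact_mod_cast hbs.ne'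
  have hrC : (r : ℂ) ≠ 0 := by exact_mod_cast hr.ne'
  have c1 : ‖H.x xyCritical i - 1 / (j : ℂ)‖ ≤ Ca * Real.log (2 + j) / (j : ℝ) ^ 2 := by
    rw [hCa]
    apply l42_refine_arith C Cp (1 / (Real.pi * κ.bs)) (1 / (Real.pi * κ.bs)) _ _ _ hC (by positivity) le_rfl hLg hx
      (norm_nonneg _)
    have e0 : |torVar xyCritical (κ.n j) - (1 / Real.pi + 1 / (Real.pi * κ.bs * j))| =
        ‖((torVar xyCritical (κ.n j) : ℝ) : ℂ) - (1 / Real.pi + 1 / (Real.pi * κ.bs * j))‖ := by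
      rw [← Real.norm_eq_abs, ← Complex.norm_real]
      push_cast
      rfl
    rw [e0] at P1
    have e : ((1 / (Real.pi * κ.bs) : ℝ) : ℂ) * (H.x xyCritical i - 1 / (j : ℂ)) =
        (((torVar xyCritical (κ.n j) : ℝ) : ℂ) - (1 / Real.pi + 1 / (Real.pi * κ.bs * j)))
        - (((torVar xyCritical (κ.n j) : ℝ) : ℂ) - (1 / Real.pi + H.x xyCritical i / (Real.pi * κ.bs))) := by
      push_cast
      field_simp
      ring
    have n : 1 / (Real.pi * κ.bs) * ‖H.x xyCritical i - 1 / (j : ℂ)‖ =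
        ‖((1 / (Real.pi * κ.bs) : ℝ) : ℂ) * (H.x xyCritical i - 1 / (j : ℂ))‖ := by
      rw [norm_mul, Complex.norm_real, Real.norm_eq_abs, abs_of_pos (by positivity)]
    rw [n, e]
    refine (norm_sub_le _ _).trans ?_
    linarith
  have c2 : ‖H.y xyCritical i - 1 / (j : ℂ)‖ ≤ Cb * Real.log (2 + j) / (j : ℝ) ^ 2 := by
    rw [hCb]
    have hp := κ.hp j
    have hp0 : 0 < κ.p j := lt_of_lt_of_le hc hp.1
    apply l42_refine_arith C Cp (κ.p j / r) (κ.c / r) _ _ _ hC (by positivity)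
      (div_le_div_of_nonneg_right hp.1 hr.le) hLg hx (norm_nonneg _)
    have e0 : |torPhase xyCritical (κ.n j) - κ.p j / (r * j)| =
        ‖((torPhase xyCritical (κ.n j) : ℝ) : ℂ) - κ.p j / (r * j)‖ := by
      rw [← Real.norm_eq_abs, ← Complex.norm_real]
      push_cast
      rfl
    rw [e0] at P2
    have e : ((κ.p j / r : ℝ) : ℂ) * (H.y xyCritical i - 1 / (j : ℂ)) =
        (((torPhase xyCritical (κ.n j) : ℝ) : ℂ) - κ.p j / (r * j))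
        - (((torPhase xyCritical (κ.n j) : ℝ) : ℂ) - κ.p j / r * H.y xyCritical i) := by
      push_cast
      field_simp
      ring
    have n : κ.p j / r * ‖H.y xyCritical i - 1 / (j : ℂ)‖ =
        ‖((κ.p j / r : ℝ) : ℂ) * (H.y xyCritical i - 1 / (j : ℂ))‖ := by
      rw [norm_mul, Complex.norm_real, Real.norm_eq_abs, abs_of_pos (by positivity)]
    rw [n, e]
    refine (norm_sub_le _ _).trans ?_
    linarith
  have hA0 := abs_nonneg A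
  have hAA := le_abs_self A
  unfold CritAt
  rw [← hj]
  refine ⟨c1.trans ?_, c2.trans ?_, hq.trans ?_⟩
  · rw [mul_div_assoc, mul_div_assoc]
    exact mul_le_mul_of_nonneg_right (by linarith) hLg0
  · rw [mul_div_assoc, mul_div_assoc]
    exact mul_le_mul_of_nonneg_right (by linarith) hLg0
  · exact div_le_div_of_nonneg_right (by linarith) hx2.le

/-- the deterministic core of L4.2 -/
theorem l42_core (κ : MapC) : ∃ ρt1 : ℝ, 0 < ρt1 ∧ ρt1 ≤ κ.ρ ∧ ∀ Cp : ℝ, ∃ (C : ℝ) (j1 : ℕ),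
    ∀ (κe : EntC) (ρe ρt : ℝ) (s : ℕ) (H : Hist) (ja Km : ℕ), ρt ≤ ρt1 → Late κ κe ρe ρt s H ja Km → j1 ≤ ja →
    (∀ j, ja ≤ j → j ≤ Km → PhysAt κ Cp j) →
    ∀ i : ℕ, 2 * ja ≤ H.j0 + i → H.j0 + i ≤ Km →
      CritAt H C i ∧ ∀ h, H.j0 + i ≤ h → h ≤ Km → CritTor H C h i := by
  obtain ⟨ρa, a, ha0, ha1, haa, hsc⟩ := l42_scalar κ
  obtain ⟨ρb, hb0, hb1, hdec⟩ := l42_decay κ
  refine ⟨min ρa ρb, lt_min ha0 hb0, (min_le_left _ _).trans ha1, fun Cp => ?_⟩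
  obtain ⟨C1, j1, hC1, hj1, hS⟩ := hsc Cp
  obtain ⟨A2, j2, hA2, hj2, hD⟩ := hdec Cp
  obtain ⟨C, jm, hC, hR⟩ := l42_refine κ Cp (max (C1 + a * A2) A2)
  refine ⟨max C A2, max (max j1 j2) jm, ?_⟩
  intro κe ρe ρt s H ja Km hρ hL hja hP i hi hKm
  have hja1 : j1 ≤ ja := ((le_max_left _ _).trans (le_max_left _ _)).trans hja
  have hja2 : j2 ≤ ja := ((le_max_right _ _).trans (le_max_left _ _)).trans hja
  have hjam : jm ≤ ja := (le_max_right _ _).trans hja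
  have hrb := hD κe ρe ρt s H ja Km (hρ.trans (min_le_right _ _)) hL hja2 hP (H.j0 + i) hi hKm
  rw [Nat.add_sub_cancel_left] at hrb
  have hjpos : (1 : ℝ) ≤ ((H.j0 + i : ℕ) : ℝ) := by
    have : 1 ≤ H.j0 + i := by have := hL.ja1; omega
    exact_mod_cast this
  have hj0' : (0 : ℝ) < ((H.j0 + i : ℕ) : ℝ) := by linarith
  have hs := hS κe ρe ρt s H ja Km (hρ.trans (min_le_left _ _)) hL i (H.j0 + i) rfl (by omega) (by omega) hKm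
    (hP _ (by omega) hKm) _ hrb.1 (hrb.2 _ le_rfl hKm)
  have hw : wn (H.st xyCritical i) ≤ max (C1 + a * A2) A2 / ((H.j0 + i : ℕ) : ℝ) := by
    refine hs.1.trans ?_
    have h1 : A2 / ((H.j0 + i : ℕ) : ℝ) ^ 2 ≤ A2 / ((H.j0 + i : ℕ) : ℝ) := by
      apply div_le_div_of_nonneg_left hA2 hj0'
      nlinarith
    have h2 : C1 / ((H.j0 + i : ℕ) : ℝ) + a * (A2 / ((H.j0 + i : ℕ) : ℝ) ^ 2)
        ≤ (C1 + a * A2) / ((H.j0 + i : ℕ) : ℝ) := by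
      have := mul_le_mul_of_nonneg_left h1 haa
      have e : (C1 + a * A2) / ((H.j0 + i : ℕ) : ℝ) = C1 / ((H.j0 + i : ℕ) : ℝ) + a * (A2 / ((H.j0 + i : ℕ) : ℝ)) := by ring
      rw [e]; linarith
    refine h2.trans ?_
    gcongr
    exact le_max_left _ _
  have hA2' : A2 / ((H.j0 + i : ℕ) : ℝ) ^ 2 ≤ max (C1 + a * A2) A2 / ((H.j0 + i : ℕ) : ℝ) ^ 2 := by
    gcongr
    exact le_max_right _ _
  have hcrit := hR κe ρe ρt s H ja Km (hρ.trans ((min_le_left _ _).trans ha1)) hL i (H.j0 + i) rfl (by omega) (by omega)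
    hKm (hP _ (by omega) hKm) hw (hrb.1.trans hA2') ((hrb.2 _ le_rfl hKm).trans hA2')
  have hlog : 0 ≤ Real.log (2 + ((H.j0 + i : ℕ) : ℝ)) := Real.log_nonneg (by linarith)
  refine ⟨?_, fun h h1 h2 => ?_⟩
  · obtain ⟨c1, c2, c3⟩ := hcrit
    have hm : C ≤ max C A2 := le_max_left _ _
    refine ⟨c1.trans ?_, c2.trans ?_, c3.trans ?_⟩ <;> gcongr
  · unfold CritTor
    refine (hrb.2 h h1 h2).trans ?_
    gcongr
    exact le_max_right _ _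

/-- **[E] L4.2**: ASSEMBLY (verbatim `E4.late_critical`). -/
theorem l42_late_critical (κ : MapC) : ∃ ρt1 : ℝ, 0 < ρt1 ∧ ∀ ρt : ℝ, ρt ≤ ρt1 → ∃ ρe1 : ℝ, 0 < ρe1 ∧ ∀ ρe : ℝ, ρe ≤ ρe1 →
    ∀ (κe : EntC) (H : ℕ → Hist) (_ : Hyp κ κe ρe ρt H) (K : ℕ → ℕ),
      Tendsto (fun s => (K s : ℝ) / (s : ℝ) ^ 2) atTop (𝓝 0) →
      ∃ C : ℝ, ∀ᶠ s : ℕ in atTop, Adm κ κe s → ∀ i : ℕ,
        (JJ κ s : ℝ) / 2 ≤ (((H s).j0 + i : ℕ) : ℝ) → (H s).j0 + i ≤ K s →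
          CritAt (H s) C i ∧ ∀ h, (H s).j0 + i ≤ h → h ≤ K s → CritTor (H s) C h i := by
  obtain ⟨ρa, ha0, hT⟩ := p41_tube κ
  obtain ⟨ρb, hb0, _, hcore⟩ := l42_core κ
  refine ⟨min ρa ρb, lt_min ha0 hb0, fun ρt hρt => ⟨1, one_pos, fun ρe _ κe H hy K hK => ?_⟩⟩
  obtain ⟨Cp, hCp⟩ := ph_crit hy (hT ρt (hρt.trans (min_le_left _ _)))
  obtain ⟨jp, hjp⟩ := eventually_atTop.1 hCp
  obtain ⟨C, j1, hC⟩ := hcore Cp
  refine ⟨C, ?_⟩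
  filter_upwards [l42_late hy K hK (max (max j1 jp) 5)] with s hs hadm i hi hKs
  obtain ⟨hL, hmin⟩ := hs hadm
  have hj1 : j1 ≤ jA κ s := ((le_max_left _ _).trans (le_max_left _ _)).trans hmin
  have hjp' : jp ≤ jA κ s := ((le_max_right _ _).trans (le_max_left _ _)).trans hmin
  refine hC κe ρe ρt s (H s) (jA κ s) (K s) (hρt.trans (min_le_right _ _)) hL hj1
    (fun j h1 _ => hjp j (hjp'.trans h1)) i ?_ hKs
  -- `2 ⌈J/100⌉ ≤ J/50 + 2 ≤ J/2` as soon as `⌈J/100⌉ ≥ 1`, i.e. `J ≥ 1`; we use `J/100 > jA - 1`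
  have h1 : ((jA κ s : ℕ) : ℝ) < (JJ κ s : ℝ) / 100 + 1 := Nat.ceil_lt_add_one (by positivity)
  have h2 : (5 : ℝ) ≤ (jA κ s : ℕ) := by
    have : 5 ≤ jA κ s := (le_max_right _ _).trans hmin
    exact_mod_cast this
  have h3 : ((2 * jA κ s : ℕ) : ℝ) ≤ (((H s).j0 + i : ℕ) : ℝ) := by
    push_cast at hi ⊢
    linarith
  exact_mod_cast h3

/-- Stores the on-demand equation lemmas of the definitions above in THIS module (rule 6 hygiene). -/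
theorem l42_forced : True := by
  have := @RB.eq_1
  have := @jA.eq_1
  trivial

end

end Claimed.Agent.R285.E4
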