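import Claimed.Agent.R285.E4.Defs

/-!
# ROW 285, [E] L4.2 / L4.3, layer EVT: arithmetic of the scales   (architect helper90; prefix `l42_`)

PAPER-FREE real arithmetic.  `λ = log L ≥ log 2`, `n_h = D0 L^h ≥ L^h = e^{λ h}`.
* `Far κ s h` : `s ≤ e^{λ h / 10}` ("the stop `h` is far behind the entry of side `s`").  Put `E = e^{λ h/10}`: `s ≤ E`, `n_h ≥ E¹⁰`, so
  `s/n ≤ E⁻⁹`, `1/n² ≤ E⁻²⁰`, `(s/n)² ≤ E⁻¹⁸`, `n² (s/n)⁴ = s⁴/n² ≤ E⁻¹⁶`; everything is `≤ const * e^{-0.9 λ h}`.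
* `errAll κ κe s h` : the sum of ALL static comparison errors of `ReadOK` at the stop `h`.
* `cutErr = exp (log κe.C + κe.C (log D0 + λ h) - κe.c s²)` and `h ≤ K s = o(s²)`.
* `J = ⌊C_* log s⌋`, `λ C_* ≥ 1001`: `h ≥ J/100` implies `Far κ s h` as soon as `s ≥ L`.
-/

set_option autoImplicit false

namespace Claimed.Agent.R285.E4

open Filter Topology Claims.C0459
open Claimed.Agent.R285.Flow

noncomputable section

/-- the stop `h` is far behind the entry of side `s`: `s ≤ L^{h/10}` -/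
def Far (κ : MapC) (s h : ℕ) : Prop := (s : ℝ) ≤ Real.exp (Real.log κ.L * h / 10)

/-- the part of the static errors which does not come from the cutoff -/
def errGrid (κ : MapC) (κe : EntC) (s h : ℕ) : ℝ :=
  κ.C * ((s : ℝ) / κ.n h + 1 / (κ.n h : ℝ) ^ 2) + κ.C * ((s : ℝ) / κ.n h) ^ 2
    + κe.C * (κ.n h : ℝ) ^ 2 * ((s : ℝ) / κ.n h) ^ 4

/-- the sum of all static comparison errors of `ReadOK` at the stop `h` -/
def errAll (κ : MapC) (κe : EntC) (s h : ℕ) : ℝ := errGrid κ κe s h + cutErr κ κe s h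

theorem l42_logL_pos (κ : MapC) : 0 < Real.log κ.L := by
  have : (1 : ℝ) < κ.L := by exact_mod_cast (lt_of_lt_of_le one_lt_two κ.hL)
  exact Real.log_pos this

/-- LEAF L42-E3a (~40 l.).  `Cs κ > 0`, `log L * Cs κ ≥ 1001` (the second summand of `Cs` is positive because `0 < rr κ < 1`). -/
theorem l42_Cs (κ : MapC) : 0 < Cs κ ∧ 1001 ≤ Real.log κ.L * Cs κ := by
  have hl := l42_logL_pos κ
  have h0 := κ.hθ0
  have h1 := κ.hθ
  have hr0 : 0 < rr κ := by unfold rr th1; linarith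
  have hr1 : rr κ < 1 := by unfold rr th1; linarith
  have hlr : 0 < -Real.log (rr κ) := neg_pos.2 (Real.log_neg hr0 hr1)
  have h2 : 0 < 201 / (-Real.log (rr κ)) := div_pos (by norm_num) hlr
  constructor
  · unfold Cs
    have : 0 < 1001 / Real.log κ.L := div_pos (by norm_num) hl
    linarith
  · unfold Cs
    rw [mul_add, mul_div_cancel₀ _ hl.ne']
    have := mul_pos hl h2
    linarith

/-- LEAF L42-E3b (~40 l.).  `Nat.floor` of `Cs κ * log s → ∞`. -/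
theorem l42_JJ_tendsto (κ : MapC) : Tendsto (JJ κ) atTop atTop :=
  tendsto_nat_floor_atTop.comp
    (Tendsto.const_mul_atTop (l42_Cs κ).1 (Real.tendsto_log_atTop.comp tendsto_natCast_atTop_atTop))

/-- LEAF L42-E3c (~80 l.).  `Cs log s < J + 1 ≤ 100 h + 1`, so `λ h / 10 ≥ λ (Cs log s - 1)/1000 ≥ log s + (log s - λ)/1000 ≥ log s` for `s ≥ L`. -/
theorem l42_JJ_far (κ : MapC) : ∀ᶠ s : ℕ in atTop, ∀ h : ℕ, (JJ κ s : ℝ) / 100 ≤ h → Far κ s h := by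
  filter_upwards [eventually_ge_atTop κ.L] with s hs h hh
  have hl := l42_logL_pos κ
  obtain ⟨hC0, hC1⟩ := l42_Cs κ
  have hL0 : (0 : ℝ) < κ.L := by exact_mod_cast (lt_of_lt_of_le two_pos κ.hL)
  have hs0 : (0 : ℝ) < s := lt_of_lt_of_le hL0 (by exact_mod_cast hs)
  have hls : Real.log κ.L ≤ Real.log s := Real.log_le_log hL0 (by exact_mod_cast hs)
  have h1 : Cs κ * Real.log s < (JJ κ s : ℝ) + 1 := Nat.lt_floor_add_one _
  have h2 : (JJ κ s : ℝ) ≤ 100 * h := by linarith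
  have h3 : Real.log κ.L * (Cs κ * Real.log s) ≤ Real.log κ.L * (100 * h + 1) :=
    mul_le_mul_of_nonneg_left (by linarith) hl.le
  have h4 : 1001 * Real.log s ≤ Real.log κ.L * (Cs κ * Real.log s) := by
    rw [← mul_assoc]
    exact mul_le_mul_of_nonneg_right hC1 (hl.le.trans hls)
  have h5 : Real.log s ≤ Real.log κ.L * h / 10 := by nlinarith
  unfold Far
  calc (s : ℝ) = Real.exp (Real.log s) := (Real.exp_log hs0).symm
    _ ≤ Real.exp (Real.log κ.L * h / 10) := Real.exp_le_exp.2 h5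

theorem l42_log_n (κ : MapC) (h : ℕ) :
    Real.log (κ.n h : ℝ) = Real.log κ.D0 + h * Real.log κ.L := by
  have hD0 : (κ.D0 : ℝ) ≠ 0 := by exact_mod_cast (lt_of_lt_of_le one_pos κ.hD).ne'
  have hL0 : (κ.L : ℝ) ≠ 0 := by exact_mod_cast (lt_of_lt_of_le two_pos κ.hL).ne'
  unfold MapC.n
  push_cast
  rw [Real.log_mul hD0 (pow_ne_zero _ hL0), Real.log_pow]

theorem l42_n_pos (κ : MapC) (h : ℕ) : (0 : ℝ) < (κ.n h : ℝ) := by
  have hD0 : 0 < κ.D0 := lt_of_lt_of_le one_pos κ.hD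
  have hL0 : 0 < κ.L := lt_of_lt_of_le two_pos κ.hL
  unfold MapC.n
  exact_mod_cast Nat.mul_pos hD0 (pow_pos hL0 h)

theorem l42_cutErr_eq (κ : MapC) (κe : EntC) (s h : ℕ) :
    cutErr κ κe s h = Real.exp (Real.log κe.C + κe.C * (Real.log κ.D0 + h * Real.log κ.L)
      - κe.c * (s : ℝ) ^ 2) := by
  have hC : 0 < κe.C := lt_of_lt_of_le one_pos κe.hC
  unfold cutErr
  rw [Real.rpow_def_of_pos (l42_n_pos κ h), l42_log_n, sub_eq_add_neg, Real.exp_add, Real.exp_add,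
    Real.exp_log hC, mul_comm κe.C (Real.log κ.D0 + h * Real.log κ.L), neg_mul]

/-- LEAF L42-E2 (~120 l.).  `cutErr = exp (log κe.C + κe.C (log D0 + λ h) - κe.c s²)` (`Real.rpow_def_of_pos`, `Real.log_mul`, `Real.log_pow`); eventually
`(κe.C λ + 2) K s ≤ κe.c s² / 2` and `log κe.C + κe.C log D0 ≤ κe.c s² / 2`. -/
theorem l42_cut_small (κ : MapC) (κe : EntC) (K : ℕ → ℕ)
    (hK : Tendsto (fun s : ℕ => (K s : ℝ) / (s : ℝ) ^ 2) atTop (𝓝 0)) :
    ∀ᶠ s : ℕ in atTop, ∀ h : ℕ, h ≤ K s → cutErr κ κe s h ≤ Real.exp (-2 * h) := by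
  have hl := l42_logL_pos κ
  have hC : 0 < κe.C := lt_of_lt_of_le one_pos κe.hC
  have hc := κe.hc
  have hB : 0 < κe.C * Real.log κ.L + 2 := by positivity
  have hε : 0 < κe.c / (2 * (κe.C * Real.log κ.L + 2)) := by positivity
  have h1 : ∀ᶠ s : ℕ in atTop, (K s : ℝ) / (s : ℝ) ^ 2 < κe.c / (2 * (κe.C * Real.log κ.L + 2)) :=
    (tendsto_order.1 hK).2 _ hε
  have h2 : ∀ᶠ s : ℕ in atTop,
      (Real.log κe.C + κe.C * Real.log κ.D0) / (κe.c / 2) ≤ (s : ℝ) ^ 2 := by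
    have : Tendsto (fun s : ℕ => (s : ℝ) ^ 2) atTop atTop :=
      (tendsto_pow_atTop two_ne_zero).comp tendsto_natCast_atTop_atTop
    exact this.eventually_ge_atTop _
  filter_upwards [h1, h2, eventually_ge_atTop 1] with s a1 a2 hs h hh
  have hs0 : (0 : ℝ) < (s : ℝ) ^ 2 := by
    have : (0 : ℝ) < s := by exact_mod_cast hs
    positivity
  rw [l42_cutErr_eq, Real.exp_le_exp]
  rw [div_lt_div_iff₀ hs0 (by positivity)] at a1
  rw [div_le_iff₀ (by positivity)] at a2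
  have hhK : (h : ℝ) ≤ K s := by exact_mod_cast hh
  have a3 : (κe.C * Real.log κ.L + 2) * h ≤ (κe.C * Real.log κ.L + 2) * K s :=
    mul_le_mul_of_nonneg_left hhK hB.le
  nlinarith

/-- the four error terms for `0 ≤ s ≤ E`, `E ^ 10 ≤ n`, `1 ≤ E`. -/
theorem l42_grid_le {E s n a b : ℝ} (hE : 1 ≤ E) (hs0 : 0 ≤ s) (hs : s ≤ E) (hn : E ^ 10 ≤ n)
    (ha : 0 ≤ a) (hb : 0 ≤ b) :
    a * (s / n + 1 / n ^ 2) + a * (s / n) ^ 2 + b * n ^ 2 * (s / n) ^ 4 ≤ (3 * a + b) * (E ^ 9)⁻¹ := by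
  have hE0 : 0 < E := by linarith
  have hn0 : 0 < n := lt_of_lt_of_le (by positivity) hn
  obtain ⟨u, hu⟩ : ∃ u : ℝ, u = (E ^ 9)⁻¹ := ⟨_, rfl⟩
  have hu0 : 0 < u := by rw [hu]; positivity
  have hu1 : u ≤ 1 := by
    rw [hu]
    exact inv_le_one_of_one_le₀ (one_le_pow₀ hE)
  have hr0 : 0 ≤ s / n := div_nonneg hs0 hn0.le
  have hr : s / n ≤ u := by
    calc s / n ≤ E / E ^ 10 := div_le_div₀ hE0.le hs (by positivity) hn
      _ = u := by
          rw [hu]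
          field_simp
  have hi0 : 0 ≤ 1 / n := by positivity
  have hi : 1 / n ≤ u := by
    calc 1 / n ≤ 1 / E ^ 10 := div_le_div_of_nonneg_left zero_le_one (by positivity) hn
      _ ≤ 1 / E ^ 9 :=
          div_le_div_of_nonneg_left zero_le_one (by positivity) (pow_le_pow_right₀ hE (by norm_num))
      _ = u := by rw [hu, one_div]
  have t2 : 1 / n ^ 2 ≤ u := by
    have : 1 / n ^ 2 = (1 / n) ^ 2 := by rw [div_pow, one_pow]
    rw [this]
    nlinarith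
  have t3 : (s / n) ^ 2 ≤ u := by nlinarith
  have t4 : n ^ 2 * (s / n) ^ 4 ≤ u := by
    have e : n ^ 2 * (s / n) ^ 4 = s ^ 2 * (s / n) ^ 2 := by
      field_simp
    have e2 : E ^ 2 * u ≤ 1 := by
      rw [hu, ← div_eq_mul_inv, div_le_one (by positivity)]
      exact pow_le_pow_right₀ hE (by norm_num)
    have h1 : s ^ 2 ≤ E ^ 2 := pow_le_pow_left₀ hs0 hs 2
    have h2 : (s / n) ^ 2 ≤ u ^ 2 := pow_le_pow_left₀ hr0 hr 2
    rw [e]
    calc s ^ 2 * (s / n) ^ 2 ≤ E ^ 2 * u ^ 2 := mul_le_mul h1 h2 (by positivity) (by positivity)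
      _ = (E ^ 2 * u) * u := by ring
      _ ≤ 1 * u := mul_le_mul_of_nonneg_right e2 hu0.le
      _ = u := one_mul u
  rw [← hu]
  have s1 : a * (s / n + 1 / n ^ 2) ≤ a * (u + u) := mul_le_mul_of_nonneg_left (add_le_add hr t2) ha
  have s2 : a * (s / n) ^ 2 ≤ a * u := mul_le_mul_of_nonneg_left t3 ha
  have s3 : b * n ^ 2 * (s / n) ^ 4 ≤ b * u := by
    rw [mul_assoc]
    exact mul_le_mul_of_nonneg_left t4 hb
  linarith

/-- LEAF L42-E1 (~150 l.).  See the header: with `E = e^{λ h/10}` the sum is `≤ (3 κ.C + κe.C) E⁻⁹`, and `E⁹ = e^{0.9 λ h}` beats `2 h² (3 κ.C + κe.C)`, `P0`, `q0`.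
Last part: `L^{j0} = q0 s ≤ q0 E ≤ E¹⁰ = L^h`, `Nat.pow_le_pow_iff_right`. -/
theorem l42_far_small (κ : MapC) (κe : EntC) : ∃ h0 : ℕ, ∀ s h : ℕ, h0 ≤ h → Far κ s h →
    errGrid κ κe s h ≤ 1 / (2 * (h : ℝ) ^ 2) ∧ s * κe.P0 ≤ κ.n h ∧ ∀ j0 : ℕ, κe.q0 * s = κ.L ^ j0 → j0 ≤ h := by
  have hl := l42_logL_pos κ
  have hκC : 0 ≤ κ.C := zero_le_one.trans κ.hC
  have hκeC : 0 ≤ κe.C := zero_le_one.trans κe.hC
  obtain ⟨μ, hμ⟩ : ∃ μ : ℝ, μ = 9 * Real.log κ.L / 10 := ⟨_, rfl⟩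
  have hμ0 : 0 < μ := by rw [hμ]; positivity
  obtain ⟨B, hB⟩ : ∃ B : ℝ, B = 3 * κ.C + κe.C := ⟨_, rfl⟩
  have hB0 : 0 ≤ B := by rw [hB]; positivity
  obtain ⟨h0, hh0⟩ := exists_nat_ge (12 * B / μ ^ 3 + κe.P0 / μ + κe.q0 / μ + 1)
  refine ⟨h0, fun s h hh hF => ?_⟩
  have p1 : 0 ≤ 12 * B / μ ^ 3 := by positivity
  have p2 : 0 ≤ (κe.P0 : ℝ) / μ := by positivity
  have p3 : 0 ≤ (κe.q0 : ℝ) / μ := by positivity
  have hhr : 12 * B / μ ^ 3 + κe.P0 / μ + κe.q0 / μ + 1 ≤ (h : ℝ) :=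
    hh0.trans (by exact_mod_cast hh)
  have hh1 : (1 : ℝ) ≤ h := by linarith
  obtain ⟨E, hE⟩ : ∃ E : ℝ, E = Real.exp (Real.log κ.L * h / 10) := ⟨_, rfl⟩
  have hE1 : 1 ≤ E := by
    rw [hE]
    exact Real.one_le_exp (by positivity)
  have hE0 : 0 < E := by linarith
  have hsE : (s : ℝ) ≤ E := by rw [hE]; exact hF
  have hL0 : (0 : ℝ) < κ.L := by exact_mod_cast (lt_of_lt_of_le two_pos κ.hL)
  have hE10 : E ^ 10 = (κ.L : ℝ) ^ h := by
    rw [hE, ← Real.exp_nat_mul, ← Real.exp_log hL0, ← Real.exp_nat_mul, Real.exp_log hL0]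
    congr 1
    push_cast
    ring
  have hE9 : E ^ 9 = Real.exp (μ * h) := by
    rw [hE, ← Real.exp_nat_mul, hμ]
    congr 1
    push_cast
    ring
  have hnE : E ^ 10 ≤ (κ.n h : ℝ) := by
    rw [hE10]
    unfold MapC.n
    push_cast
    have : (1 : ℝ) ≤ κ.D0 := by exact_mod_cast κ.hD
    nlinarith [pow_pos hL0 h]
  have hx0 : 0 ≤ μ * h := by positivity
  have hlin : μ * h ≤ E ^ 9 := by
    rw [hE9]
    linarith [Real.add_one_le_exp (μ * h)]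
  have hP : (κe.P0 : ℝ) ≤ E ^ 9 := by
    refine le_trans ?_ hlin
    have : (κe.P0 : ℝ) / μ ≤ h := by linarith
    rwa [div_le_iff₀ hμ0, mul_comm] at this
  have hq : (κe.q0 : ℝ) ≤ E ^ 9 := by
    refine le_trans ?_ hlin
    have : (κe.q0 : ℝ) / μ ≤ h := by linarith
    rwa [div_le_iff₀ hμ0, mul_comm] at this
  have hcub : 2 * (h : ℝ) ^ 2 * B ≤ E ^ 9 := by
    have h3 := Real.pow_div_factorial_le_exp (μ * h) hx0 3
    rw [← hE9] at h3
    refine le_trans ?_ h3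
    have h4 : 12 * B / μ ^ 3 ≤ h := by linarith
    rw [div_le_iff₀ (by positivity)] at h4
    have e : (μ * (h : ℝ)) ^ 3 / ((3 : ℕ).factorial : ℝ) = (h : ℝ) ^ 2 * ((h : ℝ) * μ ^ 3) / 6 := by
      have : ((3 : ℕ).factorial : ℝ) = 6 := by norm_num [Nat.factorial]
      rw [this]
      ring
    rw [e]
    have h5 : (h : ℝ) ^ 2 * (12 * B) ≤ (h : ℝ) ^ 2 * ((h : ℝ) * μ ^ 3) :=
      mul_le_mul_of_nonneg_left h4 (by positivity)
    linarith
  refine ⟨?_, ?_, ?_⟩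
  · have h1 := l42_grid_le hE1 (Nat.cast_nonneg s) hsE hnE hκC hκeC
    unfold errGrid
    refine h1.trans ?_
    rw [← hB, ← div_eq_mul_inv, div_le_div_iff₀ (by positivity) (by positivity)]
    linarith
  · have : ((s * κe.P0 : ℕ) : ℝ) ≤ (κ.n h : ℝ) := by
      push_cast
      calc (s : ℝ) * κe.P0 ≤ E * E ^ 9 := mul_le_mul hsE hP (Nat.cast_nonneg _) hE0.le
        _ = E ^ 10 := by ring
        _ ≤ κ.n h := hnE
    exact_mod_cast this
  · intro j0 hj0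
    have : ((κ.L ^ j0 : ℕ) : ℝ) ≤ ((κ.L ^ h : ℕ) : ℝ) := by
      rw [← hj0]
      push_cast
      calc (κe.q0 : ℝ) * s ≤ E ^ 9 * E := mul_le_mul hq hsE (Nat.cast_nonneg _) (by positivity)
        _ = E ^ 10 := by ring
        _ = (κ.L : ℝ) ^ h := hE10
    have h2 : κ.L ^ j0 ≤ κ.L ^ h := by exact_mod_cast this
    exact (Nat.pow_le_pow_iff_right (lt_of_lt_of_le one_lt_two κ.hL)).1 h2

/-- GLUE: all static errors are `≤ 1 / h²`. -/
theorem l42_err_small (κ : MapC) (κe : EntC) (K : ℕ → ℕ)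
    (hK : Tendsto (fun s : ℕ => (K s : ℝ) / (s : ℝ) ^ 2) atTop (𝓝 0)) :
    ∃ h0 : ℕ, ∀ᶠ s : ℕ in atTop, ∀ h : ℕ, h0 ≤ h → Far κ s h → h ≤ K s →
      errAll κ κe s h ≤ 1 / (h : ℝ) ^ 2 ∧ s * κe.P0 ≤ κ.n h ∧ cutErr κ κe s h ≤ 1 ∧
      ∀ j0 : ℕ, κe.q0 * s = κ.L ^ j0 → j0 ≤ h := by
  obtain ⟨h0, hfar⟩ := l42_far_small κ κe
  refine ⟨max h0 1, ?_⟩
  filter_upwards [l42_cut_small κ κe K hK] with s hs h hh hF hK'
  obtain ⟨a1, a2, a3⟩ := hfar s h ((le_max_left _ _).trans hh) hF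
  have hh1 : (1 : ℝ) ≤ h := by exact_mod_cast (le_max_right _ _).trans hh
  have hcut := hs h hK'
  have hexp : Real.exp (-2 * h) ≤ 1 / (2 * (h : ℝ) ^ 2) := by
    have h1 := Real.quadratic_le_exp_of_nonneg (x := 2 * (h : ℝ)) (by linarith)
    have h2 : 2 * (h : ℝ) ^ 2 ≤ Real.exp (2 * h) := by nlinarith
    have e : (-2 * (h : ℝ)) = -(2 * h) := by ring
    rw [e, Real.exp_neg, one_div]
    exact inv_anti₀ (by positivity) h2
  refine ⟨?_, a2, ?_, a3⟩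
  · unfold errAll
    have : 1 / (h : ℝ) ^ 2 = 1 / (2 * (h : ℝ) ^ 2) + 1 / (2 * (h : ℝ) ^ 2) := by field_simp; norm_num
    rw [this]
    exact add_le_add a1 (hcut.trans hexp)
  · refine hcut.trans ?_
    rw [Real.exp_le_one_iff]
    linarith

/-- Stores the on-demand equation lemmas of the definitions above in THIS module (rule 6 hygiene). -/
theorem l42_evt_forced : True := by
  have := @Far.eq_1
  have := @errGrid.eq_1
  have := @errAll.eq_1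
  trivial

end

end Claimed.Agent.R285.E4
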