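import Claimed.Agent.R285.E4.P44Model

/-!
# ROW 285, cut of [E] P4.4, LEAF P44-ASYM-1 (this file; the header describes all three files P44Asym1/2/3): asymptotics of the scales (paper-free; `s = sf ε ≍ ε^{-1/3}`, `J = ⌊C_* log s⌋`, stops `h ≤ A/√ε`)

From `Sides.size`: `c ε^{-1/3} ≤ s ≤ C ε^{-1/3}` eventually (`c > 0`).  So `s → ∞`, `ε s² ≤ C² ε^{1/3} → 0`, `1/√ε ≤ (s/c)^{3/2}`, `log s ≤ log C + (1/3) log (1/ε)`.
`Cs κ > 0` and `Cs κ * log L ≥ 1001` (`L ≥ 2`, `0 < rr κ < 1`).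
* ASYM-1 = `p44_sf_tendsto`, `p44_disk_ev`, `p44_j0_le`, `p44_horizon`.
  `p44_j0_le`: `j0 log L = log q0 + log s`, `JJ ≥ Cs log s - 1 ≥ 1001 log s/log L - 1`.     `p44_horizon`: `Km s = ⌈|A| (s/c)^{3/2}⌉₊`.
* ASYM-2 = `p44_scales_ev`: `JJ → ∞` and `log (2+j) + 2 = o(j)`;  `K1 = ⌊m/√ε⌋₊`, `m = min τ A`: `K1 ≤ m/√ε`, `ε K1² ≤ τ²`, `K1 ≥ m/(2√ε)`,
  `τ ε K1³ ≥ τ m³/(8 √ε) ≥ log (2 + m/√ε)`, `JJ ≤ Cs log s ≤ Cs (log C + (1/3) log (1/ε)) ≤ m/(2√ε) ≤ K1`  (all because `log t = o(t)`).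
* ASYM-3 = `p44_valid_ev`: `n_h = D0 L^h ≥ L^J ≥ L^{Cs log s - 1} = s^{Cs log L}/L ≥ s^{1001}/L`, so `s/n_h ≤ L s^{-1000}`, `s P0 ≤ n_h`;
  `log cutErr = log κe.C + κe.C (log D0 + h log L) - κe.c s² ≤ c₁ + c₂ A/√ε - κe.c c² ε^{-2/3} → -∞`.
-/

set_option autoImplicit false

namespace Claimed.Agent.R285.E4

open Filter Topology Claims.C0459
open Claimed.Agent.R285.Flow

/-! ### the scale `v = ε^{-1/6}`: `ε^{-1/3} = v²`, `1/√ε = v³`, `ε v⁶ = 1` -/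

/-- the scale `v = ε^{-1/6}` -/
noncomputable def p44_v (ε : ℝ) : ℝ := ε ^ (-(1 / 6) : ℝ)

theorem p44_v_pos {ε : ℝ} (hε : 0 < ε) : 0 < p44_v ε := Real.rpow_pos_of_pos hε _

theorem p44_v_sq {ε : ℝ} (hε : 0 < ε) : ε ^ (-(1 / 3) : ℝ) = p44_v ε ^ 2 := by
  unfold p44_v
  rw [← Real.rpow_natCast, ← Real.rpow_mul hε.le]
  norm_num

theorem p44_v_six {ε : ℝ} (hε : 0 < ε) : ε * p44_v ε ^ 6 = 1 := by
  unfold p44_v
  rw [← Real.rpow_natCast, ← Real.rpow_mul hε.le]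
  have : (-(1 / 6) * ((6 : ℕ) : ℝ) : ℝ) = -1 := by norm_num
  rw [this, Real.rpow_neg_one]
  exact mul_inv_cancel₀ hε.ne'

theorem p44_v_sqrt {ε : ℝ} (hε : 0 < ε) : 1 / Real.sqrt ε = p44_v ε ^ 3 := by
  unfold p44_v
  rw [Real.sqrt_eq_rpow, ← Real.rpow_natCast, ← Real.rpow_mul hε.le, one_div,
    ← Real.rpow_neg hε.le]
  norm_num

theorem p44_div_sqrt {ε : ℝ} (hε : 0 < ε) (A : ℝ) : A / Real.sqrt ε = A * p44_v ε ^ 3 := by
  rw [← p44_v_sqrt hε]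
  ring

theorem p44_v_tendsto : Tendsto p44_v (𝓝[>] (0 : ℝ)) atTop :=
  tendsto_rpow_neg_nhdsGT_zero (by norm_num)

/-- `Sides.size` in terms of `v` -/
theorem p44_size {κ : MapC} {κe : EntC} {sf : ℝ → ℕ} (h : Sides κ κe sf) :
    ∃ c C : ℝ, 0 < c ∧ 0 < C ∧ ∀ᶠ ε in 𝓝[>] (0 : ℝ),
      0 < ε ∧ c * p44_v ε ^ 2 ≤ sf ε ∧ (sf ε : ℝ) ≤ C * p44_v ε ^ 2 := by
  obtain ⟨c, C, hc, hev⟩ := h.size
  refine ⟨c, |C| + 1, hc, by positivity, ?_⟩
  filter_upwards [hev, self_mem_nhdsWithin] with ε h1 hε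
  have hε' : 0 < ε := hε
  rw [p44_v_sq hε'] at h1
  refine ⟨hε', h1.1, h1.2.trans ?_⟩
  have : 0 ≤ p44_v ε ^ 2 := by positivity
  nlinarith [le_abs_self C]

theorem p44_sf_tendsto {κ : MapC} {κe : EntC} {sf : ℝ → ℕ} (h : Sides κ κe sf) : Tendsto sf (𝓝[>] (0 : ℝ)) atTop := by
  obtain ⟨c, C, hc, _, hev⟩ := p44_size h
  rw [← tendsto_natCast_atTop_iff (R := ℝ)]
  have h1 : Tendsto (fun ε => c * p44_v ε ^ 2) (𝓝[>] (0 : ℝ)) atTop :=
    ((tendsto_pow_atTop (two_ne_zero)).comp p44_v_tendsto).const_mul_atTop hc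
  exact tendsto_atTop_mono' _ (hev.mono fun ε hε => hε.2.1) h1

theorem p44_disk_ev {κ : MapC} {κe : EntC} {sf : ℝ → ℕ} (h : Sides κ κe sf) :
    ∀ᶠ ε in 𝓝[>] (0 : ℝ), ((xyCritical - ε : ℝ) : ℂ) ∈ disk κe (sf ε) ∧ (xyCritical : ℂ) ∈ disk κe (sf ε) := by
  obtain ⟨c, C, hc, hC, hev⟩ := p44_size h
  have hκ := κe.hc
  have hv : ∀ᶠ ε in 𝓝[>] (0 : ℝ), C ^ 2 / κe.c < p44_v ε ^ 2 :=
    ((tendsto_pow_atTop (two_ne_zero)).comp p44_v_tendsto).eventually_gt_atTop _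
  filter_upwards [hev, hv] with ε ⟨hε, h1, h2⟩ h3
  have hvp := p44_v_pos hε
  set v := p44_v ε with hvdef
  have hs : 0 < (sf ε : ℝ) := lt_of_lt_of_le (by positivity) h1
  have hrad : ε < κe.c / (sf ε : ℝ) ^ 2 := by
    rw [lt_div_iff₀ (by positivity)]
    have h6 := p44_v_six hε
    rw [← hvdef] at h6
    have h4 : (sf ε : ℝ) ^ 2 ≤ C ^ 2 * v ^ 4 := by
      have := pow_le_pow_left₀ hs.le h2 2
      nlinarith
    have h5 : C ^ 2 < κe.c * v ^ 2 := by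
      rw [div_lt_iff₀ hκ] at h3
      linarith
    have h7 : ε * (C ^ 2 * v ^ 4) < ε * (κe.c * v ^ 6) := by
      refine mul_lt_mul_of_pos_left ?_ hε
      have : 0 < v ^ 4 := by positivity
      nlinarith
    calc ε * (sf ε : ℝ) ^ 2 ≤ ε * (C ^ 2 * v ^ 4) := mul_le_mul_of_nonneg_left h4 hε.le
      _ < ε * (κe.c * v ^ 6) := h7
      _ = κe.c * (ε * v ^ 6) := by ring
      _ = κe.c := by rw [h6, mul_one]
  constructor
  · unfold disk
    rw [Metric.mem_ball, Complex.dist_eq, ← Complex.ofReal_sub, Complex.norm_real, Real.norm_eq_abs]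
    have : xyCritical - ε - xyCritical = -ε := by ring
    rw [this, abs_neg, abs_of_pos hε]
    exact hrad
  · unfold disk
    exact Metric.mem_ball_self (hε.trans hrad)

/-! ### the constants `Cs`, `JJ` -/

theorem p44_logL_pos (κ : MapC) : 0 < Real.log κ.L := by
  apply Real.log_pos
  have := κ.hL
  exact_mod_cast (by omega : 1 < κ.L)

theorem p44_Cs_ge (κ : MapC) : 1001 / Real.log κ.L ≤ Cs κ := by
  have h1 : 0 < rr κ := by
    unfold rr th1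
    linarith [κ.hθ0]
  have h2 : rr κ < 1 := by
    unfold rr th1
    linarith [κ.hθ]
  have h3 : 0 < -Real.log (rr κ) := by
    have := Real.log_neg h1 h2
    linarith
  unfold Cs
  have : 0 ≤ 201 / (-Real.log (rr κ)) := by positivity
  linarith

theorem p44_Cs_pos (κ : MapC) : 0 < Cs κ := by
  have := p44_logL_pos κ
  exact lt_of_lt_of_le (by positivity) (p44_Cs_ge κ)

/-- `Cs log L ≥ 1001` -/
theorem p44_Cs_logL (κ : MapC) : 1001 ≤ Cs κ * Real.log κ.L := by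
  have h := p44_logL_pos κ
  have := mul_le_mul_of_nonneg_right (p44_Cs_ge κ) h.le
  rwa [div_mul_cancel₀ _ h.ne'] at this

theorem p44_j0_le (κ : MapC) (κe : EntC) :
    ∀ᶠ s : ℕ in atTop, ∀ j0 : ℕ, κe.q0 * s = κ.L ^ j0 → j0 ≤ JJ κ s ∧ 1 ≤ JJ κ s := by
  filter_upwards [eventually_ge_atTop (max (max κe.q0 κ.L) 2)] with s hs j0 hj0
  have hsq : κe.q0 ≤ s := le_trans (le_trans (le_max_left _ _) (le_max_left _ _)) hs
  have hsL : κ.L ≤ s := le_trans (le_trans (le_max_right _ _) (le_max_left _ _)) hs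
  have hs2 : 2 ≤ s := le_trans (le_max_right _ _) hs
  have hL := p44_logL_pos κ
  have hq1 : (1 : ℝ) ≤ κe.q0 := by exact_mod_cast κe.hq
  have hsR : (2 : ℝ) ≤ s := by exact_mod_cast hs2
  have hL2 : (2 : ℝ) ≤ κ.L := by exact_mod_cast κ.hL
  have hlogs : 0 < Real.log s := Real.log_pos (by linarith)
  have hCs := p44_Cs_logL κ
  have e1 : (j0 : ℝ) * Real.log κ.L = Real.log κe.q0 + Real.log s := by
    have : ((κe.q0 * s : ℕ) : ℝ) = ((κ.L ^ j0 : ℕ) : ℝ) := by rw [hj0]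
    push_cast at this
    rw [← Real.log_pow, ← this, Real.log_mul (by linarith) (by linarith)]
  have e2 : Real.log κe.q0 ≤ Real.log s :=
    Real.log_le_log (by linarith) (by exact_mod_cast hsq)
  have e3 : Real.log κ.L ≤ Real.log s := Real.log_le_log (by linarith) (by exact_mod_cast hsL)
  have e4 : 1001 * Real.log s ≤ Cs κ * Real.log s * Real.log κ.L := by
    have := mul_le_mul_of_nonneg_right hCs hlogs.le
    linarith
  unfold JJ
  constructor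
  · apply Nat.le_floor
    have : (j0 : ℝ) * Real.log κ.L ≤ Cs κ * Real.log s * Real.log κ.L := by
      rw [e1]
      linarith
    exact le_of_mul_le_mul_right this hL
  · apply Nat.le_floor
    have : (1 : ℝ) * Real.log κ.L ≤ Cs κ * Real.log s * Real.log κ.L := by linarith
    have := le_of_mul_le_mul_right this hL
    exact_mod_cast this

theorem p44_horizon {κ : MapC} {κe : EntC} {sf : ℝ → ℕ} (h : Sides κ κe sf) (A : ℝ) :
    ∃ Km : ℕ → ℕ, Tendsto (fun s : ℕ => (Km s : ℝ) / (s : ℝ) ^ 2) atTop (𝓝 0) ∧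
      ∀ᶠ ε in 𝓝[>] (0 : ℝ), A / Real.sqrt ε ≤ Km (sf ε) := by
  obtain ⟨c, C, hc, _, hev⟩ := p44_size h
  refine ⟨fun s => ⌈|A| * ((s : ℝ) / c * Real.sqrt ((s : ℝ) / c))⌉₊, ?_, ?_⟩
  · -- `Km s / s² ≤ B / √s + 1 / s²`
    set B : ℝ := |A| * (1 / c * Real.sqrt (1 / c)) with hB
    have hlim : Tendsto (fun s : ℕ => B * (Real.sqrt (s : ℝ))⁻¹ + ((s : ℝ) ^ 2)⁻¹) atTop (𝓝 0) := by
      have h1 : Tendsto (fun s : ℕ => (Real.sqrt (s : ℝ))⁻¹) atTop (𝓝 0) :=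
        tendsto_inv_atTop_zero.comp (Real.tendsto_sqrt_atTop.comp tendsto_natCast_atTop_atTop)
      have h2 : Tendsto (fun s : ℕ => ((s : ℝ) ^ 2)⁻¹) atTop (𝓝 0) :=
        tendsto_inv_atTop_zero.comp
          ((tendsto_pow_atTop two_ne_zero).comp tendsto_natCast_atTop_atTop)
      simpa using (h1.const_mul B).add h2
    refine squeeze_zero' (Eventually.of_forall fun s => by positivity) ?_ hlim
    filter_upwards [eventually_ge_atTop 1] with s hs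
    have hsR : (1 : ℝ) ≤ s := by exact_mod_cast hs
    have hs0 : (0 : ℝ) < s := by linarith
    have hnn : 0 ≤ |A| * ((s : ℝ) / c * Real.sqrt ((s : ℝ) / c)) := by positivity
    have h1 := (Nat.ceil_lt_add_one hnn).le
    have h2 : |A| * ((s : ℝ) / c * Real.sqrt ((s : ℝ) / c)) = B * ((s : ℝ) * Real.sqrt s) := by
      have : Real.sqrt ((s : ℝ) / c) = Real.sqrt s * Real.sqrt (1 / c) := by
        rw [← Real.sqrt_mul hs0.le]
        congr 1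
        ring
      rw [this, hB]
      ring
    have hsq : Real.sqrt s * Real.sqrt s = s := Real.mul_self_sqrt hs0.le
    have hsp : 0 < Real.sqrt s := Real.sqrt_pos.2 hs0
    rw [div_le_iff₀ (by positivity)]
    calc ((⌈|A| * ((s : ℝ) / c * Real.sqrt ((s : ℝ) / c))⌉₊ : ℕ) : ℝ)
        ≤ B * ((s : ℝ) * Real.sqrt s) + 1 := by rw [← h2]; exact h1
      _ = (B * (Real.sqrt (s : ℝ))⁻¹ + ((s : ℝ) ^ 2)⁻¹) * (s : ℝ) ^ 2 := by
          have e1 : (Real.sqrt (s : ℝ))⁻¹ * (s : ℝ) ^ 2 = (s : ℝ) * Real.sqrt s := by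
            field_simp
            nlinarith
          have e2 : ((s : ℝ) ^ 2)⁻¹ * (s : ℝ) ^ 2 = 1 := inv_mul_cancel₀ (by positivity)
          have e3 : (B * (Real.sqrt (s : ℝ))⁻¹ + ((s : ℝ) ^ 2)⁻¹) * (s : ℝ) ^ 2
              = B * ((Real.sqrt (s : ℝ))⁻¹ * (s : ℝ) ^ 2) + ((s : ℝ) ^ 2)⁻¹ * (s : ℝ) ^ 2 := by ring
          rw [e3, e1, e2]
  · filter_upwards [hev] with ε ⟨hε, h1, _⟩
    have hvp := p44_v_pos hε
    rw [p44_div_sqrt hε]
    set v := p44_v ε with hvdef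
    have h2 : v ^ 2 ≤ (sf ε : ℝ) / c := by
      rw [le_div_iff₀ hc]
      linarith
    have h3 : v ≤ Real.sqrt ((sf ε : ℝ) / c) := Real.le_sqrt_of_sq_le h2
    have h4 : v ^ 3 ≤ (sf ε : ℝ) / c * Real.sqrt ((sf ε : ℝ) / c) := by
      calc v ^ 3 = v ^ 2 * v := by ring
        _ ≤ (sf ε : ℝ) / c * Real.sqrt ((sf ε : ℝ) / c) :=
          mul_le_mul h2 h3 hvp.le (le_trans (by positivity) h2)
    calc A * v ^ 3 ≤ |A| * v ^ 3 := mul_le_mul_of_nonneg_right (le_abs_self A) (by positivity)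
      _ ≤ |A| * ((sf ε : ℝ) / c * Real.sqrt ((sf ε : ℝ) / c)) :=
        mul_le_mul_of_nonneg_left h4 (abs_nonneg A)
      _ ≤ _ := Nat.le_ceil _

end Claimed.Agent.R285.E4
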