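import Claimed.Agent.R285.E4.L42Evt
import Claimed.Agent.R285.E4.P44Asym1

/-!
# ROW 285, [E] L4.3, layer EVT: arithmetic of the scales `s ≍ ε^{-1/3}`, `J = ⌊C_* log s⌋`   (architect helper90; prefix `l43_`)

PAPER-FREE.  Facts: `Cs κ > 0`, `gam κ * Cs κ ≤ 1/101`, `gam κ > 0`, `Cs κ * (- log (rr κ)) ≥ 201`, `Cs κ log s - 1 < J ≤ Cs κ log s` (`s ≥ 1`).  Hence
`e^{γ J} ≤ s^{1/101}`, `J ≤ Cs κ log s`, `rr^{m} ≤ rr^{-2} s^{-100}` for `m ≥ J/2 - 1`.  From `Sides.size`: `s ≤ C ε^{-1/3}`, i.e. `ε s³ ≤ C³`.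
`(log s)^k s^{-a} → 0` for `a > 0`: `Real.isLittleO_log_rpow_atTop`, or `Real.tendsto_pow_log_div_mul_add_atTop`.
-/

set_option autoImplicit false

namespace Claimed.Agent.R285.E4

open Filter Topology Claims.C0459
open Claimed.Agent.R285.Flow

noncomputable section

/-- `0 < rr κ < 1`, `0 < - log (rr κ)`. -/
theorem l43_rr (κ : MapC) : 0 < rr κ ∧ rr κ < 1 ∧ 0 < -Real.log (rr κ) := by
  have h1 : 0 < rr κ := by
    unfold rr th1
    linarith [κ.hθ0]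
  have h2 : rr κ < 1 := by
    unfold rr th1
    linarith [κ.hθ]
  have := Real.log_neg h1 h2
  exact ⟨h1, h2, by linarith⟩

/-- LEAF L43-E1 (~60 l.). -/
theorem l43_gam (κ : MapC) : 0 < gam κ ∧ gam κ * Cs κ ≤ 1 / 101 ∧ 201 ≤ Cs κ * (-Real.log (rr κ)) := by
  obtain ⟨h1, h2, h3⟩ := l43_rr κ
  have hCs := p44_Cs_pos κ
  refine ⟨?_, ?_, ?_⟩
  · unfold gam
    exact lt_min (by positivity) (by positivity)
  · have : gam κ ≤ 1 / (101 * Cs κ) := min_le_left _ _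
    have h4 := mul_le_mul_of_nonneg_right this hCs.le
    refine h4.trans (le_of_eq ?_)
    field_simp
  · have hl := p44_logL_pos κ
    have h5 : 201 / (-Real.log (rr κ)) ≤ Cs κ := by
      unfold Cs
      have : 0 ≤ 1001 / Real.log κ.L := by positivity
      linarith
    have h6 := mul_le_mul_of_nonneg_right h5 h3.le
    rwa [div_mul_cancel₀ _ h3.ne'] at h6

/-- LEAF L43-E1 (~60 l.).  `Nat.floor_le`, `Nat.lt_floor_add_one`. -/
theorem l43_JJ_bounds (κ : MapC) (s : ℕ) (hs : 1 ≤ s) :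
    (JJ κ s : ℝ) ≤ Cs κ * Real.log s ∧ Cs κ * Real.log s < (JJ κ s : ℝ) + 1 := by
  have hCs := p44_Cs_pos κ
  have hl : 0 ≤ Real.log s := Real.log_natCast_nonneg s
  unfold JJ
  exact ⟨Nat.floor_le (by positivity), Nat.lt_floor_add_one _⟩

/-- LEAF L43-E2 (~100 l.).  `J ≤ Cs log s = o(s²)`. -/
theorem l43_JJ_little (κ : MapC) : Tendsto (fun s : ℕ => (JJ κ s : ℝ) / (s : ℝ) ^ 2) atTop (𝓝 0) := by
  have hCs := p44_Cs_pos κ
  have h0 : Tendsto (fun s : ℕ => Cs κ / (s : ℝ)) atTop (𝓝 0) := tendsto_const_div_atTop_nhds_zero_nat _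
  refine squeeze_zero' (Eventually.of_forall fun s => by positivity) ?_ h0
  filter_upwards [eventually_ge_atTop 1] with s hs
  have hs0 : (0 : ℝ) < (s : ℝ) := by exact_mod_cast hs
  have h1 := (l43_JJ_bounds κ s hs).1
  have h2 : Real.log s ≤ (s : ℝ) := by
    have := Real.log_le_sub_one_of_pos hs0
    linarith
  have h3 : (JJ κ s : ℝ) ≤ Cs κ * (s : ℝ) := h1.trans (mul_le_mul_of_nonneg_left h2 hCs.le)
  rw [div_le_div_iff₀ (by positivity) hs0]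
  nlinarith

/-- `t ^ m e^{- b t} → 0`. -/
theorem l43_pow_exp (m : ℕ) (b : ℝ) (hb : 0 < b) :
    Tendsto (fun t : ℝ => t ^ m * Real.exp (-(b * t))) atTop (𝓝 0) := by
  have h1 : Tendsto (fun t : ℝ => b * t) atTop atTop := tendsto_id.const_mul_atTop hb
  have h2 := ((Real.tendsto_pow_mul_exp_neg_atTop_nhds_zero m).comp h1).const_mul ((b ^ m)⁻¹)
  rw [mul_zero] at h2
  refine h2.congr fun t => ?_
  simp only [Function.comp]
  have : b ^ m ≠ 0 := pow_ne_zero _ hb.ne'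
  rw [mul_pow]
  field_simp

/-- `log s → ∞` along the naturals. -/
theorem l43_log_tendsto : Tendsto (fun s : ℕ => Real.log (s : ℝ)) atTop atTop :=
  Real.tendsto_log_atTop.comp tendsto_natCast_atTop_atTop

/-- LEAF L43-E2 (~120 l.).  `e^{a γ J} ≤ s^{a/101}`, `J^m ≤ (Cs log s)^m`; `a/101 < 1`. -/
theorem l43_num_s (κ : MapC) (m : ℕ) (a : ℝ) (ha0 : 0 ≤ a) (ha : a ≤ 2) :
    Tendsto (fun s : ℕ => (JJ κ s : ℝ) ^ m * Real.exp (a * gam κ * JJ κ s) / (s : ℝ)) atTop (𝓝 0) := by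
  have hCs := p44_Cs_pos κ
  obtain ⟨hg0, hg1, _⟩ := l43_gam κ
  have h0 := (((l43_pow_exp m (99 / 101) (by norm_num)).comp l43_log_tendsto).const_mul (Cs κ ^ m))
  rw [mul_zero] at h0
  refine squeeze_zero' (Eventually.of_forall fun s => by positivity) ?_ h0
  filter_upwards [eventually_ge_atTop 1] with s hs
  have hs0 : (0 : ℝ) < (s : ℝ) := by exact_mod_cast hs
  have hl : 0 ≤ Real.log s := Real.log_natCast_nonneg s
  have h1 := (l43_JJ_bounds κ s hs).1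
  simp only [Function.comp]
  have h2 : (JJ κ s : ℝ) ^ m ≤ Cs κ ^ m * Real.log s ^ m := by
    rw [← mul_pow]
    exact pow_le_pow_left₀ (by positivity) h1 m
  have h3 : a * gam κ * JJ κ s ≤ 2 / 101 * Real.log s := by
    have t1 : gam κ * (JJ κ s : ℝ) ≤ gam κ * (Cs κ * Real.log s) := mul_le_mul_of_nonneg_left h1 hg0.le
    have t2 : gam κ * Cs κ * Real.log s ≤ 1 / 101 * Real.log s := mul_le_mul_of_nonneg_right hg1 hl
    have t3 : gam κ * (JJ κ s : ℝ) ≤ 1 / 101 * Real.log s := by linarith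
    have t4 : 0 ≤ gam κ * (JJ κ s : ℝ) := by positivity
    have t5 : a * (gam κ * (JJ κ s : ℝ)) ≤ 2 * (1 / 101 * Real.log s) :=
      mul_le_mul ha t3 t4 (by norm_num)
    linarith
  have h4 : Real.exp (a * gam κ * JJ κ s) / (s : ℝ) ≤ Real.exp (-(99 / 101 * Real.log s)) := by
    have e : ((s : ℝ))⁻¹ = Real.exp (-Real.log s) := by rw [Real.exp_neg, Real.exp_log hs0]
    rw [div_eq_mul_inv, e, ← Real.exp_add, Real.exp_le_exp]
    linarith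
  calc (JJ κ s : ℝ) ^ m * Real.exp (a * gam κ * JJ κ s) / (s : ℝ)
      = (JJ κ s : ℝ) ^ m * (Real.exp (a * gam κ * JJ κ s) / (s : ℝ)) := by ring
    _ ≤ (Cs κ ^ m * Real.log s ^ m) * Real.exp (-(99 / 101 * Real.log s)) :=
        mul_le_mul h2 h4 (by positivity) (by positivity)
    _ = _ := by ring

/-- LEAF L43-E3 (~150 l.).  `J - (J+1)/2 ≥ J/2 - 1` (natural division), `rr^{J/2-1} ≤ rr^{-2} e^{(Cs log s/2) log rr} ≤ rr^{-2} s^{-100}`, `e^{γ J} ≤ s^{1/101}`. -/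
theorem l43_num_slave (κ : MapC) :
    Tendsto (fun s : ℕ => rr κ ^ (JJ κ s - (JJ κ s + 1) / 2) * ((s : ℝ) ^ 2 * Real.exp (gam κ * JJ κ s))) atTop (𝓝 0) := by
  have hCs := p44_Cs_pos κ
  obtain ⟨hg0, hg1, hg2⟩ := l43_gam κ
  obtain ⟨hr0, hr1, hr2⟩ := l43_rr κ
  have h0 : Tendsto (fun s : ℕ => (rr κ)⁻¹ / (s : ℝ)) atTop (𝓝 0) := tendsto_const_div_atTop_nhds_zero_nat _
  refine squeeze_zero' (Eventually.of_forall fun s => by positivity) ?_ h0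
  filter_upwards [eventually_ge_atTop 1] with s hs
  have hs0 : (0 : ℝ) < (s : ℝ) := by exact_mod_cast hs
  have hl : 0 ≤ Real.log s := Real.log_natCast_nonneg s
  obtain ⟨h1, h1'⟩ := l43_JJ_bounds κ s hs
  obtain ⟨n, hn⟩ : ∃ n : ℕ, n = JJ κ s - (JJ κ s + 1) / 2 := ⟨_, rfl⟩
  rw [← hn]
  have hn2 : JJ κ s ≤ 2 * n + 1 := by omega
  have hn2' : (JJ κ s : ℝ) ≤ 2 * (n : ℝ) + 1 := by exact_mod_cast hn2
  obtain ⟨ℓ, hℓ⟩ : ∃ ℓ : ℝ, ℓ = -Real.log (rr κ) := ⟨_, rfl⟩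
  rw [← hℓ] at hr2 hg2
  have e1 : rr κ ^ n = Real.exp (-(ℓ * n)) := by
    rw [hℓ, neg_mul, neg_neg, mul_comm, Real.exp_nat_mul, Real.exp_log hr0]
  have e2 : (s : ℝ) ^ 2 = Real.exp (2 * Real.log s) := by
    rw [← Nat.cast_ofNat (R := ℝ), Real.exp_nat_mul, Real.exp_log hs0]
  have e3 : (rr κ)⁻¹ / (s : ℝ) = Real.exp (ℓ - Real.log s) := by
    rw [Real.exp_sub, Real.exp_log hs0, hℓ, Real.exp_neg, Real.exp_log hr0]
  rw [e1, e2, e3, ← Real.exp_add, ← Real.exp_add, Real.exp_le_exp]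
  have t1 : gam κ * (JJ κ s : ℝ) ≤ gam κ * (Cs κ * Real.log s) := mul_le_mul_of_nonneg_left h1 hg0.le
  have t2 : gam κ * Cs κ * Real.log s ≤ 1 / 101 * Real.log s := mul_le_mul_of_nonneg_right hg1 hl
  have t3 : Cs κ * Real.log s - 2 ≤ 2 * (n : ℝ) := by linarith
  have t4 : ℓ * (Cs κ * Real.log s - 2) ≤ ℓ * (2 * (n : ℝ)) := mul_le_mul_of_nonneg_left t3 hr2.le
  have t5 : 201 * Real.log s ≤ Cs κ * ℓ * Real.log s := mul_le_mul_of_nonneg_right hg2 hl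
  nlinarith

/-- LEAF L43-E4 (~80 l.).  From `Sides.size`: `s ≤ C ε^{-1/3}`, cube (`Real.rpow_natCast`, `Real.rpow_mul`). -/
theorem l43_eps_cube {κ : MapC} {κe : EntC} {sf : ℝ → ℕ} (h : Sides κ κe sf) :
    ∃ C : ℝ, 0 < C ∧ ∀ᶠ ε in 𝓝[>] (0 : ℝ), ε * (sf ε : ℝ) ^ 3 ≤ C := by
  obtain ⟨c, C, hc, hC, hev⟩ := p44_size h
  refine ⟨C ^ 3, by positivity, ?_⟩
  filter_upwards [hev] with ε ⟨hε, _, h2⟩
  have h3 : (sf ε : ℝ) ^ 3 ≤ (C * p44_v ε ^ 2) ^ 3 := pow_le_pow_left₀ (by positivity) h2 3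
  have h4 := mul_le_mul_of_nonneg_left h3 hε.le
  refine h4.trans (le_of_eq ?_)
  have h6 := p44_v_six hε
  calc ε * (C * p44_v ε ^ 2) ^ 3 = C ^ 3 * (ε * p44_v ε ^ 6) := by ring
    _ = C ^ 3 := by rw [h6, mul_one]

/-- GLUE: `ε s^k * F(s) → 0` along `s = sf ε`, `k ≤ 2`, if `F(s)/s^{3-k}... `: the two forms used below. -/
theorem l43_num_prox {κ : MapC} {κe : EntC} {sf : ℝ → ℕ} (h : Sides κ κe sf) :
    Tendsto (fun ε : ℝ => ε * (sf ε : ℝ) ^ 2 * Real.exp (gam κ * JJ κ (sf ε)) * (JJ κ (sf ε) : ℝ) ^ 2) (𝓝[>] 0) (𝓝 0) := by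
  obtain ⟨C, hC, hev⟩ := l43_eps_cube h
  have h1 := (l43_num_s κ 2 1 zero_le_one one_le_two).comp (p44_sf_tendsto h)
  have h2 := h1.const_mul C
  rw [mul_zero] at h2
  have hpos : ∀ᶠ ε in 𝓝[>] (0 : ℝ), 0 < ε := self_mem_nhdsWithin
  have hs : ∀ᶠ ε in 𝓝[>] (0 : ℝ), 1 ≤ sf ε := (p44_sf_tendsto h).eventually_ge_atTop 1
  refine squeeze_zero' ?_ ?_ h2
  · filter_upwards [hpos] with ε hε
    positivity
  · filter_upwards [hpos, hev, hs] with ε hε hc hs1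
    have hs0 : (0 : ℝ) < sf ε := by exact_mod_cast hs1
    simp only [Function.comp, one_mul]
    have e : ε * (sf ε : ℝ) ^ 2 * Real.exp (gam κ * JJ κ (sf ε)) * (JJ κ (sf ε) : ℝ) ^ 2
        = (ε * (sf ε : ℝ) ^ 3) * ((JJ κ (sf ε) : ℝ) ^ 2 * Real.exp (gam κ * JJ κ (sf ε)) / (sf ε : ℝ)) := by
      field_simp
    rw [e]
    exact mul_le_mul_of_nonneg_right hc (by positivity)

theorem l43_num_taylor {κ : MapC} {κe : EntC} {sf : ℝ → ℕ} (h : Sides κ κe sf) :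
    Tendsto (fun ε : ℝ => ε * (JJ κ (sf ε) : ℝ) ^ 4 * Real.exp (2 * gam κ * JJ κ (sf ε))) (𝓝[>] 0) (𝓝 0) := by
  obtain ⟨C, hC, hev⟩ := l43_eps_cube h
  have h1 := (l43_num_s κ 4 2 zero_le_two le_rfl).comp (p44_sf_tendsto h)
  have h2 := h1.const_mul C
  rw [mul_zero] at h2
  have hpos : ∀ᶠ ε in 𝓝[>] (0 : ℝ), 0 < ε := self_mem_nhdsWithin
  have hs : ∀ᶠ ε in 𝓝[>] (0 : ℝ), 1 ≤ sf ε := (p44_sf_tendsto h).eventually_ge_atTop 1
  refine squeeze_zero' ?_ ?_ h2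
  · filter_upwards [hpos] with ε hε
    positivity
  · filter_upwards [hpos, hev, hs] with ε hε hc hs1
    have hs0 : (0 : ℝ) < sf ε := by exact_mod_cast hs1
    have hs1' : (1 : ℝ) ≤ sf ε := by exact_mod_cast hs1
    simp only [Function.comp]
    have hF : 0 ≤ (JJ κ (sf ε) : ℝ) ^ 4 * Real.exp (2 * gam κ * JJ κ (sf ε)) := by positivity
    have e : ε * (JJ κ (sf ε) : ℝ) ^ 4 * Real.exp (2 * gam κ * JJ κ (sf ε))
        = (ε * (sf ε : ℝ)) * ((JJ κ (sf ε) : ℝ) ^ 4 * Real.exp (2 * gam κ * JJ κ (sf ε)) / (sf ε : ℝ)) := by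
      field_simp
    rw [e]
    refine mul_le_mul_of_nonneg_right (le_trans ?_ hc) (by positivity)
    have : (sf ε : ℝ) ≤ (sf ε : ℝ) ^ 3 := by
      calc (sf ε : ℝ) = (sf ε : ℝ) ^ 1 := (pow_one _).symm
        _ ≤ (sf ε : ℝ) ^ 3 := pow_le_pow_right₀ hs1' (by norm_num)
    exact mul_le_mul_of_nonneg_left this hε.le

end

end Claimed.Agent.R285.E4
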