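import Claimed.Agent.R285.E4.L43Late
import Claimed.Agent.R285.E4.L43Evt

/-!
# ROW 285, [E] L4.3, layer CORE: the late history, deterministic core and its eventual form; (4.16) `secant_inside`   (architect helper90; prefix `l43_`)
ALL GLUE (no leaf in this file).
-/

set_option autoImplicit false

namespace Claimed.Agent.R285.E4

open Filter Topology Claims.C0459
open Claimed.Agent.R285.Flow

noncomputable section

/-- the homogeneous contribution of the slaving estimate -/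
def sR (κ : MapC) (κe : EntC) (ρe : ℝ) (s : ℕ) (b : ℂ) (il iJ : ℕ) : ℝ :=
  rr κ ^ (iJ - il) * (2 * (dEnt κe ρe s b * Real.exp (gam κ) ^ il))

/-- **the deterministic core of the late side of L4.3.** -/
theorem l43_late_core (κ : MapC) (C₀ : ℝ) : ∃ (C₆ : ℝ) (jm : ℕ), 0 ≤ C₆ ∧
    ∀ (κe : EntC) (ρe ρt : ℝ) (s : ℕ) (H : Hist) (ja Km : ℕ), Tube2 κ ρt → Late κ κe ρe ρt s H ja Km →
    ∀ (b : ℝ) (il iJ : ℕ), (b : ℂ) ∈ disk κe s → jm ≤ H.j0 + il → ja ≤ H.j0 + il → il ≤ iJ → H.j0 + iJ ≤ Km →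
    (∀ i, il ≤ i → i ≤ iJ → CritAt H C₀ i ∧ ∀ h, H.j0 + i ≤ h → h ≤ Km → CritTor H C₀ h i) →
    κ.Ks * dEnt κe ρe s b * Real.exp (gam κ) ^ iJ ≤ ρt →
    κ.Ks * dEnt κe ρe s b * Real.exp (gam κ) ^ iJ ≤ 1 / ((H.j0 + iJ : ℕ) : ℝ) ^ 2 →
      sQ H b iJ ≤ C₆ / ((H.j0 + iJ : ℕ) : ℝ) * sv H b iJ + sR κ κe ρe s b il iJ ∧
      (∀ h, H.j0 + iJ ≤ h → h ≤ Km →
        sT H b h iJ ≤ C₆ / ((H.j0 + iJ : ℕ) : ℝ) * sv H b iJ + sR κ κe ρe s b il iJ) ∧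
      ‖((torVar b (κ.n (H.j0 + iJ)) - torVar xyCritical (κ.n (H.j0 + iJ)) : ℝ) : ℂ)
          - (H.x b iJ - H.x xyCritical iJ) / (Real.pi * κ.bs)‖
        ≤ |b - xyCritical| / ((H.j0 + iJ : ℕ) : ℝ) ^ 2 + C₆ / ((H.j0 + iJ : ℕ) : ℝ) * sv H b iJ
          + C₆ * sR κ κe ρe s b il iJ ∧
      ‖((torPhase b (κ.n (H.j0 + iJ)) - torPhase xyCritical (κ.n (H.j0 + iJ)) : ℝ) : ℂ)
          - κ.p (H.j0 + iJ) / Real.sqrt (κ.bs * κ.Hq) * (H.y b iJ - H.y xyCritical iJ)‖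
        ≤ |b - xyCritical| / ((H.j0 + iJ : ℕ) : ℝ) ^ 2 + C₆ / ((H.j0 + iJ : ℕ) : ℝ) * sv H b iJ
          + C₆ * sR κ κe ρe s b il iJ := by
  obtain ⟨K, jm1, hK, hjm1, hS⟩ := l43_slave κ C₀
  obtain ⟨C₅, jm2, hC₅, hjm2, hR⟩ := l43_read κ C₀
  refine ⟨K + C₅ + C₅ * K, max jm1 jm2, by positivity, ?_⟩
  intro κe ρe ρt s H ja Km hT hL b il iJ hb hjm hja hlJ hKm hcr hδ1 hδ2
  have hM := hL.sys.map
  have hKs := κ.one_le_Ks
  have hprox := l43_prox hT hL hb hKm hδ1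
  have hd0 : 0 ≤ dEnt κe ρe s b := (norm_nonneg _).trans (hL.sys.entry.Y0_lip hb)
  have hΛ1 : 1 ≤ Real.exp (gam κ) := Real.one_le_exp (p41_th1 κ).2.2.2.1.le
  have hJ1 : 1 ≤ H.j0 + il := hjm1.trans ((le_max_left _ _).trans hjm)
  -- monotonicity of the crude bounds
  have hmono : ∀ i ≤ iJ, 1 ≤ H.j0 + i →
      κ.Ks * dEnt κe ρe s b * Real.exp (gam κ) ^ i ≤ 1 / ((H.j0 + i : ℕ) : ℝ) ^ 2 := by
    intro i hi h1
    have a1 : κ.Ks * dEnt κe ρe s b * Real.exp (gam κ) ^ i ≤ κ.Ks * dEnt κe ρe s b * Real.exp (gam κ) ^ iJ :=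
      mul_le_mul_of_nonneg_left (pow_le_pow_right₀ hΛ1 hi) (by positivity)
    have a2 : (1 : ℝ) / ((H.j0 + iJ : ℕ) : ℝ) ^ 2 ≤ 1 / ((H.j0 + i : ℕ) : ℝ) ^ 2 := by
      have b1 : (0 : ℝ) < ((H.j0 + i : ℕ) : ℝ) := by exact_mod_cast h1
      have b2 : ((H.j0 + i : ℕ) : ℝ) ≤ ((H.j0 + iJ : ℕ) : ℝ) := by exact_mod_cast (by omega : H.j0 + i ≤ H.j0 + iJ)
      apply one_div_le_one_div_of_le (by positivity)
      gcongr
    exact a1.trans (hδ2.trans a2)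
  have hle : ∀ i, dEnt κe ρe s b * Real.exp (gam κ) ^ i ≤ κ.Ks * dEnt κe ρe s b * Real.exp (gam κ) ^ i := by
    intro i
    have hp : 0 ≤ dEnt κe ρe s b * Real.exp (gam κ) ^ i := by positivity
    rw [mul_assoc]; exact le_mul_of_one_le_left hp hKs
  have hst : ∀ i, il ≤ i → i ≤ iJ → ‖H.st b i - H.st xyCritical i‖ ≤ 1 / ((H.j0 + i : ℕ) : ℝ) ^ 2 :=
    fun i h1 h2 => ((hprox i h2).1.trans (hle i)).trans (hmono i h2 (by omega))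
  have hts : ∀ h, H.j0 + iJ ≤ h → h ≤ Km → ∀ i, il ≤ i → i ≤ iJ →
      ‖H.ts b h i - H.ts xyCritical h i‖ ≤ 1 / ((H.j0 + i : ℕ) : ℝ) ^ 2 :=
    fun h a1 a2 i h1 h2 => (((hprox i h2).2.2 h (by omega) a1 a2).2.1).trans (hmono i h2 (by omega))
  have hsl := hS H hM b il iJ ((le_max_left _ _).trans hjm) hlJ
    (fun i h1 h2 => ⟨(hcr i h1 h2.le).1, hst i h1 h2.le⟩)
  have hrr0 : 0 ≤ rr κ ^ (iJ - il) := by
    have : 0 ≤ rr κ := by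
      have := (p41_th1 κ).1; have := (p41_th1 κ).2.1; have := κ.hθ0; linarith
    positivity
  have hQl : sQ H b il ≤ dEnt κe ρe s b * Real.exp (gam κ) ^ il := (l43_sQ_le H b il).trans (hprox il hlJ).1
  have hpl : 0 ≤ dEnt κe ρe s b * Real.exp (gam κ) ^ il := by positivity
  have hsv := l43_sv_nonneg H b iJ
  have hJpos : (0 : ℝ) < ((H.j0 + iJ : ℕ) : ℝ) := by exact_mod_cast (by omega : 0 < H.j0 + iJ)
  have hsum : ∀ h, H.j0 + iJ ≤ h → h ≤ Km →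
      sQ H b iJ + sT H b h iJ ≤ K / ((H.j0 + iJ : ℕ) : ℝ) * sv H b iJ + sR κ κe ρe s b il iJ := by
    intro h a1 a2
    have h1 := hsl.2 h a1 (fun i h1 h2 => ⟨(hcr i h1 h2.le).2 h (by omega) a2, hts h a1 a2 i h1 h2.le⟩)
    refine h1.trans ?_
    have hTl : sT H b h il ≤ dEnt κe ρe s b * Real.exp (gam κ) ^ il := ((hprox il hlJ).2.2 h (by omega) a1 a2).1
    have : rr κ ^ (iJ - il) * (sQ H b il + sT H b h il) ≤ sR κ κe ρe s b il iJ := by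
      unfold sR
      exact mul_le_mul_of_nonneg_left (by linarith) hrr0
    linarith
  have hKle : K / ((H.j0 + iJ : ℕ) : ℝ) * sv H b iJ ≤ (K + C₅ + C₅ * K) / ((H.j0 + iJ : ℕ) : ℝ) * sv H b iJ := by
    have : K ≤ K + C₅ + C₅ * K := by nlinarith
    gcongr
  have hR0 : 0 ≤ sR κ κe ρe s b il iJ := by unfold sR; positivity
  refine ⟨?_, ?_, ?_⟩
  · have h1 := hsl.1
    have : rr κ ^ (iJ - il) * sQ H b il ≤ sR κ κe ρe s b il iJ := by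
      unfold sR
      exact mul_le_mul_of_nonneg_left (by linarith) hrr0
    linarith
  · intro h a1 a2
    have h1 := hsum h a1 a2
    have := l43_sQ_nonneg H b iJ
    linarith
  · have hρ : ρt ≤ κ.ρ := by
      have h1 := hT.lt
      have h2 : 0 ≤ ρt := (norm_nonneg _).trans (hL.conf 0 (by omega)).le
      linarith
    have hinb : H.Inside κ.ρ b (H.j0 + iJ) iJ := by
      intro i' hi'
      exact ⟨lt_of_le_of_lt (hprox i' hi').2.1 hT.lt,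
        lt_of_le_of_lt ((hprox i' hi').2.2 (H.j0 + iJ) (by omega) le_rfl hKm).2.2 hT.lt⟩
    have hrd := hR κe ρe s H hL.sys hL.spos b iJ (H.j0 + iJ) rfl (by have := (le_max_right jm1 jm2).trans hjm; omega) hb
      (hL.valid _ (by omega) hKm) (hL.inside hρ (by omega) hKm le_rfl) hinb (hL.err _ (by omega) hKm)
      (hcr iJ hlJ le_rfl).1 ((hcr iJ hlJ le_rfl).2 _ le_rfl hKm) (hst iJ hlJ le_rfl) (hts _ le_rfl hKm iJ hlJ le_rfl)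
    have hs := hsum (H.j0 + iJ) le_rfl hKm
    have key : C₅ / ((H.j0 + iJ : ℕ) : ℝ) * sv H b iJ + C₅ * (sQ H b iJ + sT H b (H.j0 + iJ) iJ)
        ≤ (K + C₅ + C₅ * K) / ((H.j0 + iJ : ℕ) : ℝ) * sv H b iJ + (K + C₅ + C₅ * K) * sR κ κe ρe s b il iJ := by
      have b1 := mul_le_mul_of_nonneg_left hs hC₅
      have b2 : C₅ * sR κ κe ρe s b il iJ ≤ (K + C₅ + C₅ * K) * sR κ κe ρe s b il iJ := by
        have : C₅ ≤ K + C₅ + C₅ * K := by nlinarith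
        gcongr
      have b3 : C₅ / ((H.j0 + iJ : ℕ) : ℝ) * sv H b iJ + C₅ * (K / ((H.j0 + iJ : ℕ) : ℝ) * sv H b iJ)
          ≤ (K + C₅ + C₅ * K) / ((H.j0 + iJ : ℕ) : ℝ) * sv H b iJ := by
        have e : C₅ / ((H.j0 + iJ : ℕ) : ℝ) * sv H b iJ + C₅ * (K / ((H.j0 + iJ : ℕ) : ℝ) * sv H b iJ)
            = (C₅ + C₅ * K) / ((H.j0 + iJ : ℕ) : ℝ) * sv H b iJ := by ring
        rw [e]
        have : C₅ + C₅ * K ≤ K + C₅ + C₅ * K := by linarith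
        gcongr
      nlinarith
    exact ⟨by linarith [hrd.1], by linarith [hrd.2]⟩

/-! ## The eventual set-up -/

/-- everything that holds for small `ε` about the history of side `s = sf ε` -/
structure Setup (κ : MapC) (κe : EntC) (ρe ρt : ℝ) (H : Hist) (s Km : ℕ) (A ε : ℝ) : Prop where
  pos : 0 < ε
  late : Late κ κe ρe ρt s H (jA κ s) Km
  disk : ((xyCritical - ε : ℝ) : ℂ) ∈ disk κe s
  hor : ∀ h : ℕ, (h : ℝ) ≤ A / Real.sqrt ε → h ≤ Km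
  JKm : JJ κ s ≤ Km
  jAJ : jA κ s ≤ (JJ κ s + 1) / 2
  prox1 : κ.Ks * dEnt κe ρe s ((xyCritical - ε : ℝ) : ℂ) * Real.exp (gam κ) ^ (JJ κ s - H.j0) ≤ ρt
  prox2 : κ.Ks * dEnt κe ρe s ((xyCritical - ε : ℝ) : ℂ) * Real.exp (gam κ) ^ (JJ κ s - H.j0)
    ≤ 1 / (JJ κ s : ℝ) ^ 2

theorem l43_dEnt_eq (κe : EntC) (ρe : ℝ) (s : ℕ) {ε : ℝ} (hε : 0 < ε) :
    dEnt κe ρe s ((xyCritical - ε : ℝ) : ℂ) = 2 * ρe / κe.c * (ε * (s : ℝ) ^ 2) := by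
  unfold dEnt
  have h1 : ‖(((xyCritical - ε : ℝ) : ℂ)) - (xyCritical : ℂ)‖ = ε := by
    rw [← Complex.ofReal_sub, Complex.norm_real, Real.norm_eq_abs]
    have : xyCritical - ε - xyCritical = -ε := by ring
    rw [this, abs_neg, abs_of_pos hε]
  rw [h1]
  have hc := κe.hc
  rcases Nat.eq_zero_or_pos s with h0 | h0
  · subst h0; simp
  · have : (0 : ℝ) < s := by exact_mod_cast h0
    field_simp

theorem l43_exp_pow_le (κ : MapC) {i J : ℕ} (h : i ≤ J) : Real.exp (gam κ) ^ i ≤ Real.exp (gam κ * J) := by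
  rw [← Real.exp_nat_mul, Real.exp_le_exp]
  have h1 : (i : ℝ) ≤ J := by exact_mod_cast h
  have := (p41_th1 κ).2.2.2.1
  nlinarith

/-- GLUE: the set-up holds eventually. -/
theorem l43_setup {κ : MapC} {κe : EntC} {ρe ρt : ℝ} {H : ℕ → Hist} (hy : Hyp κ κe ρe ρt H) {sf : ℝ → ℕ}
    (hsf : Sides κ κe sf) (A : ℝ) :
    ∃ K : ℕ → ℕ, Tendsto (fun s : ℕ => (K s : ℝ) / (s : ℝ) ^ 2) atTop (𝓝 0) ∧ ∀ jmin : ℕ,
      ∀ᶠ ε in 𝓝[>] (0 : ℝ), Setup κ κe ρe ρt (H (sf ε)) (sf ε) (K (sf ε)) A ε ∧ jmin ≤ jA κ (sf ε) := by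
  obtain ⟨Km0, hKm0, hhor⟩ := p44_horizon hsf A
  set K : ℕ → ℕ := fun s => max (Km0 s) (JJ κ s) with hKdef
  have hK : Tendsto (fun s : ℕ => (K s : ℝ) / (s : ℝ) ^ 2) atTop (𝓝 0) := by
    have h1 := hKm0.max (l43_JJ_little κ)
    rw [max_self] at h1
    refine h1.congr ?_
    intro s
    simp only [hKdef, Nat.cast_max]
    rw [max_div_div_right (by positivity)]
  refine ⟨K, hK, fun jmin => ?_⟩
  have hsft := p44_sf_tendsto hsf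
  have hpos : ∀ᶠ ε in 𝓝[>] (0 : ℝ), 0 < ε := self_mem_nhdsWithin
  have hlate := hsft.eventually (l42_late hy K hK (max jmin 5))
  have hKs0 : 0 < κ.Ks := lt_of_lt_of_le one_pos κ.one_le_Ks
  have hcoef : 0 ≤ κ.Ks * (2 * ρe / κe.c) := by
    have := hy.hρe; have := κe.hc; positivity
  have hprox := (l43_num_prox (κ := κ) hsf).const_mul (κ.Ks * (2 * ρe / κe.c))
  rw [mul_zero] at hprox
  have hprox' := hprox.eventually (eventually_lt_nhds (lt_min hy.hρt one_pos))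
  filter_upwards [hpos, hsf.adm, hlate, p44_disk_ev hsf, hhor, hprox'] with ε hε hadm hl hd hh hp
  obtain ⟨hL, hmin⟩ := hl hadm
  have h5 : 5 ≤ jA κ (sf ε) := (le_max_right _ _).trans hmin
  have hceil : ((jA κ (sf ε) : ℕ) : ℝ) < (JJ κ (sf ε) : ℝ) / 100 + 1 := Nat.ceil_lt_add_one (by positivity)
  have h5' : (5 : ℝ) ≤ ((jA κ (sf ε) : ℕ) : ℝ) := by exact_mod_cast h5
  have hJbig : (400 : ℝ) < (JJ κ (sf ε) : ℝ) := by linarith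
  have hJbig' : 400 < JJ κ (sf ε) := by exact_mod_cast hJbig
  have hjAJ : jA κ (sf ε) ≤ (JJ κ (sf ε) + 1) / 2 := by
    have h1 : ((100 * jA κ (sf ε) : ℕ) : ℝ) < ((JJ κ (sf ε) + 100 : ℕ) : ℝ) := by push_cast; linarith
    have h2 : 100 * jA κ (sf ε) < JJ κ (sf ε) + 100 := by exact_mod_cast h1
    omega
  have hJpos : (0 : ℝ) < (JJ κ (sf ε) : ℝ) := by linarith
  -- the crude bound
  have hmain : κ.Ks * dEnt κe ρe (sf ε) ((xyCritical - ε : ℝ) : ℂ) * Real.exp (gam κ) ^ (JJ κ (sf ε) - (H (sf ε)).j0)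
      ≤ min ρt 1 / (JJ κ (sf ε) : ℝ) ^ 2 := by
    rw [l43_dEnt_eq κe ρe (sf ε) hε, le_div_iff₀ (by positivity)]
    have h1 := l43_exp_pow_le κ (Nat.sub_le (JJ κ (sf ε)) (H (sf ε)).j0)
    have h2 : 0 ≤ κ.Ks * (2 * ρe / κe.c * (ε * (sf ε : ℝ) ^ 2)) := by
      have := hy.hρe; have := κe.hc; positivity
    calc κ.Ks * (2 * ρe / κe.c * (ε * (sf ε : ℝ) ^ 2)) * Real.exp (gam κ) ^ (JJ κ (sf ε) - (H (sf ε)).j0)
          * (JJ κ (sf ε) : ℝ) ^ 2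
        ≤ κ.Ks * (2 * ρe / κe.c * (ε * (sf ε : ℝ) ^ 2)) * Real.exp (gam κ * JJ κ (sf ε)) * (JJ κ (sf ε) : ℝ) ^ 2 := by
          gcongr
      _ = κ.Ks * (2 * ρe / κe.c)
            * (ε * (sf ε : ℝ) ^ 2 * Real.exp (gam κ * JJ κ (sf ε)) * (JJ κ (sf ε) : ℝ) ^ 2) := by ring
      _ ≤ min ρt 1 := hp.le
  have hJsq : (1 : ℝ) ≤ (JJ κ (sf ε) : ℝ) ^ 2 := by nlinarith
  refine ⟨⟨hε, hL, hd.1, ?_, le_max_right _ _, hjAJ, ?_, ?_⟩, (le_max_left _ _).trans hmin⟩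
  · intro h hle
    have : (h : ℝ) ≤ (Km0 (sf ε) : ℝ) := hle.trans hh
    exact (Nat.cast_le.1 this).trans (le_max_left _ _)
  · refine hmain.trans ?_
    have hm0 : 0 ≤ min ρt 1 := le_min hy.hρt.le zero_le_one
    exact (div_le_self hm0 hJsq).trans (min_le_left _ _)
  · refine hmain.trans ?_
    gcongr
    exact min_le_right _ _

/-- **[E] (4.16)** (verbatim `E4.secant_inside`). -/
theorem l43_secant_inside (κ : MapC) : ∃ ρt1 : ℝ, 0 < ρt1 ∧ ∀ ρt : ℝ, ρt ≤ ρt1 → ∃ ρe1 : ℝ, 0 < ρe1 ∧ ∀ ρe : ℝ, ρe ≤ ρe1 →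
    ∀ (κe : EntC) (H : ℕ → Hist) (_ : Hyp κ κe ρe ρt H) (sf : ℝ → ℕ), Sides κ κe sf → ∀ A : ℝ,
      ∀ᶠ ε in 𝓝[>] (0 : ℝ), ∀ i : ℕ, (H (sf ε)).j0 + i ≤ JJ κ (sf ε) →
        ‖(H (sf ε)).st ((xyCritical - ε : ℝ) : ℂ) i‖ < κ.ρ ∧
        ∀ h : ℕ, JJ κ (sf ε) ≤ h → (h : ℝ) ≤ A / Real.sqrt ε → ‖(H (sf ε)).ts ((xyCritical - ε : ℝ) : ℂ) h i‖ < κ.ρ := by
  obtain ⟨ρt1, h0, hT2⟩ := l43_tube2 κ
  refine ⟨ρt1, h0, fun ρt hρt => ⟨1, one_pos, fun ρe _ κe H hy sf hsf A => ?_⟩⟩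
  have hT := hT2 ρt hy.hρt hρt
  obtain ⟨K, _, hset⟩ := l43_setup hy hsf A
  filter_upwards [hset 0] with ε hε i hi
  obtain ⟨S, _⟩ := hε
  have hj0J : (H (sf ε)).j0 ≤ JJ κ (sf ε) := by omega
  have hprox := l43_prox hT S.late S.disk (I := JJ κ (sf ε) - (H (sf ε)).j0) (by have := S.JKm; omega) S.prox1 i (by omega)
  refine ⟨lt_of_le_of_lt hprox.2.1 hT.lt, fun h h1 h2 => ?_⟩
  exact lt_of_le_of_lt (hprox.2.2 h (by have := S.jAJ; omega) (by omega) (S.hor h h2)).2.2 hT.lt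

/-! ## The late side of L4.3, eventual form -/

/-- the conclusions about the late history at the matching index `J = JJ κ s` -/
structure LateConcl (κ : MapC) (H : Hist) (s : ℕ) (A C η ε : ℝ) : Prop where
  sQ : sQ H ((xyCritical - ε : ℝ) : ℂ) (JJ κ s - H.j0)
    ≤ C / (JJ κ s : ℝ) * sv H ((xyCritical - ε : ℝ) : ℂ) (JJ κ s - H.j0) + η * ε
  sT : ∀ h : ℕ, JJ κ s ≤ h → (h : ℝ) ≤ A / Real.sqrt ε →
    sT H ((xyCritical - ε : ℝ) : ℂ) h (JJ κ s - H.j0)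
      ≤ C / (JJ κ s : ℝ) * sv H ((xyCritical - ε : ℝ) : ℂ) (JJ κ s - H.j0) + η * ε
  rV : ‖((torVar (xyCritical - ε) (κ.n (JJ κ s)) - torVar xyCritical (κ.n (JJ κ s)) : ℝ) : ℂ)
      - (H.x ((xyCritical - ε : ℝ) : ℂ) (JJ κ s - H.j0) - H.x xyCritical (JJ κ s - H.j0)) / (Real.pi * κ.bs)‖
    ≤ C / (JJ κ s : ℝ) * sv H ((xyCritical - ε : ℝ) : ℂ) (JJ κ s - H.j0) + η * ε
  rP : ‖((torPhase (xyCritical - ε) (κ.n (JJ κ s)) - torPhase xyCritical (κ.n (JJ κ s)) : ℝ) : ℂ)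
      - κ.p (JJ κ s) / Real.sqrt (κ.bs * κ.Hq)
        * (H.y ((xyCritical - ε : ℝ) : ℂ) (JJ κ s - H.j0) - H.y xyCritical (JJ κ s - H.j0))‖
    ≤ C / (JJ κ s : ℝ) * sv H ((xyCritical - ε : ℝ) : ℂ) (JJ κ s - H.j0) + η * ε

/-- GLUE: **the late side of L4.3** ((4.17), (4.19) and the late half of (4.24)). -/
theorem l43_late_ev (κ : MapC) : ∃ ρt1 : ℝ, 0 < ρt1 ∧ ∀ ρt : ℝ, ρt ≤ ρt1 → ∃ ρe1 : ℝ, 0 < ρe1 ∧ ∀ ρe : ℝ, ρe ≤ ρe1 →
    ∀ (κe : EntC) (H : ℕ → Hist) (_ : Hyp κ κe ρe ρt H) (sf : ℝ → ℕ), Sides κ κe sf → ∀ A : ℝ,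
      ∃ C : ℝ, 0 ≤ C ∧ ∀ η : ℝ, 0 < η → ∀ᶠ ε in 𝓝[>] (0 : ℝ), LateConcl κ (H (sf ε)) (sf ε) A C η ε := by
  obtain ⟨ρa, ha0, hT2⟩ := l43_tube2 κ
  obtain ⟨ρb, hb0, hlc⟩ := l42_late_critical κ
  refine ⟨min ρa ρb, lt_min ha0 hb0, fun ρt hρt => ?_⟩
  obtain ⟨ρe1, he0, hlc2⟩ := hlc ρt (hρt.trans (min_le_right _ _))
  refine ⟨ρe1, he0, fun ρe hρe κe H hy sf hsf A => ?_⟩
  have hT := hT2 ρt hy.hρt (hρt.trans (min_le_left _ _))
  obtain ⟨K, hK, hset⟩ := l43_setup hy hsf A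
  obtain ⟨C₀, hcrit⟩ := hlc2 ρe hρe κe H hy K hK
  obtain ⟨C₆, jm, hC₆, hcore⟩ := l43_late_core κ C₀
  refine ⟨C₆, hC₆, fun η hη => ?_⟩
  have hsft := p44_sf_tendsto hsf
  have hcoef : 0 ≤ (1 + C₆) * (4 * ρe / κe.c) := by
    have := hy.hρe; have := κe.hc; positivity
  have hsl := ((l43_num_slave κ).const_mul ((1 + C₆) * (4 * ρe / κe.c))).comp hsft
  rw [mul_zero] at hsl
  have hsl' := hsl.eventually (eventually_lt_nhds (half_pos hη))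
  have hJt : Tendsto (fun ε => (JJ κ (sf ε) : ℝ)) (𝓝[>] (0 : ℝ)) atTop :=
    tendsto_natCast_atTop_atTop.comp ((l42_JJ_tendsto κ).comp hsft)
  have hJ2 : ∀ᶠ ε in 𝓝[>] (0 : ℝ), 1 / (JJ κ (sf ε) : ℝ) ^ 2 ≤ η / 2 := by
    have h1 : Tendsto (fun ε => 1 / (JJ κ (sf ε) : ℝ) ^ 2) (𝓝[>] (0 : ℝ)) (𝓝 0) := by
      have h2 := ((tendsto_pow_atTop (α := ℝ) (n := 2) (by norm_num)).comp hJt).inv_tendsto_atTop
      refine h2.congr ?_
      intro ε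
      simp [Function.comp, one_div]
    exact (h1.eventually (eventually_lt_nhds (half_pos hη))).mono fun _ h => h.le
  filter_upwards [hset jm, hsf.adm, hsft.eventually hcrit, hsl', hJ2] with ε hS hadm hcr hsl2 hJ2'
  obtain ⟨S, hjm⟩ := hS
  set s := sf ε with hs
  set J := JJ κ s with hJ
  set Hs := H s with hHs
  have hε := S.pos
  have hj0A : Hs.j0 ≤ jA κ s := S.late.j0
  have hAl := S.jAJ
  have hlJ : (J + 1) / 2 ≤ J := by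
    have : 1 ≤ jA κ s := S.late.ja1
    omega
  have hj0J : Hs.j0 ≤ J := by omega
  have eJ : Hs.j0 + (J - Hs.j0) = J := Nat.add_sub_cancel' hj0J
  have el : Hs.j0 + ((J + 1) / 2 - Hs.j0) = (J + 1) / 2 := Nat.add_sub_cancel' (by omega)
  have hcr' := hcr hadm
  have hc := hcore κe ρe ρt s Hs (jA κ s) (K s) hT S.late (xyCritical - ε) ((J + 1) / 2 - Hs.j0) (J - Hs.j0) S.disk
    (by rw [el]; omega) (by rw [el]; exact hAl) (by omega) (by rw [eJ]; exact S.JKm)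
    (fun i h1 h2 => hcr' i (by
      have h3 : (J + 1) / 2 ≤ Hs.j0 + i := by omega
      have h4 : J ≤ 2 * (Hs.j0 + i) := by omega
      have h5 : (J : ℝ) ≤ ((2 * (Hs.j0 + i) : ℕ) : ℝ) := by exact_mod_cast h4
      push_cast at h5 ⊢
      linarith) (by have := S.JKm; omega))
    S.prox1 (by rw [eJ]; exact S.prox2)
  rw [eJ] at hc
  -- the homogeneous term
  have hRle : (1 + C₆) * sR κ κe ρe s ((xyCritical - ε : ℝ) : ℂ) ((J + 1) / 2 - Hs.j0) (J - Hs.j0) ≤ η / 2 * ε := by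
    unfold sR
    rw [l43_dEnt_eq κe ρe s hε]
    have e1 : J - Hs.j0 - ((J + 1) / 2 - Hs.j0) = J - (J + 1) / 2 := by omega
    rw [e1]
    have h1 := l43_exp_pow_le κ (i := (J + 1) / 2 - Hs.j0) (J := J) (by omega)
    have hrr0 : 0 ≤ rr κ ^ (J - (J + 1) / 2) := by
      have : 0 ≤ rr κ := by
        have := (p41_th1 κ).1; have := (p41_th1 κ).2.1; have := κ.hθ0; linarith
      positivity
    have hρe0 := hy.hρe
    have hc0 := κe.hc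
    calc (1 + C₆) * (rr κ ^ (J - (J + 1) / 2)
          * (2 * (2 * ρe / κe.c * (ε * (s : ℝ) ^ 2) * Real.exp (gam κ) ^ ((J + 1) / 2 - Hs.j0))))
        ≤ (1 + C₆) * (rr κ ^ (J - (J + 1) / 2)
          * (2 * (2 * ρe / κe.c * (ε * (s : ℝ) ^ 2) * Real.exp (gam κ * J)))) := by gcongr
      _ = ((1 + C₆) * (4 * ρe / κe.c) * (rr κ ^ (J - (J + 1) / 2) * ((s : ℝ) ^ 2 * Real.exp (gam κ * J)))) * ε := by ring
      _ ≤ η / 2 * ε := mul_le_mul_of_nonneg_right hsl2.le hε.le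
  have hR0 : 0 ≤ sR κ κe ρe s ((xyCritical - ε : ℝ) : ℂ) ((J + 1) / 2 - Hs.j0) (J - Hs.j0) := by
    unfold sR
    have : 0 ≤ rr κ := by
      have := (p41_th1 κ).1; have := (p41_th1 κ).2.1; have := κ.hθ0; linarith
    have hd0 : 0 ≤ dEnt κe ρe s ((xyCritical - ε : ℝ) : ℂ) := (norm_nonneg _).trans (S.late.sys.entry.Y0_lip S.disk)
    positivity
  have hR1 : sR κ κe ρe s ((xyCritical - ε : ℝ) : ℂ) ((J + 1) / 2 - Hs.j0) (J - Hs.j0) ≤ η * ε := by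
    have : 0 ≤ η / 2 * ε := by positivity
    nlinarith
  have hR2 : C₆ * sR κ κe ρe s ((xyCritical - ε : ℝ) : ℂ) ((J + 1) / 2 - Hs.j0) (J - Hs.j0) ≤ η / 2 * ε := by
    nlinarith
  have habs : |xyCritical - ε - xyCritical| / (J : ℝ) ^ 2 ≤ η / 2 * ε := by
    have : xyCritical - ε - xyCritical = -ε := by ring
    rw [this, abs_neg, abs_of_pos hε]
    calc ε / (J : ℝ) ^ 2 = 1 / (J : ℝ) ^ 2 * ε := by ring
      _ ≤ η / 2 * ε := mul_le_mul_of_nonneg_right hJ2' hε.le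
  obtain ⟨c1, c2, c3, c4⟩ := hc
  refine ⟨by linarith, fun h h1 h2 => ?_, by linarith, by linarith⟩
  have := c2 h h1 (S.hor h h2)
  linarith

/-- Stores the on-demand equation lemmas of the definitions above in THIS module (rule 6 hygiene). -/
theorem l43_core_forced : True := by
  have := @sR.eq_1
  trivial

end

end Claimed.Agent.R285.E4
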