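import Claimed.Agent.R285.E4.L42

/-!
# ROW 285, [E] L4.3 (matching the temperature secant), layer LATE: the history with the large side `s ≍ ε^{-1/3}`   (architect helper90; prefix `l43_`)

Deterministic statements about ONE history (`Late` of `L42.lean`) and ONE parameter `b` (complex in §1-§3, real in §4).  No division by `ε`: all inequalities are homogeneous in the differences
`sv = |W(b) - W(b_c)|`, `sQ = ‖Q(b) - Q(b_c)‖`, `sT h = ‖tor_h(b) - tor_h(b_c)‖`.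
* §1 `l43_prox`  = (4.17) crude proximity (from `Flow/CauchyTube.lean`), PROVED;
* §2 `l43_FB`    = secant forms of (4.3), (4.4) on the stages with critical asymptotics (from `Flow/CauchyCrit.lean`);
* §3 `l43_slave` = (4.19) slaving of the remainder secants (`p41_slave`);
* §4 `l43_read`  = secants of the two read-outs at the stop `j` ((4.24) before the comparison).
-/

set_option autoImplicit false

namespace Claimed.Agent.R285.E4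

open Filter Topology Claims.C0459
open Claimed.Agent.R285.Flow

noncomputable section

/-- scalar difference -/
def sv (H : Hist) (b : ℂ) (i : ℕ) : ℝ := wn (H.st b i - H.st xyCritical i)
/-- plane remainder difference -/
def sQ (H : Hist) (b : ℂ) (i : ℕ) : ℝ := ‖(H.st b i).2.2 - (H.st xyCritical i).2.2‖
/-- torus remainder difference -/
def sT (H : Hist) (b : ℂ) (h i : ℕ) : ℝ := ‖H.tor b h i - H.tor xyCritical h i‖

theorem l43_sv_nonneg (H : Hist) (b : ℂ) (i : ℕ) : 0 ≤ sv H b i := cau_wn_nonneg _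
theorem l43_sQ_nonneg (H : Hist) (b : ℂ) (i : ℕ) : 0 ≤ sQ H b i := norm_nonneg _
theorem l43_sT_nonneg (H : Hist) (b : ℂ) (h i : ℕ) : 0 ≤ sT H b h i := norm_nonneg _

theorem l43_sv_le (H : Hist) (b : ℂ) (i : ℕ) : sv H b i ≤ ‖H.st b i - H.st xyCritical i‖ := cau_wn_le_norm _
theorem l43_sQ_le (H : Hist) (b : ℂ) (i : ℕ) : sQ H b i ≤ ‖H.st b i - H.st xyCritical i‖ :=
  cau_q_le_norm (H.st b i - H.st xyCritical i)

/-! ## 1. The double tube and the crude proximity -/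

/-- the tube of radius `2 ρt`: everything the crude propagation needs, with `Λ = e^γ` -/
def Tube2 (κ : MapC) (ρt : ℝ) : Prop :=
  ∃ ε0 : ℝ, 0 ≤ ε0 ∧ TubeOK κ ε0 (2 * ρt) ∧ 1 + 2 * (2 * ρt) + 2 * ε0 ≤ Real.exp (gam κ) ∧ ε0 * κ.Ks + κ.θ + ε0 ≤ 1

theorem l43_tube2 (κ : MapC) : ∃ ρt1 : ℝ, 0 < ρt1 ∧ ∀ ρt : ℝ, 0 < ρt → ρt ≤ ρt1 → Tube2 κ ρt := by
  obtain ⟨ε0, ρ1, hε0, hρ1, hK, h⟩ := cau_tube_gamma κ (p41_th1 κ).2.2.2.1
  refine ⟨ρ1 / 2, by positivity, fun ρt h0 hle => ⟨ε0, hε0.le, ?_⟩⟩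
  obtain ⟨a, b⟩ := h (2 * ρt) (by positivity) (by linarith)
  refine ⟨a, b, hK.trans ?_⟩
  have := κ.hθ
  linarith

theorem Tube2.lt {κ : MapC} {ρt : ℝ} (h : Tube2 κ ρt) : 2 * ρt < κ.ρ := by
  obtain ⟨_, _, hT, _⟩ := h
  exact hT.lt

/-- the displacement of the entry -/
def dEnt (κe : EntC) (ρe : ℝ) (s : ℕ) (b : ℂ) : ℝ := 2 * ρe / (κe.c / (s : ℝ) ^ 2) * ‖b - xyCritical‖

/-- **[E] (4.17)** (crude proximity), for a complex parameter `b` of the entry disk. -/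
theorem l43_prox {κ : MapC} {κe : EntC} {ρe ρt : ℝ} {s : ℕ} {H : Hist} {ja Km : ℕ} (hT : Tube2 κ ρt)
    (hL : Late κ κe ρe ρt s H ja Km) {b : ℂ} (hb : b ∈ disk κe s) {I : ℕ} (hI : H.j0 + I ≤ Km)
    (hδ : κ.Ks * dEnt κe ρe s b * Real.exp (gam κ) ^ I ≤ ρt) :
    ∀ i ≤ I, ‖H.st b i - H.st xyCritical i‖ ≤ dEnt κe ρe s b * Real.exp (gam κ) ^ i ∧ ‖H.st b i‖ ≤ 2 * ρt ∧
      ∀ h, ja ≤ h → H.j0 + I ≤ h → h ≤ Km →
        ‖H.tor b h i - H.tor xyCritical h i‖ ≤ dEnt κe ρe s b * Real.exp (gam κ) ^ i ∧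
        ‖H.ts b h i - H.ts xyCritical h i‖ ≤ κ.Ks * dEnt κe ρe s b * Real.exp (gam κ) ^ i ∧
        ‖H.ts b h i‖ ≤ 2 * ρt := by
  obtain ⟨ε0, hε0, hTu, hΛ, hεK⟩ := hT
  have hE := hL.sys.entry
  have hM := hL.sys.map
  have hK := κ.one_le_Ks
  have hd0 : 0 ≤ dEnt κe ρe s b := (norm_nonneg _).trans (hE.Y0_lip hb)
  have hΛ0 : 0 < Real.exp (gam κ) := Real.exp_pos _
  have hp : 0 ≤ dEnt κe ρe s b * Real.exp (gam κ) ^ I := by positivity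
  have hI1 : ρt + dEnt κe ρe s b * Real.exp (gam κ) ^ I ≤ 2 * ρt := by
    have : dEnt κe ρe s b * Real.exp (gam κ) ^ I ≤ κ.Ks * dEnt κe ρe s b * Real.exp (gam κ) ^ I := by
      rw [mul_assoc]; exact le_mul_of_one_le_left hp hK
    linarith
  have hst := cau_prop_st hTu hε0 hΛ hM (b := b) (b0 := xyCritical) (I := I) (ρt := ρt)
    (fun i hi => (hL.conf i (by omega)).le) (hE.Y0_lip hb) hI1
  intro i hi
  refine ⟨(hst i hi).1, (hst i hi).2, fun h h1 h2 h3 => ?_⟩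
  have hh : H.j0 ≤ h := (Nat.le_add_right _ I).trans h2
  have htor := cau_prop_tor hTu hε0 hΛ hεK hM (b := b) (b0 := xyCritical) (I := I) (ρt := ρt) (h := h) h2
    (fun i hi => ⟨(hL.conf i (by omega)).le, (hL.conft h i h1 h3 (by omega)).le⟩) (hE.Y0_lip hb) (hE.T0_lip hh hb)
    (by have hδ' := hδ; unfold dEnt at hδ'; linarith)
  exact htor i hi

/-! ## 2. Secant forms of (4.3), (4.4) -/

/-- the regions of the critical orders contain the critical state and its `1/j²`-neighbours. -/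
theorem l43_regs (κ : MapC) (C₀ : ℝ) : ∃ (A : ℝ) (jm : ℕ), 0 ≤ A ∧ 1 ≤ jm ∧ ∀ (H : Hist), MapOK κ H →
    ∀ (b : ℂ) (i : ℕ), jm ≤ H.j0 + i → CritAt H C₀ i →
    ‖H.st b i - H.st xyCritical i‖ ≤ 1 / ((H.j0 + i : ℕ) : ℝ) ^ 2 →
      H.st xyCritical i ∈ Reg (H.Q (H.j0 + i)) (A / ((H.j0 + i : ℕ) : ℝ)) (A / ((H.j0 + i : ℕ) : ℝ) ^ 2) ∧
      H.st b i ∈ Reg (H.Q (H.j0 + i)) (A / ((H.j0 + i : ℕ) : ℝ)) (A / ((H.j0 + i : ℕ) : ℝ) ^ 2) ∧
      ∀ h, CritTor H C₀ h i → ‖H.ts b h i - H.ts xyCritical h i‖ ≤ 1 / ((H.j0 + i : ℕ) : ℝ) ^ 2 →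
        H.ts xyCritical h i ∈ Reg2 (ℂ × ℂ) (H.T (H.j0 + i) h) (A / ((H.j0 + i : ℕ) : ℝ)) (A / ((H.j0 + i : ℕ) : ℝ) ^ 2) ∧
        H.ts b h i ∈ Reg2 (ℂ × ℂ) (H.T (H.j0 + i) h) (A / ((H.j0 + i : ℕ) : ℝ)) (A / ((H.j0 + i : ℕ) : ℝ) ^ 2) := by
  obtain ⟨js, hjs1, hsize⟩ := p41_near_size κ.ρ C₀ κ.hρ
  obtain ⟨C₁, jc, hsc⟩ := p41_sc_near κ C₀
  refine ⟨4 + |C₀| + |C₁|, js + jc, by positivity, by omega, ?_⟩
  intro H hM b i hj hcr hd
  rw [p41_critAt_iff] at hcr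
  obtain ⟨x, hxd⟩ : ∃ x : ℝ, x = ((H.j0 + i : ℕ) : ℝ) := ⟨_, rfl⟩
  have hx1 : 1 ≤ x := by
    rw [hxd]
    have : 1 ≤ H.j0 + i := by omega
    exact_mod_cast this
  have hx0 : 0 < x := by linarith
  have hx2 : 0 < x ^ 2 := by positivity
  obtain ⟨z1, z2, z3⟩ := hsize (H.j0 + i) (by omega)
  have w1 := (p41_near_norm C₀ (by omega) z1 z2 hcr).1
  have q1 := hcr.2.2
  have s1 := hsc H hM (H.j0 + i) (Nat.le_add_right _ _) (by omega) _ hcr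
  rw [← hxd] at w1 q1 s1 hd ⊢
  have a0 := abs_nonneg C₀
  have a1 := abs_nonneg C₁
  have b0 := le_abs_self C₀
  have b1 := le_abs_self C₁
  have hinv : 1 / x ^ 2 ≤ 1 / x := by
    apply one_div_le_one_div_of_le hx0
    nlinarith
  have eA : ∀ a c : ℝ, a / x + c / x = (a + c) / x := fun a c => by ring
  have eA2 : ∀ a c : ℝ, a / x ^ 2 + c / x ^ 2 = (a + c) / x ^ 2 := fun a c => by ring
  have m1 : ∀ a : ℝ, a ≤ 4 + |C₀| + |C₁| → a / x ≤ (4 + |C₀| + |C₁|) / x :=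
    fun a ha => div_le_div_of_nonneg_right ha hx0.le
  have m2 : ∀ a : ℝ, a ≤ 4 + |C₀| + |C₁| → a / x ^ 2 ≤ (4 + |C₀| + |C₁|) / x ^ 2 :=
    fun a ha => div_le_div_of_nonneg_right ha hx2.le
  refine ⟨⟨w1.trans (m1 _ (by linarith)), q1.trans (m2 _ (by linarith))⟩, ⟨?_, ?_⟩, ?_⟩
  · have h1 : wn (H.st b i) ≤ wn (H.st b i - H.st xyCritical i) + wn (H.st xyCritical i) := by
      have := cau_wn_add (H.st b i - H.st xyCritical i) (H.st xyCritical i)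
      rwa [sub_add_cancel] at this
    have h2 := (cau_wn_le_norm (H.st b i - H.st xyCritical i)).trans hd
    have h3 : wn (H.st b i) ≤ (1 + 2) / x := by rw [← eA]; linarith
    exact h3.trans (m1 _ (by linarith))
  · have h1 : ‖(H.st b i).2.2‖ ≤ ‖(H.st b i - H.st xyCritical i).2.2‖ + ‖(H.st xyCritical i).2.2‖ := by
      have := norm_add_le ((H.st b i - H.st xyCritical i).2.2) ((H.st xyCritical i).2.2)
      simpa using this
    have h2 := (cau_q_le_norm (H.st b i - H.st xyCritical i)).trans hd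
    have h3 : ‖(H.st b i).2.2‖ ≤ (1 + C₀) / x ^ 2 := by rw [← eA2]; linarith
    exact h3.trans (m2 _ (by linarith))
  · intro h hT hdT
    unfold CritTor at hT
    rw [← hxd] at hT
    have e1 : (H.ts xyCritical h i).1 = H.sc (H.j0 + i) (H.st xyCritical i) := rfl
    have e2 : (H.ts xyCritical h i).2 = H.tor xyCritical h i := rfl
    refine ⟨⟨?_, ?_⟩, ⟨?_, ?_⟩⟩
    · rw [e1]; exact s1.trans (m1 _ (by linarith))
    · rw [e2]; exact hT.trans (m2 _ (by linarith))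
    · have h1 : ‖(H.ts b h i).1‖ ≤ ‖(H.ts b h i - H.ts xyCritical h i).1‖ + ‖(H.ts xyCritical h i).1‖ := by
        have := norm_add_le ((H.ts b h i - H.ts xyCritical h i).1) ((H.ts xyCritical h i).1)
        simpa using this
      have h2 := (norm_fst_le (H.ts b h i - H.ts xyCritical h i)).trans hdT
      rw [e1] at h1
      have h3 : ‖(H.ts b h i).1‖ ≤ (1 + C₁) / x := by rw [← eA]; linarith
      exact h3.trans (m1 _ (by linarith))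
    · have h1 : ‖(H.ts b h i).2‖ ≤ ‖(H.ts b h i - H.ts xyCritical h i).2‖ + ‖(H.ts xyCritical h i).2‖ := by
        have := norm_add_le ((H.ts b h i - H.ts xyCritical h i).2) ((H.ts xyCritical h i).2)
        simpa using this
      have h2 := (norm_snd_le (H.ts b h i - H.ts xyCritical h i)).trans hdT
      rw [e2] at h1
      have h3 : ‖(H.ts b h i).2‖ ≤ (1 + C₀) / x ^ 2 := by rw [← eA2]; linarith
      exact h3.trans (m2 _ (by linarith))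

/-- secants of the coordinate change at the critical orders. -/
theorem l43_sc_lip {κ : MapC} {H : Hist} {A K : ℝ} {j1 : ℕ} (hc : CritOK κ A K j1) (hA : 0 ≤ A) (hM : MapOK κ H)
    {j : ℕ} (hj : H.j0 ≤ j) (hj1 : j1 ≤ j) {Y Y' : ℂ × ℂ × H.Q j} (hY : Y ∈ Reg (H.Q j) (A / j) (A / (j : ℝ) ^ 2))
    (hY' : Y' ∈ Reg (H.Q j) (A / j) (A / (j : ℝ) ^ 2)) :
    ‖((H.sc j Y').1 - (H.sc j Y).1) - (Y'.1 - Y.1) / κ.bs‖ ≤ K / j * wn (Y' - Y) + K * ‖Y'.2.2 - Y.2.2‖ ∧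
    ‖((H.sc j Y').2 - (H.sc j Y).2) - (Y'.2.1 - Y.2.1) / Real.sqrt (κ.bs * κ.Hq)‖
      ≤ K / j * wn (Y' - Y) + K * ‖Y'.2.2 - Y.2.2‖ ∧
    ‖H.sc j Y' - H.sc j Y‖ ≤ (κ.ks + K) * wn (Y' - Y) + K * ‖Y'.2.2 - Y.2.2‖ := by
  have t1 := hc.eT_lip hA hM hj hj1 hY hY'
  have t2 := hc.eZ_lip hA hM hj hj1 hY hY'
  have hK := hc.Kpos
  have hjr : (1 : ℝ) ≤ (j : ℝ) := by exact_mod_cast hc.j1pos.trans hj1
  have hj0 : (0 : ℝ) < (j : ℝ) := by linarith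
  have hbs := κ.bs_pos
  have hr : 0 < Real.sqrt (κ.bs * κ.Hq) := Real.sqrt_pos.2 (mul_pos hbs κ.hH)
  have e1 : ((H.sc j Y').1 - (H.sc j Y).1) - (Y'.1 - Y.1) / κ.bs = H.eT κ j Y' - H.eT κ j Y := by
    unfold Hist.eT; ring
  have e2 : ((H.sc j Y').2 - (H.sc j Y).2) - (Y'.2.1 - Y.2.1) / Real.sqrt (κ.bs * κ.Hq) = H.eZ κ j Y' - H.eZ κ j Y := by
    unfold Hist.eZ; ring
  have hw0 : 0 ≤ wn (Y' - Y) := cau_wn_nonneg _
  have hKj : K / (j : ℝ) ≤ K := div_le_self hK.le hjr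
  have hKw : K / (j : ℝ) * wn (Y' - Y) ≤ K * wn (Y' - Y) := mul_le_mul_of_nonneg_right hKj hw0
  have hx : ‖Y'.1 - Y.1‖ ≤ wn (Y' - Y) := le_max_left _ _
  have hy : ‖Y'.2.1 - Y.2.1‖ ≤ wn (Y' - Y) := le_max_right _ _
  refine ⟨by rw [e1]; exact t1, by rw [e2]; exact t2, ?_⟩
  rw [Prod.norm_def]
  refine max_le ?_ ?_
  · have h1 : ‖(H.sc j Y' - H.sc j Y).1‖ ≤ ‖(Y'.1 - Y.1) / (κ.bs : ℂ)‖ + ‖H.eT κ j Y' - H.eT κ j Y‖ := by
      have : (H.sc j Y' - H.sc j Y).1 = (Y'.1 - Y.1) / (κ.bs : ℂ) + (H.eT κ j Y' - H.eT κ j Y) := by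
        rw [← e1]; simp
      rw [this]
      exact norm_add_le _ _
    have h2 : ‖(Y'.1 - Y.1) / (κ.bs : ℂ)‖ ≤ κ.ks * wn (Y' - Y) := by
      rw [norm_div, Complex.norm_real, Real.norm_eq_abs, abs_of_pos hbs, div_eq_mul_inv, mul_comm, ← one_div]
      exact mul_le_mul (le_max_left _ _) hx (norm_nonneg _) κ.ks_nonneg
    linarith
  · have h1 : ‖(H.sc j Y' - H.sc j Y).2‖ ≤ ‖(Y'.2.1 - Y.2.1) / (Real.sqrt (κ.bs * κ.Hq) : ℂ)‖ + ‖H.eZ κ j Y' - H.eZ κ j Y‖ := by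
      have : (H.sc j Y' - H.sc j Y).2 = (Y'.2.1 - Y.2.1) / (Real.sqrt (κ.bs * κ.Hq) : ℂ) + (H.eZ κ j Y' - H.eZ κ j Y) := by
        rw [← e2]; simp
      rw [this]
      exact norm_add_le _ _
    have h2 : ‖(Y'.2.1 - Y.2.1) / (Real.sqrt (κ.bs * κ.Hq) : ℂ)‖ ≤ κ.ks * wn (Y' - Y) := by
      rw [norm_div, Complex.norm_real, Real.norm_eq_abs, abs_of_pos hr, div_eq_mul_inv, mul_comm, ← one_div]
      exact mul_le_mul (le_max_right _ _) hy (norm_nonneg _) κ.ks_nonneg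
    linarith

/-- backward scalar inequality: absorbing `c u sv`. -/
theorem l43_FB_arithB (A K u v v1 q : ℝ) (hA : 0 ≤ A) (hK : 0 ≤ K) (hu : 0 < u) (hu1 : u ≤ 1)
    (hsm : (2 * A + K) * u ≤ 1 / 2) (hv : 0 ≤ v) (hv1 : 0 ≤ v1) (hq : 0 ≤ q)
    (h : v ≤ v1 + 2 * A * u * v + (K * u ^ 2 * v + K * u * q)) :
    v ≤ (1 + (2 * (2 * A + K) + 2 * K) * u) * v1 + (2 * (2 * A + K) + 2 * K) * u * q := by
  obtain ⟨c, hc⟩ : ∃ c : ℝ, c = (2 * A + K) * u := ⟨_, rfl⟩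
  have hc0 : 0 ≤ c := by rw [hc]; positivity
  rw [← hc] at hsm
  have hu2 : u ^ 2 ≤ u := by nlinarith
  have h1 : K * u ^ 2 * v ≤ K * u * v := by
    have : K * u ^ 2 ≤ K * u := mul_le_mul_of_nonneg_left hu2 hK
    exact mul_le_mul_of_nonneg_right this hv
  have h2 : (1 - c) * v ≤ v1 + K * u * q := by
    have : c * v = 2 * A * u * v + K * u * v := by rw [hc]; ring
    nlinarith
  have hR : 0 ≤ v1 + K * u * q := by positivity
  have h3 : v ≤ (1 + 2 * c) * ((1 - c) * v) := by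
    have : (1 + 2 * c) * ((1 - c) * v) = v + c * (1 - 2 * c) * v := by ring
    rw [this]
    have : 0 ≤ c * (1 - 2 * c) * v := by
      apply mul_nonneg (mul_nonneg hc0 (by linarith)) hv
    linarith
  have h4 : (1 + 2 * c) * ((1 - c) * v) ≤ (1 + 2 * c) * (v1 + K * u * q) :=
    mul_le_mul_of_nonneg_left h2 (by linarith)
  have h5 : (1 + 2 * c) * (K * u * q) ≤ 2 * (K * u * q) :=
    mul_le_mul_of_nonneg_right (by linarith) (by positivity)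
  have h6 : 0 ≤ 2 * K * u * v1 := by positivity
  have h7 : 0 ≤ 2 * (2 * A + K) * u * q := by positivity
  have e1 : (1 + (2 * (2 * A + K) + 2 * K) * u) * v1 = (1 + 2 * c) * v1 + 2 * K * u * v1 := by rw [hc]; ring
  have e2 : (2 * (2 * A + K) + 2 * K) * u * q = 2 * (2 * A + K) * u * q + 2 * (K * u * q) := by ring
  rw [e1, e2]
  nlinarith

/-- forward inequality for the sum of the two remainders. -/
theorem l43_FB_arithF (K ks θ θ1 u v q t q1 t1 D : ℝ) (hK : 0 ≤ K) (hks : 0 ≤ ks) (hu : 0 < u)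
    (hsm : θ + (K + K ^ 2) * u ≤ θ1) (hv : 0 ≤ v) (hq : 0 ≤ q) (ht : 0 ≤ t)
    (hq1 : q1 ≤ K * u * v + (θ + K * u) * q) (hD : D ≤ (ks + K) * v + K * q)
    (ht1 : t1 ≤ K * u * D + (θ + K * u) * t) :
    q1 ≤ θ1 * q + K * (1 + ks + K) * u * v ∧ q1 + t1 ≤ θ1 * (q + t) + K * (1 + ks + K) * u * v := by
  have hKu : 0 ≤ K * u := by positivity
  have h1 : K * u * D ≤ K * u * ((ks + K) * v + K * q) := mul_le_mul_of_nonneg_left hD hKu
  have h2 : θ + K * u ≤ θ1 := by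
    have : 0 ≤ K ^ 2 * u := by positivity
    nlinarith
  have h3 : (θ + K * u) * t ≤ θ1 * t := mul_le_mul_of_nonneg_right h2 ht
  have h4 : (θ + (K + K ^ 2) * u) * q ≤ θ1 * q := mul_le_mul_of_nonneg_right hsm hq
  have h5 : (θ + K * u) * q ≤ θ1 * q := mul_le_mul_of_nonneg_right h2 hq
  have h6 : 0 ≤ K * (ks + K) * u * v := by positivity
  constructor
  · have e : K * (1 + ks + K) * u * v = K * u * v + K * (ks + K) * u * v := by ring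
    rw [e]
    linarith
  · have e : θ1 * (q + t) + K * (1 + ks + K) * u * v =
        θ1 * q + θ1 * t + (K * u * v + K * u * ((ks + K) * v)) := by ring
    have e2 : K * u * ((ks + K) * v + K * q) = K * u * ((ks + K) * v) + K ^ 2 * u * q := by ring
    have e3 : (θ + (K + K ^ 2) * u) * q = (θ + K * u) * q + K ^ 2 * u * q := by ring
    rw [e]
    linarith

/-- LEAF L43-1 (~350 l.).  `Y = H.st b_c i`, `Y' = H.st b i`.  For `j ≥ jm`: `wn Y ≤ 2/j`, `‖Y.2.2‖ ≤ C₀/j²` (`p41_near_size`, `p41_near_norm`), so `Y, Y' ∈ Reg (A/j) (A/j²)`, `A = max 3 (|C₀| + 1) ∨ ...`;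
`‖H.sc j Y‖ ≤ C₁/j` (`p41_sc_near`), so `H.ts b_c h i, H.ts b h i ∈ Reg2 (A/j) (A/j²)` with `A ≥ C₁ + 1`.  `obtain ⟨K, j1, hc⟩ := cau_crit κ hA`.
(B) `x' - x = (x'₊ - x₊) + (y'² - y²) - (eX Y' - eX Y)` (definition of `Hist.eX`; `H.st b (i+1) = H.N (H.j0+i) (H.st b i)` by `rfl`), `|y'² - y²| ≤ (2A/j) sv`, `CritOK.eX_lip`; same for `y` with `x'y' - xy = x'(y'-y) + (x'-x) y`;
    so `sv i (1 - c/j) ≤ sv (i+1) + (K/j) sQ i`, `c = 2A + K`, and `1/(1-x) ≤ 1 + 2x` for `x ≤ 1/2`.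
(F) `CritOK.Qp_lip`;  `CritOK.Psi_lip` + `‖sc Y' - sc Y‖ ≤ (ks + K) sv + K sQ` (`CritOK.eT_lip`, `eZ_lip`, definition of `Hist.eT`, `eZ`, `MapC.ks`);  `θ + (K + K²)/j ≤ th1 κ` for `j ≥ jm`. -/
theorem l43_FB (κ : MapC) (C₀ : ℝ) : ∃ (C₃ : ℝ) (jm : ℕ), 0 ≤ C₃ ∧ 1 ≤ jm ∧ ∀ (H : Hist), MapOK κ H →
    ∀ (b : ℂ) (i j : ℕ), j = H.j0 + i → jm ≤ j → CritAt H C₀ i →
    ‖H.st b i - H.st xyCritical i‖ ≤ 1 / (j : ℝ) ^ 2 →
      sv H b i ≤ (1 + C₃ / (j : ℝ)) * sv H b (i + 1) + C₃ / (j : ℝ) * sQ H b i ∧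
      sQ H b (i + 1) ≤ th1 κ * sQ H b i + C₃ / (j : ℝ) * sv H b i ∧
      ∀ h, j < h → CritTor H C₀ h i → ‖H.ts b h i - H.ts xyCritical h i‖ ≤ 1 / (j : ℝ) ^ 2 →
        sQ H b (i + 1) + sT H b h (i + 1) ≤ th1 κ * (sQ H b i + sT H b h i) + C₃ / (j : ℝ) * sv H b i := by
  obtain ⟨A, ja, hA, hja1, hreg⟩ := l43_regs κ C₀
  obtain ⟨K, j1, hc⟩ := cau_crit κ hA
  have hK := hc.Kpos
  have hks := κ.ks_nonneg
  have hθ := κ.hθ
  obtain ⟨jb, hjb⟩ := exists_nat_ge (2 * (2 * A + K))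
  obtain ⟨jc, hjc⟩ := exists_nat_ge (2 * (K + K ^ 2) / (1 - κ.θ))
  refine ⟨(2 * (2 * A + K) + 2 * K) + K * (1 + κ.ks + K), ja + j1 + jb + jc, by positivity, by omega, ?_⟩
  intro H hM b i j hj hjm hcr hd
  subst hj
  have hjj0 : H.j0 ≤ H.j0 + i := Nat.le_add_right _ _
  have hjj1 : j1 ≤ H.j0 + i := by omega
  obtain ⟨rY, rY', rT⟩ := hreg H hM b i (by omega) hcr hd
  obtain ⟨x, hxd⟩ : ∃ x : ℝ, x = ((H.j0 + i : ℕ) : ℝ) := ⟨_, rfl⟩
  have hx1 : 1 ≤ x := by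
    rw [hxd]
    have : 1 ≤ H.j0 + i := by omega
    exact_mod_cast this
  have hx0 : 0 < x := by linarith
  have hxb : (jb : ℝ) ≤ x := by
    rw [hxd]
    have : jb ≤ H.j0 + i := by omega
    exact_mod_cast this
  have hxc : (jc : ℝ) ≤ x := by
    rw [hxd]
    have : jc ≤ H.j0 + i := by omega
    exact_mod_cast this
  obtain ⟨u, hud⟩ : ∃ u : ℝ, u = 1 / x := ⟨_, rfl⟩
  have hu : 0 < u := by rw [hud]; positivity
  have hu1 : u ≤ 1 := by rw [hud, div_le_one hx0]; exact hx1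
  have eu1 : ∀ a : ℝ, a / x = a * u := fun a => by rw [hud]; ring
  have eu2 : ∀ a : ℝ, a / x ^ 2 = a * u ^ 2 := fun a => by rw [hud]; ring
  have hsm1 : (2 * A + K) * u ≤ 1 / 2 := by
    rw [← eu1, div_le_iff₀ hx0]
    linarith
  have hsm2 : κ.θ + (K + K ^ 2) * u ≤ th1 κ := by
    have h1 : (K + K ^ 2) * u ≤ (1 - κ.θ) / 2 := by
      rw [← eu1, div_le_iff₀ hx0]
      have h2 : 2 * (K + K ^ 2) / (1 - κ.θ) ≤ x := hjc.trans hxc
      rw [div_le_iff₀ (by linarith)] at h2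
      linarith
    unfold th1
    linarith
  have lX := hc.eX_lip hA hM hjj0 hjj1 rY rY'
  have lY := hc.eY_lip hA hM hjj0 hjj1 rY rY'
  have lQ := hc.Qp_lip hA hM hjj0 hjj1 rY rY'
  obtain ⟨_, _, lS⟩ := l43_sc_lip hc hA hM hjj0 hjj1 rY rY'
  have wY := rY.1
  have wY' := rY'.1
  rw [← hxd] at lX lY lQ wY wY' ⊢
  rw [eu1] at lX lY lQ wY wY' ⊢
  rw [eu2] at lX lY
  have esv : wn (H.st b i - H.st xyCritical i) = sv H b i := rfl
  have esQ : ‖(H.st b i).2.2 - (H.st xyCritical i).2.2‖ = sQ H b i := rfl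
  rw [esv, esQ] at lX lY lQ lS
  have hv0 : 0 ≤ sv H b i := cau_wn_nonneg _
  have hv10 : 0 ≤ sv H b (i + 1) := cau_wn_nonneg _
  have hq0 : 0 ≤ sQ H b i := norm_nonneg _
  -- names for the scalars
  obtain ⟨x0, hx0d⟩ : ∃ z : ℂ, z = (H.st xyCritical i).1 := ⟨_, rfl⟩
  obtain ⟨y0, hy0d⟩ : ∃ z : ℂ, z = (H.st xyCritical i).2.1 := ⟨_, rfl⟩
  obtain ⟨x', hx'd⟩ : ∃ z : ℂ, z = (H.st b i).1 := ⟨_, rfl⟩
  obtain ⟨y', hy'd⟩ : ∃ z : ℂ, z = (H.st b i).2.1 := ⟨_, rfl⟩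
  have nx0 : ‖x0‖ ≤ A * u := by rw [hx0d]; exact (le_max_left _ _).trans wY
  have ny0 : ‖y0‖ ≤ A * u := by rw [hy0d]; exact (le_max_right _ _).trans wY
  have nx' : ‖x'‖ ≤ A * u := by rw [hx'd]; exact (le_max_left _ _).trans wY'
  have ny' : ‖y'‖ ≤ A * u := by rw [hy'd]; exact (le_max_right _ _).trans wY'
  have dx : ‖x' - x0‖ ≤ sv H b i := by rw [hx'd, hx0d]; exact le_max_left _ _
  have dy : ‖y' - y0‖ ≤ sv H b i := by rw [hy'd, hy0d]; exact le_max_right _ _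
  have dx1 : ‖(H.N (H.j0 + i) (H.st b i)).1 - (H.N (H.j0 + i) (H.st xyCritical i)).1‖ ≤ sv H b (i + 1) :=
    le_max_left _ _
  have dy1 : ‖(H.N (H.j0 + i) (H.st b i)).2.1 - (H.N (H.j0 + i) (H.st xyCritical i)).2.1‖ ≤ sv H b (i + 1) :=
    le_max_right _ _
  have hAu : 0 ≤ A * u := by positivity
  have bx : ‖x' - x0‖ ≤ sv H b (i + 1) + 2 * A * u * sv H b i + (K * u ^ 2 * sv H b i + K * u * sQ H b i) := by
    have e : x' - x0 = ((H.N (H.j0 + i) (H.st b i)).1 - (H.N (H.j0 + i) (H.st xyCritical i)).1)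
        + (y' + y0) * (y' - y0)
        - (H.eX (H.j0 + i) (H.st b i) - H.eX (H.j0 + i) (H.st xyCritical i)) := by
      unfold Hist.eX
      rw [← hx0d, ← hy0d, ← hx'd, ← hy'd]
      ring
    rw [e]
    refine (norm_sub_le _ _).trans (add_le_add ((norm_add_le _ _).trans (add_le_add dx1 ?_)) lX)
    rw [norm_mul]
    have : ‖y' + y0‖ ≤ 2 * A * u := (norm_add_le _ _).trans (by linarith)
    exact mul_le_mul this dy (norm_nonneg _) (by positivity)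
  have by' : ‖y' - y0‖ ≤ sv H b (i + 1) + 2 * A * u * sv H b i + (K * u ^ 2 * sv H b i + K * u * sQ H b i) := by
    have e : y' - y0 = ((H.N (H.j0 + i) (H.st b i)).2.1 - (H.N (H.j0 + i) (H.st xyCritical i)).2.1)
        + (x' * (y' - y0) + (x' - x0) * y0)
        - (H.eY (H.j0 + i) (H.st b i) - H.eY (H.j0 + i) (H.st xyCritical i)) := by
      unfold Hist.eY
      rw [← hx0d, ← hy0d, ← hx'd, ← hy'd]
      ring
    rw [e]
    refine (norm_sub_le _ _).trans (add_le_add ((norm_add_le _ _).trans (add_le_add dy1 ?_)) lY)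
    refine (norm_add_le _ _).trans ?_
    rw [norm_mul, norm_mul]
    have t1 : ‖x'‖ * ‖y' - y0‖ ≤ A * u * sv H b i := mul_le_mul nx' dy (norm_nonneg _) hAu
    have t2 : ‖x' - x0‖ * ‖y0‖ ≤ sv H b i * (A * u) := mul_le_mul dx ny0 (norm_nonneg _) hv0
    linarith
  have bsv : sv H b i ≤ sv H b (i + 1) + 2 * A * u * sv H b i + (K * u ^ 2 * sv H b i + K * u * sQ H b i) := by
    have : sv H b i = max ‖x' - x0‖ ‖y' - y0‖ := by rw [hx'd, hx0d, hy'd, hy0d]; rfl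
    rw [this]
    rw [this] at bx by'
    exact max_le bx by'
  have kB := l43_FB_arithB A K u _ _ _ hA hK.le hu hu1 hsm1 hv0 hv10 hq0 bsv
  have lQ' : sQ H b (i + 1) ≤ K * u * sv H b i + (κ.θ + K * u) * sQ H b i := lQ
  have hC1 : 0 ≤ 2 * (2 * A + K) + 2 * K := by positivity
  have hC2 : 0 ≤ K * (1 + κ.ks + K) := by positivity
  refine ⟨?_, ?_, ?_⟩
  · refine kB.trans ?_
    have a1 : (2 * (2 * A + K) + 2 * K) * u ≤ ((2 * (2 * A + K) + 2 * K) + K * (1 + κ.ks + K)) * u :=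
      mul_le_mul_of_nonneg_right (by linarith) hu.le
    exact add_le_add (mul_le_mul_of_nonneg_right (by linarith) hv10) (mul_le_mul_of_nonneg_right a1 hq0)
  · have kF := (l43_FB_arithF K κ.ks κ.θ (th1 κ) u (sv H b i) (sQ H b i) 0 (sQ H b (i + 1)) 0 0 hK.le hks hu hsm2 hv0 hq0
      le_rfl lQ' (by positivity) (by simp)).1
    refine kF.trans ?_
    have a1 : K * (1 + κ.ks + K) * u ≤ ((2 * (2 * A + K) + 2 * K) + K * (1 + κ.ks + K)) * u :=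
      mul_le_mul_of_nonneg_right (by linarith) hu.le
    have := mul_le_mul_of_nonneg_right a1 hv0
    linarith
  · intro h hjh hT hdT
    rw [hxd] at hdT
    obtain ⟨rX, rX'⟩ := rT h hT hdT
    have lP := hc.Psi_lip hA hM hjj0 hjh hjj1 rX rX'
    rw [← hxd, eu1] at lP
    have lP' : sT H b h (i + 1) ≤ K * u * ‖H.sc (H.j0 + i) (H.st b i) - H.sc (H.j0 + i) (H.st xyCritical i)‖
        + (κ.θ + K * u) * sT H b h i := lP
    have kF := (l43_FB_arithF K κ.ks κ.θ (th1 κ) u (sv H b i) (sQ H b i) (sT H b h i) (sQ H b (i + 1))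
      (sT H b h (i + 1)) _ hK.le hks hu hsm2 hv0 hq0 (norm_nonneg _) lQ' lS lP').2
    refine kF.trans ?_
    have a1 : K * (1 + κ.ks + K) * u ≤ ((2 * (2 * A + K) + 2 * K) + K * (1 + κ.ks + K)) * u :=
      mul_le_mul_of_nonneg_right (by linarith) hu.le
    have := mul_le_mul_of_nonneg_right a1 hv0
    linarith

/-! ## 3. Slaving -/

/-- GLUE.  **[E] (4.19)**: `p41_slave` with `θ = th1 κ`, `r = rr κ`, `a = H.j0`. -/
theorem l43_slave (κ : MapC) (C₀ : ℝ) : ∃ (K : ℝ) (jm : ℕ), 0 ≤ K ∧ 1 ≤ jm ∧ ∀ (H : Hist), MapOK κ H →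
    ∀ (b : ℂ) (il iJ : ℕ), jm ≤ H.j0 + il → il ≤ iJ →
    (∀ i, il ≤ i → i < iJ → CritAt H C₀ i ∧ ‖H.st b i - H.st xyCritical i‖ ≤ 1 / ((H.j0 + i : ℕ) : ℝ) ^ 2) →
      sQ H b iJ ≤ K / ((H.j0 + iJ : ℕ) : ℝ) * sv H b iJ + rr κ ^ (iJ - il) * sQ H b il ∧
      ∀ h, H.j0 + iJ ≤ h →
        (∀ i, il ≤ i → i < iJ → CritTor H C₀ h i ∧
          ‖H.ts b h i - H.ts xyCritical h i‖ ≤ 1 / ((H.j0 + i : ℕ) : ℝ) ^ 2) →
        sQ H b iJ + sT H b h iJ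
          ≤ K / ((H.j0 + iJ : ℕ) : ℝ) * sv H b iJ + rr κ ^ (iJ - il) * (sQ H b il + sT H b h il) := by
  obtain ⟨C₃, jm, hC₃, hjm, hFB⟩ := l43_FB κ C₀
  obtain ⟨a1, a3, a4, _, _⟩ := p41_th1 κ
  have hth0 : 0 ≤ th1 κ := by have := κ.hθ0; linarith
  obtain ⟨K, jm2, hK, hS⟩ := p41_slave (th1 κ) (rr κ) C₃ hth0 a3 a4 hC₃
  refine ⟨K, max jm jm2, hK, hjm.trans (le_max_left _ _), ?_⟩
  intro H hM b il iJ hl hlJ hcr
  have hl1 : jm ≤ H.j0 + il := (le_max_left _ _).trans hl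
  have hl2 : jm2 ≤ H.j0 + il := (le_max_right _ _).trans hl
  refine ⟨?_, fun h hh hcrT => ?_⟩
  · exact hS H.j0 il iJ (sv H b) (sQ H b) hl2 (l43_sv_nonneg H b) (l43_sQ_nonneg H b)
      (fun i h1 h2 => (hFB H hM b i _ rfl (by omega) (hcr i h1 h2).1 (hcr i h1 h2).2).2.1)
      (fun i h1 h2 => (hFB H hM b i _ rfl (by omega) (hcr i h1 h2).1 (hcr i h1 h2).2).1) iJ hlJ le_rfl
  · refine hS H.j0 il iJ (sv H b) (fun i => sQ H b i + sT H b h i) hl2 (l43_sv_nonneg H b)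
      (fun i => add_nonneg (l43_sQ_nonneg H b i) (l43_sT_nonneg H b h i))
      (fun i h1 h2 => (hFB H hM b i _ rfl (by omega) (hcr i h1 h2).1 (hcr i h1 h2).2).2.2 h (by omega)
        (hcrT i h1 h2).1 (hcrT i h1 h2).2)
      (fun i h1 h2 => ?_) iJ hlJ le_rfl
    have h3 := (hFB H hM b i _ rfl (by omega) (hcr i h1 h2).1 (hcr i h1 h2).2).1
    refine h3.trans ?_
    have hc : 0 ≤ C₃ / ((H.j0 + i : ℕ) : ℝ) := by positivity
    have := mul_le_mul_of_nonneg_left (le_add_of_nonneg_right (l43_sT_nonneg H b h i) : sQ H b i ≤ sQ H b i + sT H b h i) hc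
    linarith

/-! ## 4. Secants of the read-outs -/

/-- arithmetic of the read-out secants. -/
theorem l43_read_arith (K ks m M u v q t D dt eV eT : ℝ) (hK : 0 ≤ K) (hks : 0 ≤ ks) (hm0 : 0 ≤ m) (hm : m ≤ M)
    (hu : 0 < u) (hu1 : u ≤ 1) (hv : 0 ≤ v) (hq : 0 ≤ q) (ht : 0 ≤ t) (heT0 : 0 ≤ eT)
    (hD : D ≤ (ks + K) * v + K * q) (hdt : dt ≤ D) (heV : eV ≤ K * u * D + K * t) (heT : eT ≤ K * u * v + K * q) :
    u ^ 2 * dt + eV + m * eT ≤ ((ks + K) * (1 + K) + M * K + (K + K ^ 2 + M * K) + K) * u * v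
      + ((ks + K) * (1 + K) + M * K + (K + K ^ 2 + M * K) + K) * (q + t) := by
  have hM : 0 ≤ M := hm0.trans hm
  have hu2 : u ^ 2 ≤ u := by nlinarith
  have hu20 : 0 ≤ u ^ 2 := by positivity
  have hu21 : u ^ 2 ≤ 1 := hu2.trans hu1
  have hDD : 0 ≤ (ks + K) * v + K * q := by positivity
  have a1 : u ^ 2 * dt ≤ (ks + K) * u * v + K * q := by
    have h1 : u ^ 2 * dt ≤ u ^ 2 * ((ks + K) * v + K * q) := mul_le_mul_of_nonneg_left (hdt.trans hD) hu20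
    have h2 : u ^ 2 * ((ks + K) * v) ≤ u * ((ks + K) * v) := mul_le_mul_of_nonneg_right hu2 (by positivity)
    have h3 : u ^ 2 * (K * q) ≤ 1 * (K * q) := mul_le_mul_of_nonneg_right hu21 (by positivity)
    nlinarith
  have a2 : eV ≤ K * (ks + K) * u * v + K ^ 2 * q + K * t := by
    have h1 : K * u * D ≤ K * u * ((ks + K) * v + K * q) := mul_le_mul_of_nonneg_left hD (by positivity)
    have h2 : u * (K ^ 2 * q) ≤ 1 * (K ^ 2 * q) := mul_le_mul_of_nonneg_right hu1 (by positivity)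
    nlinarith
  have a3 : m * eT ≤ M * K * u * v + M * K * q := by
    have h1 : m * eT ≤ M * (K * u * v + K * q) := mul_le_mul hm heT heT0 hM
    nlinarith
  have b1 : 0 ≤ (K + K ^ 2 + M * K + K) * u * v := by positivity
  have b2 : 0 ≤ ((ks + K) * (1 + K) + M * K + K) * q := by positivity
  have b3 : 0 ≤ ((ks + K) * (1 + K) + M * K + (K + K ^ 2 + M * K)) * t := by positivity
  nlinarith

/-- LEAF L43-2 (~300 l.).  `ph_read_sec` with `η = 1/j²` (from `b_c` to `b`), then `CritOK.eV_lip`, `eP_lip` (torus states in `Reg2 (A/j) (A/j²)` as in `l43_FB`):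
`‖eV X' - eV X‖ ≤ (K/j) ‖X'.1 - X.1‖ + K sT`, `‖X'.1 - X.1‖ ≤ (ks + K) sv + K sQ`;  `t' - t = (x' - x)/b_* + (eT Y' - eT Y)`, `‖eT Y' - eT Y‖ ≤ (K/j) sv + K sQ` (`CritOK.eT_lip`), same for `z`, `eZ`; `p_j ≤ κ.C`; `η ≤ 1/j`. -/
theorem l43_read (κ : MapC) (C₀ : ℝ) : ∃ (C₅ : ℝ) (jm : ℕ), 0 ≤ C₅ ∧ 1 ≤ jm ∧
    ∀ (κe : EntC) (ρe : ℝ) (s : ℕ) (H : Hist), SysOK κ κe ρe s H → 0 < s →
    ∀ (b : ℝ) (i j : ℕ), j = H.j0 + i → jm ≤ j → (b : ℂ) ∈ disk κe s → Valid κ κe s H j →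
    H.Inside κ.ρ xyCritical j i → H.Inside κ.ρ b j i → errAll κ κe s j ≤ 1 / (j : ℝ) ^ 2 →
    CritAt H C₀ i → CritTor H C₀ j i → ‖H.st b i - H.st xyCritical i‖ ≤ 1 / (j : ℝ) ^ 2 →
    ‖H.ts b j i - H.ts xyCritical j i‖ ≤ 1 / (j : ℝ) ^ 2 →
      ‖((torVar b (κ.n j) - torVar xyCritical (κ.n j) : ℝ) : ℂ)
          - (H.x b i - H.x xyCritical i) / (Real.pi * κ.bs)‖
        ≤ |b - xyCritical| / (j : ℝ) ^ 2 + C₅ / (j : ℝ) * sv H b i + C₅ * (sQ H b i + sT H b j i) ∧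
      ‖((torPhase b (κ.n j) - torPhase xyCritical (κ.n j) : ℝ) : ℂ)
          - κ.p j / Real.sqrt (κ.bs * κ.Hq) * (H.y b i - H.y xyCritical i)‖
        ≤ |b - xyCritical| / (j : ℝ) ^ 2 + C₅ / (j : ℝ) * sv H b i + C₅ * (sQ H b i + sT H b j i) := by
  obtain ⟨A, ja, hA, hja1, hreg⟩ := l43_regs κ C₀
  obtain ⟨K, j1, hc⟩ := cau_crit κ hA
  have hK := hc.Kpos
  have hks := κ.ks_nonneg
  have hC1 : 1 ≤ κ.C := κ.hC
  have hpi := Real.pi_pos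
  have hbs := κ.bs_pos
  refine ⟨(κ.ks + K) * (1 + K) + κ.C * K + (K + K ^ 2 + κ.C * K) + K, ja + j1, by positivity, by omega, ?_⟩
  intro κe ρe s H hS hs b i j hj hjm hb hv hin0 hin herr hcr hcrT hd hdT
  subst hj
  have hM := hS.map
  have hjj0 : H.j0 ≤ H.j0 + i := Nat.le_add_right _ _
  have hjj1 : j1 ≤ H.j0 + i := by omega
  obtain ⟨rY, rY', rT⟩ := hreg H hM b i (by omega) hcr hd
  obtain ⟨rX, rX'⟩ := rT _ hcrT hdT
  obtain ⟨S1, S2⟩ := ph_read_sec hS (cau_center_mem_disk hs) hb hv hin0 hin herr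
  obtain ⟨lT, lZ, lS⟩ := l43_sc_lip hc hA hM hjj0 hjj1 rY rY'
  have lV := hc.eV_lip hA hS.read hjj0 hjj1 rX rX'
  have lP := hc.eP_lip hA hS.read hjj0 hjj1 rX rX'
  obtain ⟨x, hxd⟩ : ∃ x : ℝ, x = ((H.j0 + i : ℕ) : ℝ) := ⟨_, rfl⟩
  have hx1 : 1 ≤ x := by
    rw [hxd]
    have : 1 ≤ H.j0 + i := by omega
    exact_mod_cast this
  have hx0 : 0 < x := by linarith
  obtain ⟨u, hud⟩ : ∃ u : ℝ, u = 1 / x := ⟨_, rfl⟩
  have hu : 0 < u := by rw [hud]; positivity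
  have hu1 : u ≤ 1 := by rw [hud, div_le_one hx0]; exact hx1
  have eu1 : ∀ a : ℝ, a / x = a * u := fun a => by rw [hud]; ring
  have eu2 : ∀ a : ℝ, a / x ^ 2 = a * u ^ 2 := fun a => by rw [hud]; ring
  rw [← hxd] at S1 S2 lT lZ lV lP ⊢
  rw [eu1] at lT lZ lV lP ⊢
  rw [eu2] at S1 S2 ⊢
  rw [one_mul] at S1 S2
  have esv : wn (H.st b i - H.st xyCritical i) = sv H b i := rfl
  have esQ : ‖(H.st b i).2.2 - (H.st xyCritical i).2.2‖ = sQ H b i := rfl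
  have esT : ‖(H.ts b (H.j0 + i) i).2 - (H.ts xyCritical (H.j0 + i) i).2‖ = sT H b (H.j0 + i) i := rfl
  have eX1 : (H.ts b (H.j0 + i) i).1 - (H.ts xyCritical (H.j0 + i) i).1 =
      H.sc (H.j0 + i) (H.st b i) - H.sc (H.j0 + i) (H.st xyCritical i) := rfl
  rw [esv, esQ] at lT lZ lS
  rw [esT, eX1] at lV lP
  have hv0 : 0 ≤ sv H b i := cau_wn_nonneg _
  have hq0 : 0 ≤ sQ H b i := norm_nonneg _
  have ht0 : 0 ≤ sT H b (H.j0 + i) i := norm_nonneg _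
  have et : (H.ts b (H.j0 + i) i).1.1 - (H.ts xyCritical (H.j0 + i) i).1.1 =
      (H.sc (H.j0 + i) (H.st b i)).1 - (H.sc (H.j0 + i) (H.st xyCritical i)).1 := rfl
  have ez : (H.ts b (H.j0 + i) i).1.2 - (H.ts xyCritical (H.j0 + i) i).1.2 =
      (H.sc (H.j0 + i) (H.st b i)).2 - (H.sc (H.j0 + i) (H.st xyCritical i)).2 := rfl
  rw [et] at S1
  rw [ez] at S2
  have ex : H.x b i - H.x xyCritical i = (H.st b i).1 - (H.st xyCritical i).1 := rfl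
  have ey : H.y b i - H.y xyCritical i = (H.st b i).2.1 - (H.st xyCritical i).2.1 := rfl
  rw [ex, ey]
  obtain ⟨dt, hdt⟩ : ∃ z : ℂ, z = (H.sc (H.j0 + i) (H.st b i)).1 - (H.sc (H.j0 + i) (H.st xyCritical i)).1 := ⟨_, rfl⟩
  obtain ⟨dz, hdz⟩ : ∃ z : ℂ, z = (H.sc (H.j0 + i) (H.st b i)).2 - (H.sc (H.j0 + i) (H.st xyCritical i)).2 := ⟨_, rfl⟩
  obtain ⟨dx, hdx⟩ : ∃ z : ℂ, z = (H.st b i).1 - (H.st xyCritical i).1 := ⟨_, rfl⟩
  obtain ⟨dy, hdy⟩ : ∃ z : ℂ, z = (H.st b i).2.1 - (H.st xyCritical i).2.1 := ⟨_, rfl⟩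
  have ndt : ‖dt‖ ≤ ‖H.sc (H.j0 + i) (H.st b i) - H.sc (H.j0 + i) (H.st xyCritical i)‖ := by
    rw [hdt]; exact norm_fst_le (H.sc (H.j0 + i) (H.st b i) - H.sc (H.j0 + i) (H.st xyCritical i))
  have ndz : ‖dz‖ ≤ ‖H.sc (H.j0 + i) (H.st b i) - H.sc (H.j0 + i) (H.st xyCritical i)‖ := by
    rw [hdz]; exact norm_snd_le (H.sc (H.j0 + i) (H.st b i) - H.sc (H.j0 + i) (H.st xyCritical i))
  rw [← hdt] at S1 lT
  rw [← hdz] at S2 lZ
  rw [← hdx] at lT ⊢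
  rw [← hdy] at lZ ⊢
  obtain ⟨r, hrd⟩ : ∃ r : ℝ, r = Real.sqrt (κ.bs * κ.Hq) := ⟨_, rfl⟩
  rw [← hrd] at lZ ⊢
  have hpiC : (Real.pi : ℂ) ≠ 0 := by exact_mod_cast hpi.ne'
  have hbsC : (κ.bs : ℂ) ≠ 0 := by exact_mod_cast hbs.ne'
  constructor
  · have e : ((torVar b (κ.n (H.j0 + i)) - torVar xyCritical (κ.n (H.j0 + i)) : ℝ) : ℂ) - dx / (Real.pi * κ.bs) =
        (((torVar b (κ.n (H.j0 + i)) - torVar xyCritical (κ.n (H.j0 + i)) : ℝ) : ℂ) - dt / Real.pi)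
          + ((1 / Real.pi : ℝ) : ℂ) * (dt - dx / κ.bs) := by
      push_cast
      field_simp
      ring
    rw [e]
    refine (norm_add_le _ _).trans ?_
    rw [norm_mul, Complex.norm_real, Real.norm_eq_abs, abs_of_pos (by positivity)]
    have hpi1 : 1 / Real.pi ≤ κ.C := by
      have : 1 / Real.pi ≤ 1 := by
        rw [div_le_one hpi]
        linarith [Real.pi_gt_three]
      linarith
    have k := l43_read_arith K κ.ks (1 / Real.pi) κ.C u (sv H b i) (sQ H b i) (sT H b (H.j0 + i) i) _ ‖dt‖ _ _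
      hK.le hks (by positivity) hpi1 hu hu1 hv0 hq0 ht0 (norm_nonneg _) lS ndt lV lT
    linarith
  · have e : ((torPhase b (κ.n (H.j0 + i)) - torPhase xyCritical (κ.n (H.j0 + i)) : ℝ) : ℂ) - κ.p (H.j0 + i) / r * dy =
        (((torPhase b (κ.n (H.j0 + i)) - torPhase xyCritical (κ.n (H.j0 + i)) : ℝ) : ℂ) - κ.p (H.j0 + i) * dz)
          + ((κ.p (H.j0 + i) : ℝ) : ℂ) * (dz - dy / r) := by
      ring
    rw [e]
    refine (norm_add_le _ _).trans ?_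
    have hp := κ.hp (H.j0 + i)
    have hp0 : 0 < κ.p (H.j0 + i) := lt_of_lt_of_le κ.hc hp.1
    rw [norm_mul, Complex.norm_real, Real.norm_eq_abs, abs_of_pos hp0]
    have k := l43_read_arith K κ.ks (κ.p (H.j0 + i)) κ.C u (sv H b i) (sQ H b i) (sT H b (H.j0 + i) i) _ ‖dz‖ _ _
      hK.le hks hp0.le hp.2 hu hu1 hv0 hq0 ht0 (norm_nonneg _) lS ndz lP lZ
    linarith

/-- Stores the on-demand equation lemmas of the definitions above in THIS module (rule 6 hygiene). -/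
theorem l43_late_forced : True := by
  have := @sv.eq_1
  have := @sQ.eq_1
  have := @sT.eq_1
  have := @Tube2.eq_1
  have := @dEnt.eq_1
  trivial

end

end Claimed.Agent.R285.E4
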