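import Claimed.Agent.R285.E4.Slave

/-!
# ROW 285, [E] P4.1, layer SEQ: pure sequences (Mathlib only, paper-free)   (architect helper103; prefix `p41_`)

## A. Slaving ((4.5)-(4.7) of [E], by a FORWARD induction instead of the weighted maxima of the paper)
`q (i+1) ≤ θ q i + (C/j) v i`, `v i ≤ (1 + C/j) v (i+1) + (C/j) q i`, `j = a + i`.   Invariant: `q i ≤ (K/j) v i + r^(i-l) q l`, `K = 2 C / (1 - θ)`.
Step: put `e = r^(i-l) q l`.  From the invariant, `v i (1 - C K / j²) ≤ (1 + C/j) v (i+1) + (C/j) e`, hence (`1/(1-x) ≤ 1 + 2x`, `x ≤ 1/2`)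
`v i ≤ (1 + 2CK/j²) ((1 + C/j) v (i+1) + (C/j) e)`; then `q (i+1) ≤ ((θK + C)/j) v i + θ e` and `θK + C = K (1+θ)/2`.  For `j ≥ jm`:
`((1+θ)/2) (1 + 2CK/j²)(1 + C/j)(1 + 1/j) ≤ 1` and `θ + (K/j)(1 + 2CK/j²)(C/j) ≤ r`.

## B. The linear recursion `V (j+1) = (I + M / j + E_j) V j`, `M = [[0,-2],[-1,-1]]`, `∑ ‖E_j‖ < ∞`, `|V j| ≥ c`
NO dyadic epochs.  Eigen-coordinates `U = (2/3)(X - Y)`, `S = (X + 2Y)/3` (`X = U + S`, `Y = -U/2 + S`): `U ↦ (1 + 1/j) U`, `S ↦ (1 - 2/j) S`.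
(i)  `m j = (|U j| + |S j|)/j` satisfies `m (j+1) ≤ (1 + 2 ε j) m j`: bounded (`p41_bdd_of_mul`).
(ii) `|U (j+1)/(j+1) - U j / j| ≤ ε j * m j`: summable, so `U j / j → P`.
(iii) `b j = |S j| / j`: `b (j+1) ≤ (1 - 1/(j+1)) b j + ε j * B`: tends to `0` (`p41_tendsto_zero_of_contract`).
(iv) `P ≠ 0`: cone `|S j| ≤ λ j |U j|`, `λ j = 2 - 12 τ j`, `τ j = ∑_{i ≥ j} ε i` (so `λ (j+1) = λ j + 12 ε j`, `1 ≤ λ ≤ 2` on the tail).  The cone is invariant (if `ε j ≤ 1/12`):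
   `|U (j+1)| ≥ |U j| (1 + 1/j - 3 ε j)`, `|S (j+1)| ≤ |U j| ((1 - 2/j) λ j + 3 ε j)`.  Inside: `|U (j+1)|/(j+1) ≥ (|U j|/j)(1 - 3 ε j)`, so `|P| ≥ (|U j₂|/j₂)(1 - 3 τ j₂) > 0`.
   Never inside: `|U j| < |S j|`, `|S (j+1)| ≤ (1 - 2/j + 2 ε j)|S j|`, so `(j+1)|S (j+1)| ≤ (1 + 4 ε j) j |S j|` is bounded, `|S j| → 0`, contradiction with the lower bound.
-/

set_option autoImplicit false

namespace Claimed.Agent.R285.E4

open Filter Topology

noncomputable section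

/-! ## A. Slaving -/

/-- LEAF (arithmetic of the induction step of `p41_slave`). -/
theorem p41_slave_const (θ r C : ℝ) (hθ0 : 0 ≤ θ) (hθ : θ < r) (hr : r < 1) (hC : 0 ≤ C) :
    ∃ jm : ℕ, 1 ≤ jm ∧ ∀ j : ℕ, jm ≤ j →
      C * (2 * C / (1 - θ)) / (j : ℝ) ^ 2 ≤ 1 / 2 ∧
      (1 + θ) / 2 * (1 + 2 * (C * (2 * C / (1 - θ))) / (j : ℝ) ^ 2) * (1 + C / (j : ℝ)) * (1 + 1 / (j : ℝ)) ≤ 1 ∧
      θ + (2 * C / (1 - θ)) / (j : ℝ) * (1 + 2 * (C * (2 * C / (1 - θ))) / (j : ℝ) ^ 2) * (C / (j : ℝ)) ≤ r := by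
  set K : ℝ := 2 * C / (1 - θ) with hK
  have key : ∀ᶠ u : ℝ in 𝓝 0, C * K * u ^ 2 ≤ 1 / 2 ∧
      (1 + θ) / 2 * (1 + 2 * (C * K) * u ^ 2) * (1 + C * u) * (1 + u) ≤ 1 ∧
      θ + K * u * (1 + 2 * (C * K) * u ^ 2) * (C * u) ≤ r := by
    have f1 : Continuous fun u : ℝ => C * K * u ^ 2 := by fun_prop
    have f2 : Continuous fun u : ℝ => (1 + θ) / 2 * (1 + 2 * (C * K) * u ^ 2) * (1 + C * u) * (1 + u) := by fun_prop
    have f3 : Continuous fun u : ℝ => θ + K * u * (1 + 2 * (C * K) * u ^ 2) * (C * u) := by fun_prop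
    have g1 := (f1.tendsto 0).eventually (eventually_lt_nhds (b := 1 / 2) (by norm_num))
    have g2 := (f2.tendsto 0).eventually (eventually_lt_nhds (b := 1) (by norm_num; linarith))
    have g3 := (f3.tendsto 0).eventually (eventually_lt_nhds (b := r) (by norm_num; linarith))
    filter_upwards [g1, g2, g3] with u h1 h2 h3
    exact ⟨h1.le, h2.le, h3.le⟩
  obtain ⟨j0, hj0⟩ := eventually_atTop.1 (tendsto_one_div_atTop_nhds_zero_nat.eventually key)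
  refine ⟨max j0 1, le_max_right _ _, fun j hj => ?_⟩
  obtain ⟨h1, h2, h3⟩ := hj0 j ((le_max_left _ _).trans hj)
  refine ⟨?_, ?_, ?_⟩
  · have e : C * K / (j : ℝ) ^ 2 = C * K * (1 / (j : ℝ)) ^ 2 := by ring
    rw [e]; exact h1
  · have e : (1 + θ) / 2 * (1 + 2 * (C * K) / (j : ℝ) ^ 2) * (1 + C / (j : ℝ)) * (1 + 1 / (j : ℝ))
        = (1 + θ) / 2 * (1 + 2 * (C * K) * (1 / (j : ℝ)) ^ 2) * (1 + C * (1 / (j : ℝ))) * (1 + 1 / (j : ℝ)) := by ring
    rw [e]; exact h2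
  · have e : θ + K / (j : ℝ) * (1 + 2 * (C * K) / (j : ℝ) ^ 2) * (C / (j : ℝ))
        = θ + K * (1 / (j : ℝ)) * (1 + 2 * (C * K) * (1 / (j : ℝ)) ^ 2) * (C * (1 / (j : ℝ))) := by ring
    rw [e]; exact h3

/-- LEAF.  The slaving lemma (plan A in the header; induction on `i` from `l`). -/
theorem p41_slave (θ r C : ℝ) (hθ0 : 0 ≤ θ) (hθ : θ < r) (hr : r < 1) (hC : 0 ≤ C) :
    ∃ (K : ℝ) (jm : ℕ), 0 ≤ K ∧ ∀ (a l n : ℕ) (v q : ℕ → ℝ), jm ≤ a + l → (∀ i, 0 ≤ v i) → (∀ i, 0 ≤ q i) →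
      (∀ i, l ≤ i → i < n → q (i + 1) ≤ θ * q i + C / ((a + i : ℕ) : ℝ) * v i) →
      (∀ i, l ≤ i → i < n → v i ≤ (1 + C / ((a + i : ℕ) : ℝ)) * v (i + 1) + C / ((a + i : ℕ) : ℝ) * q i) →
      ∀ i, l ≤ i → i ≤ n → q i ≤ K / ((a + i : ℕ) : ℝ) * v i + r ^ (i - l) * q l := by
  obtain ⟨K, j1, hK, _, hmain⟩ := slv_main hθ0 (hθ.trans hr) hθ hC
  refine ⟨K, j1, hK, ?_⟩
  intro a l n v q hjm hv hq hf hb i hli hin
  have h := hmain (fun j => v (j - a)) (fun j => q (j - a)) (a + l) (a + n) hjm (fun j => hv _) (hq _)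
    (fun j hlj hjn => by
      obtain ⟨i, rfl⟩ : ∃ i, j = a + i := ⟨j - a, by omega⟩
      have e1 : a + i - a = i := by omega
      have e2 : a + i + 1 - a = i + 1 := by omega
      simp only [e1, e2]
      exact hb i (by omega) (by omega))
    (fun j hlj hjn => by
      obtain ⟨i, rfl⟩ : ∃ i, j = a + i := ⟨j - a, by omega⟩
      have e1 : a + i - a = i := by omega
      have e2 : a + i + 1 - a = i + 1 := by omega
      simp only [e1, e2]
      exact hf i (by omega) (by omega))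
    (a + i) (by omega) (by omega)
  have e1 : a + i - a = i := by omega
  have e2 : a + l - a = l := by omega
  have e3 : a + i - (a + l) = i - l := by omega
  simp only [e1, e2, e3] at h
  exact h

/-! ## B. The linear recursion -/

/-- LEAF.  `m (j+1) ≤ (1 + e j) m j` eventually, `e ≥ 0` summable: `m` is bounded above
(`m j ≤ m j₁ * exp (∑ e)`; `Real.add_one_le_exp`, `Finset.prod`/`sum_le_tsum`). -/
theorem p41_bdd_of_mul (m e : ℕ → ℝ) (hm : ∀ j, 0 ≤ m j) (he0 : ∀ j, 0 ≤ e j) (he : Summable e)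
    (h : ∀ᶠ j : ℕ in atTop, m (j + 1) ≤ (1 + e j) * m j) : ∃ B : ℝ, ∀ j, m j ≤ B := by
  obtain ⟨J, hJ⟩ := eventually_atTop.1 h
  have hs : Summable fun i => e (J + i) := by
    have := (summable_nat_add_iff J).2 he
    simpa [add_comm] using this
  have key : ∀ k, m (J + k) ≤ m J * Real.exp (∑ i ∈ Finset.range k, e (J + i)) := by
    intro k
    induction k with
    | zero => simp
    | succ k ih =>
      have h1 := hJ (J + k) (by omega)
      have h2 : 1 + e (J + k) ≤ Real.exp (e (J + k)) := by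
        have := Real.add_one_le_exp (e (J + k))
        linarith
      have h3 : 0 ≤ 1 + e (J + k) := by have := he0 (J + k); linarith
      calc m (J + (k + 1)) ≤ (1 + e (J + k)) * m (J + k) := h1
        _ ≤ Real.exp (e (J + k)) * (m J * Real.exp (∑ i ∈ Finset.range k, e (J + i))) :=
            mul_le_mul h2 ih (hm _) (Real.exp_pos _).le
        _ = m J * Real.exp (∑ i ∈ Finset.range (k + 1), e (J + i)) := by
            rw [Finset.sum_range_succ, Real.exp_add]; ring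
  refine ⟨(∑ i ∈ Finset.range J, m i) + m J * Real.exp (∑' i, e (J + i)), fun j => ?_⟩
  have hpos : 0 ≤ m J * Real.exp (∑' i, e (J + i)) := mul_nonneg (hm J) (Real.exp_pos _).le
  have hpos2 : 0 ≤ ∑ i ∈ Finset.range J, m i := Finset.sum_nonneg fun i _ => hm i
  by_cases hj : j < J
  · have := Finset.single_le_sum (f := m) (fun i _ => hm i) (Finset.mem_range.2 hj)
    linarith
  · obtain ⟨k, rfl⟩ : ∃ k, j = J + k := ⟨j - J, by omega⟩
    have h1 : ∑ i ∈ Finset.range k, e (J + i) ≤ ∑' i, e (J + i) :=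
      hs.sum_le_tsum _ fun i _ => he0 _
    have h2 := mul_le_mul_of_nonneg_left (Real.exp_le_exp.2 h1) (hm J)
    linarith [key k]

/-- LEAF.  `b (j+1) ≤ (1 - 1/(j+1)) b j + d j`, `d ≥ 0` summable, `b ≥ 0`: `b → 0`.
(For `η > 0` take `J` with `∑_{j ≥ J} d j < η`; by induction `b j ≤ (J / j) b J + ∑_{J ≤ i < j} d i`.) -/
theorem p41_tendsto_zero_of_contract (b d : ℕ → ℝ) (hb : ∀ j, 0 ≤ b j) (hd0 : ∀ j, 0 ≤ d j) (hd : Summable d)
    (h : ∀ᶠ j : ℕ in atTop, b (j + 1) ≤ (1 - 1 / ((j : ℝ) + 1)) * b j + d j) : Tendsto b atTop (𝓝 0) := by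
  obtain ⟨J₀, hJ₀⟩ := eventually_atTop.1 h
  have key : ∀ J, J₀ ≤ J → 1 ≤ J → ∀ k, b (J + k) ≤
      (J : ℝ) / ((J + k : ℕ) : ℝ) * b J + ∑ i ∈ Finset.range k, d (J + i) := by
    intro J hJ hJ1 k
    induction k with
    | zero =>
      have : (J : ℝ) ≠ 0 := by positivity
      simp [this]
    | succ k ih =>
      have h1 := hJ₀ (J + k) (by omega)
      have hjk : (0 : ℝ) < ((J + k : ℕ) : ℝ) := by
        have : 0 < J + k := by omega
        exact_mod_cast this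
      have e1 : (1 - 1 / (((J + k : ℕ) : ℝ) + 1)) = ((J + k : ℕ) : ℝ) / (((J + k : ℕ) : ℝ) + 1) := by
        field_simp
        ring
      have hq0 : 0 ≤ ((J + k : ℕ) : ℝ) / (((J + k : ℕ) : ℝ) + 1) := by positivity
      have hq1 : ((J + k : ℕ) : ℝ) / (((J + k : ℕ) : ℝ) + 1) ≤ 1 := by
        rw [div_le_one (by positivity)]; linarith
      have hsum0 : 0 ≤ ∑ i ∈ Finset.range k, d (J + i) := Finset.sum_nonneg fun i _ => hd0 _
      rw [e1] at h1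
      have h2 := mul_le_mul_of_nonneg_left ih hq0
      have e2 : ((J + k : ℕ) : ℝ) / (((J + k : ℕ) : ℝ) + 1) * ((J : ℝ) / ((J + k : ℕ) : ℝ) * b J)
          = (J : ℝ) / ((J + (k + 1) : ℕ) : ℝ) * b J := by
        have : ((J + (k + 1) : ℕ) : ℝ) = ((J + k : ℕ) : ℝ) + 1 := by push_cast; ring
        rw [this]
        field_simp
      have h3 : ((J + k : ℕ) : ℝ) / (((J + k : ℕ) : ℝ) + 1) * ∑ i ∈ Finset.range k, d (J + i)
          ≤ ∑ i ∈ Finset.range k, d (J + i) := by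
        nlinarith
      rw [Finset.sum_range_succ]
      have h4 : b (J + (k + 1)) ≤ ((J + k : ℕ) : ℝ) / (((J + k : ℕ) : ℝ) + 1) * b (J + k) + d (J + k) := h1
      rw [mul_add, e2] at h2
      linarith
  rw [Metric.tendsto_atTop]
  intro η hη
  have htail := tendsto_sum_nat_add d
  obtain ⟨J₁, hJ₁⟩ := eventually_atTop.1 (htail.eventually (eventually_lt_nhds (b := η / 2) (by positivity)))
  obtain ⟨J, hJdef⟩ : ∃ J, J = max (max J₀ J₁) 1 := ⟨_, rfl⟩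
  have hJ0 : J₀ ≤ J := by rw [hJdef]; exact (le_max_left _ _).trans (le_max_left _ _)
  have hJ1 : J₁ ≤ J := by rw [hJdef]; exact (le_max_right _ _).trans (le_max_left _ _)
  have hJ2 : 1 ≤ J := by rw [hJdef]; exact le_max_right _ _
  have hs : Summable fun i => d (J + i) := by
    have := (summable_nat_add_iff J).2 hd
    simpa [add_comm] using this
  have ht : ∑' i, d (J + i) < η / 2 := by
    have := hJ₁ J hJ1
    simpa [add_comm] using this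
  have hlim : Tendsto (fun j : ℕ => (J : ℝ) * b J / (j : ℝ)) atTop (𝓝 0) :=
    tendsto_const_div_atTop_nhds_zero_nat _
  obtain ⟨J₂, hJ₂⟩ := eventually_atTop.1 (hlim.eventually (eventually_lt_nhds (b := η / 2) (by positivity)))
  refine ⟨max J J₂, fun j hj => ?_⟩
  have hjJ : J ≤ j := (le_max_left _ _).trans hj
  obtain ⟨k, rfl⟩ : ∃ k, j = J + k := ⟨j - J, by omega⟩
  have h1 := key J hJ0 hJ2 k
  have h2 : ∑ i ∈ Finset.range k, d (J + i) ≤ ∑' i, d (J + i) := hs.sum_le_tsum _ fun i _ => hd0 _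
  have h3 := hJ₂ (J + k) ((le_max_right _ _).trans hj)
  rw [Real.dist_eq, sub_zero, abs_of_nonneg (hb _)]
  have e : (J : ℝ) / ((J + k : ℕ) : ℝ) * b J = (J : ℝ) * b J / ((J + k : ℕ) : ℝ) := by ring
  rw [e] at h1
  linarith

/-- LEAF.  `a (j+1) ≥ (1 - e j) a j` for `j ≥ j₂`, `∑_{j ≥ j₂} e j ≤ 1/2`: `a j ≥ a j₂ / 2` (Weierstrass: `∏ (1 - e) ≥ 1 - ∑ e`; induction with the invariant
`a j ≥ a j₂ (1 - ∑_{j₂ ≤ i < j} e i)`). -/
theorem p41_lower_of_mul (a e : ℕ → ℝ) (j₂ : ℕ) (ha : ∀ j, 0 ≤ a j) (he0 : ∀ j, 0 ≤ e j) (he : Summable e)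
    (hsum : ∑' i, e (j₂ + i) ≤ 1 / 2) (h : ∀ j, j₂ ≤ j → (1 - e j) * a j ≤ a (j + 1)) :
    ∀ j, j₂ ≤ j → a j₂ / 2 ≤ a j := by
  have hs : Summable fun i => e (j₂ + i) := by
    have := (summable_nat_add_iff j₂).2 he
    simpa [add_comm] using this
  have hpart : ∀ k, ∑ i ∈ Finset.range k, e (j₂ + i) ≤ 1 / 2 := fun k =>
    (hs.sum_le_tsum _ fun i _ => he0 _).trans hsum
  have key : ∀ k, a j₂ * (1 - ∑ i ∈ Finset.range k, e (j₂ + i)) ≤ a (j₂ + k) := by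
    intro k
    induction k with
    | zero => simp
    | succ k ih =>
      have h1 := h (j₂ + k) (by omega)
      have h2 := hpart (k + 1)
      rw [Finset.sum_range_succ] at h2 ⊢
      have hsk : 0 ≤ ∑ i ∈ Finset.range k, e (j₂ + i) := Finset.sum_nonneg fun i _ => he0 _
      have hek := he0 (j₂ + k)
      have h3 : 0 ≤ 1 - e (j₂ + k) := by linarith
      have h4 := mul_le_mul_of_nonneg_left ih h3
      have h5 : 0 ≤ a j₂ * (e (j₂ + k) * ∑ i ∈ Finset.range k, e (j₂ + i)) :=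
        mul_nonneg (ha _) (mul_nonneg hek hsk)
      have h6 : a (j₂ + (k + 1)) = a (j₂ + k + 1) := rfl
      rw [h6]
      nlinarith
  intro j hj
  obtain ⟨k, rfl⟩ : ∃ k, j = j₂ + k := ⟨j - j₂, by omega⟩
  have h1 := key k
  have h2 := hpart k
  have h3 := ha j₂
  nlinarith

/-- the hypotheses on `(U, S)` -/
structure USRec (U S : ℕ → ℂ) (ε : ℕ → ℝ) (j₁ : ℕ) : Prop where
  pos : 3 ≤ j₁
  ε0 : ∀ j, 0 ≤ ε j
  sum : Summable ε
  hU : ∀ j, j₁ ≤ j → ‖U (j + 1) - (1 + 1 / (j : ℂ)) * U j‖ ≤ ε j * (‖U j‖ + ‖S j‖)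
  hS : ∀ j, j₁ ≤ j → ‖S (j + 1) - (1 - 2 / (j : ℂ)) * S j‖ ≤ ε j * (‖U j‖ + ‖S j‖)

/-- norms of the two multipliers -/
theorem p41_norm_mulU (j : ℕ) : ‖(1 + 1 / (j : ℂ))‖ = 1 + 1 / (j : ℝ) := by
  have e : (1 + 1 / (j : ℂ)) = ((1 + 1 / (j : ℝ) : ℝ) : ℂ) := by push_cast; ring
  rw [e, Complex.norm_real, Real.norm_eq_abs, abs_of_nonneg (by positivity)]

theorem p41_norm_mulS (j : ℕ) (hj : 2 ≤ j) : ‖(1 - 2 / (j : ℂ))‖ = 1 - 2 / (j : ℝ) := by
  have e : (1 - 2 / (j : ℂ)) = ((1 - 2 / (j : ℝ) : ℝ) : ℂ) := by push_cast; ring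
  have hj' : (2 : ℝ) ≤ (j : ℝ) := by exact_mod_cast hj
  have h0 : 0 ≤ 1 - 2 / (j : ℝ) := by
    rw [sub_nonneg, div_le_one (by linarith)]
    exact hj'
  rw [e, Complex.norm_real, Real.norm_eq_abs, abs_of_nonneg h0]

/-- the four one-step bounds -/
theorem p41_us_step {U S : ℕ → ℂ} {ε : ℕ → ℝ} {j₁ : ℕ} (h : USRec U S ε j₁) (j : ℕ) (hj : j₁ ≤ j) :
    ‖U (j + 1)‖ ≤ (1 + 1 / (j : ℝ)) * ‖U j‖ + ε j * (‖U j‖ + ‖S j‖) ∧
    (1 + 1 / (j : ℝ)) * ‖U j‖ - ε j * (‖U j‖ + ‖S j‖) ≤ ‖U (j + 1)‖ ∧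
    ‖S (j + 1)‖ ≤ (1 - 2 / (j : ℝ)) * ‖S j‖ + ε j * (‖U j‖ + ‖S j‖) := by
  have h3 := h.pos
  have hU := h.hU j hj
  have hS := h.hS j hj
  have nU : ‖(1 + 1 / (j : ℂ)) * U j‖ = (1 + 1 / (j : ℝ)) * ‖U j‖ := by
    rw [norm_mul, p41_norm_mulU]
  have nS : ‖(1 - 2 / (j : ℂ)) * S j‖ = (1 - 2 / (j : ℝ)) * ‖S j‖ := by
    rw [norm_mul, p41_norm_mulS j (by omega)]
  refine ⟨?_, ?_, ?_⟩
  · have := norm_sub_norm_le (U (j + 1)) ((1 + 1 / (j : ℂ)) * U j)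
    rw [nU] at this
    linarith
  · have := norm_sub_norm_le ((1 + 1 / (j : ℂ)) * U j) (U (j + 1))
    rw [nU, norm_sub_rev] at this
    linarith
  · have := norm_sub_norm_le (S (j + 1)) ((1 - 2 / (j : ℂ)) * S j)
    rw [nS] at this
    linarith

/-- LEAF (i). -/
theorem p41_us_bdd {U S : ℕ → ℂ} {ε : ℕ → ℝ} {j₁ : ℕ} (h : USRec U S ε j₁) :
    ∃ B : ℝ, ∀ j : ℕ, (‖U j‖ + ‖S j‖) / (j : ℝ) ≤ B := by
  refine p41_bdd_of_mul (fun j => (‖U j‖ + ‖S j‖) / (j : ℝ)) (fun j => 2 * ε j) (fun j => by positivity)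
    (fun j => by have := h.ε0 j; positivity) (h.sum.mul_left 2) ?_
  filter_upwards [eventually_ge_atTop j₁] with j hj
  obtain ⟨h1, _, h3⟩ := p41_us_step h j hj
  have hpos := h.pos
  have hj0 : (0 : ℝ) < (j : ℝ) := by
    have : 0 < j := by omega
    exact_mod_cast this
  have hε := h.ε0 j
  have hn : 0 ≤ ‖U j‖ + ‖S j‖ := by positivity
  have hS0 : 0 ≤ ‖S j‖ := norm_nonneg _
  have hdiv : 0 ≤ ‖S j‖ / (j : ℝ) := by positivity
  have h4 : ‖U (j + 1)‖ + ‖S (j + 1)‖ ≤ (1 + 1 / (j : ℝ) + 2 * ε j) * (‖U j‖ + ‖S j‖) := by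
    have e1 : (1 - 2 / (j : ℝ)) * ‖S j‖ = ‖S j‖ - 2 * (‖S j‖ / (j : ℝ)) := by ring
    have e2 : (1 + 1 / (j : ℝ) + 2 * ε j) * (‖U j‖ + ‖S j‖) =
        (1 + 1 / (j : ℝ)) * ‖U j‖ + ‖S j‖ + ‖S j‖ / (j : ℝ) + 2 * (ε j * (‖U j‖ + ‖S j‖)) := by ring
    rw [e2]
    rw [e1] at h3
    linarith
  have hc : ((j + 1 : ℕ) : ℝ) = (j : ℝ) + 1 := by push_cast; ring
  show (‖U (j + 1)‖ + ‖S (j + 1)‖) / ((j + 1 : ℕ) : ℝ) ≤ (1 + 2 * ε j) * ((‖U j‖ + ‖S j‖) / (j : ℝ))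
  rw [hc, div_le_iff₀ (by positivity)]
  refine h4.trans ?_
  have e3 : (1 + 2 * ε j) * ((‖U j‖ + ‖S j‖) / (j : ℝ)) * ((j : ℝ) + 1) =
      (1 + 2 * ε j) * (1 + 1 / (j : ℝ)) * (‖U j‖ + ‖S j‖) := by
    field_simp
  rw [e3]
  refine mul_le_mul_of_nonneg_right ?_ hn
  have : 0 ≤ 2 * ε j * (1 / (j : ℝ)) := by positivity
  nlinarith

/-- LEAF (ii)  (`cauchySeq_of_summable_dist` or `tendsto` of partial sums). -/
theorem p41_us_conv {U S : ℕ → ℂ} {ε : ℕ → ℝ} {j₁ : ℕ} (h : USRec U S ε j₁) :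
    ∃ P : ℂ, Tendsto (fun j : ℕ => U j / (j : ℂ)) atTop (𝓝 P) := by
  obtain ⟨B, hB⟩ := p41_us_bdd h
  have hpos := h.pos
  have hc : CauchySeq fun k : ℕ => U (k + j₁) / ((k + j₁ : ℕ) : ℂ) := by
    refine cauchySeq_of_dist_le_of_summable (fun k => ε (k + j₁) * B) (fun k => ?_)
      (((summable_nat_add_iff j₁).2 h.sum).mul_right B)
    obtain ⟨j, hj⟩ : ∃ j, j = k + j₁ := ⟨_, rfl⟩
    have hsucc : k.succ + j₁ = j + 1 := by omega
    rw [hsucc, ← hj]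
    have hj1 : j₁ ≤ j := by omega
    have hj0 : (0 : ℝ) < (j : ℝ) := by
      have : 0 < j := by omega
      exact_mod_cast this
    have hjc : (j : ℂ) ≠ 0 := by
      have : j ≠ 0 := by omega
      exact_mod_cast this
    have hjc1 : ((j + 1 : ℕ) : ℂ) ≠ 0 := by exact_mod_cast Nat.succ_ne_zero j
    have e : U j / (j : ℂ) - U (j + 1) / ((j + 1 : ℕ) : ℂ) =
        -(U (j + 1) - (1 + 1 / (j : ℂ)) * U j) / ((j + 1 : ℕ) : ℂ) := by
      field_simp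
      push_cast
      ring
    rw [dist_eq_norm, e, norm_div, norm_neg, Complex.norm_natCast]
    have h1 := h.hU j hj1
    have h2 := hB j
    have hε := h.ε0 j
    have hc1 : ((j + 1 : ℕ) : ℝ) = (j : ℝ) + 1 := by push_cast; ring
    rw [hc1, div_le_iff₀ (by positivity)]
    refine h1.trans ?_
    rw [div_le_iff₀ hj0] at h2
    have hB0 : 0 ≤ B * (j : ℝ) := le_trans (by positivity) h2
    have hB1 : 0 ≤ B := by
      by_contra hcon
      push Not at hcon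
      nlinarith
    calc ε j * (‖U j‖ + ‖S j‖) ≤ ε j * (B * (j : ℝ)) := mul_le_mul_of_nonneg_left h2 hε
      _ ≤ ε j * B * ((j : ℝ) + 1) := by nlinarith [mul_nonneg hε hB1]
  obtain ⟨P, hP⟩ := cauchySeq_tendsto_of_complete hc
  exact ⟨P, (tendsto_add_atTop_iff_nat (f := fun j : ℕ => U j / (j : ℂ)) j₁).1 hP⟩

/-- LEAF (iii). -/
theorem p41_us_stable {U S : ℕ → ℂ} {ε : ℕ → ℝ} {j₁ : ℕ} (h : USRec U S ε j₁) :
    Tendsto (fun j : ℕ => S j / (j : ℂ)) atTop (𝓝 0) := by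
  obtain ⟨B, hB⟩ := p41_us_bdd h
  have hpos := h.pos
  have hB0 : 0 ≤ B := by
    have := hB 0
    simpa using this
  have hb : Tendsto (fun j : ℕ => ‖S j‖ / (j : ℝ)) atTop (𝓝 0) := by
    refine p41_tendsto_zero_of_contract _ (fun j => ε j * B) (fun j => by positivity)
      (fun j => mul_nonneg (h.ε0 j) hB0) (h.sum.mul_right B) ?_
    filter_upwards [eventually_ge_atTop j₁] with j hj
    obtain ⟨_, _, h3⟩ := p41_us_step h j hj
    have hj0 : (0 : ℝ) < (j : ℝ) := by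
      have : 0 < j := by omega
      exact_mod_cast this
    have hε := h.ε0 j
    have h2 := hB j
    rw [div_le_iff₀ hj0] at h2
    have hc1 : ((j + 1 : ℕ) : ℝ) = (j : ℝ) + 1 := by push_cast; ring
    rw [hc1, div_le_iff₀ (by positivity)]
    have hS0 : 0 ≤ ‖S j‖ := norm_nonneg _
    have e1 : ((1 - 1 / ((j : ℝ) + 1)) * (‖S j‖ / (j : ℝ)) + ε j * B) * ((j : ℝ) + 1) =
        ‖S j‖ + ε j * B * ((j : ℝ) + 1) := by
      field_simp
      ring
    rw [e1]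
    have e2 : (1 - 2 / (j : ℝ)) * ‖S j‖ = ‖S j‖ - 2 * (‖S j‖ / (j : ℝ)) := by ring
    rw [e2] at h3
    have hdiv : 0 ≤ ‖S j‖ / (j : ℝ) := by positivity
    have h4 : ε j * (‖U j‖ + ‖S j‖) ≤ ε j * (B * (j : ℝ)) := mul_le_mul_of_nonneg_left h2 hε
    nlinarith [mul_nonneg hε hB0]
  rw [tendsto_zero_iff_norm_tendsto_zero]
  refine hb.congr fun j => ?_
  rw [norm_div, Complex.norm_natCast]

/-- the slope of the moving cone -/
def coneSlope (ε : ℕ → ℝ) (j : ℕ) : ℝ := 2 - 12 * ∑' i, ε (j + i)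

/-- LEAF.  `λ (j+1) = λ j + 12 ε j`; eventually `1 ≤ λ j ≤ 2`, `ε j ≤ 1/12`, `∑_{i ≥ j} 3 ε i ≤ 1/2`. -/
theorem p41_coneSlope (ε : ℕ → ℝ) (h0 : ∀ j, 0 ≤ ε j) (hs : Summable ε) :
    (∀ j, coneSlope ε (j + 1) = coneSlope ε j + 12 * ε j) ∧ (∀ j, coneSlope ε j ≤ 2) ∧
    ∀ᶠ j : ℕ in atTop, 1 ≤ coneSlope ε j ∧ ε j ≤ 1 / 12 ∧ ∑' i, 3 * ε (j + i) ≤ 1 / 2 := by
  have hsh : ∀ j, Summable fun i => ε (j + i) := fun j => by
    have := (summable_nat_add_iff j).2 hs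
    simpa [add_comm] using this
  have hstep : ∀ j, ∑' i, ε (j + i) = ε j + ∑' i, ε (j + 1 + i) := by
    intro j
    rw [(hsh j).tsum_eq_zero_add]
    congr 1
    refine tsum_congr fun i => ?_
    congr 1
    omega
  refine ⟨fun j => ?_, fun j => ?_, ?_⟩
  · unfold coneSlope
    rw [hstep j]
    ring
  · unfold coneSlope
    have : 0 ≤ ∑' i, ε (j + i) := tsum_nonneg fun i => h0 _
    linarith
  · have htail := tendsto_sum_nat_add ε
    filter_upwards [htail.eventually (eventually_lt_nhds (b := 1 / 12) (by norm_num))] with j hj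
    have hj' : ∑' i, ε (j + i) < 1 / 12 := by simpa [add_comm] using hj
    have h1 : 0 ≤ ∑' i, ε (j + 1 + i) := tsum_nonneg fun i => h0 _
    refine ⟨?_, ?_, ?_⟩
    · unfold coneSlope
      linarith
    · have := hstep j
      linarith
    · rw [tsum_mul_left]
      linarith

/-- LEAF (iv-a).  One step of the cone. -/
theorem p41_cone_step {U S : ℕ → ℂ} {ε : ℕ → ℝ} {j₁ : ℕ} (h : USRec U S ε j₁) (j : ℕ) (hj : j₁ ≤ j)
    (hl : 1 ≤ coneSlope ε j) (he : ε j ≤ 1 / 12) (hc : ‖S j‖ ≤ coneSlope ε j * ‖U j‖) :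
    ‖S (j + 1)‖ ≤ coneSlope ε (j + 1) * ‖U (j + 1)‖ ∧
    (1 - 3 * ε j) * (‖U j‖ / (j : ℝ)) ≤ ‖U (j + 1)‖ / ((j + 1 : ℕ) : ℝ) := by
  obtain ⟨hs1, hs2, _⟩ := p41_coneSlope ε h.ε0 h.sum
  obtain ⟨_, h2, h3⟩ := p41_us_step h j hj
  have hpos := h.pos
  have hj3 : (3 : ℝ) ≤ (j : ℝ) := by
    have : 3 ≤ j := by omega
    exact_mod_cast this
  have hj0 : (0 : ℝ) < (j : ℝ) := by linarith
  have hε := h.ε0 j
  have hl2 := hs2 j
  obtain ⟨l, hldef⟩ : ∃ l, l = coneSlope ε j := ⟨_, rfl⟩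
  obtain ⟨u, hu⟩ : ∃ u, u = ‖U j‖ := ⟨_, rfl⟩
  obtain ⟨s, hsd⟩ : ∃ s, s = ‖S j‖ := ⟨_, rfl⟩
  obtain ⟨q, hq⟩ : ∃ q, q = 1 / (j : ℝ) := ⟨_, rfl⟩
  have hq0 : 0 < q := by rw [hq]; positivity
  have hq1 : q ≤ 1 / 3 := by
    rw [hq]
    exact one_div_le_one_div_of_le (by norm_num) hj3
  have e2q : 2 / (j : ℝ) = 2 * q := by rw [hq]; ring
  rw [hs1 j, ← hldef]
  rw [← hldef] at hl hc hl2
  rw [← hu, ← hsd, ← hq] at h2
  rw [← hu, ← hsd, e2q] at h3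
  rw [← hu, ← hsd] at hc
  rw [← hu]
  have hu0 : 0 ≤ u := by rw [hu]; positivity
  have hs0 : 0 ≤ s := by rw [hsd]; positivity
  -- lower bound of `U`
  have hUlow : (1 + q - 3 * ε j) * u ≤ ‖U (j + 1)‖ := by
    have : ε j * (u + s) ≤ ε j * (3 * u) := by
      refine mul_le_mul_of_nonneg_left ?_ hε
      nlinarith
    nlinarith
  have hSup : ‖S (j + 1)‖ ≤ ((1 - 2 * q) * l + 3 * ε j) * u := by
    have a1 : ε j * (u + s) ≤ ε j * (3 * u) := by
      refine mul_le_mul_of_nonneg_left ?_ hε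
      nlinarith
    have a2 : (1 - 2 * q) * s ≤ (1 - 2 * q) * (l * u) :=
      mul_le_mul_of_nonneg_left hc (by linarith)
    nlinarith
  constructor
  · refine hSup.trans ?_
    have hcoef : (1 - 2 * q) * l + 3 * ε j ≤ (l + 12 * ε j) * (1 + q - 3 * ε j) := by
      have t1 : 0 ≤ l * q := by positivity
      have t2 : 0 ≤ ε j * q := by positivity
      have t3 : 0 ≤ ε j * (1 / 12 - ε j) := mul_nonneg hε (by linarith)
      have t4 : 0 ≤ ε j * (2 - l) := mul_nonneg hε (by linarith)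
      nlinarith
    have h5 : 0 ≤ l + 12 * ε j := by linarith
    calc ((1 - 2 * q) * l + 3 * ε j) * u ≤ (l + 12 * ε j) * (1 + q - 3 * ε j) * u :=
          mul_le_mul_of_nonneg_right hcoef hu0
      _ = (l + 12 * ε j) * ((1 + q - 3 * ε j) * u) := by ring
      _ ≤ (l + 12 * ε j) * ‖U (j + 1)‖ := mul_le_mul_of_nonneg_left hUlow h5
  · have hc1 : ((j + 1 : ℕ) : ℝ) = (j : ℝ) + 1 := by push_cast; ring
    rw [hc1, le_div_iff₀ (by positivity)]
    refine le_trans ?_ hUlow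
    have e : (1 - 3 * ε j) * (u / (j : ℝ)) * ((j : ℝ) + 1) = (1 - 3 * ε j) * (1 + q) * u := by
      rw [hq]
      field_simp
    rw [e]
    refine mul_le_mul_of_nonneg_right ?_ hu0
    nlinarith [mul_nonneg hε hq0.le]

/-- LEAF (iv-b).  If the sequence is outside of the cone on a whole tail, it tends to zero. -/
theorem p41_cone_never {U S : ℕ → ℂ} {ε : ℕ → ℝ} {j₁ : ℕ} (h : USRec U S ε j₁)
    (hout : ∀ᶠ j : ℕ in atTop, ‖U j‖ < ‖S j‖) : Tendsto (fun j => ‖U j‖ + ‖S j‖) atTop (𝓝 0) := by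
  have hpos := h.pos
  obtain ⟨B, hB⟩ := p41_bdd_of_mul (fun j => (j : ℝ) * ‖S j‖) (fun j => 4 * ε j)
    (fun j => by positivity) (fun j => by have := h.ε0 j; positivity) (h.sum.mul_left 4) (by
    filter_upwards [eventually_ge_atTop j₁, hout] with j hj ho
    obtain ⟨_, _, h3⟩ := p41_us_step h j hj
    have hj3 : (3 : ℝ) ≤ (j : ℝ) := by
      have : 3 ≤ j := by omega
      exact_mod_cast this
    have hj0 : (0 : ℝ) < (j : ℝ) := by linarith
    have hε := h.ε0 j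
    have hS0 : 0 ≤ ‖S j‖ := norm_nonneg _
    have h4 : ‖S (j + 1)‖ ≤ (1 - 2 / (j : ℝ) + 2 * ε j) * ‖S j‖ := by
      have : ε j * (‖U j‖ + ‖S j‖) ≤ ε j * (2 * ‖S j‖) :=
        mul_le_mul_of_nonneg_left (by linarith) hε
      nlinarith
    have hc1 : ((j + 1 : ℕ) : ℝ) = (j : ℝ) + 1 := by push_cast; ring
    show ((j + 1 : ℕ) : ℝ) * ‖S (j + 1)‖ ≤ (1 + 4 * ε j) * ((j : ℝ) * ‖S j‖)
    rw [hc1]
    have h5 := mul_le_mul_of_nonneg_left h4 (by positivity : (0 : ℝ) ≤ (j : ℝ) + 1)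
    refine h5.trans ?_
    have e : ((j : ℝ) + 1) * ((1 - 2 / (j : ℝ) + 2 * ε j) * ‖S j‖) =
        ((j : ℝ) - 1 - 2 / (j : ℝ) + 2 * ε j * ((j : ℝ) + 1)) * ‖S j‖ := by
      field_simp
      ring
    rw [e, ← mul_assoc]
    refine mul_le_mul_of_nonneg_right ?_ hS0
    have : 0 ≤ 2 / (j : ℝ) := by positivity
    nlinarith [mul_nonneg hε hj0.le])
  have hlim : Tendsto (fun j : ℕ => 2 * B / (j : ℝ)) atTop (𝓝 0) :=
    tendsto_const_div_atTop_nhds_zero_nat _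
  refine squeeze_zero' (Filter.Eventually.of_forall fun j => by positivity) ?_ hlim
  filter_upwards [eventually_ge_atTop j₁, hout] with j hj ho
  have hj0 : (0 : ℝ) < (j : ℝ) := by
    have : 0 < j := by omega
    exact_mod_cast this
  rw [le_div_iff₀ hj0]
  have : (j : ℝ) * ‖S j‖ ≤ B := hB j
  nlinarith

/-- GLUE (iv): from `p41_coneSlope`, `p41_cone_step`, `p41_cone_never`, `p41_lower_of_mul`. -/
theorem p41_us_ne_zero {U S : ℕ → ℂ} {ε : ℕ → ℝ} {j₁ : ℕ} (h : USRec U S ε j₁) (c : ℝ) (hc : 0 < c)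
    (hlow : ∀ᶠ j : ℕ in atTop, c ≤ ‖U j‖ + ‖S j‖) (P : ℂ) (hP : Tendsto (fun j : ℕ => U j / (j : ℂ)) atTop (𝓝 P)) :
    P ≠ 0 := by
  obtain ⟨hs1, hs2, hs3⟩ := p41_coneSlope ε h.ε0 h.sum
  have hpos := h.pos
  obtain ⟨J, hJ⟩ := eventually_atTop.1 ((hs3.and hlow).and (eventually_ge_atTop j₁))
  by_cases hin : ∃ j₂, J ≤ j₂ ∧ ‖S j₂‖ ≤ coneSlope ε j₂ * ‖U j₂‖
  · obtain ⟨j₂, hj₂, hcone⟩ := hin
    have hall : ∀ k, ‖S (j₂ + k)‖ ≤ coneSlope ε (j₂ + k) * ‖U (j₂ + k)‖ := by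
      intro k
      induction k with
      | zero => exact hcone
      | succ k ih =>
        obtain ⟨⟨⟨a1, a2, _⟩, _⟩, a4⟩ := hJ (j₂ + k) (by omega)
        exact (p41_cone_step h (j₂ + k) a4 a1 a2 ih).1
    have hstep : ∀ j, j₂ ≤ j → (1 - 3 * ε j) * (‖U j‖ / (j : ℝ)) ≤ ‖U (j + 1)‖ / ((j + 1 : ℕ) : ℝ) := by
      intro j hj
      obtain ⟨k, rfl⟩ : ∃ k, j = j₂ + k := ⟨j - j₂, by omega⟩
      obtain ⟨⟨⟨a1, a2, _⟩, _⟩, a4⟩ := hJ (j₂ + k) (by omega)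
      exact (p41_cone_step h (j₂ + k) a4 a1 a2 (hall k)).2
    obtain ⟨⟨⟨b1, b2, b3⟩, b4⟩, b5⟩ := hJ j₂ hj₂
    have hlow2 := p41_lower_of_mul (fun j => ‖U j‖ / (j : ℝ)) (fun j => 3 * ε j) j₂
      (fun j => by positivity) (fun j => by have := h.ε0 j; positivity) (h.sum.mul_left 3) b3 hstep
    have hU : c / 3 ≤ ‖U j₂‖ := by
      have := hs2 j₂
      have hu0 : 0 ≤ ‖U j₂‖ := norm_nonneg _
      nlinarith
    have hj0 : (0 : ℝ) < (j₂ : ℝ) := by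
      have : 0 < j₂ := by omega
      exact_mod_cast this
    have hpos2 : 0 < ‖U j₂‖ / (j₂ : ℝ) / 2 := by
      have : 0 < ‖U j₂‖ := by linarith
      positivity
    have hn : Tendsto (fun j : ℕ => ‖U j‖ / (j : ℝ)) atTop (𝓝 ‖P‖) := by
      refine hP.norm.congr fun j => ?_
      rw [norm_div, Complex.norm_natCast]
    have hge : ‖U j₂‖ / (j₂ : ℝ) / 2 ≤ ‖P‖ :=
      ge_of_tendsto hn (by filter_upwards [eventually_ge_atTop j₂] with j hj using hlow2 j hj)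
    intro hP0
    rw [hP0, norm_zero] at hge
    linarith
  · push Not at hin
    exfalso
    have hout : ∀ᶠ j : ℕ in atTop, ‖U j‖ < ‖S j‖ := by
      filter_upwards [eventually_ge_atTop J] with j hj
      obtain ⟨⟨⟨a1, _, _⟩, _⟩, _⟩ := hJ j hj
      have := hin j hj
      have hu0 : 0 ≤ ‖U j‖ := norm_nonneg _
      nlinarith
    have hz := p41_cone_never h hout
    have : ∀ᶠ j : ℕ in atTop, ‖U j‖ + ‖S j‖ < c := hz.eventually (eventually_lt_nhds hc)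
    obtain ⟨j, h1, h2⟩ := (this.and hlow).exists
    linarith

/-- GLUE.  The statement used by `P41.lean`, in the coordinates `(X, Y) = (V_x, V_y)`. -/
theorem p41_seq (X Y : ℕ → ℂ) (ε : ℕ → ℝ) (hε0 : ∀ j, 0 ≤ ε j) (hε : Summable ε) (c : ℝ) (hc : 0 < c)
    (hX : ∀ᶠ j : ℕ in atTop, ‖X (j + 1) - (X j - 2 / (j : ℂ) * Y j)‖ ≤ ε j * max ‖X j‖ ‖Y j‖)
    (hY : ∀ᶠ j : ℕ in atTop, ‖Y (j + 1) - (Y j - 1 / (j : ℂ) * (X j + Y j))‖ ≤ ε j * max ‖X j‖ ‖Y j‖)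
    (hlow : ∀ᶠ j : ℕ in atTop, c ≤ max ‖X j‖ ‖Y j‖) :
    ∃ P : ℂ, P ≠ 0 ∧ Tendsto (fun j : ℕ => X j / (j : ℂ)) atTop (𝓝 P) ∧
      Tendsto (fun j : ℕ => Y j / (j : ℂ)) atTop (𝓝 (-P / 2)) := by
  obtain ⟨U, hU⟩ : ∃ U : ℕ → ℂ, U = fun j => (2 / 3 : ℂ) * (X j - Y j) := ⟨_, rfl⟩
  obtain ⟨S, hS⟩ : ∃ S : ℕ → ℂ, S = fun j => (X j + 2 * Y j) / 3 := ⟨_, rfl⟩
  have hXe : ∀ j, X j = U j + S j := fun j => by rw [hU, hS]; ring
  have hYe : ∀ j, Y j = -U j / 2 + S j := fun j => by rw [hU, hS]; ring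
  have hmax : ∀ j, max ‖X j‖ ‖Y j‖ ≤ ‖U j‖ + ‖S j‖ := by
    intro j
    refine max_le ?_ ?_
    · rw [hXe]; exact norm_add_le _ _
    · rw [hYe]
      refine (norm_add_le _ _).trans ?_
      have : ‖-U j / 2‖ = ‖U j‖ / 2 := by rw [norm_div, norm_neg]; simp
      rw [this]
      have := norm_nonneg (U j)
      linarith
  obtain ⟨J, hJ⟩ := eventually_atTop.1 (hX.and hY)
  have hrec : USRec U S (fun j => 2 * ε j) (max J 3) := by
    refine ⟨le_max_right _ _, fun j => by have := hε0 j; positivity, hε.mul_left 2, ?_, ?_⟩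
    · intro j hj
      obtain ⟨a1, a2⟩ := hJ j ((le_max_left _ _).trans hj)
      have e : U (j + 1) - (1 + 1 / (j : ℂ)) * U j = (2 / 3 : ℂ) *
          ((X (j + 1) - (X j - 2 / (j : ℂ) * Y j)) - (Y (j + 1) - (Y j - 1 / (j : ℂ) * (X j + Y j)))) := by
        rw [hU]; ring
      rw [e, norm_mul]
      have n1 : ‖(2 / 3 : ℂ)‖ = 2 / 3 := by
        rw [norm_div]; simp
      rw [n1]
      have h1 := norm_sub_le (X (j + 1) - (X j - 2 / (j : ℂ) * Y j))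
        (Y (j + 1) - (Y j - 1 / (j : ℂ) * (X j + Y j)))
      have h2 := mul_le_mul_of_nonneg_left (hmax j) (hε0 j)
      have h3 : 0 ≤ ε j * (‖U j‖ + ‖S j‖) := mul_nonneg (hε0 j) (by positivity)
      show _ ≤ 2 * ε j * (‖U j‖ + ‖S j‖)
      nlinarith
    · intro j hj
      obtain ⟨a1, a2⟩ := hJ j ((le_max_left _ _).trans hj)
      have e : S (j + 1) - (1 - 2 / (j : ℂ)) * S j = (1 / 3 : ℂ) *
          ((X (j + 1) - (X j - 2 / (j : ℂ) * Y j)) + 2 * (Y (j + 1) - (Y j - 1 / (j : ℂ) * (X j + Y j)))) := by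
        rw [hS]; ring
      rw [e, norm_mul]
      have n1 : ‖(1 / 3 : ℂ)‖ = 1 / 3 := by
        rw [norm_div]; simp
      rw [n1]
      have h1 := norm_add_le (X (j + 1) - (X j - 2 / (j : ℂ) * Y j))
        (2 * (Y (j + 1) - (Y j - 1 / (j : ℂ) * (X j + Y j))))
      have n2 : ‖2 * (Y (j + 1) - (Y j - 1 / (j : ℂ) * (X j + Y j)))‖ =
          2 * ‖Y (j + 1) - (Y j - 1 / (j : ℂ) * (X j + Y j))‖ := by
        rw [norm_mul]; simp
      rw [n2] at h1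
      have h2 := mul_le_mul_of_nonneg_left (hmax j) (hε0 j)
      have h3 : 0 ≤ ε j * (‖U j‖ + ‖S j‖) := mul_nonneg (hε0 j) (by positivity)
      show _ ≤ 2 * ε j * (‖U j‖ + ‖S j‖)
      nlinarith
  obtain ⟨P, hP⟩ := p41_us_conv hrec
  have hS0 := p41_us_stable hrec
  have hne := p41_us_ne_zero hrec c hc (hlow.mono fun j hj => hj.trans (hmax j)) P hP
  refine ⟨P, hne, ?_, ?_⟩
  · have := hP.add hS0
    rw [add_zero] at this
    refine this.congr fun j => ?_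
    rw [hXe]; ring
  · have := (hP.neg.div_const 2).add hS0
    rw [add_zero] at this
    refine this.congr fun j => ?_
    rw [hYe]; ring

/-! ## C. Summability and exponentials -/

/-- LEAF (`Real.log (2 + j) ≤ 2 √(2 + j)`-type bound, or `Real.add_one_le_exp`, then `Real.summable_nat_rpow_inv`). -/
theorem p41_summable_log : Summable (fun j : ℕ => Real.log (2 + j) / (j : ℝ) ^ 2) := by
  have hs : Summable fun j : ℕ => 4 * ((j : ℝ) ^ (3 / 2 : ℝ))⁻¹ :=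
    (Real.summable_nat_rpow_inv.2 (by norm_num)).mul_left 4
  refine Summable.of_nonneg_of_le (fun j => ?_) (fun j => ?_) hs
  · have : 0 ≤ Real.log (2 + j) := Real.log_nonneg (by have : (0 : ℝ) ≤ (j : ℝ) := by positivity
                                                       linarith)
    positivity
  · rcases Nat.eq_zero_or_pos j with rfl | hj
    · simp
    · have hx : (1 : ℝ) ≤ (j : ℝ) := by exact_mod_cast hj
      obtain ⟨x, hxd⟩ : ∃ x : ℝ, x = (j : ℝ) := ⟨_, rfl⟩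
      rw [← hxd] at hx ⊢
      have hx0 : 0 < x := by linarith
      have h1 : Real.log (2 + x) ≤ (2 + x) ^ (1 / 2 : ℝ) / (1 / 2) :=
        Real.log_le_rpow_div (by linarith) (by norm_num)
      rw [← Real.sqrt_eq_rpow] at h1
      have h2 : Real.sqrt (2 + x) ≤ 2 * Real.sqrt x := by
        have : Real.sqrt (2 + x) ≤ Real.sqrt (2 ^ 2 * x) := Real.sqrt_le_sqrt (by nlinarith)
        rwa [Real.sqrt_mul (by norm_num), Real.sqrt_sq (by norm_num)] at this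
      have h3 : Real.log (2 + x) ≤ 4 * Real.sqrt x := by
        have : Real.sqrt (2 + x) / (1 / 2) = 2 * Real.sqrt (2 + x) := by ring
        rw [this] at h1
        linarith
      have h4 : x ^ (3 / 2 : ℝ) = x * Real.sqrt x := by
        rw [Real.sqrt_eq_rpow, show (3 / 2 : ℝ) = 1 + 1 / 2 by norm_num, Real.rpow_add hx0,
          Real.rpow_one]
      have hsq : 0 < Real.sqrt x := Real.sqrt_pos.2 hx0
      have hss : Real.sqrt x * Real.sqrt x = x := Real.mul_self_sqrt hx0.le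
      rw [h4, div_le_iff₀ (by positivity)]
      have e : 4 * (x * Real.sqrt x)⁻¹ * x ^ 2 = 4 * Real.sqrt x := by
        have : x ^ 2 = (x * Real.sqrt x) * Real.sqrt x := by
          rw [mul_assoc, hss]; ring
        rw [this]
        field_simp
      rw [e]
      exact h3

/-- LEAF (the support is the injective image of `k ↦ 2 ^ k - 1`; `1 / (2^k - 1) ≤ 2 / 2^k`). -/
theorem p41_summable_pow2 : Summable (Set.indicator {j : ℕ | ∃ k : ℕ, j + 1 = 2 ^ k} fun j : ℕ => 1 / (j : ℝ)) := by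
  have hinj : Function.Injective fun k : ℕ => 2 ^ k - 1 := by
    intro a b hab
    have ha : 1 ≤ 2 ^ a := Nat.one_le_two_pow
    have hb : 1 ≤ 2 ^ b := Nat.one_le_two_pow
    have : 2 ^ a = 2 ^ b := by
      simp only at hab
      omega
    exact Nat.pow_right_injective le_rfl this
  rw [← hinj.summable_iff]
  · have hs : Summable fun k : ℕ => 2 * (1 / 2 : ℝ) ^ k := summable_geometric_two.mul_left 2
    refine Summable.of_nonneg_of_le (fun k => ?_) (fun k => ?_) hs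
    · exact Set.indicator_nonneg (fun j _ => by positivity) _
    · have hmem : (2 ^ k - 1) ∈ {j : ℕ | ∃ k : ℕ, j + 1 = 2 ^ k} :=
        ⟨k, by have : 1 ≤ 2 ^ k := Nat.one_le_two_pow
               omega⟩
      simp only [Function.comp]
      rw [Set.indicator_of_mem hmem]
      rcases Nat.eq_zero_or_pos k with rfl | hk
      · simp
      · have h2 : (2 : ℝ) ≤ 2 ^ k := by
          have : 2 ^ 1 ≤ 2 ^ k := Nat.pow_le_pow_right (by norm_num) hk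
          exact_mod_cast this
        have hc : ((2 ^ k - 1 : ℕ) : ℝ) = 2 ^ k - 1 := by
          rw [Nat.cast_sub Nat.one_le_two_pow]
          push_cast
          ring
        rw [hc, one_div_pow, div_le_iff₀ (by linarith)]
        have hp : (0 : ℝ) < 2 ^ k := by positivity
        have e : 2 * (1 / (2 : ℝ) ^ k) * (2 ^ k - 1) = 2 - 2 / 2 ^ k := by
          field_simp
        rw [e]
        have : 2 / (2 : ℝ) ^ k ≤ 1 := by rw [div_le_one hp]; exact h2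
        linarith
  · intro j hj
    refine Set.indicator_of_notMem (fun hmem => hj ?_) _
    obtain ⟨k, hk⟩ := hmem
    exact ⟨k, by simp only; omega⟩

/-- LEAF.  Polynomial times exponential. -/
theorem p41_exp_poly (A a a' : ℝ) (m : ℕ) (h : a' < a) :
    ∃ jm : ℕ, ∀ j : ℕ, jm ≤ j → A * (j : ℝ) ^ m * Real.exp (-a * j) ≤ Real.exp (-a' * j) := by
  have hδ : 0 < a - a' := by linarith
  have h1 : Tendsto (fun j : ℕ => (a - a') * (j : ℝ)) atTop atTop :=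
    tendsto_natCast_atTop_atTop.const_mul_atTop hδ
  have h2 := (Real.tendsto_pow_mul_exp_neg_atTop_nhds_zero m).comp h1
  have h3 := h2.const_mul (A * ((a - a') ^ m)⁻¹)
  rw [mul_zero] at h3
  obtain ⟨jm, hjm⟩ := eventually_atTop.1 (h3.eventually (eventually_lt_nhds (b := 1) one_pos))
  refine ⟨jm, fun j hj => ?_⟩
  have h4 := (hjm j hj).le
  simp only [Function.comp] at h4
  have hp : (a - a') ^ m ≠ 0 := pow_ne_zero _ hδ.ne'
  have e1 : A * ((a - a') ^ m)⁻¹ * (((a - a') * (j : ℝ)) ^ m * Real.exp (-((a - a') * (j : ℝ)))) =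
      A * (j : ℝ) ^ m * Real.exp (-((a - a') * (j : ℝ))) := by
    rw [mul_pow]
    field_simp
  rw [e1] at h4
  have e2 : Real.exp (-a * j) = Real.exp (-((a - a') * (j : ℝ))) * Real.exp (-a' * j) := by
    rw [← Real.exp_add]
    congr 1
    ring
  rw [e2, ← mul_assoc]
  have := mul_le_mul_of_nonneg_right h4 (Real.exp_pos (-a' * j)).le
  rwa [one_mul] at this

end

end Claimed.Agent.R285.E4
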