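import Claimed.Agent.R285.E4.P41Hist
import Claimed.Agent.R285.E4.P41Seq

/-!
# ROW 285, [E] P4.1, layer GOOD: one history in the critical regime; crude bound, (4.3), (4.4), slaving (4.7)   (architect helper103; prefix `p41_`)

`Good p s H N` collects everything P4.1 uses about ONE canonical history (`s = s_k`, `N = 2 ^ k`): no filters, no `k`.  All later statements have the form
`∃ constants, ∀ s N H, Good p s H N → Nm ≤ N → ∀ i j, j = H.j0 + i → (window) → ...`; the constants depend only on `p : Par`.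
* OUTER window `N ≤ 5 j`, `4 j ≤ 11 N` (`j ∈ [N/5, 11N/4]`): critical asymptotics, recursions;
* INNER window `N ≤ 2 j`, `2 j ≤ 5 N` (`j ∈ [N/2, 5N/2]`): the conclusions;  stops `h ≤ 4 N`.
-/

set_option autoImplicit false

namespace Claimed.Agent.R285.E4

open Filter Topology Claims.C0459
open Claimed.Agent.R285.Flow

noncomputable section

/-- the parameters on which all constants of P4.1 depend -/
structure Par where
  κ : MapC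
  κe : EntC
  ρe : ℝ
  ρt : ℝ
  C₀ : ℝ
  c1 : ℝ
  C1 : ℝ
  tube : Tube κ ρt
  hc1 : 0 < c1

/-- one history in the critical regime at the scale `N` -/
structure Good (p : Par) (s : ℕ) (H : Hist) (N : ℕ) : Prop where
  sys : SysOK p.κ p.κe p.ρe s H
  j0 : 5 * H.j0 ≤ N
  size : p.c1 * N ≤ s ∧ (s : ℝ) ≤ p.C1 * N
  conf : ∀ i, H.j0 + i ≤ 4 * N → ‖H.st xyCritical i‖ < p.ρt
  conft : ∀ h i, N ≤ 5 * h → h ≤ 4 * N → H.j0 + i ≤ h → ‖H.ts xyCritical h i‖ < p.ρt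
  crit : ∀ i, N ≤ 5 * (H.j0 + i) → 4 * (H.j0 + i) ≤ 11 * N → CritAt H p.C₀ i
  critT : ∀ h i, N ≤ 5 * (H.j0 + i) → 4 * (H.j0 + i) ≤ 11 * N → H.j0 + i ≤ h → h ≤ 4 * N → CritTor H p.C₀ h i
  valid : ∀ h, N ≤ 5 * h → h ≤ 4 * N → Valid p.κ p.κe s H h

/-! ## 1. The canonical histories are eventually good -/

/-- `A h ≤ 2 ^ h` for large `h`. -/
theorem p41_lin_le_two_pow (A : ℝ) : ∃ h0 : ℕ, ∀ h : ℕ, h0 ≤ h → A * (h : ℝ) ≤ 2 ^ h := by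
  obtain ⟨jm, hjm⟩ := p41_exp_poly A (Real.log 2) 0 1 (Real.log_pos (by norm_num))
  refine ⟨jm, fun h hh => ?_⟩
  have h1 := hjm h hh
  have e : Real.exp (-Real.log 2 * h) = ((2 : ℝ) ^ h)⁻¹ := by
    rw [neg_mul, Real.exp_neg, mul_comm, Real.exp_nat_mul, Real.exp_log (by norm_num)]
  rw [e] at h1
  simp only [pow_one, neg_zero, zero_mul, Real.exp_zero] at h1
  have hp : (0 : ℝ) < 2 ^ h := by positivity
  rwa [← div_eq_mul_inv, div_le_one hp] at h1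

/-- `2 ^ h ≤ n_h`. -/
theorem p41_two_pow_le_n (κ : MapC) (h : ℕ) : 2 ^ h ≤ κ.n h := by
  unfold MapC.n
  calc 2 ^ h ≤ κ.L ^ h := Nat.pow_le_pow_left κ.hL h
    _ = 1 * κ.L ^ h := (one_mul _).symm
    _ ≤ κ.D0 * κ.L ^ h := Nat.mul_le_mul_right _ κ.hD

/-- `log n_h = log D0 + h log L`. -/
theorem p41_log_n (κ : MapC) (h : ℕ) : Real.log (κ.n h) = Real.log κ.D0 + h * Real.log κ.L := by
  unfold MapC.n
  have hD : (κ.D0 : ℝ) ≠ 0 := by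
    have := κ.hD
    positivity
  have hL : (κ.L : ℝ) ≠ 0 := by
    have := κ.hL
    positivity
  push_cast
  rw [Real.log_mul hD (pow_ne_zero _ hL), Real.log_pow]

/-- the cutoff error as one exponential. -/
theorem p41_cutErr_eq (κ : MapC) (κe : EntC) (s h : ℕ) : cutErr κ κe s h =
    Real.exp (Real.log κe.C + κe.C * (Real.log κ.D0 + h * Real.log κ.L) - κe.c * (s : ℝ) ^ 2) := by
  unfold cutErr
  have hC : 0 < κe.C := lt_of_lt_of_le one_pos κe.hC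
  have hn : (0 : ℝ) < (κ.n h : ℝ) := by
    have : 0 < κ.n h := lt_of_lt_of_le (by positivity) (p41_two_pow_le_n κ h)
    exact_mod_cast this
  rw [Real.rpow_def_of_pos hn, p41_log_n, sub_eq_add_neg, Real.exp_add, Real.exp_add, Real.exp_log hC]
  congr 2
  · rw [mul_comm]
  · rw [neg_mul]

/-- a quadratic beats a linear function. -/
theorem p41_quad_beats (A0 A1 A2 : ℝ) (hA2 : 0 < A2) : ∃ Nm : ℕ, 1 ≤ Nm ∧ ∀ x : ℝ, (Nm : ℝ) ≤ x →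
    A0 + A1 * x - A2 * x ^ 2 ≤ 0 := by
  obtain ⟨Nm, hNm⟩ := exists_nat_ge ((|A0| + |A1|) / A2 + 1)
  have h0 : 0 ≤ (|A0| + |A1|) / A2 := by positivity
  refine ⟨Nm, ?_, fun x hx => ?_⟩
  · have : (1 : ℝ) ≤ Nm := by linarith
    exact_mod_cast this
  · have hx1 : 1 ≤ x := by linarith
    have hx2 : (|A0| + |A1|) / A2 ≤ x := by linarith
    rw [div_le_iff₀ hA2] at hx2
    have a0 := le_abs_self A0
    have a1 := le_abs_self A1
    have b0 := abs_nonneg A0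
    have b1 := abs_nonneg A1
    nlinarith

/-- LEAF (arithmetic).  `n_h = D0 L^h ≥ 2^h`, `h ≥ N/5`; `cutErr = C n^C e^{-c s²} = exp (log C + C (log D0 + h log L) - c s²)`, `h ≤ 4N`, `s ≥ c1 N`. -/
theorem p41_valid_arith (κ : MapC) (κe : EntC) (c1 C1 : ℝ) (hc1 : 0 < c1) : ∃ Nm : ℕ, ∀ s N h : ℕ, Nm ≤ N →
    c1 * N ≤ s → (s : ℝ) ≤ C1 * N → N ≤ 5 * h → h ≤ 4 * N → s * κe.P0 ≤ κ.n h ∧ cutErr κ κe s h ≤ 1 := by
  obtain ⟨h0, hh0⟩ := p41_lin_le_two_pow (5 * |C1| * κe.P0)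
  have hCe : 0 < κe.C := lt_of_lt_of_le one_pos κe.hC
  have hlogL : 0 ≤ Real.log κ.L := Real.log_natCast_nonneg _
  obtain ⟨N1, hN1, hq⟩ := p41_quad_beats (Real.log κe.C + κe.C * Real.log κ.D0)
    (4 * κe.C * Real.log κ.L) (κe.c * c1 ^ 2) (mul_pos κe.hc (by positivity))
  refine ⟨max (5 * h0) N1, fun s N h hN hs1 hs2 hNh hhN => ⟨?_, ?_⟩⟩
  · have hh : h0 ≤ h := by
      have := (le_max_left _ _).trans hN
      omega
    have h1 := hh0 h hh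
    have hNh' : (N : ℝ) ≤ 5 * (h : ℝ) := by exact_mod_cast hNh
    have h2 : (s : ℝ) ≤ |C1| * (5 * (h : ℝ)) :=
      hs2.trans ((mul_le_mul_of_nonneg_right (le_abs_self C1) (by positivity)).trans
        (mul_le_mul_of_nonneg_left hNh' (abs_nonneg _)))
    have h3 : ((s * κe.P0 : ℕ) : ℝ) ≤ ((2 ^ h : ℕ) : ℝ) := by
      push_cast
      have := mul_le_mul_of_nonneg_right h2 (by positivity : (0 : ℝ) ≤ (κe.P0 : ℝ))
      nlinarith
    exact (Nat.cast_le.1 h3).trans (p41_two_pow_le_n κ h)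
  · rw [p41_cutErr_eq, Real.exp_le_one_iff]
    have hNN : (N1 : ℝ) ≤ (N : ℝ) := by exact_mod_cast (le_max_right _ _).trans hN
    have h1 := hq N hNN
    have hhN' : (h : ℝ) ≤ 4 * (N : ℝ) := by exact_mod_cast hhN
    have h2 : (c1 * N) ^ 2 ≤ (s : ℝ) ^ 2 := pow_le_pow_left₀ (by positivity) hs1 2
    have h3 := mul_le_mul_of_nonneg_left h2 κe.hc.le
    have h4 : κe.C * ((h : ℝ) * Real.log κ.L) ≤ κe.C * (4 * (N : ℝ) * Real.log κ.L) :=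
      mul_le_mul_of_nonneg_left (mul_le_mul_of_nonneg_right hhN' hlogL) hCe.le
    nlinarith

/-- LEAF (arithmetic).  `2 ^ j0 ≤ L ^ j0 = q0 s ≤ q0 C1 N`. -/
theorem p41_j0_arith (κ : MapC) (κe : EntC) (C1 : ℝ) : ∃ Nm : ℕ, ∀ s N j0 : ℕ, Nm ≤ N →
    (s : ℝ) ≤ C1 * N → κe.q0 * s = κ.L ^ j0 → 5 * j0 ≤ N := by
  obtain ⟨h0, hh0⟩ := p41_lin_le_two_pow (5 * |C1| * κe.q0 + 1)
  refine ⟨5 * h0 + 5, fun s N j0 hN hs hq => ?_⟩
  by_contra hcon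
  push Not at hcon
  have hj : h0 ≤ j0 := by omega
  have hj1 : 1 ≤ j0 := by omega
  have h1 := hh0 j0 hj
  have h2 : (2 : ℝ) ^ j0 ≤ (κe.q0 : ℝ) * (s : ℝ) := by
    have : 2 ^ j0 ≤ κe.q0 * s := by rw [hq]; exact Nat.pow_le_pow_left κ.hL j0
    exact_mod_cast this
  have hN' : (N : ℝ) ≤ 5 * (j0 : ℝ) := by exact_mod_cast hcon.le
  have h3 : (s : ℝ) ≤ |C1| * (5 * (j0 : ℝ)) :=
    hs.trans ((mul_le_mul_of_nonneg_right (le_abs_self C1) (by positivity)).trans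
      (mul_le_mul_of_nonneg_left hN' (abs_nonneg _)))
  have h4 := mul_le_mul_of_nonneg_left h3 (by positivity : (0 : ℝ) ≤ (κe.q0 : ℝ))
  have h5 : (1 : ℝ) ≤ (j0 : ℝ) := by exact_mod_cast hj1
  nlinarith

/-- LEAF. -/
theorem p41_sk_tendsto {κ : MapC} {κe : EntC} {H : ℕ → Hist} {ρt : ℝ} (cr : Crit κ κe H ρt) :
    Tendsto cr.sk atTop atTop := by
  rw [← tendsto_natCast_atTop_iff (R := ℝ)]
  exact tendsto_atTop_mono (fun k => (cr.size k).1)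
    (Tendsto.const_mul_atTop cr.hc1 (tendsto_pow_atTop_atTop_of_one_lt one_lt_two))

/-- LEAF.  `Crit.conf` with `Jm s = ⌈4 s / c1⌉₊` (so `4 * 2 ^ k ≤ Jm (sk k)`), composed with `p41_sk_tendsto`. -/
theorem p41_conf {κ : MapC} {κe : EntC} {H : ℕ → Hist} {ρt : ℝ} (cr : Crit κ κe H ρt) :
    ∀ᶠ k : ℕ in atTop, ∀ i, (H (cr.sk k)).j0 + i ≤ 4 * 2 ^ k →
      ‖(H (cr.sk k)).st xyCritical i‖ < ρt ∧
      ∀ h, (H (cr.sk k)).j0 + i ≤ h → h ≤ 4 * 2 ^ k → Valid κ κe (cr.sk k) (H (cr.sk k)) h →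
        ‖(H (cr.sk k)).ts xyCritical h i‖ < ρt := by
  have hc1 := cr.hc1
  set Jm : ℕ → ℕ := fun s => ⌈4 * (s : ℝ) / cr.c1⌉₊ with hJm
  have hJ : Tendsto (fun s : ℕ => (Jm s : ℝ) / (s : ℝ) ^ 2) atTop (𝓝 0) := by
    have t1 : Tendsto (fun s : ℕ => (4 / cr.c1 + 1) / (s : ℝ)) atTop (𝓝 0) :=
      tendsto_const_div_atTop_nhds_zero_nat _
    refine squeeze_zero' (Eventually.of_forall fun s => by positivity) ?_ t1
    filter_upwards [eventually_ge_atTop 1] with s hs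
    have hs1 : (1 : ℝ) ≤ s := by exact_mod_cast hs
    have hs0 : (0 : ℝ) < s := by linarith
    have h1 : (Jm s : ℝ) < 4 * (s : ℝ) / cr.c1 + 1 := Nat.ceil_lt_add_one (by positivity)
    have h2 : (Jm s : ℝ) ≤ (4 / cr.c1 + 1) * s := by
      have : 4 * (s : ℝ) / cr.c1 = 4 / cr.c1 * s := by ring
      nlinarith
    rw [div_le_div_iff₀ (by positivity) hs0]
    calc (Jm s : ℝ) * s ≤ (4 / cr.c1 + 1) * s * s := by gcongr
      _ = (4 / cr.c1 + 1) * (s : ℝ) ^ 2 := by ring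
  have h2 := (p41_sk_tendsto cr).eventually (cr.conf Jm hJ)
  filter_upwards [h2] with k hk i hi
  have hle : 4 * 2 ^ k ≤ Jm (cr.sk k) := by
    have h3 : ((4 * 2 ^ k : ℕ) : ℝ) ≤ 4 * (cr.sk k : ℝ) / cr.c1 := by
      push_cast
      rw [le_div_iff₀ hc1]
      have := (cr.size k).1
      nlinarith
    have h4 : ((4 * 2 ^ k : ℕ) : ℝ) ≤ ((Jm (cr.sk k) : ℕ) : ℝ) := h3.trans (Nat.le_ceil _)
    exact Nat.cast_le.1 h4
  obtain ⟨a, b⟩ := hk (cr.adm k) i (le_trans hi hle)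
  exact ⟨a, fun h h1 h2 hv => b h h1 (le_trans h2 hle) hv⟩

/-- GLUE: `Crit.asym` with `c = 1/5`, `c' = 11/4`; `p41_conf`, `p41_valid_arith`, `p41_j0_arith`. -/
theorem p41_good {κ : MapC} {κe : EntC} {ρe ρt : ℝ} {H : ℕ → Hist} (hy : Hyp κ κe ρe ρt H) (hT : Tube κ ρt) :
    ∃ C₀ : ℝ, ∀ᶠ k : ℕ in atTop,
      Good ⟨κ, κe, ρe, ρt, C₀, hy.crit.c1, hy.crit.C1, hT, hy.crit.hc1⟩ (hy.crit.sk k) (H (hy.crit.sk k)) (2 ^ k) := by
  obtain ⟨C₀, hasym⟩ := hy.crit.asym (1 / 5) (11 / 4) (by norm_num) (by norm_num) (by norm_num)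
  obtain ⟨N1, hval⟩ := p41_valid_arith κ κe hy.crit.c1 hy.crit.C1 hy.crit.hc1
  obtain ⟨N2, hj0⟩ := p41_j0_arith κ κe hy.crit.C1
  have hN : ∀ᶠ k : ℕ in atTop, max N1 N2 ≤ 2 ^ k :=
    (tendsto_pow_atTop_atTop_of_one_lt (by norm_num : 1 < 2)).eventually_ge_atTop _
  refine ⟨C₀, ?_⟩
  filter_upwards [hasym, p41_conf hy.crit, hN] with k ha hc hNk
  have hsys := hy.sys _ (hy.crit.adm k)
  have hsize : hy.crit.c1 * ((2 ^ k : ℕ) : ℝ) ≤ hy.crit.sk k ∧ (hy.crit.sk k : ℝ) ≤ hy.crit.C1 * ((2 ^ k : ℕ) : ℝ) := by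
    push_cast
    exact hy.crit.size k
  have hj : 5 * (H (hy.crit.sk k)).j0 ≤ 2 ^ k :=
    hj0 _ _ _ (le_trans (le_max_right _ _) hNk) hsize.2 hsys.entry.side
  have hvalid : ∀ h, 2 ^ k ≤ 5 * h → h ≤ 4 * 2 ^ k → Valid κ κe (hy.crit.sk k) (H (hy.crit.sk k)) h := by
    intro h h1 h2
    obtain ⟨v1, v2⟩ := hval _ _ h (le_trans (le_max_left _ _) hNk) hsize.1 hsize.2 h1 h2
    exact ⟨by omega, v1, v2⟩
  have cast1 : ∀ j : ℕ, 2 ^ k ≤ 5 * j → (1 / 5 : ℝ) * 2 ^ k ≤ (j : ℝ) := by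
    intro j h1
    have : ((2 ^ k : ℕ) : ℝ) ≤ ((5 * j : ℕ) : ℝ) := by exact_mod_cast h1
    push_cast at this
    linarith
  have cast2 : ∀ j : ℕ, 4 * j ≤ 11 * 2 ^ k → (j : ℝ) ≤ (11 / 4 : ℝ) * 2 ^ k := by
    intro j h1
    have : ((4 * j : ℕ) : ℝ) ≤ ((11 * 2 ^ k : ℕ) : ℝ) := by exact_mod_cast h1
    push_cast at this
    linarith
  exact
    { sys := hsys
      j0 := hj
      size := hsize
      conf := fun i hi => (hc i hi).1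
      conft := fun h i h1 h2 h3 => (hc i (le_trans h3 h2)).2 h h3 h2 (hvalid h h1 h2)
      crit := fun i h1 h2 => (ha i (cast1 _ h1) (cast2 _ h2)).1
      critT := fun h i h1 h2 h3 h4 => (ha i (cast1 _ h1) (cast2 _ h2)).2 h h3 h4
      valid := hvalid }

/-! ## 2. The crude bound -/

/-- LEAF.  Plane: `‖dst 0‖ ≤ (2 ρe / c) s²` (`p41_entry_deriv`), `‖dst (i+1)‖ ≤ e^γ ‖dst i‖` (`p41_dst_succ`, `Tube.dN`). -/
theorem p41_crude_plane (p : Par) : ∃ Ccr : ℝ, 0 ≤ Ccr ∧ ∀ (s N : ℕ) (H : Hist), Good p s H N →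
    ∀ i, H.j0 + i ≤ 4 * N → ‖dst H i‖ ≤ Ccr * (s : ℝ) ^ 2 * Real.exp (gam p.κ * i) := by
  have hc := p.κe.hc
  refine ⟨2 * |p.ρe| / p.κe.c, by positivity, ?_⟩
  intro s N H hG i
  induction i with
  | zero =>
    intro _
    have h1 := (p41_entry_deriv hG.sys.entry).1
    have h2 : 2 * p.ρe / p.κe.c * (s : ℝ) ^ 2 ≤ 2 * |p.ρe| / p.κe.c * (s : ℝ) ^ 2 := by
      gcongr
      exact le_abs_self _
    simpa using h1.trans h2
  | succ i ih =>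
    intro hi
    have hin : ∀ i' ≤ i, ‖H.st xyCritical i'‖ < p.κ.ρ :=
      fun i' hi' => lt_trans (hG.conf i' (by omega)) p.tube.lt
    rw [p41_dst_succ hG.sys.map hG.sys.entry i hin]
    have h1 := p.tube.dN H hG.sys.map (H.j0 + i) (Nat.le_add_right _ _) (H.st xyCritical i)
      (hG.conf i (by omega)) (dst H i)
    calc ‖fderiv ℂ (H.N (H.j0 + i)) (H.st xyCritical i) (dst H i)‖
        ≤ Real.exp (gam p.κ) * ‖dst H i‖ := h1
      _ ≤ Real.exp (gam p.κ) * (2 * |p.ρe| / p.κe.c * (s : ℝ) ^ 2 * Real.exp (gam p.κ * i)) := by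
          gcongr
          exact ih (by omega)
      _ = 2 * |p.ρe| / p.κe.c * (s : ℝ) ^ 2 * Real.exp (gam p.κ * ((i + 1 : ℕ) : ℝ)) := by
          push_cast
          rw [mul_add, Real.exp_add, mul_one]
          ring

/-- LEAF.  Torus: `‖dtor (i+1)‖ ≤ th1 ‖dtor i‖ + C C' ‖dst i‖` (`p41_dtor_succ`, `Tube.dΨ`, `Tube.dsc`); invariant `‖dtor i‖ ≤ K s² e^{γ i}` with `K (1 - th1) ≥ C C' Ccr`. -/
theorem p41_crude_tor (p : Par) : ∃ Ccr : ℝ, 0 ≤ Ccr ∧ ∀ (s N : ℕ) (H : Hist), Good p s H N →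
    ∀ h i, N ≤ 5 * h → h ≤ 4 * N → H.j0 + i ≤ h → ‖dtor H h i‖ ≤ Ccr * (s : ℝ) ^ 2 * Real.exp (gam p.κ * i) := by
  have hc := p.κe.hc
  obtain ⟨Cp, hCp0, hplane⟩ := p41_crude_plane p
  obtain ⟨Cs, hCs⟩ := p.tube.dsc
  obtain ⟨CΨ, hCΨ⟩ := p.tube.dΨ
  obtain ⟨_, t2, t3, hg, _⟩ := p41_th1 p.κ
  have hth : 0 < 1 - th1 p.κ := by linarith
  have hth0 : 0 ≤ th1 p.κ := by have := p.κ.hθ0; unfold th1; linarith
  set D : ℝ := |CΨ| * |Cs| * Cp with hD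
  have hD0 : 0 ≤ D := by positivity
  set K : ℝ := 2 * |p.ρe| / p.κe.c + D / (1 - th1 p.κ) with hK
  have hK0 : 0 ≤ K := by positivity
  have hKD : th1 p.κ * K + D ≤ K := by
    have h1 : D / (1 - th1 p.κ) * (1 - th1 p.κ) = D := by field_simp
    have h2 : 0 ≤ 2 * |p.ρe| / p.κe.c := by positivity
    nlinarith
  refine ⟨K, hK0, ?_⟩
  intro s N H hG h i h1 h2
  induction i with
  | zero =>
    intro h3
    have e1 := (p41_entry_deriv hG.sys.entry).2 h (by omega)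
    have e2 : 2 * p.ρe / p.κe.c * (s : ℝ) ^ 2 ≤ K * (s : ℝ) ^ 2 := by
      have : 2 * p.ρe / p.κe.c ≤ 2 * |p.ρe| / p.κe.c := by
        gcongr
        exact le_abs_self _
      have h4 : 0 ≤ D / (1 - th1 p.κ) := by positivity
      gcongr
      linarith
    simpa using e1.trans e2
  | succ i ih =>
    intro h3
    have hin : ∀ i' ≤ i, ‖H.st xyCritical i'‖ < p.κ.ρ ∧ ‖H.ts xyCritical h i'‖ < p.κ.ρ :=
      fun i' hi' => ⟨lt_trans (hG.conf i' (by omega)) p.tube.lt, lt_trans (hG.conft h i' h1 h2 (by omega)) p.tube.lt⟩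
    rw [p41_dtor_succ hG.sys.map hG.sys.entry h i (by omega) hin]
    have a1 := hCΨ H hG.sys.map (H.j0 + i) h (Nat.le_add_right _ _) (by omega) (H.ts xyCritical h i)
      (hG.conft h i h1 h2 (by omega)) (dts H h i)
    have a2 : ‖(dts H h i).1‖ ≤ Cs * ‖dst H i‖ :=
      hCs H hG.sys.map (H.j0 + i) (Nat.le_add_right _ _) (H.st xyCritical i) (hG.conf i (by omega)) (dst H i)
    have a3 := hplane s N H hG i (by omega)
    have a4 := ih (by omega)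
    set E : ℝ := (s : ℝ) ^ 2 * Real.exp (gam p.κ * i) with hE
    have hE0 : 0 ≤ E := by positivity
    have a3' : ‖dst H i‖ ≤ Cp * E := by rw [hE]; linarith [a3]
    have a4' : ‖dtor H h i‖ ≤ K * E := by rw [hE]; linarith [a4]
    have b1 : CΨ * ‖(dts H h i).1‖ ≤ D * E := by
      calc CΨ * ‖(dts H h i).1‖ ≤ |CΨ| * ‖(dts H h i).1‖ := by
            gcongr
            exact le_abs_self _
        _ ≤ |CΨ| * (|Cs| * ‖dst H i‖) := by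
            gcongr
            exact a2.trans (by gcongr; exact le_abs_self _)
        _ ≤ |CΨ| * (|Cs| * (Cp * E)) := by gcongr
        _ = D * E := by rw [hD]; ring
    have b2 : th1 p.κ * ‖(dts H h i).2‖ ≤ th1 p.κ * (K * E) := by
      gcongr
      exact a4'
    have hmono : E ≤ (s : ℝ) ^ 2 * Real.exp (gam p.κ * ((i + 1 : ℕ) : ℝ)) := by
      rw [hE]
      gcongr
      linarith
    calc ‖fderiv ℂ (H.Ψ (H.j0 + i) h) (H.ts xyCritical h i) (dts H h i)‖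
        ≤ th1 p.κ * ‖(dts H h i).2‖ + CΨ * ‖(dts H h i).1‖ := a1
      _ ≤ th1 p.κ * (K * E) + D * E := add_le_add b2 b1
      _ = (th1 p.κ * K + D) * E := by ring
      _ ≤ K * E := by gcongr
      _ ≤ K * ((s : ℝ) ^ 2 * Real.exp (gam p.κ * ((i + 1 : ℕ) : ℝ))) := by gcongr
      _ = K * (s : ℝ) ^ 2 * Real.exp (gam p.κ * ((i + 1 : ℕ) : ℝ)) := by ring

/-! ## 3. The differentiated recursion on the outer window -/

/-- LEAF.  (4.3): `p41_dst_succ`, `p41_V_eq`, `p41_dN_x`, `p41_dN_y` at `Y = H.st b_c i`, `ξ = dst H i`. -/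
theorem p41_rec_V (p : Par) : ∃ (C₂ : ℝ) (Nm : ℕ), 0 ≤ C₂ ∧ ∀ (s N : ℕ) (H : Hist), Good p s H N → Nm ≤ N →
    ∀ i j : ℕ, j = H.j0 + i → N ≤ 5 * j → 4 * j ≤ 11 * N →
      ‖Vx H (i + 1) - (Vx H i - 2 / (j : ℂ) * Vy H i)‖
        ≤ C₂ * Real.log (2 + j) / (j : ℝ) ^ 2 * Vn H i + C₂ / (j : ℝ) * dQ H i ∧
      ‖Vy H (i + 1) - (Vy H i - 1 / (j : ℂ) * (Vx H i + Vy H i))‖
        ≤ C₂ * Real.log (2 + j) / (j : ℝ) ^ 2 * Vn H i + C₂ / (j : ℝ) * dQ H i := by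
  obtain ⟨Cx, jx, hx⟩ := p41_dN_x p.κ p.C₀
  obtain ⟨Cy, jy, hyy⟩ := p41_dN_y p.κ p.C₀
  refine ⟨|Cx| + |Cy|, 5 * (jx + jy), by positivity, ?_⟩
  intro s N H hG hN i j hj h1 h2
  subst hj
  have hin : ∀ i' ≤ i, ‖H.st xyCritical i'‖ < p.κ.ρ :=
    fun i' hi' => lt_trans (hG.conf i' (by omega)) p.tube.lt
  obtain ⟨vx, vy, vq, vn⟩ := p41_V_eq hG.sys.map hG.sys.entry i (fun i' h => hin i' h.le)
  obtain ⟨vx', vy', _, _⟩ := p41_V_eq hG.sys.map hG.sys.entry (i + 1) (fun i' h => hin i' (Nat.lt_succ_iff.1 h))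
  have hc : NearCrit p.C₀ (H.j0 + i) (H.st xyCritical i) := hG.crit i h1 h2
  have X := hx H hG.sys.map (H.j0 + i) (Nat.le_add_right _ _) (by omega) _ hc (dst H i)
  have Y := hyy H hG.sys.map (H.j0 + i) (Nat.le_add_right _ _) (by omega) _ hc (dst H i)
  rw [← p41_dst_succ hG.sys.map hG.sys.entry i hin] at X Y
  rw [vx', vy', vx, vy, vq, vn]
  have hlog : 0 ≤ Real.log (2 + ((H.j0 + i : ℕ) : ℝ)) :=
    Real.log_nonneg (by linarith [(Nat.cast_nonneg (H.j0 + i) : (0 : ℝ) ≤ ((H.j0 + i : ℕ) : ℝ))])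
  have hw0 : 0 ≤ wn (dst H i) := cau_wn_nonneg _
  have cx : Cx ≤ |Cx| + |Cy| := by linarith [le_abs_self Cx, abs_nonneg Cy]
  have cy : Cy ≤ |Cx| + |Cy| := by linarith [le_abs_self Cy, abs_nonneg Cx]
  constructor
  · refine X.trans ?_
    gcongr
  · refine Y.trans ?_
    gcongr

/-- LEAF.  (4.4), plane part: `p41_dN_q`. -/
theorem p41_rec_Q (p : Par) : ∃ (C₂ : ℝ) (Nm : ℕ), 0 ≤ C₂ ∧ ∀ (s N : ℕ) (H : Hist), Good p s H N → Nm ≤ N →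
    ∀ i j : ℕ, j = H.j0 + i → N ≤ 5 * j → 4 * j ≤ 11 * N →
      dQ H (i + 1) ≤ (p.κ.θ + C₂ / (j : ℝ)) * dQ H i + C₂ / (j : ℝ) * Vn H i := by
  obtain ⟨Cq, jq, hq⟩ := p41_dN_q p.κ p.C₀
  refine ⟨|Cq|, 5 * jq, by positivity, ?_⟩
  intro s N H hG hN i j hj h1 h2
  subst hj
  have hin : ∀ i' ≤ i, ‖H.st xyCritical i'‖ < p.κ.ρ :=
    fun i' hi' => lt_trans (hG.conf i' (by omega)) p.tube.lt
  obtain ⟨_, _, vq, vn⟩ := p41_V_eq hG.sys.map hG.sys.entry i (fun i' h => hin i' h.le)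
  obtain ⟨_, _, vq', _⟩ := p41_V_eq hG.sys.map hG.sys.entry (i + 1) (fun i' h => hin i' (Nat.lt_succ_iff.1 h))
  have hc : NearCrit p.C₀ (H.j0 + i) (H.st xyCritical i) := hG.crit i h1 h2
  have X := hq H hG.sys.map (H.j0 + i) (Nat.le_add_right _ _) (by omega) _ hc (dst H i)
  rw [← p41_dst_succ hG.sys.map hG.sys.entry i hin] at X
  rw [vq', vq, vn]
  have hw0 : 0 ≤ wn (dst H i) := cau_wn_nonneg _
  have cq : Cq ≤ |Cq| := le_abs_self _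
  refine X.trans ?_
  gcongr

/-- LEAF.  The derivative of the unbalanced scalars: `‖(dts H h i).1‖ ≤ C (Vn + dQ)` (`p41_dsc`). -/
theorem p41_dts_fst (p : Par) : ∃ (C₂ : ℝ) (Nm : ℕ), 0 ≤ C₂ ∧ ∀ (s N : ℕ) (H : Hist), Good p s H N → Nm ≤ N →
    ∀ h i j : ℕ, j = H.j0 + i → N ≤ 5 * j → 4 * j ≤ 11 * N → ‖(dts H h i).1‖ ≤ C₂ * (Vn H i + dQ H i) := by
  obtain ⟨Cs, js, hs⟩ := p41_dsc p.κ p.C₀
  have hbs := p.κ.bs_pos
  have hk1 : 1 / p.κ.bs ≤ p.κ.ks := le_max_left _ _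
  have hk2 : 1 / Real.sqrt (p.κ.bs * p.κ.Hq) ≤ p.κ.ks := le_max_right _ _
  have hks : 0 ≤ p.κ.ks := le_trans (by positivity) hk1
  refine ⟨p.κ.ks + |Cs|, 5 * (js + 1), by positivity, ?_⟩
  intro s N H hG hN h i j hj h1 h2
  subst hj
  have hin : ∀ i' ≤ i, ‖H.st xyCritical i'‖ < p.κ.ρ :=
    fun i' hi' => lt_trans (hG.conf i' (by omega)) p.tube.lt
  obtain ⟨_, _, vq, vn⟩ := p41_V_eq hG.sys.map hG.sys.entry i (fun i' h => hin i' h.le)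
  have hc : NearCrit p.C₀ (H.j0 + i) (H.st xyCritical i) := hG.crit i h1 h2
  obtain ⟨X1, X2⟩ := hs H hG.sys.map (H.j0 + i) (Nat.le_add_right _ _) (by omega) _ hc (dst H i)
  rw [vq, vn]
  set ξ := dst H i with hξ
  set jr : ℝ := ((H.j0 + i : ℕ) : ℝ) with hjr
  have hj1 : (1 : ℝ) ≤ jr := by
    have : 1 ≤ H.j0 + i := by omega
    rw [hjr]; exact_mod_cast this
  have hw0 : 0 ≤ wn ξ := cau_wn_nonneg _
  have hq0 : 0 ≤ ‖ξ.2.2‖ := norm_nonneg _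
  have cs : Cs ≤ |Cs| := le_abs_self _
  have cs0 : 0 ≤ |Cs| := abs_nonneg _
  have hdiv : Cs / jr * wn ξ ≤ |Cs| * wn ξ := by
    have : Cs / jr ≤ |Cs| := (div_le_div_of_nonneg_right cs (by linarith)).trans (div_le_self cs0 hj1)
    gcongr
  have hE : Cs / jr * wn ξ + Cs * ‖ξ.2.2‖ ≤ |Cs| * wn ξ + |Cs| * ‖ξ.2.2‖ := by
    have : Cs * ‖ξ.2.2‖ ≤ |Cs| * ‖ξ.2.2‖ := by gcongr
    linarith
  have n1 : ‖ξ.1 / (p.κ.bs : ℂ)‖ ≤ p.κ.ks * wn ξ := by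
    rw [norm_div, Complex.norm_real, Real.norm_of_nonneg hbs.le, div_eq_mul_one_div, mul_comm]
    have : ‖ξ.1‖ ≤ wn ξ := le_max_left _ _
    gcongr
  have n2 : ‖ξ.2.1 / (Real.sqrt (p.κ.bs * p.κ.Hq) : ℂ)‖ ≤ p.κ.ks * wn ξ := by
    rw [norm_div, Complex.norm_real, Real.norm_of_nonneg (Real.sqrt_nonneg _), div_eq_mul_one_div, mul_comm]
    have : ‖ξ.2.1‖ ≤ wn ξ := le_max_right _ _
    gcongr
  have r1 : ‖(fderiv ℂ (H.sc (H.j0 + i)) (H.st xyCritical i) ξ).1‖ ≤ (p.κ.ks + |Cs|) * (wn ξ + ‖ξ.2.2‖) := by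
    calc ‖(fderiv ℂ (H.sc (H.j0 + i)) (H.st xyCritical i) ξ).1‖
        = ‖((fderiv ℂ (H.sc (H.j0 + i)) (H.st xyCritical i) ξ).1 - ξ.1 / p.κ.bs) + ξ.1 / p.κ.bs‖ := by
          rw [sub_add_cancel]
      _ ≤ ‖(fderiv ℂ (H.sc (H.j0 + i)) (H.st xyCritical i) ξ).1 - ξ.1 / p.κ.bs‖ + ‖ξ.1 / (p.κ.bs : ℂ)‖ :=
          norm_add_le _ _
      _ ≤ (|Cs| * wn ξ + |Cs| * ‖ξ.2.2‖) + p.κ.ks * wn ξ := add_le_add (X1.trans hE) n1
      _ ≤ (p.κ.ks + |Cs|) * (wn ξ + ‖ξ.2.2‖) := by nlinarith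
  have r2 : ‖(fderiv ℂ (H.sc (H.j0 + i)) (H.st xyCritical i) ξ).2‖ ≤ (p.κ.ks + |Cs|) * (wn ξ + ‖ξ.2.2‖) := by
    calc ‖(fderiv ℂ (H.sc (H.j0 + i)) (H.st xyCritical i) ξ).2‖
        = ‖((fderiv ℂ (H.sc (H.j0 + i)) (H.st xyCritical i) ξ).2 - ξ.2.1 / Real.sqrt (p.κ.bs * p.κ.Hq))
            + ξ.2.1 / Real.sqrt (p.κ.bs * p.κ.Hq)‖ := by rw [sub_add_cancel]
      _ ≤ ‖(fderiv ℂ (H.sc (H.j0 + i)) (H.st xyCritical i) ξ).2 - ξ.2.1 / Real.sqrt (p.κ.bs * p.κ.Hq)‖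
            + ‖ξ.2.1 / (Real.sqrt (p.κ.bs * p.κ.Hq) : ℂ)‖ := norm_add_le _ _
      _ ≤ (|Cs| * wn ξ + |Cs| * ‖ξ.2.2‖) + p.κ.ks * wn ξ := add_le_add (X2.trans hE) n2
      _ ≤ (p.κ.ks + |Cs|) * (wn ξ + ‖ξ.2.2‖) := by nlinarith
  show ‖fderiv ℂ (H.sc (H.j0 + i)) (H.st xyCritical i) ξ‖ ≤ _
  rw [Prod.norm_def]
  exact max_le r1 r2

/-- LEAF.  The critical torus state has critical size (`p41_sc_near`, `Good.critT`). -/
theorem p41_ts_near (p : Par) : ∃ (C₂ : ℝ) (Nm : ℕ), ∀ (s N : ℕ) (H : Hist), Good p s H N → Nm ≤ N →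
    ∀ h i : ℕ, N ≤ 5 * (H.j0 + i) → 4 * (H.j0 + i) ≤ 11 * N → H.j0 + i ≤ h → h ≤ 4 * N →
      NearCritT C₂ (H.j0 + i) (H.ts xyCritical h i) := by
  obtain ⟨Cs, js, hs⟩ := p41_sc_near p.κ p.C₀
  refine ⟨max Cs p.C₀, 5 * js, ?_⟩
  intro s N H hG hN h i h1 h2 h3 h4
  have hc : NearCrit p.C₀ (H.j0 + i) (H.st xyCritical i) := hG.crit i h1 h2
  have X := hs H hG.sys.map (H.j0 + i) (Nat.le_add_right _ _) (by omega) _ hc
  have T : ‖H.tor xyCritical h i‖ ≤ p.C₀ / ((H.j0 + i : ℕ) : ℝ) ^ 2 := hG.critT h i h1 h2 h3 h4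
  constructor
  · refine le_trans X ?_
    gcongr
    exact le_max_left _ _
  · refine le_trans T ?_
    gcongr
    exact le_max_right _ _

/-- LEAF.  (4.4), torus part: `p41_dtor_succ`, `p41_dPsi`, `p41_ts_near`, `p41_dts_fst`. -/
theorem p41_rec_T (p : Par) : ∃ (C₂ : ℝ) (Nm : ℕ), 0 ≤ C₂ ∧ ∀ (s N : ℕ) (H : Hist), Good p s H N → Nm ≤ N →
    ∀ h i j : ℕ, j = H.j0 + i → N ≤ 5 * j → 4 * j ≤ 11 * N → j < h → h ≤ 4 * N →
      dT H h (i + 1) ≤ (p.κ.θ + C₂ / (j : ℝ)) * dT H h i + C₂ / (j : ℝ) * (Vn H i + dQ H i) := by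
  obtain ⟨Cn, N1, hn⟩ := p41_ts_near p
  obtain ⟨Cf, N2, hCf, hf⟩ := p41_dts_fst p
  obtain ⟨CΨ, jΨ, hΨ⟩ := p41_dPsi p.κ Cn
  refine ⟨|CΨ| * (1 + Cf), N1 + N2 + 5 * jΨ, by positivity, ?_⟩
  intro s N H hG hN h i j hj h1 h2 h3 h4
  subst hj
  have hin : ∀ i' ≤ i, ‖H.st xyCritical i'‖ < p.κ.ρ ∧ ‖H.ts xyCritical h i'‖ < p.κ.ρ :=
    fun i' hi' => ⟨lt_trans (hG.conf i' (by omega)) p.tube.lt,
      lt_trans (hG.conft h i' (by omega) h4 (by omega)) p.tube.lt⟩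
  have hnear := hn s N H hG (by omega) h i h1 h2 h3.le h4
  have F := hf s N H hG (by omega) h i _ rfl h1 h2
  have X := hΨ H hG.sys.map (H.j0 + i) h (Nat.le_add_right _ _) h3 (by omega) _ hnear (dts H h i)
  rw [← p41_dtor_succ hG.sys.map hG.sys.entry h i h3 hin] at X
  rw [p41_dT_eq, p41_dT_eq]
  set jr : ℝ := ((H.j0 + i : ℕ) : ℝ) with hjr
  have hj0 : 0 ≤ jr := Nat.cast_nonneg _
  have c1 : CΨ ≤ |CΨ| := le_abs_self _
  have c0 : 0 ≤ |CΨ| := abs_nonneg _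
  have hS : 0 ≤ Vn H i + dQ H i := by
    have : 0 ≤ ‖(dts H h i).1‖ := norm_nonneg _
    have a : 0 ≤ Vn H i := le_max_of_le_left (norm_nonneg _)
    have b : 0 ≤ dQ H i := norm_nonneg _
    linarith
  have e2 : ‖(dts H h i).2‖ = ‖dtor H h i‖ := rfl
  rw [e2] at X
  have k1 : CΨ / jr ≤ |CΨ| * (1 + Cf) / jr := by
    have : CΨ ≤ |CΨ| * (1 + Cf) := by nlinarith
    gcongr
  have k2 : CΨ / jr * ‖(dts H h i).1‖ ≤ |CΨ| * (1 + Cf) / jr * (Vn H i + dQ H i) := by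
    calc CΨ / jr * ‖(dts H h i).1‖ ≤ |CΨ| / jr * ‖(dts H h i).1‖ := by gcongr
      _ ≤ |CΨ| / jr * (Cf * (Vn H i + dQ H i)) := by gcongr
      _ = |CΨ| * Cf / jr * (Vn H i + dQ H i) := by ring
      _ ≤ |CΨ| * (1 + Cf) / jr * (Vn H i + dQ H i) := by
          have : |CΨ| * Cf ≤ |CΨ| * (1 + Cf) := by nlinarith
          gcongr
  have k3 : (p.κ.θ + CΨ / jr) * ‖dtor H h i‖ ≤ (p.κ.θ + |CΨ| * (1 + Cf) / jr) * ‖dtor H h i‖ := by gcongr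
  linarith

/-- pure arithmetic of the backward inequality -/
theorem p41_FB_back {v v' a u C CV E : ℝ} (v0 : 0 ≤ v) (_v0' : 0 ≤ v') (a0 : 0 ≤ a) (hu0 : 0 < u) (hCV : 0 ≤ CV)
    (hCVC : CV ≤ C) (f2 : (2 + 2 * C) * u ≤ 1 / 4) (bv : v ≤ v' + 2 * u * v + E)
    (hE1 : E ≤ 2 * CV * u * v + CV * u * a) :
    v ≤ (1 + (4 + 4 * C) * u) * v' + (4 + 4 * C) * u * a := by
  have hC0 : 0 ≤ C := le_trans hCV hCVC
  set δ : ℝ := (2 + 2 * C) * u with hδ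
  have hδ0 : 0 ≤ δ := by positivity
  have k0 : v ≤ v' + δ * v + C * u * a := by
    have h3 : 2 * CV * u * v ≤ 2 * C * u * v := by gcongr
    have h4 : CV * u * a ≤ C * u * a := by gcongr
    have : δ * v = 2 * u * v + 2 * C * u * v := by rw [hδ]; ring
    linarith
  have k1 : (1 - δ) * v ≤ v' + C * u * a := by linarith
  have k2 : v ≤ (1 + 2 * δ) * (v' + C * u * a) := by
    have h6 : v ≤ (1 + 2 * δ) * ((1 - δ) * v) := by
      have : (1 + 2 * δ) * ((1 - δ) * v) = v + δ * (1 - 2 * δ) * v := by ring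
      have h7 : 0 ≤ δ * (1 - 2 * δ) * v := by
        have : 0 ≤ 1 - 2 * δ := by linarith
        positivity
      linarith
    exact h6.trans (mul_le_mul_of_nonneg_left k1 (by positivity))
  have k3 : (1 + 2 * δ) * (C * u * a) ≤ (4 + 4 * C) * u * a := by
    have h8 : 1 + 2 * δ ≤ 2 := by linarith
    have h9 : 0 ≤ C * u * a := by positivity
    calc (1 + 2 * δ) * (C * u * a) ≤ 2 * (C * u * a) := mul_le_mul_of_nonneg_right h8 h9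
      _ = 2 * C * (u * a) := by ring
      _ ≤ (4 + 4 * C) * (u * a) := by
          apply mul_le_mul_of_nonneg_right _ (by positivity)
          linarith
      _ = (4 + 4 * C) * u * a := by ring
  have k4 : (1 + 2 * δ) * v' = (1 + (4 + 4 * C) * u) * v' := by rw [hδ]; ring
  calc v ≤ (1 + 2 * δ) * (v' + C * u * a) := k2
    _ = (1 + 2 * δ) * v' + (1 + 2 * δ) * (C * u * a) := by ring
    _ ≤ (1 + (4 + 4 * C) * u) * v' + (4 + 4 * C) * u * a := by rw [k4]; linarith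

/-- solving one row backwards -/
theorem p41_FB_row {x x' w : ℂ} {E : ℝ} (h : ‖x' - (x - w)‖ ≤ E) : ‖x‖ ≤ ‖x'‖ + ‖w‖ + E := by
  have e : x = -(x' - (x - w)) + x' + w := by ring
  calc ‖x‖ = ‖-(x' - (x - w)) + x' + w‖ := congrArg _ e
    _ ≤ ‖-(x' - (x - w))‖ + ‖x'‖ + ‖w‖ := norm_add₃_le
    _ ≤ E + ‖x'‖ + ‖w‖ := by rw [norm_neg]; linarith
    _ = ‖x'‖ + ‖w‖ + E := by ring

/-- the backward inequality -/
theorem p41_back (p : Par) : ∃ (C : ℝ) (Nm : ℕ), 0 ≤ C ∧ ∀ (s N : ℕ) (H : Hist), Good p s H N → Nm ≤ N →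
    ∀ i j : ℕ, j = H.j0 + i → N ≤ 5 * j → 4 * j ≤ 11 * N →
      Vn H i ≤ (1 + (4 + 4 * C) / (j : ℝ)) * Vn H (i + 1) + (4 + 4 * C) / (j : ℝ) * dQ H i := by
  obtain ⟨CV, NV, hCV, hV⟩ := p41_rec_V p
  obtain ⟨M, hM⟩ := exists_nat_ge (4 * (2 + 2 * CV) + 1)
  refine ⟨CV, NV + 5 * M, hCV, ?_⟩
  intro s N H hG hN i j hj h1 h2
  have hjM : M ≤ j := by omega
  have hjr : 4 * (2 + 2 * CV) + 1 ≤ (j : ℝ) := hM.trans (by exact_mod_cast hjM)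
  have hj1 : (1 : ℝ) ≤ j := by linarith
  have hj0 : (0 : ℝ) < j := by linarith
  obtain ⟨X, Y⟩ := hV s N H hG (by omega) i j hj h1 h2
  have a0 : 0 ≤ dQ H i := norm_nonneg _
  have v0 : 0 ≤ Vn H i := le_max_of_le_left (norm_nonneg _)
  have v0' : 0 ≤ Vn H (i + 1) := le_max_of_le_left (norm_nonneg _)
  have hu0 : 0 < 1 / (j : ℝ) := by positivity
  have f2 : (2 + 2 * CV) * (1 / (j : ℝ)) ≤ 1 / 4 := by
    rw [mul_one_div, div_le_iff₀ hj0]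
    linarith
  have hL1 : Real.log (2 + (j : ℝ)) ≤ 2 * j := by
    have := Real.log_le_sub_one_of_pos (show (0 : ℝ) < 2 + j by linarith)
    linarith
  have eL : CV * Real.log (2 + (j : ℝ)) / (j : ℝ) ^ 2 ≤ 2 * CV * (1 / (j : ℝ)) := by
    rw [div_le_iff₀ (by positivity)]
    have : 2 * CV * (1 / (j : ℝ)) * (j : ℝ) ^ 2 = CV * (2 * j) := by field_simp
    rw [this]
    gcongr
  have hE1 : CV * Real.log (2 + (j : ℝ)) / (j : ℝ) ^ 2 * Vn H i + CV / (j : ℝ) * dQ H i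
      ≤ 2 * CV * (1 / (j : ℝ)) * Vn H i + CV * (1 / (j : ℝ)) * dQ H i := by
    have h3 := mul_le_mul_of_nonneg_right eL v0
    have h4 : CV / (j : ℝ) * dQ H i = CV * (1 / (j : ℝ)) * dQ H i := by ring
    linarith
  have n2 : ‖(2 : ℂ) / (j : ℂ)‖ = 2 * (1 / (j : ℝ)) := by
    rw [norm_div, Complex.norm_natCast]
    simp
    ring
  have n1 : ‖(1 : ℂ) / (j : ℂ)‖ = 1 / (j : ℝ) := by
    rw [norm_div, Complex.norm_natCast]
    simp
  have vx : ‖Vx H i‖ ≤ Vn H i := le_max_left _ _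
  have vy : ‖Vy H i‖ ≤ Vn H i := le_max_right _ _
  have vx' : ‖Vx H (i + 1)‖ ≤ Vn H (i + 1) := le_max_left _ _
  have vy' : ‖Vy H (i + 1)‖ ≤ Vn H (i + 1) := le_max_right _ _
  have w1 : ‖2 / (j : ℂ) * Vy H i‖ ≤ 2 * (1 / (j : ℝ)) * Vn H i := by
    rw [norm_mul, n2]
    gcongr
  have w2 : ‖1 / (j : ℂ) * (Vx H i + Vy H i)‖ ≤ 2 * (1 / (j : ℝ)) * Vn H i := by
    rw [norm_mul, n1]
    have : ‖Vx H i + Vy H i‖ ≤ Vn H i + Vn H i := (norm_add_le _ _).trans (add_le_add vx vy)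
    calc 1 / (j : ℝ) * ‖Vx H i + Vy H i‖ ≤ 1 / (j : ℝ) * (Vn H i + Vn H i) := by gcongr
      _ = 2 * (1 / (j : ℝ)) * Vn H i := by ring
  have bx := p41_FB_row X
  have by' := p41_FB_row Y
  have bv : Vn H i ≤ Vn H (i + 1) + 2 * (1 / (j : ℝ)) * Vn H i
      + (CV * Real.log (2 + (j : ℝ)) / (j : ℝ) ^ 2 * Vn H i + CV / (j : ℝ) * dQ H i) :=
    max_le (by linarith) (by linarith)
  have := p41_FB_back v0 v0' a0 hu0 hCV le_rfl f2 bv hE1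
  have e1 : (4 + 4 * CV) / (j : ℝ) = (4 + 4 * CV) * (1 / (j : ℝ)) := by ring
  rw [e1]
  exact this

/-- LEAF.  The forward and backward inequalities in the form of `p41_slave`, `θ = th1`.
(B): `|Vx i| ≤ |Vx (i+1)| + (2/j) Vn i + err`, same for `Vy`; so `Vn i (1 - 2/j - C₂ log (2+j)/j²) ≤ Vn (i+1) + (C₂/j) dQ i`, and `1/(1-x) ≤ 1 + 2x`. -/
theorem p41_FB (p : Par) : ∃ (C₃ : ℝ) (Nm : ℕ), 0 ≤ C₃ ∧ ∀ (s N : ℕ) (H : Hist), Good p s H N → Nm ≤ N →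
    ∀ i j : ℕ, j = H.j0 + i → N ≤ 5 * j → 4 * j ≤ 11 * N →
      dQ H (i + 1) ≤ th1 p.κ * dQ H i + C₃ / (j : ℝ) * Vn H i ∧
      Vn H i ≤ (1 + C₃ / (j : ℝ)) * Vn H (i + 1) + C₃ / (j : ℝ) * dQ H i ∧
      ∀ h, j < h → h ≤ 4 * N →
        dQ H (i + 1) + dT H h (i + 1) ≤ th1 p.κ * (dQ H i + dT H h i) + C₃ / (j : ℝ) * Vn H i := by
  obtain ⟨CB, NB, hCB, hB⟩ := p41_back p
  obtain ⟨CQ, NQ, hCQ, hQ⟩ := p41_rec_Q p
  obtain ⟨CT, NT, hCT, hT⟩ := p41_rec_T p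
  obtain ⟨t1, _, _, _, _⟩ := p41_th1 p.κ
  have hgap : 0 < th1 p.κ - p.κ.θ := by linarith
  obtain ⟨M, hM⟩ := exists_nat_ge ((CQ + CT) / (th1 p.κ - p.κ.θ) + 1)
  refine ⟨(4 + 4 * CB) + (CQ + CT), NB + NQ + NT + 5 * M, by positivity, ?_⟩
  intro s N H hG hN i j hj h1 h2
  have hjM : M ≤ j := by omega
  have hjr : (CQ + CT) / (th1 p.κ - p.κ.θ) + 1 ≤ (j : ℝ) := hM.trans (by exact_mod_cast hjM)
  have hq1 : 0 ≤ (CQ + CT) / (th1 p.κ - p.κ.θ) := by positivity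
  have hj0 : (0 : ℝ) < j := by linarith
  have Q := hQ s N H hG (by omega) i j hj h1 h2
  have B := hB s N H hG (by omega) i j hj h1 h2
  have a0 : 0 ≤ dQ H i := norm_nonneg _
  have v0 : 0 ≤ Vn H i := le_max_of_le_left (norm_nonneg _)
  have v0' : 0 ≤ Vn H (i + 1) := le_max_of_le_left (norm_nonneg _)
  have f1 : (CQ + CT) / (j : ℝ) ≤ th1 p.κ - p.κ.θ := by
    rw [div_le_iff₀ hj0]
    have : (CQ + CT) / (th1 p.κ - p.κ.θ) ≤ (j : ℝ) := by linarith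
    rw [div_le_iff₀ hgap] at this
    linarith
  have g1 : CQ / (j : ℝ) ≤ (CQ + CT) / (j : ℝ) := div_le_div_of_nonneg_right (by linarith) hj0.le
  have g2 : CT / (j : ℝ) ≤ (CQ + CT) / (j : ℝ) := div_le_div_of_nonneg_right (by linarith) hj0.le
  have g3 : (CQ + CT) / (j : ℝ) ≤ ((4 + 4 * CB) + (CQ + CT)) / (j : ℝ) :=
    div_le_div_of_nonneg_right (by linarith) hj0.le
  have g4 : (4 + 4 * CB) / (j : ℝ) ≤ ((4 + 4 * CB) + (CQ + CT)) / (j : ℝ) :=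
    div_le_div_of_nonneg_right (by linarith) hj0.le
  refine ⟨?_, ?_, ?_⟩
  · have k1 : (p.κ.θ + CQ / (j : ℝ)) * dQ H i ≤ th1 p.κ * dQ H i :=
      mul_le_mul_of_nonneg_right (by linarith) a0
    have k2 : CQ / (j : ℝ) * Vn H i ≤ ((4 + 4 * CB) + (CQ + CT)) / (j : ℝ) * Vn H i :=
      mul_le_mul_of_nonneg_right (by linarith) v0
    linarith
  · have k1 : (1 + (4 + 4 * CB) / (j : ℝ)) * Vn H (i + 1) ≤ (1 + ((4 + 4 * CB) + (CQ + CT)) / (j : ℝ)) * Vn H (i + 1) :=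
      mul_le_mul_of_nonneg_right (by linarith) v0'
    have k2 : (4 + 4 * CB) / (j : ℝ) * dQ H i ≤ ((4 + 4 * CB) + (CQ + CT)) / (j : ℝ) * dQ H i :=
      mul_le_mul_of_nonneg_right g4 a0
    linarith
  · intro h h3 h4
    have T := hT s N H hG (by omega) h i j hj h1 h2 h3 h4
    have t0 : 0 ≤ dT H h i := norm_nonneg _
    have k1 : (p.κ.θ + (CQ + CT) / (j : ℝ)) * dQ H i ≤ th1 p.κ * dQ H i :=
      mul_le_mul_of_nonneg_right (by linarith) a0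
    have k2 : (p.κ.θ + CT / (j : ℝ)) * dT H h i ≤ th1 p.κ * dT H h i :=
      mul_le_mul_of_nonneg_right (by linarith) t0
    have k3 : (CQ + CT) / (j : ℝ) * Vn H i ≤ ((4 + 4 * CB) + (CQ + CT)) / (j : ℝ) * Vn H i :=
      mul_le_mul_of_nonneg_right g3 v0
    have e1 : (p.κ.θ + (CQ + CT) / (j : ℝ)) * dQ H i
        = (p.κ.θ + CQ / (j : ℝ)) * dQ H i + CT / (j : ℝ) * dQ H i := by ring
    have e2 : (CQ + CT) / (j : ℝ) * Vn H i = CQ / (j : ℝ) * Vn H i + CT / (j : ℝ) * Vn H i := by ring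
    have e3 : CT / (j : ℝ) * (Vn H i + dQ H i) = CT / (j : ℝ) * Vn H i + CT / (j : ℝ) * dQ H i := by ring
    have e4 : th1 p.κ * (dQ H i + dT H h i) = th1 p.κ * dQ H i + th1 p.κ * dT H h i := by ring
    linarith

/-! ## 4. Slaving -/

/-- LEAF (arithmetic).  `l ≤ j / 2 ≤ m`, `s ≤ 2 C1 j`: `r^m * (A s² e^{γ l}) ≤ e^{-c j}` with `c = - log r / 5`, since `γ ≤ - log r / 101`. -/
theorem p41_slave_exp (r γ A C1 : ℝ) (hr0 : 0 < r) (hr : r < 1) (hγ0 : 0 ≤ γ) (hγ : γ ≤ -Real.log r / 101) :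
    ∃ jm : ℕ, ∀ (j l m s : ℕ), jm ≤ j → 2 * l ≤ j → j ≤ 2 * m → (s : ℝ) ≤ 2 * C1 * j →
      r ^ m * (A * (s : ℝ) ^ 2 * Real.exp (γ * l)) ≤ Real.exp (-(-Real.log r / 5) * j) := by
  set a := -Real.log r with ha
  have ha0 : 0 < a := by have := Real.log_neg hr0 hr; linarith
  obtain ⟨jm, hjm⟩ := p41_exp_poly (4 * |A| * C1 ^ 2) (50 / 101 * a) (a / 5) 2 (by linarith)
  refine ⟨jm, fun j l m s hj hl hm hs => ?_⟩
  have hlr : (l : ℝ) ≤ (j : ℝ) / 2 := by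
    have : ((2 * l : ℕ) : ℝ) ≤ (j : ℝ) := by exact_mod_cast hl
    push_cast at this
    linarith
  have hmr : (j : ℝ) / 2 ≤ (m : ℝ) := by
    have : (j : ℝ) ≤ ((2 * m : ℕ) : ℝ) := by exact_mod_cast hm
    push_cast at this
    linarith
  have hj0 : (0 : ℝ) ≤ j := Nat.cast_nonneg j
  have h1 : r ^ m ≤ Real.exp (-(a * ((j : ℝ) / 2))) := by
    have e : r ^ m = Real.exp ((m : ℝ) * Real.log r) := by
      rw [Real.exp_nat_mul, Real.exp_log hr0]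
    rw [e, Real.exp_le_exp]
    have : Real.log r = -a := by rw [ha]; ring
    rw [this]
    nlinarith
  have h2 : Real.exp (γ * l) ≤ Real.exp (a / 101 * ((j : ℝ) / 2)) := by
    rw [Real.exp_le_exp]
    exact mul_le_mul hγ hlr (Nat.cast_nonneg l) (by positivity)
  have h3 : (s : ℝ) ^ 2 ≤ (2 * C1 * j) ^ 2 := pow_le_pow_left₀ (Nat.cast_nonneg s) hs 2
  have hA : A ≤ |A| := le_abs_self _
  have hr0' : 0 ≤ r ^ m := by positivity
  calc r ^ m * (A * (s : ℝ) ^ 2 * Real.exp (γ * l))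
      ≤ r ^ m * (|A| * (s : ℝ) ^ 2 * Real.exp (γ * l)) := by gcongr
    _ ≤ Real.exp (-(a * ((j : ℝ) / 2))) * (|A| * (2 * C1 * j) ^ 2 * Real.exp (a / 101 * ((j : ℝ) / 2))) := by
        gcongr
    _ = 4 * |A| * C1 ^ 2 * (j : ℝ) ^ 2 * (Real.exp (-(a * ((j : ℝ) / 2))) * Real.exp (a / 101 * ((j : ℝ) / 2))) := by
        ring
    _ = 4 * |A| * C1 ^ 2 * (j : ℝ) ^ 2 * Real.exp (-(50 / 101 * a) * j) := by
        rw [← Real.exp_add]
        congr 2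
        ring
    _ ≤ Real.exp (-(a / 5) * j) := hjm j hj

/-- GLUE.  **(4.7)** = the second assertion of P4.1.  `p41_slave` with `θ = th1`, `r = rr`, `a = H.j0`, `l = j / 2 - H.j0`, `n = i`, for `(v, q) = (Vn, dQ)` and `(Vn, dQ + dT h)`;
`p41_FB` on `[l, i)` (inside the outer window for `N ≥ 20`); `q l ≤ 2 Ccr s² e^{γ l}` by the crude bounds; `p41_slave_exp`. -/
theorem p41_slaving (p : Par) : ∃ (C₄ c₄ : ℝ) (Nm : ℕ), 0 ≤ C₄ ∧ 0 < c₄ ∧ ∀ (s N : ℕ) (H : Hist), Good p s H N → Nm ≤ N →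
    ∀ i j : ℕ, j = H.j0 + i → N ≤ 2 * j → 2 * j ≤ 5 * N →
      dQ H i ≤ C₄ * Vn H i / (j : ℝ) + Real.exp (-c₄ * j) ∧
      ∀ h, j ≤ h → h ≤ 4 * N → dT H h i ≤ C₄ * Vn H i / (j : ℝ) + Real.exp (-c₄ * j) := by
  obtain ⟨t1, t2, t3, hg, hg2⟩ := p41_th1 p.κ
  obtain ⟨C₃, N3, hC3, hFB⟩ := p41_FB p
  have hth0 : 0 ≤ th1 p.κ := by have := p.κ.hθ0; linarith
  obtain ⟨K, jm, hK, hsl⟩ := p41_slave (th1 p.κ) (rr p.κ) C₃ hth0 t2 t3 hC3
  obtain ⟨Cp, hCp, hpl⟩ := p41_crude_plane p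
  obtain ⟨Ct, hCt, htor⟩ := p41_crude_tor p
  have hrr0 : 0 < rr p.κ := by linarith
  obtain ⟨je, hexp⟩ := p41_slave_exp (rr p.κ) (gam p.κ) (Cp + Ct) p.C1 hrr0 t3 hg.le hg2
  have hc4 : 0 < -Real.log (rr p.κ) / 5 := by
    have := Real.log_neg hrr0 t3
    linarith
  refine ⟨K, -Real.log (rr p.κ) / 5, N3 + 5 * jm + 2 * je + 20, hK, hc4, ?_⟩
  intro s N H hG hN i j hj h1 h2
  subst hj
  have hj0 := hG.j0
  obtain ⟨l, hl1⟩ : ∃ l, H.j0 + l = (H.j0 + i) / 2 := ⟨(H.j0 + i) / 2 - H.j0, by omega⟩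
  have hli : l ≤ i := by omega
  have hNpos : (0 : ℝ) < N := by
    have : 0 < N := by omega
    exact_mod_cast this
  have hC1 : 0 ≤ p.C1 := by
    by_contra hneg
    have h3 : p.C1 * N < 0 := mul_neg_of_neg_of_pos (not_le.1 hneg) hNpos
    have h4 : (0 : ℝ) ≤ s := Nat.cast_nonneg s
    linarith [hG.size.2]
  have hs : (s : ℝ) ≤ 2 * p.C1 * ((H.j0 + i : ℕ) : ℝ) := by
    have h3 : (N : ℝ) ≤ ((2 * (H.j0 + i) : ℕ) : ℝ) := by exact_mod_cast h1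
    push_cast at h3
    have h4 : p.C1 * N ≤ p.C1 * (2 * ((H.j0 : ℝ) + i)) := mul_le_mul_of_nonneg_left h3 hC1
    push_cast
    linarith [hG.size.2]
  have hE := hexp (H.j0 + i) l (i - l) s (by omega) (by omega) (by omega) hs
  have hin : ∀ i' ≤ i, ‖H.st xyCritical i'‖ < p.κ.ρ :=
    fun i' hi' => lt_trans (hG.conf i' (by omega)) p.tube.lt
  have hVn0 : ∀ i', 0 ≤ Vn H i' := fun i' => le_max_of_le_left (norm_nonneg _)
  have hdQ0 : ∀ i', 0 ≤ dQ H i' := fun i' => norm_nonneg _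
  have hQl : dQ H l ≤ Cp * (s : ℝ) ^ 2 * Real.exp (gam p.κ * l) := by
    obtain ⟨_, _, vq, _⟩ := p41_V_eq hG.sys.map hG.sys.entry l (fun i' h => hin i' (by omega))
    rw [vq]
    exact (cau_q_le_norm _).trans (hpl s N H hG l (by omega))
  have hrp : 0 ≤ rr p.κ ^ (i - l) := by positivity
  have hX0 : 0 ≤ (s : ℝ) ^ 2 * Real.exp (gam p.κ * l) := by positivity
  have eK : ∀ x : ℝ, K / ((H.j0 + i : ℕ) : ℝ) * x = K * x / ((H.j0 + i : ℕ) : ℝ) := fun x => by ring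
  constructor
  · have S := hsl H.j0 l i (Vn H) (dQ H) (by omega) hVn0 hdQ0
      (fun i' a b => (hFB s N H hG (by omega) i' _ rfl (by omega) (by omega)).1)
      (fun i' a b => (hFB s N H hG (by omega) i' _ rfl (by omega) (by omega)).2.1) i hli le_rfl
    rw [eK] at S
    have h5 : rr p.κ ^ (i - l) * dQ H l ≤ rr p.κ ^ (i - l) * ((Cp + Ct) * (s : ℝ) ^ 2 * Real.exp (gam p.κ * l)) := by
      apply mul_le_mul_of_nonneg_left _ hrp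
      nlinarith
    linarith
  · intro h h3 h4
    have hdT0 : ∀ i', 0 ≤ dT H h i' := fun i' => norm_nonneg _
    have S := hsl H.j0 l i (Vn H) (fun i' => dQ H i' + dT H h i') (by omega) hVn0
      (fun i' => add_nonneg (hdQ0 i') (hdT0 i'))
      (fun i' a b => (hFB s N H hG (by omega) i' _ rfl (by omega) (by omega)).2.2 h (by omega) h4)
      (fun i' a b => by
        have B := (hFB s N H hG (by omega) i' _ rfl (by omega) (by omega)).2.1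
        have : C₃ / ((H.j0 + i' : ℕ) : ℝ) * dQ H i' ≤ C₃ / ((H.j0 + i' : ℕ) : ℝ) * (dQ H i' + dT H h i') := by
          apply mul_le_mul_of_nonneg_left _ (by positivity)
          linarith [hdT0 i']
        linarith) i hli le_rfl
    rw [eK] at S
    have hTl : dT H h l ≤ Ct * (s : ℝ) ^ 2 * Real.exp (gam p.κ * l) :=
      htor s N H hG h l (by omega) h4 (by omega)
    have h5 : rr p.κ ^ (i - l) * (dQ H l + dT H h l)
        ≤ rr p.κ ^ (i - l) * ((Cp + Ct) * (s : ℝ) ^ 2 * Real.exp (gam p.κ * l)) := by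
      apply mul_le_mul_of_nonneg_left _ hrp
      nlinarith
    have S' : dQ H i + dT H h i ≤ K * Vn H i / ((H.j0 + i : ℕ) : ℝ) + rr p.κ ^ (i - l) * (dQ H l + dT H h l) := S
    linarith [hdQ0 i]

end

end Claimed.Agent.R285.E4
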