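import Claimed.Agent.R285.E4.P41Step

/-!
# ROW 285, [E] P4.1, layer HIST: temperature derivatives of one history at `b = b_c`   (helper103; prefix `p41_`).   ALL PROVED.

`dst H i`, `dtor H h i`, `dts H h i` are the derivatives at `b_c` of `b ↦ H.st b i`, `H.tor b h i`, `H.ts b h i`  (`dst H i = H.dst xyCritical i` of `Flow/CauchyHist.lean` by `rfl`).
As long as the CRITICAL history stays in the ball of radius `κ.ρ`, they exist and obey the chain rule: corollaries of `cau_st_hasDerivAt`, `cau_dst_succ`, `cau_tor_hasDerivAt`,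
`cau_dtor_succ` (helper90).
-/

set_option autoImplicit false

namespace Claimed.Agent.R285.E4

open Filter Topology Claims.C0459
open Claimed.Agent.R285.Flow

noncomputable section

/-- `∂_b` of the plane state at `b_c` -/
def dst (H : Hist) (i : ℕ) : ℂ × ℂ × H.Q (H.j0 + i) := deriv (fun b : ℂ => H.st b i) xyCritical
/-- `∂_b` of the torus remainder at `b_c` -/
def dtor (H : Hist) (h i : ℕ) : H.T (H.j0 + i) h := deriv (fun b : ℂ => H.tor b h i) xyCritical
/-- `∂_b` of the full torus state at `b_c` -/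
def dts (H : Hist) (h i : ℕ) : (ℂ × ℂ) × H.T (H.j0 + i) h :=
  (fderiv ℂ (H.sc (H.j0 + i)) (H.st xyCritical i) (dst H i), dtor H h i)

theorem p41_dT_eq (H : Hist) (h i : ℕ) : dT H h i = ‖dtor H h i‖ := rfl

theorem p41_dst_eq (H : Hist) (i : ℕ) : dst H i = H.dst xyCritical i := rfl

theorem p41_dtor_eq (H : Hist) (h i : ℕ) : dtor H h i = H.dtor xyCritical h i := rfl

variable {κ : MapC} {κe : EntC} {ρe : ℝ} {s : ℕ} {H : Hist}

/-- `q0 * s = L ^ j0 > 0`, so `s ≥ 1` and the disk is a neighbourhood of `b_c`. -/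
theorem p41_disk_nhds (he : Flow.EntryOK κ κe ρe s H) : 1 ≤ s ∧ disk κe s ∈ 𝓝 (xyCritical : ℂ) := by
  have hs : 1 ≤ s := by
    rcases Nat.eq_zero_or_pos s with h | h
    · exfalso
      have h1 := he.side
      rw [h, mul_zero] at h1
      have h2 : 0 < κ.L ^ H.j0 := Nat.pow_pos (lt_of_lt_of_le two_pos κ.hL)
      omega
    · exact h
  refine ⟨hs, ?_⟩
  have hs0 : (0 : ℝ) < s := by exact_mod_cast hs
  exact Metric.ball_mem_nhds _ (div_pos κe.hc (by positivity))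

theorem p41_Y0_diff (he : Flow.EntryOK κ κe ρe s H) : DifferentiableAt ℂ H.Y0 xyCritical :=
  (he.Y0_an _ (mem_of_mem_nhds (p41_disk_nhds he).2)).differentiableAt (p41_disk_nhds he).2

theorem p41_T0_diff (he : Flow.EntryOK κ κe ρe s H) {h : ℕ} (hh : H.j0 ≤ h) : DifferentiableAt ℂ (H.T0 h) xyCritical :=
  (he.T0_an h hh _ (mem_of_mem_nhds (p41_disk_nhds he).2)).differentiableAt (p41_disk_nhds he).2

/-- Cauchy on a disk: generic form -/
theorem p41_cauchy_disk {F : Type} [NormedAddCommGroup F] [NormedSpace ℂ F] {f : ℂ → F} {c : ℂ} {R B : ℝ} (hR : 0 < R)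
    (hf : DifferentiableOn ℂ f (Metric.ball c R)) (hB : ∀ z ∈ Metric.ball c R, ‖f z‖ ≤ B) :
    ‖deriv f c‖ ≤ 2 * B / R := by
  have hR2 : 0 < R / 2 := by positivity
  have hsub : Metric.closedBall c (R / 2) ⊆ Metric.ball c R := Metric.closedBall_subset_ball (by linarith)
  have hd : DiffContOnCl ℂ f (Metric.ball c (R / 2)) := by
    apply DifferentiableOn.diffContOnCl
    rw [closure_ball c hR2.ne']
    exact hf.mono hsub
  have hC : ∀ z ∈ Metric.sphere c (R / 2), ‖f z‖ ≤ B := fun z hz => hB z (hsub (Metric.sphere_subset_closedBall hz))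
  have := Complex.norm_deriv_le_of_forall_mem_sphere_norm_le hR2 hd hC
  calc ‖deriv f c‖ ≤ B / (R / 2) := this
    _ = 2 * B / R := by field_simp

/-- Cauchy on the entry disk. -/
theorem p41_entry_deriv (he : Flow.EntryOK κ κe ρe s H) :
    ‖dst H 0‖ ≤ 2 * ρe / κe.c * (s : ℝ) ^ 2 ∧ ∀ h, H.j0 ≤ h → ‖dtor H h 0‖ ≤ 2 * ρe / κe.c * (s : ℝ) ^ 2 := by
  have hs0 : (0 : ℝ) < s := by exact_mod_cast (p41_disk_nhds he).1
  have hc := κe.hc
  have hR : 0 < κe.c / (s : ℝ) ^ 2 := div_pos hc (by positivity)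
  have e : 2 * ρe / (κe.c / (s : ℝ) ^ 2) = 2 * ρe / κe.c * (s : ℝ) ^ 2 := by field_simp
  constructor
  · have := p41_cauchy_disk hR he.Y0_an he.Y0_bd
    rw [e] at this
    exact this
  · intro h hh
    have := p41_cauchy_disk hR (he.T0_an h hh) (he.T0_bd h hh)
    rw [e] at this
    exact this

/-- The plane history is differentiable at `b_c`. -/
theorem p41_st_hasDeriv (hm : Flow.MapOK κ H) (he : Flow.EntryOK κ κe ρe s H) (i : ℕ)
    (hin : ∀ i' < i, ‖H.st xyCritical i'‖ < κ.ρ) :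
    HasDerivAt (fun b : ℂ => H.st b i) (dst H i) xyCritical :=
  cau_st_hasDerivAt hm (p41_Y0_diff he) i hin

/-- Chain rule for the plane history. -/
theorem p41_dst_succ (hm : Flow.MapOK κ H) (he : Flow.EntryOK κ κe ρe s H) (i : ℕ)
    (hin : ∀ i' ≤ i, ‖H.st xyCritical i'‖ < κ.ρ) :
    dst H (i + 1) = fderiv ℂ (H.N (H.j0 + i)) (H.st xyCritical i) (dst H i) :=
  cau_dst_succ hm (p41_Y0_diff he) i hin

/-- The quantities of `E4/Defs.lean` are the components of `dst`. -/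
theorem p41_V_eq (hm : Flow.MapOK κ H) (he : Flow.EntryOK κ κe ρe s H) (i : ℕ)
    (hin : ∀ i' < i, ‖H.st xyCritical i'‖ < κ.ρ) :
    Vx H i = (dst H i).1 ∧ Vy H i = (dst H i).2.1 ∧ dQ H i = ‖(dst H i).2.2‖ ∧ Vn H i = wn (dst H i) := by
  have hd := (p41_st_hasDeriv hm he i hin).differentiableAt
  have h1 : Vx H i = (dst H i).1 := cau_deriv_x hd
  have h2 : Vy H i = (dst H i).2.1 := cau_deriv_y hd
  have h3 : dQ H i = ‖(dst H i).2.2‖ := by
    unfold dQ
    rw [cau_deriv_q hd]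
    rfl
  refine ⟨h1, h2, h3, ?_⟩
  unfold Vn wn
  rw [h1, h2]

/-- The torus remainder is differentiable at `b_c`. -/
theorem p41_tor_hasDeriv (hm : Flow.MapOK κ H) (he : Flow.EntryOK κ κe ρe s H) (h i : ℕ) (hi : H.j0 + i ≤ h)
    (hin : ∀ i' < i, ‖H.st xyCritical i'‖ < κ.ρ ∧ ‖H.ts xyCritical h i'‖ < κ.ρ) :
    HasDerivAt (fun b : ℂ => H.tor b h i) (dtor H h i) xyCritical :=
  cau_tor_hasDerivAt hm (p41_Y0_diff he) (p41_T0_diff he (le_trans (Nat.le_add_right _ _) hi)) i hi hin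

/-- The full torus state. -/
theorem p41_ts_hasDeriv (hm : Flow.MapOK κ H) (he : Flow.EntryOK κ κe ρe s H) (h i : ℕ) (hi : H.j0 + i ≤ h)
    (hin : ∀ i' < i, ‖H.st xyCritical i'‖ < κ.ρ ∧ ‖H.ts xyCritical h i'‖ < κ.ρ) (hi' : ‖H.st xyCritical i‖ < κ.ρ) :
    HasDerivAt (fun b : ℂ => H.ts b h i) (dts H h i) xyCritical := by
  have h1 := p41_st_hasDeriv hm he i (fun i' hi'' => (hin i' hi'').1)
  have h2 := (hm.sc_hasFDerivAt (Nat.le_add_right H.j0 i) hi').comp_hasDerivAt (xyCritical : ℂ) h1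
  exact h2.prodMk (p41_tor_hasDeriv hm he h i hi hin)

/-- Chain rule for the torus remainder. -/
theorem p41_dtor_succ (hm : Flow.MapOK κ H) (he : Flow.EntryOK κ κe ρe s H) (h i : ℕ) (hi : H.j0 + i < h)
    (hin : ∀ i' ≤ i, ‖H.st xyCritical i'‖ < κ.ρ ∧ ‖H.ts xyCritical h i'‖ < κ.ρ) :
    dtor H h (i + 1) = fderiv ℂ (H.Ψ (H.j0 + i) h) (H.ts xyCritical h i) (dts H h i) :=
  cau_dtor_succ hm (p41_Y0_diff he) (p41_T0_diff he (le_trans (Nat.le_add_right _ _) hi.le)) i hi hin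

/-- Confinement is an open condition in `b`. -/
theorem p41_inside_nhds (hm : Flow.MapOK κ H) (he : Flow.EntryOK κ κe ρe s H) (h i : ℕ) (hi : H.j0 + i ≤ h)
    (hin : H.Inside κ.ρ xyCritical h i) : ∀ᶠ b : ℂ in 𝓝 (xyCritical : ℂ), H.Inside κ.ρ b h i := by
  have key : ∀ i' ≤ i, ∀ᶠ b : ℂ in 𝓝 (xyCritical : ℂ), ‖H.st b i'‖ < κ.ρ ∧ ‖H.ts b h i'‖ < κ.ρ := by
    intro i' hi'
    have hin' : ∀ i'' < i', ‖H.st xyCritical i''‖ < κ.ρ ∧ ‖H.ts xyCritical h i''‖ < κ.ρ :=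
      fun i'' h'' => hin i'' (le_trans h''.le hi')
    have c1 := (p41_st_hasDeriv hm he i' (fun i'' h'' => (hin' i'' h'').1)).continuousAt
    have c2 := (p41_ts_hasDeriv hm he h i' (by omega) hin' (hin i' hi').1).continuousAt
    exact (c1.norm.eventually (gt_mem_nhds (hin i' hi').1)).and (c2.norm.eventually (gt_mem_nhds (hin i' hi').2))
  have : ∀ᶠ b : ℂ in 𝓝 (xyCritical : ℂ), ∀ i' ∈ Finset.range (i + 1), ‖H.st b i'‖ < κ.ρ ∧ ‖H.ts b h i'‖ < κ.ρ := by
    rw [Filter.eventually_all_finset]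
    intro i' hi'
    exact key i' (Nat.lt_succ_iff.1 (Finset.mem_range.1 hi'))
  filter_upwards [this] with b hb i' hi'
  exact hb i' (Finset.mem_range.2 (Nat.lt_succ_iff.2 hi'))

end

end Claimed.Agent.R285.E4
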