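import Claimed.Agent.R285.E4.P41Good
import Claimed.Agent.R285.TopXY
import Claimed.Agent.R285.F5.TorTop

/-!
# ROW 285, [E] P4.1, layer READ: the two physical read-outs; `|V_j| ≥ c` (4.8); overlap of two entries (4.11)   (architect helper103; prefix `p41_`)

For a good history and the stop `h = j = H.j0 + i`:
* `gV H i`, `gP H i` := derivative at `b_c` of `b ↦ H.rV j (H.ts b j i)`, `H.rP j (H.ts b j i)`  (chain rule);
* near `b_c` on the real axis `cV j b = v0 j + rV j (ts b j i)` (`ReadOK.repV`; `Inside` is open by `p41_inside_nhds`), so `cV j`, `cP j` have the derivatives `gV`, `gP`;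
* `torVar · n_j - cV j` is Lipschitz with an exponentially small constant (`ReadOK.lipV`), so `|∂_b torVar - gV| ≤ e^{-c j}` (`p41_lip_transfer`);
* `gV = Vx / (π b_*) + O(Vn / j) + O(e^{-c j})`, `gP = p_j Vy / √(b_* H) + ...` by `p41_drV`, `p41_drP`, `p41_dsc`, slaving.
The physical derivatives `∂_b torVar (b_c, n_j)`, `∂_b torPhase (b_c, n_j)` do not know the entry: this gives the overlap.  No subtraction of remainders of different histories.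
-/

set_option autoImplicit false

namespace Claimed.Agent.R285.E4

open Filter Topology Claims.C0459
open Claimed.Agent.R285.Flow

noncomputable section

/-- derivative at `b_c` of the variance read-out at the stop `j0 + i` -/
def gV (H : Hist) (i : ℕ) : ℂ :=
  fderiv ℂ (H.rV (H.j0 + i)) (H.ts xyCritical (H.j0 + i) i) (dts H (H.j0 + i) i)
/-- derivative at `b_c` of the phase read-out at the stop `j0 + i` -/
def gP (H : Hist) (i : ℕ) : ℂ :=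
  fderiv ℂ (H.rP (H.j0 + i)) (H.ts xyCritical (H.j0 + i) i) (dts H (H.j0 + i) i)

/-- the physical responses -/
def physV (κ : MapC) (j : ℕ) : ℝ := deriv (fun b : ℝ => torVar b (κ.n j)) xyCritical
def physP (κ : MapC) (j : ℕ) : ℝ := deriv (fun b : ℝ => torPhase b (κ.n j)) xyCritical

/-! ## 1. Arithmetic -/

/-- LEAF (arithmetic).  `n_j = D0 L^j ≥ 2^j`, `c1 N ≤ s ≤ C1 N`, `N/2 ≤ j ≤ 5N/2`: all comparison errors are exponentially small in `j`. -/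
theorem p41_err_small (κ : MapC) (κe : EntC) (c1 C1 : ℝ) (hc1 : 0 < c1) : ∃ (c : ℝ) (Nm : ℕ), 0 < c ∧ ∀ s N j : ℕ, Nm ≤ N →
    c1 * N ≤ s → (s : ℝ) ≤ C1 * N → N ≤ 2 * j → 2 * j ≤ 5 * N →
      κe.C * (κ.n j : ℝ) ^ 2 * ((s : ℝ) / κ.n j) ^ 4 + cutErr κ κe s j ≤ Real.exp (-c * j) ∧
      κ.C * ((s : ℝ) / κ.n j + 1 / (κ.n j : ℝ) ^ 2) ≤ Real.exp (-c * j) ∧
      κ.C * ((s : ℝ) / κ.n j) ^ 2 ≤ Real.exp (-c * j) := by
  have ha : 0 < Real.log 2 := Real.log_pos (by norm_num)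
  have hac : Real.log 2 / 2 < Real.log 2 := by linarith
  obtain ⟨B, hB⟩ : ∃ B : ℝ, B = 2 * |C1| := ⟨_, rfl⟩
  have hB0 : 0 ≤ B := by rw [hB]; positivity
  have hCe : 0 < κe.C := lt_of_lt_of_le one_pos κe.hC
  have hCk : 0 < κ.C := lt_of_lt_of_le one_pos κ.hC
  obtain ⟨j1, hj1⟩ := p41_exp_poly (2 * κe.C * B ^ 4) (Real.log 2) (Real.log 2 / 2) 4 hac
  obtain ⟨j3, hj3⟩ := p41_exp_poly (κ.C * (B + 1)) (Real.log 2) (Real.log 2 / 2) 1 hac
  obtain ⟨j4, hj4⟩ := p41_exp_poly (κ.C * B ^ 2) (Real.log 2) (Real.log 2 / 2) 2 hac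
  obtain ⟨N2, hN2, hq⟩ := p41_quad_beats (Real.log κe.C + κe.C * Real.log κ.D0 + Real.log 2)
    (κe.C * Real.log κ.L + Real.log 2 / 2) (κe.c * c1 ^ 2 * (4 / 25))
    (by have := κe.hc; positivity)
  refine ⟨Real.log 2 / 2, 2 * (j1 + j3 + j4 + N2), by positivity, ?_⟩
  intro s N j hN hs1 hs2 hNj hjN
  have hjj1 : j1 ≤ j := by omega
  have hjj3 : j3 ≤ j := by omega
  have hjj4 : j4 ≤ j := by omega
  have hjN2 : N2 ≤ j := by omega
  have hj1' : (1 : ℝ) ≤ (j : ℝ) := by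
    have : 1 ≤ j := by omega
    exact_mod_cast this
  obtain ⟨E, hE⟩ : ∃ E : ℝ, E = Real.exp (-Real.log 2 * j) := ⟨_, rfl⟩
  obtain ⟨R, hR⟩ : ∃ R : ℝ, R = Real.exp (-(Real.log 2 / 2) * j) := ⟨_, rfl⟩
  have b1 := hj1 j hjj1
  have b3 := hj3 j hjj3
  have b4 := hj4 j hjj4
  rw [← hE, ← hR] at b1 b3 b4
  rw [← hR]
  have hE0 : 0 < E := by rw [hE]; exact Real.exp_pos _
  have hR0 : 0 < R := by rw [hR]; exact Real.exp_pos _
  have hn2 : (2 : ℝ) ^ j ≤ (κ.n j : ℝ) := by exact_mod_cast p41_two_pow_le_n κ j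
  have hp2 : (0 : ℝ) < 2 ^ j := by positivity
  have hn0 : (0 : ℝ) < (κ.n j : ℝ) := lt_of_lt_of_le hp2 hn2
  have hn1 : (1 : ℝ) ≤ (κ.n j : ℝ) := le_trans (one_le_pow₀ (by norm_num)) hn2
  obtain ⟨u, hu⟩ : ∃ u : ℝ, u = (κ.n j : ℝ)⁻¹ := ⟨_, rfl⟩
  have hu0 : 0 < u := by rw [hu]; positivity
  have hu1 : u ≤ 1 := by rw [hu]; exact inv_le_one_of_one_le₀ hn1
  have hEe : E = ((2 : ℝ) ^ j)⁻¹ := by
    rw [hE, neg_mul, Real.exp_neg, mul_comm, Real.exp_nat_mul, Real.exp_log (by norm_num)]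
  have huE : u ≤ E := by rw [hu, hEe]; exact inv_anti₀ hp2 hn2
  have hs0 : (0 : ℝ) ≤ (s : ℝ) := by positivity
  have hNj' : (N : ℝ) ≤ 2 * (j : ℝ) := by exact_mod_cast hNj
  have hsB : (s : ℝ) ≤ B * (j : ℝ) := by
    rw [hB]
    have := hs2.trans ((mul_le_mul_of_nonneg_right (le_abs_self C1) (by positivity)).trans
      (mul_le_mul_of_nonneg_left hNj' (abs_nonneg _)))
    linarith
  have hBj : 0 ≤ B * (j : ℝ) := by positivity
  have hu2 : u ^ 2 ≤ E := by nlinarith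
  refine ⟨?_, ?_, ?_⟩
  · have e1 : κe.C * (κ.n j : ℝ) ^ 2 * ((s : ℝ) / κ.n j) ^ 4 = κe.C * ((s : ℝ) ^ 4 * u ^ 2) := by
      rw [hu]
      field_simp
    have t1 : κe.C * ((s : ℝ) ^ 4 * u ^ 2) ≤ R / 2 := by
      have k1 : (s : ℝ) ^ 4 ≤ (B * (j : ℝ)) ^ 4 := pow_le_pow_left₀ hs0 hsB 4
      have k2 : (s : ℝ) ^ 4 * u ^ 2 ≤ (B * (j : ℝ)) ^ 4 * E :=
        mul_le_mul k1 hu2 (by positivity) (by positivity)
      have k3 := mul_le_mul_of_nonneg_left k2 hCe.le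
      have e : 2 * κe.C * B ^ 4 * (j : ℝ) ^ 4 * E = 2 * (κe.C * ((B * (j : ℝ)) ^ 4 * E)) := by ring
      rw [e] at b1
      linarith
    have t2 : cutErr κ κe s j ≤ R / 2 := by
      have e2 : R / 2 = Real.exp (-(Real.log 2 / 2) * j - Real.log 2) := by
        rw [Real.exp_sub, Real.exp_log (by norm_num), hR]
      rw [p41_cutErr_eq, e2, Real.exp_le_exp]
      have h1 := hq j (by exact_mod_cast hjN2)
      have hjN' : 2 * (j : ℝ) ≤ 5 * (N : ℝ) := by exact_mod_cast hjN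
      have h2 : c1 * (2 / 5 * (j : ℝ)) ≤ (s : ℝ) :=
        le_trans (mul_le_mul_of_nonneg_left (by linarith) hc1.le) hs1
      have h3 : (c1 * (2 / 5 * (j : ℝ))) ^ 2 ≤ (s : ℝ) ^ 2 := pow_le_pow_left₀ (by positivity) h2 2
      have h4 := mul_le_mul_of_nonneg_left h3 κe.hc.le
      have e4 : κe.c * (c1 * (2 / 5 * (j : ℝ))) ^ 2 = κe.c * c1 ^ 2 * (4 / 25) * (j : ℝ) ^ 2 := by ring
      rw [e4] at h4
      clear b1 b3 b4 hj1 hj3 hj4 hq
      linarith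
    rw [e1]
    linarith
  · have e1 : (s : ℝ) / κ.n j + 1 / (κ.n j : ℝ) ^ 2 = (s : ℝ) * u + u ^ 2 := by
      rw [hu]
      field_simp
    rw [e1]
    have k1 : (s : ℝ) * u + u ^ 2 ≤ (B + 1) * (j : ℝ) * E := by
      have a1 : (s : ℝ) * u ≤ B * (j : ℝ) * E := mul_le_mul hsB huE hu0.le hBj
      have a2 : E ≤ (j : ℝ) * E := by nlinarith
      nlinarith
    have k2 := mul_le_mul_of_nonneg_left k1 hCk.le
    have e : κ.C * (B + 1) * (j : ℝ) ^ 1 * E = κ.C * ((B + 1) * (j : ℝ) * E) := by ring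
    rw [e] at b3
    linarith
  · have e1 : ((s : ℝ) / κ.n j) ^ 2 = (s : ℝ) ^ 2 * u ^ 2 := by
      rw [hu]
      field_simp
    rw [e1]
    have k1 : (s : ℝ) ^ 2 ≤ (B * (j : ℝ)) ^ 2 := pow_le_pow_left₀ hs0 hsB 2
    have k2 : (s : ℝ) ^ 2 * u ^ 2 ≤ (B * (j : ℝ)) ^ 2 * E :=
      mul_le_mul k1 hu2 (by positivity) (by positivity)
    have k3 := mul_le_mul_of_nonneg_left k2 hCk.le
    have e : κ.C * B ^ 2 * (j : ℝ) ^ 2 * E = κ.C * ((B * (j : ℝ)) ^ 2 * E) := by ring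
    rw [e] at b4
    linarith

/-- LEAF. -/
theorem p41_n_tendsto (κ : MapC) : Tendsto κ.n atTop atTop := by
  refine tendsto_atTop_mono (fun h => ?_) tendsto_id
  exact (Nat.lt_two_pow_self).le.trans (p41_two_pow_le_n κ h)

/-- LEAF.  `b_* = 2 log L > 0`. -/
theorem p41_bs_pos (κ : MapC) : 0 < κ.bs := by
  unfold MapC.bs
  have : (1 : ℝ) < (κ.L : ℝ) := by
    have := κ.hL
    exact_mod_cast (by omega : 1 < κ.L)
  have := Real.log_pos this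
  positivity

/-! ## 2. From the cutoff observables to the physical torus -/

/-- `HasDerivAt.le_of_lip'` for `b ↦ ((f b - g b : ℝ) : ℂ)`. -/
theorem p41_lip_transfer (f g : ℝ → ℝ) (x₀ ε : ℝ) (g' : ℂ) (hε : 0 ≤ ε) (hf : DifferentiableAt ℝ f x₀)
    (hg : HasDerivAt (fun b : ℝ => ((g b : ℝ) : ℂ)) g' x₀)
    (h : ∀ᶠ b in 𝓝 x₀, |(f b - g b) - (f x₀ - g x₀)| ≤ |b - x₀| * ε) :
    ‖((deriv f x₀ : ℝ) : ℂ) - g'‖ ≤ ε := by
  have h1 : HasDerivAt (fun b : ℝ => ((f b : ℝ) : ℂ)) ((deriv f x₀ : ℝ) : ℂ) x₀ := hf.hasDerivAt.ofReal_comp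
  have h2 := h1.sub hg
  refine h2.le_of_lip' hε ?_
  filter_upwards [h] with b hb
  have e : ((f b : ℝ) : ℂ) - ((g b : ℝ) : ℂ) - (((f x₀ : ℝ) : ℂ) - ((g x₀ : ℝ) : ℂ))
      = (((f b - g b) - (f x₀ - g x₀) : ℝ) : ℂ) := by push_cast; ring
  show ‖((f b : ℝ) : ℂ) - ((g b : ℝ) : ℂ) - (((f x₀ : ℝ) : ℂ) - ((g x₀ : ℝ) : ℂ))‖ ≤ ε * ‖b - x₀‖
  rw [e, Complex.norm_real, Real.norm_eq_abs, Real.norm_eq_abs, mul_comm]
  exact hb

/-- the critical history is inside up to the stop -/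
theorem p41_inside (p : Par) (s N : ℕ) (H : Hist) (hG : Good p s H N) (i : ℕ)
    (h1 : N ≤ 2 * (H.j0 + i)) (h2 : 2 * (H.j0 + i) ≤ 5 * N) : H.Inside p.κ.ρ xyCritical (H.j0 + i) i :=
  fun i' hi' => ⟨lt_trans (hG.conf i' (by omega)) p.tube.lt,
    lt_trans (hG.conft (H.j0 + i) i' (by omega) (by omega) (by omega)) p.tube.lt⟩

/-- eventually, for REAL `b` near `b_c`: in the disk and inside -/
theorem p41_real_nhds (p : Par) (s N : ℕ) (H : Hist) (hG : Good p s H N) (i : ℕ)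
    (h1 : N ≤ 2 * (H.j0 + i)) (h2 : 2 * (H.j0 + i) ≤ 5 * N) :
    ∀ᶠ b : ℝ in 𝓝 xyCritical, (b : ℂ) ∈ disk p.κe s ∧ H.Inside p.κ.ρ b (H.j0 + i) i := by
  have hin := p41_inside p s N H hG i h1 h2
  have a1 := p41_inside_nhds hG.sys.map hG.sys.entry (H.j0 + i) i le_rfl hin
  have a2 : ∀ᶠ b : ℂ in 𝓝 (xyCritical : ℂ), b ∈ disk p.κe s := (p41_disk_nhds hG.sys.entry).2
  exact (Complex.continuous_ofReal.continuousAt (x := xyCritical)).eventually (a2.and a1)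

theorem p41_cut_hasDeriv (p : Par) (s N : ℕ) (H : Hist) (hG : Good p s H N) (i : ℕ)
    (h1 : N ≤ 2 * (H.j0 + i)) (h2 : 2 * (H.j0 + i) ≤ 5 * N) :
    HasDerivAt (fun b : ℝ => ((H.cV (H.j0 + i) b : ℝ) : ℂ)) (gV H i) xyCritical ∧
    HasDerivAt (fun b : ℝ => ((H.cP (H.j0 + i) b : ℝ) : ℂ)) (gP H i) xyCritical := by
  have hin := p41_inside p s N H hG i h1 h2
  have hts := p41_ts_hasDeriv hG.sys.map hG.sys.entry (H.j0 + i) i le_rfl (fun i' hi' => hin i' hi'.le) (hin i le_rfl).1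
  have hX : H.ts xyCritical (H.j0 + i) i ∈ Metric.ball (0 : (ℂ × ℂ) × H.T (H.j0 + i) (H.j0 + i)) p.κ.ρ :=
    mem_ball_zero_iff.2 (hin i le_rfl).2
  have hval : Valid p.κ p.κe s H (H.j0 + i) := hG.valid _ (by omega) (by omega)
  have hev := p41_real_nhds p s N H hG i h1 h2
  constructor
  · have d1 := ((hG.sys.read.rV_an (H.j0 + i) (Nat.le_add_right _ _)).differentiableAt
      (Metric.isOpen_ball.mem_nhds hX)).hasFDerivAt
    have d2 := (d1.comp_hasDerivAt (xyCritical : ℂ) hts).comp_ofReal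
    have d3 := d2.const_add ((H.v0 (H.j0 + i) : ℝ) : ℂ)
    refine d3.congr_of_eventuallyEq ?_
    filter_upwards [hev] with b hb
    exact hG.sys.read.repV b i hb.1 hval hb.2
  · have d1 := ((hG.sys.read.rP_an (H.j0 + i) (Nat.le_add_right _ _)).differentiableAt
      (Metric.isOpen_ball.mem_nhds hX)).hasFDerivAt
    have d2 := (d1.comp_hasDerivAt (xyCritical : ℂ) hts).comp_ofReal
    refine d2.congr_of_eventuallyEq ?_
    filter_upwards [hev] with b hb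
    exact hG.sys.read.repP b i hb.1 hval hb.2


/-- `p41_lip_transfer` + `ReadOK.lipV`, `lipP` + `tor_differentiable` + `xy_critical_pos` + `p41_err_small`. -/
theorem p41_phys (p : Par) : ∃ (c : ℝ) (Nm : ℕ), 0 < c ∧ ∀ (s N : ℕ) (H : Hist), Good p s H N → Nm ≤ N →
    ∀ i j : ℕ, j = H.j0 + i → N ≤ 2 * j → 2 * j ≤ 5 * N →
      ‖(physV p.κ j : ℂ) - gV H i‖ ≤ Real.exp (-c * j) ∧ ‖(physP p.κ j : ℂ) - gP H i‖ ≤ Real.exp (-c * j) := by
  obtain ⟨c, Nm, hc, herr⟩ := p41_err_small p.κ p.κe p.c1 p.C1 p.hc1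
  refine ⟨c, Nm, hc, ?_⟩
  intro s N H hG hN i j hj h1 h2
  subst hj
  obtain ⟨e1, _, _⟩ := herr s N (H.j0 + i) hN hG.size.1 hG.size.2 h1 h2
  obtain ⟨dV, dP⟩ := p41_cut_hasDeriv p s N H hG i h1 h2
  have hval : Valid p.κ p.κe s H (H.j0 + i) := hG.valid _ (by omega) (by omega)
  have hev := p41_real_nhds p s N H hG i h1 h2
  have hc0 : ((xyCritical : ℝ) : ℂ) ∈ disk p.κe s := mem_of_mem_nhds (p41_disk_nhds hG.sys.entry).2
  obtain ⟨tV, tP⟩ := tor_differentiable (p.κ.n (H.j0 + i)) xyCritical xy_critical_pos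
  have hC0 : 0 ≤ p.κe.C := le_trans zero_le_one p.κe.hC
  have hcut0 : 0 ≤ cutErr p.κ p.κe s (H.j0 + i) := by
    unfold cutErr
    have : 0 ≤ ((p.κ.n (H.j0 + i) : ℕ) : ℝ) ^ p.κe.C := Real.rpow_nonneg (Nat.cast_nonneg _) _
    positivity
  have hfirst : 0 ≤ p.κe.C * (p.κ.n (H.j0 + i) : ℝ) ^ 2 * ((s : ℝ) / p.κ.n (H.j0 + i)) ^ 4 := by positivity
  constructor
  · refine (p41_lip_transfer (fun b => torVar b (p.κ.n (H.j0 + i))) (H.cV (H.j0 + i)) xyCritical _ _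
      (add_nonneg hfirst hcut0) tV dV ?_).trans e1
    filter_upwards [hev] with b hb
    exact hG.sys.read.lipV b xyCritical (H.j0 + i) hb.1 hc0 hval
  · refine (p41_lip_transfer (fun b => torPhase b (p.κ.n (H.j0 + i))) (H.cP (H.j0 + i)) xyCritical _ _
      hcut0 tP dP ?_).trans (le_trans (by linarith) e1)
    filter_upwards [hev] with b hb
    exact hG.sys.read.lipP b xyCritical (H.j0 + i) hb.1 hc0 hval

/-- absorbing a constant in an exponential -/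
theorem p41_abs_exp (K c : ℝ) (hc : 0 < c) : ∃ jm : ℕ, ∀ j : ℕ, jm ≤ j →
    K * Real.exp (-c * j) ≤ Real.exp (-(c / 2) * j) := by
  refine ⟨⌈2 * |K| / c⌉₊, ?_⟩
  intro j hj
  have h1 : 2 * |K| / c ≤ (j : ℝ) := (Nat.le_ceil _).trans (by exact_mod_cast hj)
  have h2 : |K| ≤ c / 2 * j := by
    rw [div_le_iff₀ hc] at h1
    linarith
  have h3 : K ≤ Real.exp (c / 2 * j) := by
    have := Real.add_one_le_exp (c / 2 * (j : ℝ))
    linarith [le_abs_self K]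
  have e : Real.exp (-(c / 2) * j) = Real.exp (c / 2 * j) * Real.exp (-c * j) := by
    rw [← Real.exp_add]
    congr 1
    ring
  rw [e]
  exact mul_le_mul_of_nonneg_right h3 (Real.exp_pos _).le

/-- the arithmetic of the two read-out estimates -/
theorem p41_read_arith {g a w : ℂ} {k m V q t X u e e' C₁ C₂ C₃ C₄ M Λ cc : ℝ}
    (hg : ‖g - (k : ℂ) * a‖ ≤ C₁ * u * X + C₁ * t) (hX : X ≤ C₂ * (V + q))
    (ha : ‖a - w‖ ≤ C₃ * u * V + C₃ * q) (hw : ‖w‖ ≤ Λ * V)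
    (hk : |k - m| ≤ e') (he' : e' ≤ cc * u) (he1 : e' ≤ 1) (hm : |m| ≤ M)
    (hq : q ≤ C₄ * V * u + e) (ht : t ≤ C₄ * V * u + e)
    (hu0 : 0 ≤ u) (hu1 : u ≤ 1) (hV : 0 ≤ V) (he : 0 ≤ e)
    (h1 : 0 ≤ C₁) (h2 : 0 ≤ C₂) (h3 : 0 ≤ C₃) (h4 : 0 ≤ C₄) (hΛ : 0 ≤ Λ) (hcc0 : 0 ≤ cc) :
    ‖g - (m : ℂ) * w‖ ≤ (C₁ * C₂ + C₁ * C₂ * C₄ + C₁ * C₄ + (M + 1) * C₃ + (M + 1) * C₃ * C₄ + cc * Λ + C₁ + 1) * V * u
      + (C₁ * C₂ + C₁ * C₂ * C₄ + C₁ * C₄ + (M + 1) * C₃ + (M + 1) * C₃ * C₄ + cc * Λ + C₁ + 1) * e := by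
  have hM : 0 ≤ M := le_trans (abs_nonneg _) hm
  have hcc : 0 ≤ cc * u := le_trans (le_trans (abs_nonneg _) hk) he'
  have hkM : |k| ≤ M + 1 := by
    have : |k| ≤ |k - m| + |m| := by
      have := abs_add_le (k - m) m
      simpa using this
    linarith
  have hVu : 0 ≤ V * u := mul_nonneg hV hu0
  set B : ℝ := C₄ * V * u + e with hB
  have hB0 : 0 ≤ B := by positivity
  have e0 : g - (m : ℂ) * w = (g - (k : ℂ) * a) + (k : ℂ) * (a - w) + ((k - m : ℝ) : ℂ) * w := by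
    push_cast; ring
  have n1 : ‖g - (k : ℂ) * a‖ ≤ C₁ * u * (C₂ * (V + B)) + C₁ * B := by
    refine hg.trans ?_
    have : X ≤ C₂ * (V + B) := hX.trans (by gcongr)
    gcongr
  have n2 : ‖(k : ℂ) * (a - w)‖ ≤ (M + 1) * (C₃ * u * V + C₃ * B) := by
    rw [norm_mul, Complex.norm_real, Real.norm_eq_abs]
    have : ‖a - w‖ ≤ C₃ * u * V + C₃ * B := ha.trans (by gcongr)
    gcongr
  have n3 : ‖((k - m : ℝ) : ℂ) * w‖ ≤ cc * u * (Λ * V) := by
    rw [norm_mul, Complex.norm_real, Real.norm_eq_abs]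
    have : |k - m| ≤ cc * u := hk.trans he'
    gcongr
  have n0 : ‖g - (m : ℂ) * w‖ ≤ C₁ * u * (C₂ * (V + B)) + C₁ * B + (M + 1) * (C₃ * u * V + C₃ * B) + cc * u * (Λ * V) := by
    rw [e0]
    refine (norm_add_le _ _).trans (add_le_add ((norm_add_le _ _).trans (add_le_add n1 n2)) n3)
  refine n0.trans ?_
  have hccΛ : 0 ≤ cc * u * Λ := mul_nonneg hcc hΛ
  -- expand
  have x1 : C₁ * u * (C₂ * (V + B)) ≤ C₁ * C₂ * (V * u) + C₁ * C₂ * C₄ * (V * u) + C₁ * C₂ * e := by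
    have a1 : u * B ≤ C₄ * (V * u) + e := by
      have : u * B ≤ 1 * B := by gcongr
      rw [hB] at this ⊢
      linarith
    have a2 : 0 ≤ C₁ * C₂ := mul_nonneg h1 h2
    calc C₁ * u * (C₂ * (V + B)) = C₁ * C₂ * (V * u) + C₁ * C₂ * (u * B) := by ring
      _ ≤ C₁ * C₂ * (V * u) + C₁ * C₂ * (C₄ * (V * u) + e) := by gcongr
      _ = _ := by ring
  have x2 : C₁ * B = C₁ * C₄ * (V * u) + C₁ * e := by rw [hB]; ring
  have x3 : (M + 1) * (C₃ * u * V + C₃ * B) = (M + 1) * C₃ * (V * u) + (M + 1) * C₃ * C₄ * (V * u) + (M + 1) * C₃ * e := by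
    rw [hB]; ring
  have x4 : cc * u * (Λ * V) = cc * Λ * (V * u) := by ring
  rw [x2, x3, x4]
  have p1 : 0 ≤ C₁ * C₂ * C₄ * e := by positivity
  have p2 : 0 ≤ C₁ * C₄ * e := by positivity
  have p3 : 0 ≤ (M + 1) * C₃ * C₄ * e := by positivity
  have p5 : 0 ≤ C₁ * (V * u) := by positivity
  have p4 : 0 ≤ cc * Λ * e := by positivity
  nlinarith [x1]

/-! ## 3. The read-out derivatives in terms of `V`; (4.10), (4.8), (4.11) -/

/-- all inputs of the two read-out estimates, with one constant -/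
theorem p41_read_inputs (p : Par) : ∃ (A c : ℝ) (Nm : ℕ), 0 ≤ A ∧ 0 < c ∧ ∀ (s N : ℕ) (H : Hist), Good p s H N → Nm ≤ N →
    ∀ i : ℕ, N ≤ 2 * (H.j0 + i) → 2 * (H.j0 + i) ≤ 5 * N →
      ‖gV H i - (H.kV (H.j0 + i) : ℂ) * (dts H (H.j0 + i) i).1.1‖
        ≤ A * (1 / ((H.j0 + i : ℕ) : ℝ)) * ‖(dts H (H.j0 + i) i).1‖ + A * dT H (H.j0 + i) i ∧
      ‖gP H i - (H.kP (H.j0 + i) : ℂ) * (dts H (H.j0 + i) i).1.2‖
        ≤ A * (1 / ((H.j0 + i : ℕ) : ℝ)) * ‖(dts H (H.j0 + i) i).1‖ + A * dT H (H.j0 + i) i ∧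
      ‖(dts H (H.j0 + i) i).1‖ ≤ A * (Vn H i + dQ H i) ∧
      ‖(dts H (H.j0 + i) i).1.1 - Vx H i / p.κ.bs‖ ≤ A * (1 / ((H.j0 + i : ℕ) : ℝ)) * Vn H i + A * dQ H i ∧
      ‖(dts H (H.j0 + i) i).1.2 - Vy H i / Real.sqrt (p.κ.bs * p.κ.Hq)‖
        ≤ A * (1 / ((H.j0 + i : ℕ) : ℝ)) * Vn H i + A * dQ H i ∧
      dQ H i ≤ A * Vn H i * (1 / ((H.j0 + i : ℕ) : ℝ)) + Real.exp (-c * ((H.j0 + i : ℕ) : ℝ)) ∧
      dT H (H.j0 + i) i ≤ A * Vn H i * (1 / ((H.j0 + i : ℕ) : ℝ)) + Real.exp (-c * ((H.j0 + i : ℕ) : ℝ)) ∧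
      |H.kV (H.j0 + i) - 1 / Real.pi| ≤ Real.exp (-c * ((H.j0 + i : ℕ) : ℝ)) ∧
      |H.kP (H.j0 + i) - p.κ.p (H.j0 + i)| ≤ Real.exp (-c * ((H.j0 + i : ℕ) : ℝ)) := by
  obtain ⟨Cn, N1, hnear⟩ := p41_ts_near p
  obtain ⟨CV, jV, hdV⟩ := p41_drV p.κ Cn
  obtain ⟨CP, jP, hdP⟩ := p41_drP p.κ Cn
  obtain ⟨Cf, N2, hCf, hfst⟩ := p41_dts_fst p
  obtain ⟨Cs, js, hdsc⟩ := p41_dsc p.κ p.C₀
  obtain ⟨C₄, c₄, N3, hC4, hc4, hsl⟩ := p41_slaving p
  obtain ⟨ce, N4, hce, herr⟩ := p41_err_small p.κ p.κe p.c1 p.C1 p.hc1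
  set A : ℝ := |CV| + |CP| + Cf + |Cs| + C₄ with hA
  have aV : |CV| ≤ A := by rw [hA]; linarith [abs_nonneg CP, abs_nonneg Cs]
  have aP : |CP| ≤ A := by rw [hA]; linarith [abs_nonneg CV, abs_nonneg Cs]
  have af : Cf ≤ A := by rw [hA]; linarith [abs_nonneg CV, abs_nonneg CP, abs_nonneg Cs]
  have as : |Cs| ≤ A := by rw [hA]; linarith [abs_nonneg CV, abs_nonneg CP]
  have a4 : C₄ ≤ A := by rw [hA]; linarith [abs_nonneg CV, abs_nonneg CP, abs_nonneg Cs]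
  have hA0 : 0 ≤ A := le_trans (abs_nonneg _) aV
  refine ⟨A, min c₄ ce, N1 + N2 + N3 + N4 + 2 * (jV + jP + js + 1), hA0, lt_min hc4 hce, ?_⟩
  intro s N H hG hN i h1 h2
  have hin := p41_inside p s N H hG i h1 h2
  obtain ⟨vx, vy, vq, vn⟩ := p41_V_eq hG.sys.map hG.sys.entry i (fun i' h => (hin i' h.le).1)
  have hj1 : (1 : ℝ) ≤ ((H.j0 + i : ℕ) : ℝ) := by
    have : 1 ≤ H.j0 + i := by omega
    exact_mod_cast this
  have hj0 : (0 : ℝ) < ((H.j0 + i : ℕ) : ℝ) := by linarith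
  set jr : ℝ := ((H.j0 + i : ℕ) : ℝ) with hjr
  have hX : NearCritT Cn (H.j0 + i) (H.ts xyCritical (H.j0 + i) i) :=
    hnear s N H hG (by omega) (H.j0 + i) i (by omega) (by omega) le_rfl (by omega)
  have hc : NearCrit p.C₀ (H.j0 + i) (H.st xyCritical i) := hG.crit i (by omega) (by omega)
  have gv := hdV p.κe s H hG.sys.read (H.j0 + i) (Nat.le_add_right _ _) (by omega) _ hX (dts H (H.j0 + i) i)
  have gp := hdP p.κe s H hG.sys.read (H.j0 + i) (Nat.le_add_right _ _) (by omega) _ hX (dts H (H.j0 + i) i)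
  have hf := hfst s N H hG (by omega) (H.j0 + i) i (H.j0 + i) rfl (by omega) (by omega)
  obtain ⟨s1, s2⟩ := hdsc H hG.sys.map (H.j0 + i) (Nat.le_add_right _ _) (by omega) _ hc (dst H i)
  obtain ⟨q1, q2⟩ := hsl s N H hG (by omega) i (H.j0 + i) rfl h1 h2
  have q3 := q2 (H.j0 + i) le_rfl (by omega)
  obtain ⟨_, k1, k2⟩ := herr s N (H.j0 + i) (by omega) hG.size.1 hG.size.2 h1 h2
  have hVn0 : 0 ≤ Vn H i := le_max_of_le_left (norm_nonneg _)
  have hQ0 : 0 ≤ dQ H i := norm_nonneg _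
  have hT0 : 0 ≤ dT H (H.j0 + i) i := norm_nonneg _
  have hu0 : 0 ≤ 1 / jr := by positivity
  have ex4 : Real.exp (-c₄ * jr) ≤ Real.exp (-(min c₄ ce) * jr) := by
    apply Real.exp_le_exp.2
    have : min c₄ ce ≤ c₄ := min_le_left _ _
    nlinarith
  have exe : Real.exp (-ce * jr) ≤ Real.exp (-(min c₄ ce) * jr) := by
    apply Real.exp_le_exp.2
    have : min c₄ ce ≤ ce := min_le_right _ _
    nlinarith
  have gen : ∀ (C x y : ℝ), |C| ≤ A → 0 ≤ x → 0 ≤ y → C / jr * x + C * y ≤ A * (1 / jr) * x + A * y := by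
    intro C x y hC hx hy
    have c1 : C ≤ A := (le_abs_self C).trans hC
    have e1 : C / jr * x = C * ((1 / jr) * x) := by ring
    have e2 : A * (1 / jr) * x = A * ((1 / jr) * x) := by ring
    rw [e1, e2]
    have : 0 ≤ (1 / jr) * x := mul_nonneg hu0 hx
    gcongr
  have sl : ∀ x : ℝ, x ≤ C₄ * Vn H i / jr + Real.exp (-c₄ * jr) →
      x ≤ A * Vn H i * (1 / jr) + Real.exp (-(min c₄ ce) * jr) := by
    intro x hx
    refine hx.trans (add_le_add ?_ ex4)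
    rw [mul_one_div]
    gcongr
  refine ⟨gv.trans (gen CV _ _ aV (norm_nonneg _) (norm_nonneg _)), gp.trans (gen CP _ _ aP (norm_nonneg _) (norm_nonneg _)),
    hf.trans (by gcongr), ?_, ?_, sl _ q1, sl _ q3, ?_, ?_⟩
  · rw [vx, vn, vq]
    exact s1.trans (gen Cs _ _ as (cau_wn_nonneg _) (norm_nonneg _))
  · rw [vy, vn, vq]
    exact s2.trans (gen Cs _ _ as (cau_wn_nonneg _) (norm_nonneg _))
  · exact ((hG.sys.read.kV_bd (H.j0 + i) (Nat.le_add_right _ _)).trans k1).trans exe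
  · exact ((hG.sys.read.kP_bd (H.j0 + i) (Nat.le_add_right _ _)).trans k2).trans exe

/-- the constant of `p41_read_arith` for `C₁ = C₂ = C₃ = C₄ = A` -/
def readK (A M Λ cc : ℝ) : ℝ :=
  A * A + A * A * A + A * A + (M + 1) * A + (M + 1) * A * A + cc * Λ + A + 1

theorem p41_readK_nonneg {A M Λ cc : ℝ} (hA : 0 ≤ A) (hM : 0 ≤ M) (hΛ : 0 ≤ Λ) (hcc : 0 ≤ cc) : 0 ≤ readK A M Λ cc := by
  unfold readK
  positivity

theorem p41_gV_est (p : Par) : ∃ (C c : ℝ) (Nm : ℕ), 0 ≤ C ∧ 0 < c ∧ ∀ (s N : ℕ) (H : Hist), Good p s H N → Nm ≤ N →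
    ∀ i j : ℕ, j = H.j0 + i → N ≤ 2 * j → 2 * j ≤ 5 * N →
      ‖gV H i - Vx H i / (Real.pi * p.κ.bs)‖ ≤ C * Vn H i / (j : ℝ) + Real.exp (-c * j) := by
  obtain ⟨A, c, N1, hA, hc, hin⟩ := p41_read_inputs p
  have hbs := p.κ.bs_pos
  have hK : 0 ≤ readK A 1 (1 / p.κ.bs) (1 / c) := p41_readK_nonneg hA zero_le_one (by positivity) (by positivity)
  obtain ⟨jm, habs⟩ := p41_abs_exp (readK A 1 (1 / p.κ.bs) (1 / c)) c hc
  refine ⟨readK A 1 (1 / p.κ.bs) (1 / c), c / 2, N1 + 2 * (jm + 1), hK, by positivity, ?_⟩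
  intro s N H hG hN i j hj h1 h2
  subst hj
  obtain ⟨gv, _, hf, s1, _, q1, q3, k1, _⟩ := hin s N H hG (by omega) i h1 h2
  have hj1 : (1 : ℝ) ≤ ((H.j0 + i : ℕ) : ℝ) := by
    have : 1 ≤ H.j0 + i := by omega
    exact_mod_cast this
  have hj0 : (0 : ℝ) < ((H.j0 + i : ℕ) : ℝ) := by linarith
  set jr : ℝ := ((H.j0 + i : ℕ) : ℝ) with hjr
  have hVn0 : 0 ≤ Vn H i := le_max_of_le_left (norm_nonneg _)
  have hw : ‖Vx H i / (p.κ.bs : ℂ)‖ ≤ 1 / p.κ.bs * Vn H i := by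
    rw [norm_div, Complex.norm_real, Real.norm_of_nonneg hbs.le, div_eq_mul_one_div, mul_comm]
    gcongr
    exact le_max_left _ _
  have he' : Real.exp (-c * jr) ≤ 1 / c * (1 / jr) := by
    have := p41_exp_le_inv (x := c * jr) (by positivity)
    rw [neg_mul]
    refine this.trans (le_of_eq ?_)
    field_simp
  have he1 : Real.exp (-c * jr) ≤ 1 := by
    apply Real.exp_le_one_iff.2
    nlinarith
  have hm : |1 / Real.pi| ≤ 1 := by
    rw [abs_of_nonneg (by positivity), div_le_one Real.pi_pos]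
    linarith [Real.pi_gt_three]
  have main := p41_read_arith gv hf s1 hw k1 he' he1 hm q1 q3 (by positivity) (by rw [div_le_one hj0]; exact hj1)
    hVn0 (Real.exp_pos _).le hA hA hA hA (by positivity) (by positivity)
  have e : ((1 / Real.pi : ℝ) : ℂ) * (Vx H i / (p.κ.bs : ℂ)) = Vx H i / (Real.pi * p.κ.bs) := by
    push_cast
    rw [div_mul_div_comm, one_mul]
  rw [e] at main
  refine main.trans (add_le_add (le_of_eq ?_) (habs (H.j0 + i) (by omega)))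
  unfold readK
  rw [mul_one_div]

theorem p41_gP_est (p : Par) : ∃ (C c : ℝ) (Nm : ℕ), 0 ≤ C ∧ 0 < c ∧ ∀ (s N : ℕ) (H : Hist), Good p s H N → Nm ≤ N →
    ∀ i j : ℕ, j = H.j0 + i → N ≤ 2 * j → 2 * j ≤ 5 * N →
      ‖gP H i - p.κ.p j / Real.sqrt (p.κ.bs * p.κ.Hq) * Vy H i‖ ≤ C * Vn H i / (j : ℝ) + Real.exp (-c * j) := by
  obtain ⟨A, c, N1, hA, hc, hin⟩ := p41_read_inputs p
  have hbs := p.κ.bs_pos
  have hsq : 0 < Real.sqrt (p.κ.bs * p.κ.Hq) := Real.sqrt_pos.2 (mul_pos hbs p.κ.hH)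
  have hC0 : 0 ≤ p.κ.C := le_trans zero_le_one p.κ.hC
  have hK : 0 ≤ readK A p.κ.C (1 / Real.sqrt (p.κ.bs * p.κ.Hq)) (1 / c) :=
    p41_readK_nonneg hA hC0 (by positivity) (by positivity)
  obtain ⟨jm, habs⟩ := p41_abs_exp (readK A p.κ.C (1 / Real.sqrt (p.κ.bs * p.κ.Hq)) (1 / c)) c hc
  refine ⟨readK A p.κ.C (1 / Real.sqrt (p.κ.bs * p.κ.Hq)) (1 / c), c / 2, N1 + 2 * (jm + 1), hK, by positivity, ?_⟩
  intro s N H hG hN i j hj h1 h2
  subst hj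
  obtain ⟨_, gp, hf, _, s2, q1, q3, _, k2⟩ := hin s N H hG (by omega) i h1 h2
  have hj1 : (1 : ℝ) ≤ ((H.j0 + i : ℕ) : ℝ) := by
    have : 1 ≤ H.j0 + i := by omega
    exact_mod_cast this
  have hj0 : (0 : ℝ) < ((H.j0 + i : ℕ) : ℝ) := by linarith
  set jr : ℝ := ((H.j0 + i : ℕ) : ℝ) with hjr
  have hVn0 : 0 ≤ Vn H i := le_max_of_le_left (norm_nonneg _)
  have hw : ‖Vy H i / (Real.sqrt (p.κ.bs * p.κ.Hq) : ℂ)‖ ≤ 1 / Real.sqrt (p.κ.bs * p.κ.Hq) * Vn H i := by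
    rw [norm_div, Complex.norm_real, Real.norm_of_nonneg hsq.le, div_eq_mul_one_div, mul_comm]
    gcongr
    exact le_max_right _ _
  have he' : Real.exp (-c * jr) ≤ 1 / c * (1 / jr) := by
    have := p41_exp_le_inv (x := c * jr) (by positivity)
    rw [neg_mul]
    refine this.trans (le_of_eq ?_)
    field_simp
  have he1 : Real.exp (-c * jr) ≤ 1 := by
    apply Real.exp_le_one_iff.2
    nlinarith
  have hm : |p.κ.p (H.j0 + i)| ≤ p.κ.C := by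
    obtain ⟨a, b⟩ := p.κ.hp (H.j0 + i)
    rw [abs_of_nonneg (le_trans p.κ.hc.le a)]
    exact b
  have main := p41_read_arith gp hf s2 hw k2 he' he1 hm q1 q3 (by positivity) (by rw [div_le_one hj0]; exact hj1)
    hVn0 (Real.exp_pos _).le hA hA hA hA (by positivity) (by positivity)
  have e : ((p.κ.p (H.j0 + i) : ℝ) : ℂ) * (Vy H i / (Real.sqrt (p.κ.bs * p.κ.Hq) : ℂ))
      = p.κ.p (H.j0 + i) / Real.sqrt (p.κ.bs * p.κ.Hq) * Vy H i := by ring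
  rw [e] at main
  refine main.trans (add_le_add (le_of_eq ?_) (habs (H.j0 + i) (by omega)))
  unfold readK
  rw [mul_one_div]

/-- two exponentials into one -/
theorem p41_two_exp (c c' : ℝ) (hc : 0 < c) (hc' : 0 < c') : ∃ jm : ℕ, ∀ j : ℕ, jm ≤ j →
    Real.exp (-c * j) + Real.exp (-c' * j) ≤ Real.exp (-(min c c' / 2) * j) := by
  obtain ⟨jm, h⟩ := p41_abs_exp 2 (min c c') (lt_min hc hc')
  refine ⟨jm, fun j hj => le_trans ?_ (h j hj)⟩
  have hj0 : (0 : ℝ) ≤ j := Nat.cast_nonneg _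
  have a1 : Real.exp (-c * j) ≤ Real.exp (-(min c c') * j) := by
    apply Real.exp_le_exp.2
    have : min c c' ≤ c := min_le_left _ _
    nlinarith
  have a2 : Real.exp (-c' * j) ≤ Real.exp (-(min c c') * j) := by
    apply Real.exp_le_exp.2
    have : min c c' ≤ c' := min_le_right _ _
    nlinarith
  linarith

theorem p41_read (p : Par) : ∃ (C c : ℝ) (Nm : ℕ), 0 ≤ C ∧ 0 < c ∧ ∀ (s N : ℕ) (H : Hist), Good p s H N → Nm ≤ N →
    ∀ i j : ℕ, j = H.j0 + i → N ≤ 2 * j → 2 * j ≤ 5 * N →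
      ‖(physV p.κ j : ℂ) - Vx H i / (Real.pi * p.κ.bs)‖ ≤ C * Vn H i / (j : ℝ) + Real.exp (-c * j) ∧
      ‖(physP p.κ j : ℂ) - p.κ.p j / Real.sqrt (p.κ.bs * p.κ.Hq) * Vy H i‖ ≤ C * Vn H i / (j : ℝ) + Real.exp (-c * j) := by
  obtain ⟨c0, N0, hc0, hph⟩ := p41_phys p
  obtain ⟨CV, cV, NV, hCV, hcV, hV⟩ := p41_gV_est p
  obtain ⟨CP, cP, NP, hCP, hcP, hP⟩ := p41_gP_est p
  have hcm : 0 < min cV cP := lt_min hcV hcP
  obtain ⟨jm, hjm⟩ := p41_two_exp c0 (min cV cP) hc0 hcm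
  refine ⟨CV + CP, min c0 (min cV cP) / 2, N0 + NV + NP + 2 * (jm + 1), by positivity,
    half_pos (lt_min hc0 hcm), ?_⟩
  intro s N H hG hN i j hj h1 h2
  obtain ⟨a1, a2⟩ := hph s N H hG (by omega) i j hj h1 h2
  have b1 := hV s N H hG (by omega) i j hj h1 h2
  have b2 := hP s N H hG (by omega) i j hj h1 h2
  have hx := hjm j (by omega)
  have hj0 : (0 : ℝ) ≤ j := Nat.cast_nonneg _
  have hVn0 : 0 ≤ Vn H i := le_max_of_le_left (norm_nonneg _)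
  have eV : Real.exp (-cV * j) ≤ Real.exp (-(min cV cP) * j) := by
    apply Real.exp_le_exp.2
    have : min cV cP ≤ cV := min_le_left _ _
    nlinarith
  have eP : Real.exp (-cP * j) ≤ Real.exp (-(min cV cP) * j) := by
    apply Real.exp_le_exp.2
    have : min cV cP ≤ cP := min_le_right _ _
    nlinarith
  have d1 : CV * Vn H i / (j : ℝ) ≤ (CV + CP) * Vn H i / (j : ℝ) := by
    apply div_le_div_of_nonneg_right _ hj0
    nlinarith
  have d2 : CP * Vn H i / (j : ℝ) ≤ (CV + CP) * Vn H i / (j : ℝ) := by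
    apply div_le_div_of_nonneg_right _ hj0
    nlinarith
  constructor
  · have := norm_sub_le_norm_sub_add_norm_sub (physV p.κ j : ℂ) (gV H i) (Vx H i / (Real.pi * p.κ.bs))
    linarith
  · have := norm_sub_le_norm_sub_add_norm_sub (physP p.κ j : ℂ) (gP H i)
      (p.κ.p j / Real.sqrt (p.κ.bs * p.κ.Hq) * Vy H i)
    linarith

/-- `0 < cosCost n ≤ 1/32` for `n ≥ 2` -/
theorem p41_cosCost (n : ℕ) (hn : 2 ≤ n) : 0 < cosCost n ∧ cosCost n ≤ 1 / 32 := by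
  have hn2 : (2 : ℝ) ≤ n := by exact_mod_cast hn
  have hn0 : (0 : ℝ) < n := by linarith
  have hx0 : 0 ≤ Real.pi / n := by positivity
  have hx1 : Real.pi / n ≤ Real.pi / 2 := by
    apply div_le_div_of_nonneg_left Real.pi_pos.le (by norm_num) hn2
  have h1 := Real.mul_le_sin hx0 hx1
  have e1 : 2 / Real.pi * (Real.pi / n) = 2 / n := by
    field_simp
  rw [e1] at h1
  have h2 : 0 < 2 / (n : ℝ) := by positivity
  have h3 : (2 / (n : ℝ)) ^ 2 ≤ Real.sin (Real.pi / n) ^ 2 := by gcongr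
  have h4 : 4 ≤ (n : ℝ) ^ 2 * Real.sin (Real.pi / n) ^ 2 := by
    have : (n : ℝ) ^ 2 * (2 / (n : ℝ)) ^ 2 = 4 := by
      field_simp
      norm_num
    calc (4 : ℝ) = (n : ℝ) ^ 2 * (2 / (n : ℝ)) ^ 2 := this.symm
      _ ≤ _ := by gcongr
  have h5 : 32 ≤ 8 * (n : ℝ) ^ 2 * Real.sin (Real.pi / n) ^ 2 := by nlinarith
  unfold cosCost
  constructor
  · apply div_pos one_pos
    linarith
  · exact one_div_le_one_div_of_le (by norm_num) h5

theorem p41_phys_lower : ∃ c : ℝ, 0 < c ∧ ∀ᶠ n : ℕ in atTop, c ≤ deriv (fun b : ℝ => torVar b n) xyCritical := by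
  have hb := xy_critical_pos
  have hpi := Real.pi_pos
  refine ⟨(1 / (2 * Real.pi)) ^ 2 / (4 * Real.pi ^ 2 * xyCritical ^ 2 * (1 / 32)), by positivity, ?_⟩
  have hlt : 1 / (2 * Real.pi) < 1 / Real.pi := by
    apply one_div_lt_one_div_of_lt hpi
    linarith
  filter_upwards [L54.tor_crit_var'.eventually (lt_mem_nhds hlt), eventually_ge_atTop 3] with n h1 h2
  obtain ⟨c0, c1⟩ := p41_cosCost n (by omega)
  refine le_trans ?_ (tor_response_lower n h2 xyCritical hb)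
  have h3 : (1 / (2 * Real.pi)) ^ 2 ≤ torVar xyCritical n ^ 2 := by
    have : 0 ≤ 1 / (2 * Real.pi) := by positivity
    gcongr
  apply div_le_div₀ (by positivity) h3 (by positivity)
  gcongr

theorem p41_lower (p : Par) : ∃ (c : ℝ) (Nm : ℕ), 0 < c ∧ ∀ (s N : ℕ) (H : Hist), Good p s H N → Nm ≤ N →
    ∀ i j : ℕ, j = H.j0 + i → N ≤ 2 * j → 2 * j ≤ 5 * N → c ≤ Vn H i := by
  obtain ⟨c0, hc0, hlow⟩ := p41_phys_lower
  obtain ⟨C, c, N1, hC, hc, hread⟩ := p41_read p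
  have hbs := p.κ.bs_pos
  have hpi := Real.pi_pos
  obtain ⟨j1, hj1⟩ := eventually_atTop.1 ((p41_n_tendsto p.κ).eventually hlow)
  -- `exp (-c j) ≤ c0 / 2` for large `j`
  obtain ⟨j2, hj2⟩ := p41_abs_exp (2 / c0) c hc
  set D : ℝ := 1 / (Real.pi * p.κ.bs) + C with hD
  have hD0 : 0 < D := by positivity
  refine ⟨c0 / 2 / D, N1 + 2 * (j1 + j2 + 1), by positivity, ?_⟩
  intro s N H hG hN i j hj h1 h2
  obtain ⟨r1, _⟩ := hread s N H hG (by omega) i j hj h1 h2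
  have l1 : c0 ≤ physV p.κ j := hj1 j (by omega)
  have hjr1 : (1 : ℝ) ≤ j := by
    have : 1 ≤ j := by omega
    exact_mod_cast this
  have hVn0 : 0 ≤ Vn H i := le_max_of_le_left (norm_nonneg _)
  have e1 : Real.exp (-c * j) ≤ c0 / 2 := by
    have a := hj2 j (by omega)
    have b : Real.exp (-(c / 2) * j) ≤ 1 := by
      apply Real.exp_le_one_iff.2
      nlinarith
    have a' : 2 / c0 * Real.exp (-c * j) ≤ 1 := a.trans b
    rw [div_mul_eq_mul_div, div_le_one hc0] at a'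
    linarith
  have n1 : physV p.κ j ≤ ‖(physV p.κ j : ℂ)‖ := by
    rw [Complex.norm_real]
    exact le_abs_self _
  have n2 : ‖(physV p.κ j : ℂ)‖ ≤ ‖(physV p.κ j : ℂ) - Vx H i / (Real.pi * p.κ.bs)‖ + ‖Vx H i / (Real.pi * p.κ.bs)‖ := by
    have := norm_add_le ((physV p.κ j : ℂ) - Vx H i / (Real.pi * p.κ.bs)) (Vx H i / (Real.pi * p.κ.bs))
    simpa using this
  have n3 : ‖Vx H i / ((Real.pi : ℂ) * p.κ.bs)‖ ≤ 1 / (Real.pi * p.κ.bs) * Vn H i := by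
    rw [norm_div, norm_mul, Complex.norm_real, Complex.norm_real, Real.norm_of_nonneg hbs.le, Real.norm_of_nonneg hpi.le,
      div_eq_mul_one_div, mul_comm]
    gcongr
    exact le_max_left _ _
  have n4 : C * Vn H i / (j : ℝ) ≤ C * Vn H i := div_le_self (by positivity) hjr1
  have fin : c0 / 2 ≤ D * Vn H i := by
    rw [hD, add_mul]
    linarith
  rw [div_le_iff₀ hD0, mul_comm]
  exact fin

theorem p41_overlap (p : Par) : ∃ (C : ℝ) (Nm : ℕ), 0 ≤ C ∧ ∀ (s N : ℕ) (H : Hist) (s' N' : ℕ) (H' : Hist),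
    Good p s H N → Good p s' H' N' → Nm ≤ N → Nm ≤ N' →
    ∀ i i' j : ℕ, j = H.j0 + i → j = H'.j0 + i' → N ≤ 2 * j → 2 * j ≤ 5 * N → N' ≤ 2 * j → 2 * j ≤ 5 * N' →
      ‖Vx H i - Vx H' i'‖ ≤ C / (j : ℝ) * (Vn H i + Vn H' i') ∧
      ‖Vy H i - Vy H' i'‖ ≤ C / (j : ℝ) * (Vn H i + Vn H' i') := by
  obtain ⟨C, c, N1, hC, hc, hread⟩ := p41_read p
  obtain ⟨c5, N2, hc5, hlow⟩ := p41_lower p
  have hbs := p.κ.bs_pos
  have hpi := Real.pi_pos
  have hsq : 0 < Real.sqrt (p.κ.bs * p.κ.Hq) := Real.sqrt_pos.2 (mul_pos hbs p.κ.hH)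
  have hκc := p.κ.hc
  set D : ℝ := C + 1 / (c * c5) with hD
  have hD0 : 0 ≤ D := by positivity
  set M : ℝ := Real.pi * p.κ.bs + Real.sqrt (p.κ.bs * p.κ.Hq) / p.κ.c with hM
  have hM0 : 0 ≤ M := by positivity
  refine ⟨M * D, N1 + N2 + 2, by positivity, ?_⟩
  intro s N H s' N' H' hG hG' hN hN' i i' j hj hj' h1 h2 h1' h2'
  obtain ⟨r1, r2⟩ := hread s N H hG (by omega) i j hj h1 h2
  obtain ⟨r1', r2'⟩ := hread s' N' H' hG' (by omega) i' j hj' h1' h2'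
  have l := hlow s N H hG (by omega) i j hj h1 h2
  have l' := hlow s' N' H' hG' (by omega) i' j hj' h1' h2'
  have hjr1 : (1 : ℝ) ≤ j := by
    have : 1 ≤ j := by omega
    exact_mod_cast this
  have hj0 : (0 : ℝ) < j := by linarith
  -- `exp (-c j) ≤ V / (c c5 j)`
  have ex : ∀ V : ℝ, c5 ≤ V → C * V / (j : ℝ) + Real.exp (-c * j) ≤ D / (j : ℝ) * V := by
    intro V hV
    have a := p41_exp_le_inv (x := c * j) (by positivity)
    rw [← neg_mul] at a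
    have b : 1 / (c * (j : ℝ)) ≤ 1 / (c * c5) / (j : ℝ) * V := by
      have e : 1 / (c * c5) / (j : ℝ) * V = 1 / (c * (j : ℝ)) * (V / c5) := by field_simp
      rw [e]
      have : 1 ≤ V / c5 := by rw [le_div_iff₀ hc5]; linarith
      have h0 : 0 ≤ 1 / (c * (j : ℝ)) := by positivity
      nlinarith
    have e2 : D / (j : ℝ) * V = C * V / (j : ℝ) + 1 / (c * c5) / (j : ℝ) * V := by
      rw [hD]; ring
    rw [e2]
    linarith
  have R1 := r1.trans (ex _ l)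
  have R2 := r2.trans (ex _ l)
  have R1' := r1'.trans (ex _ l')
  have R2' := r2'.trans (ex _ l')
  have hS : 0 ≤ D / (j : ℝ) * (Vn H i + Vn H' i') := by
    have : 0 ≤ Vn H i + Vn H' i' := by linarith
    positivity
  have fin : ∀ m : ℝ, 0 ≤ m → m ≤ M → m * (D / (j : ℝ) * (Vn H i + Vn H' i')) ≤ M * D / (j : ℝ) * (Vn H i + Vn H' i') := by
    intro m _ hm
    have : M * D / (j : ℝ) * (Vn H i + Vn H' i') = M * (D / (j : ℝ) * (Vn H i + Vn H' i')) := by ring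
    rw [this]
    gcongr
  constructor
  · have t : ‖Vx H i / ((Real.pi : ℂ) * p.κ.bs) - Vx H' i' / ((Real.pi : ℂ) * p.κ.bs)‖
        ≤ D / (j : ℝ) * (Vn H i + Vn H' i') := by
      have := norm_sub_le_norm_sub_add_norm_sub (Vx H i / ((Real.pi : ℂ) * p.κ.bs)) (physV p.κ j : ℂ)
        (Vx H' i' / ((Real.pi : ℂ) * p.κ.bs))
      rw [norm_sub_rev (Vx H i / ((Real.pi : ℂ) * p.κ.bs)) (physV p.κ j : ℂ)] at this
      rw [mul_add]
      linarith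
    have hne1 : (Real.pi : ℂ) ≠ 0 := by exact_mod_cast hpi.ne'
    have hne2 : (p.κ.bs : ℂ) ≠ 0 := by exact_mod_cast hbs.ne'
    have e : Vx H i - Vx H' i' = ((Real.pi * p.κ.bs : ℝ) : ℂ) *
        (Vx H i / ((Real.pi : ℂ) * p.κ.bs) - Vx H' i' / ((Real.pi : ℂ) * p.κ.bs)) := by
      push_cast
      field_simp
    rw [e, norm_mul, Complex.norm_real, Real.norm_of_nonneg (by positivity)]
    refine le_trans (mul_le_mul_of_nonneg_left t (by positivity)) (fin _ (by positivity) ?_)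
    rw [hM]
    have : 0 ≤ Real.sqrt (p.κ.bs * p.κ.Hq) / p.κ.c := by positivity
    linarith
  · obtain ⟨pa, _⟩ := p.κ.hp j
    have hp0 : 0 < p.κ.p j := lt_of_lt_of_le hκc pa
    set μ : ℝ := p.κ.p j / Real.sqrt (p.κ.bs * p.κ.Hq) with hμ
    have hμ0 : 0 < μ := by positivity
    have cast : ((p.κ.p j : ℝ) : ℂ) / (Real.sqrt (p.κ.bs * p.κ.Hq) : ℂ) = (μ : ℂ) := by
      rw [hμ]; push_cast; rfl
    rw [cast] at R2 R2'
    have t : ‖(μ : ℂ) * Vy H i - (μ : ℂ) * Vy H' i'‖ ≤ D / (j : ℝ) * (Vn H i + Vn H' i') := by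
      have := norm_sub_le_norm_sub_add_norm_sub ((μ : ℂ) * Vy H i) (physP p.κ j : ℂ) ((μ : ℂ) * Vy H' i')
      rw [norm_sub_rev ((μ : ℂ) * Vy H i) (physP p.κ j : ℂ)] at this
      rw [mul_add]
      linarith
    have hne : (μ : ℂ) ≠ 0 := by exact_mod_cast hμ0.ne'
    have e : Vy H i - Vy H' i' = ((1 / μ : ℝ) : ℂ) * ((μ : ℂ) * Vy H i - (μ : ℂ) * Vy H' i') := by
      push_cast
      field_simp
    rw [e, norm_mul, Complex.norm_real, Real.norm_of_nonneg (by positivity)]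
    refine le_trans (mul_le_mul_of_nonneg_left t (by positivity)) (fin _ (by positivity) ?_)
    have e3 : 1 / μ = Real.sqrt (p.κ.bs * p.κ.Hq) / p.κ.p j := by
      rw [hμ]; field_simp
    rw [e3, hM]
    have a1 : Real.sqrt (p.κ.bs * p.κ.Hq) / p.κ.p j ≤ Real.sqrt (p.κ.bs * p.κ.Hq) / p.κ.c :=
      div_le_div_of_nonneg_left hsq.le hκc pa
    have : 0 ≤ Real.pi * p.κ.bs := by positivity
    linarith

end

end Claimed.Agent.R285.E4
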