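import Claimed.Agent.R285.E4.Cauchy
import Claimed.Agent.R285.Flow.CauchyHist

/-!
# ROW 285, [E] P4.1, layer STEP: derivatives of ONE map at ONE point   (helper103; prefix `p41_`).   ALL PROVED.

Everything here is a corollary of helper90's package `Flow/Cauchy*.lean` (`Maj.dbd`, `Maj2.dbd`, rows `fderiv_N_x`, ..., `cau_tube`) + real arithmetic in `u = 1 / j`.
No histories, no temperature.  `j` is the absolute index.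
* `Tube κ ρt`, `p41_tube`: in the tube `‖DN‖ ≤ e^γ`, `‖D sc‖ ≤ C`, `‖DΨ ξ‖ ≤ th1 ‖ξ.2‖ + C ‖ξ.1‖`;
* `NearCrit C₀ j Y` (= `CritAt`), `NearCritT C₀ j X`; `p41_near_dbd`: all block bounds at such a point, Cauchy radii `1 / j`;
* rows `p41_dN_x`, `p41_dN_y`, `p41_dN_q` ((4.3), (4.4)), `p41_sc_near`, `p41_dsc`, `p41_dPsi`, `p41_drV`, `p41_drP`.
-/

set_option autoImplicit false
set_option linter.unusedVariables false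

namespace Claimed.Agent.R285.E4

open Filter Topology Claims.C0459
open Claimed.Agent.R285.Flow

noncomputable section

/-- the critical asymptotics (3.20) for a plane state at the absolute index `j` -/
def NearCrit {E : Type} [NormedAddCommGroup E] (C₀ : ℝ) (j : ℕ) (Y : ℂ × ℂ × E) : Prop :=
  ‖Y.1 - 1 / (j : ℂ)‖ ≤ C₀ * Real.log (2 + j) / (j : ℝ) ^ 2 ∧
  ‖Y.2.1 - 1 / (j : ℂ)‖ ≤ C₀ * Real.log (2 + j) / (j : ℝ) ^ 2 ∧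
  ‖Y.2.2‖ ≤ C₀ / (j : ℝ) ^ 2

theorem p41_critAt_iff (H : Hist) (C : ℝ) (i : ℕ) :
    CritAt H C i ↔ NearCrit C (H.j0 + i) (H.st xyCritical i) := Iff.rfl

theorem p41_th1 (κ : MapC) : κ.θ < th1 κ ∧ th1 κ < rr κ ∧ rr κ < 1 ∧ 0 < gam κ ∧ gam κ ≤ -Real.log (rr κ) / 101 := by
  have h0 := κ.hθ0
  have h1 := κ.hθ
  have a1 : κ.θ < th1 κ := by unfold th1; linarith
  have a2 : th1 κ < 1 := by unfold th1; linarith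
  have a3 : th1 κ < rr κ := by unfold rr; linarith
  have a4 : rr κ < 1 := by unfold rr; linarith
  have a5 : 0 < rr κ := by linarith
  have hl : 0 < -Real.log (rr κ) := by have := Real.log_neg a5 a4; linarith
  have hL : 0 < Real.log κ.L := Real.log_pos (by exact_mod_cast (lt_of_lt_of_le one_lt_two κ.hL))
  have hCs : 0 < Cs κ := by unfold Cs; positivity
  refine ⟨a1, a3, a4, ?_, min_le_right _ _⟩
  unfold gam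
  exact lt_min (by positivity) (by positivity)

theorem p41_log_div : Tendsto (fun j : ℕ => Real.log (2 + j) / (j : ℝ)) atTop (𝓝 0) := by
  have h := Real.tendsto_pow_log_div_mul_add_atTop 1 (-2) 1 one_ne_zero
  have h2 : Tendsto (fun j : ℕ => (2 : ℝ) + j) atTop atTop :=
    tendsto_atTop_add_const_left _ _ tendsto_natCast_atTop_atTop
  have h3 := h.comp h2
  refine h3.congr ?_
  intro j
  simp only [Function.comp, pow_one]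
  congr 1
  ring

theorem p41_near_size (ρ C₀ : ℝ) (hρ : 0 < ρ) : ∃ jm : ℕ, 1 ≤ jm ∧ ∀ j : ℕ, jm ≤ j →
    C₀ * Real.log (2 + j) / (j : ℝ) ^ 2 ≤ 1 / (j : ℝ) ∧ C₀ / (j : ℝ) ^ 2 ≤ 1 / (j : ℝ) ∧ 4 / (j : ℝ) < ρ := by
  have h1 : ∀ᶠ j : ℕ in atTop, C₀ * (Real.log (2 + j) / (j : ℝ)) < 1 := by
    have := p41_log_div.const_mul C₀
    rw [mul_zero] at this
    exact this.eventually (gt_mem_nhds one_pos)
  have h2 : ∀ᶠ j : ℕ in atTop, C₀ / (j : ℝ) < 1 :=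
    (tendsto_const_div_atTop_nhds_zero_nat C₀).eventually (gt_mem_nhds one_pos)
  have h3 : ∀ᶠ j : ℕ in atTop, 4 / (j : ℝ) < ρ :=
    (tendsto_const_div_atTop_nhds_zero_nat 4).eventually (gt_mem_nhds hρ)
  obtain ⟨jm, hjm⟩ := eventually_atTop.1 (h1.and (h2.and h3))
  refine ⟨max jm 1, le_max_right _ _, fun j hj => ?_⟩
  obtain ⟨a1, a2, a3⟩ := hjm j (le_trans (le_max_left _ _) hj)
  have hj1 : (0 : ℝ) < j := by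
    have : 1 ≤ j := le_trans (le_max_right _ _) hj
    exact_mod_cast this
  refine ⟨?_, ?_, a3⟩
  · have : C₀ * Real.log (2 + j) / (j : ℝ) ^ 2 = C₀ * (Real.log (2 + j) / (j : ℝ)) * (1 / (j : ℝ)) := by
      field_simp
    rw [this]
    calc C₀ * (Real.log (2 + j) / (j : ℝ)) * (1 / (j : ℝ)) ≤ 1 * (1 / (j : ℝ)) := by gcongr
      _ = 1 / (j : ℝ) := one_mul _
  · have : C₀ / (j : ℝ) ^ 2 = C₀ / (j : ℝ) * (1 / (j : ℝ)) := by field_simp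
    rw [this]
    calc C₀ / (j : ℝ) * (1 / (j : ℝ)) ≤ 1 * (1 / (j : ℝ)) := by gcongr
      _ = 1 / (j : ℝ) := one_mul _

theorem p41_near_norm (C₀ : ℝ) {E : Type} [NormedAddCommGroup E] {j : ℕ} (hj : 1 ≤ j)
    (h1 : C₀ * Real.log (2 + j) / (j : ℝ) ^ 2 ≤ 1 / (j : ℝ)) (h2 : C₀ / (j : ℝ) ^ 2 ≤ 1 / (j : ℝ))
    {Y : ℂ × ℂ × E} (hY : NearCrit C₀ j Y) : wn Y ≤ 2 / (j : ℝ) ∧ ‖Y‖ ≤ 2 / (j : ℝ) := by
  have hj1 : (0 : ℝ) < j := by exact_mod_cast hj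
  have hn : ‖(1 : ℂ) / (j : ℂ)‖ = 1 / (j : ℝ) := by
    rw [norm_div, norm_one, Complex.norm_natCast]
  have key : ∀ z : ℂ, ‖z - 1 / (j : ℂ)‖ ≤ C₀ * Real.log (2 + j) / (j : ℝ) ^ 2 → ‖z‖ ≤ 2 / (j : ℝ) := by
    intro z hz
    calc ‖z‖ = ‖(z - 1 / (j : ℂ)) + 1 / (j : ℂ)‖ := by rw [sub_add_cancel]
      _ ≤ ‖z - 1 / (j : ℂ)‖ + ‖(1 : ℂ) / (j : ℂ)‖ := norm_add_le _ _
      _ ≤ 1 / (j : ℝ) + 1 / (j : ℝ) := by rw [hn]; linarith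
      _ = 2 / (j : ℝ) := by ring
  have hw : wn Y ≤ 2 / (j : ℝ) := max_le (key _ hY.1) (key _ hY.2.1)
  refine ⟨hw, ?_⟩
  rw [Prod.norm_def, Prod.norm_def]
  refine max_le (key _ hY.1) (max_le (key _ hY.2.1) ?_)
  have : (1 : ℝ) / j ≤ 2 / j := by gcongr; norm_num
  linarith [hY.2.2]

/-- the smallness of the activity tube ([E] beginning of Section 4) -/
structure Tube (κ : MapC) (ρt : ℝ) : Prop where
  lt : ρt < κ.ρ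
  dN : ∀ (H : Hist), Flow.MapOK κ H → ∀ j, H.j0 ≤ j → ∀ Y : ℂ × ℂ × H.Q j, ‖Y‖ < ρt → ∀ ξ : ℂ × ℂ × H.Q j,
    ‖fderiv ℂ (H.N j) Y ξ‖ ≤ Real.exp (gam κ) * ‖ξ‖
  dsc : ∃ C : ℝ, ∀ (H : Hist), Flow.MapOK κ H → ∀ j, H.j0 ≤ j → ∀ Y : ℂ × ℂ × H.Q j, ‖Y‖ < ρt → ∀ ξ : ℂ × ℂ × H.Q j,
    ‖fderiv ℂ (H.sc j) Y ξ‖ ≤ C * ‖ξ‖
  dΨ : ∃ C : ℝ, ∀ (H : Hist), Flow.MapOK κ H → ∀ j h, H.j0 ≤ j → j < h → ∀ X : (ℂ × ℂ) × H.T j h, ‖X‖ < ρt →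
    ∀ ξ : (ℂ × ℂ) × H.T j h, ‖fderiv ℂ (H.Ψ j h) X ξ‖ ≤ th1 κ * ‖ξ.2‖ + C * ‖ξ.1‖

theorem p41_tube (κ : MapC) : ∃ ρt1 : ℝ, 0 < ρt1 ∧ ∀ ρt : ℝ, ρt ≤ ρt1 → Tube κ ρt := by
  obtain ⟨a1, a3, a4, hg, _⟩ := p41_th1 κ
  set e := Real.exp (gam κ) with he
  have he1 : 1 < e := Real.one_lt_exp_iff.2 hg
  set ε := min ((e - 1) / 8) ((th1 κ - κ.θ) / 4) with hεdef
  have hε : 0 < ε := lt_min (by linarith) (by linarith)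
  have hε1 : ε ≤ (e - 1) / 8 := min_le_left _ _
  have hε2 : ε ≤ (th1 κ - κ.θ) / 4 := min_le_right _ _
  obtain ⟨ρ1, hρ1, hT⟩ := cau_tube κ hε
  refine ⟨min ρ1 ((e - 1) / 8), lt_min hρ1 (by linarith), fun ρt hρt => ?_⟩
  by_cases h0 : 0 < ρt
  · have T := hT ρt h0 (le_trans hρt (min_le_left _ _))
    have hρt2 : ρt ≤ (e - 1) / 8 := le_trans hρt (min_le_right _ _)
    have hC0 : 0 ≤ κ.C := le_trans zero_le_one κ.hC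
    refine ⟨T.lt, ?_, ⟨κ.ks + 11 * κ.C, ?_⟩, ⟨ε, ?_⟩⟩
    · intro H hM j hj Y hY ξ
      have hYρ : ‖Y‖ < κ.ρ := lt_trans hY T.lt
      have n0 : 0 ≤ ‖ξ‖ := norm_nonneg _
      have nw : wn ξ ≤ ‖ξ‖ := cau_wn_le_norm ξ
      have nq : ‖ξ.2.2‖ ≤ ‖ξ‖ := cau_q_le_norm ξ
      have n1 : ‖ξ.1‖ ≤ ‖ξ‖ := le_trans (le_max_left _ _) nw
      have n2 : ‖ξ.2.1‖ ≤ ‖ξ‖ := le_trans (le_max_right _ _) nw
      have y1 : ‖Y.1‖ ≤ ρt := le_trans (le_trans (le_max_left _ _) (cau_wn_le_norm Y)) hY.le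
      have y2 : ‖Y.2.1‖ ≤ ρt := le_trans (le_trans (le_max_right _ _) (cau_wn_le_norm Y)) hY.le
      have r1 : ‖(fderiv ℂ (H.N j) Y ξ).1‖ ≤ e * ‖ξ‖ := by
        rw [hM.fderiv_N_x hj hYρ ξ]
        have hE := T.eX H hM j hj Y hY.le ξ
        have h2 : ‖2 * Y.2.1 * ξ.2.1‖ ≤ 2 * ρt * ‖ξ‖ := by
          rw [norm_mul, norm_mul]
          have : ‖(2 : ℂ)‖ = 2 := by simp
          rw [this]
          gcongr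
        calc ‖ξ.1 - 2 * Y.2.1 * ξ.2.1 + fderiv ℂ (H.eX j) Y ξ‖
            ≤ ‖ξ.1‖ + ‖2 * Y.2.1 * ξ.2.1‖ + ‖fderiv ℂ (H.eX j) Y ξ‖ :=
              (norm_add_le _ _).trans (add_le_add_left (norm_sub_le _ _) _)
          _ ≤ ‖ξ‖ + 2 * ρt * ‖ξ‖ + (ε * ‖ξ‖ + ε * ‖ξ‖) := by
              have : ε * wn ξ + ε * ‖ξ.2.2‖ ≤ ε * ‖ξ‖ + ε * ‖ξ‖ := by gcongr
              linarith
          _ = (1 + 2 * ρt + 2 * ε) * ‖ξ‖ := by ring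
          _ ≤ e * ‖ξ‖ := by
              apply mul_le_mul_of_nonneg_right _ n0
              linarith
      have r2 : ‖(fderiv ℂ (H.N j) Y ξ).2.1‖ ≤ e * ‖ξ‖ := by
        rw [hM.fderiv_N_y hj hYρ ξ]
        have hE := T.eY H hM j hj Y hY.le ξ
        have h2 : ‖ξ.1 * Y.2.1 + Y.1 * ξ.2.1‖ ≤ 2 * ρt * ‖ξ‖ := by
          calc ‖ξ.1 * Y.2.1 + Y.1 * ξ.2.1‖ ≤ ‖ξ.1‖ * ‖Y.2.1‖ + ‖Y.1‖ * ‖ξ.2.1‖ := by
                refine (norm_add_le _ _).trans ?_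
                rw [norm_mul, norm_mul]
            _ ≤ ‖ξ‖ * ρt + ρt * ‖ξ‖ := by gcongr
            _ = 2 * ρt * ‖ξ‖ := by ring
        calc ‖ξ.2.1 - (ξ.1 * Y.2.1 + Y.1 * ξ.2.1) + fderiv ℂ (H.eY j) Y ξ‖
            ≤ ‖ξ.2.1‖ + ‖ξ.1 * Y.2.1 + Y.1 * ξ.2.1‖ + ‖fderiv ℂ (H.eY j) Y ξ‖ :=
              (norm_add_le _ _).trans (add_le_add_left (norm_sub_le _ _) _)
          _ ≤ ‖ξ‖ + 2 * ρt * ‖ξ‖ + (ε * ‖ξ‖ + ε * ‖ξ‖) := by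
              have : ε * wn ξ + ε * ‖ξ.2.2‖ ≤ ε * ‖ξ‖ + ε * ‖ξ‖ := by gcongr
              linarith
          _ = (1 + 2 * ρt + 2 * ε) * ‖ξ‖ := by ring
          _ ≤ e * ‖ξ‖ := by
              apply mul_le_mul_of_nonneg_right _ n0
              linarith
      have r3 : ‖(fderiv ℂ (H.N j) Y ξ).2.2‖ ≤ e * ‖ξ‖ := by
        rw [hM.fderiv_N_q hj hYρ ξ]
        have hE := T.Qp H hM j hj Y hY.le ξ
        have hθ0 := κ.hθ0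
        calc ‖fderiv ℂ (H.Qp j) Y ξ‖ ≤ ε * wn ξ + (κ.θ + ε) * ‖ξ.2.2‖ := hE
          _ ≤ ε * ‖ξ‖ + (κ.θ + ε) * ‖ξ‖ := by gcongr
          _ = (κ.θ + 2 * ε) * ‖ξ‖ := by ring
          _ ≤ e * ‖ξ‖ := by
              apply mul_le_mul_of_nonneg_right _ n0
              linarith
      exact cau_norm_le.2 ⟨max_le r1 r2, r3⟩
    · intro H hM j hj Y hY ξ
      have hE := T.sc H hM j hj Y hY.le ξ
      have nw : wn ξ ≤ ‖ξ‖ := cau_wn_le_norm ξ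
      have nq : ‖ξ.2.2‖ ≤ ‖ξ‖ := cau_q_le_norm ξ
      have hks : 0 ≤ κ.ks := le_max_of_le_left (by have := κ.bs_pos; positivity)
      calc ‖fderiv ℂ (H.sc j) Y ξ‖ ≤ (κ.ks + 7 * κ.C) * wn ξ + 4 * κ.C * ‖ξ.2.2‖ := hE
        _ ≤ (κ.ks + 7 * κ.C) * ‖ξ‖ + 4 * κ.C * ‖ξ‖ := by gcongr
        _ = (κ.ks + 11 * κ.C) * ‖ξ‖ := by ring
    · intro H hM j h hj hjh X hX ξ
      have hE := T.Psi H hM j h hj hjh X hX.le ξ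
      calc ‖fderiv ℂ (H.Ψ j h) X ξ‖ ≤ ε * ‖ξ.1‖ + (κ.θ + ε) * ‖ξ.2‖ := hE
        _ ≤ ε * ‖ξ.1‖ + th1 κ * ‖ξ.2‖ := by
            have : κ.θ + ε ≤ th1 κ := by linarith
            gcongr
        _ = th1 κ * ‖ξ.2‖ + ε * ‖ξ.1‖ := by ring
  · have h0' : ρt ≤ 0 := not_lt.1 h0
    refine ⟨lt_of_le_of_lt h0' κ.hρ, ?_, ⟨0, ?_⟩, ⟨0, ?_⟩⟩
    · intro H _ j _ Y hY
      exact absurd (lt_of_lt_of_le hY h0') (not_lt.2 (norm_nonneg _))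
    · intro H _ j _ Y hY
      exact absurd (lt_of_lt_of_le hY h0') (not_lt.2 (norm_nonneg _))
    · intro H _ j h _ _ X hX
      exact absurd (lt_of_lt_of_le hX h0') (not_lt.2 (norm_nonneg _))

section arith
variable {u A C θ : ℝ}

theorem p41_ar_E1 (j : ℕ) (hj : u = 1 / (j : ℝ)) (hu : 0 < u) (hu1 : u ≤ 1) (hA : 0 ≤ A) (hC : 0 ≤ C) :
    C * eordB j (2 * u + u) (A * u ^ 2) / u ≤ C * (36 + 3 * A + A ^ 2) * u ^ 2 := by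
  have hjj : (2 * u + u) ^ 2 / (j : ℝ) ^ 2 = (2 * u + u) ^ 2 * u ^ 2 := by
    rw [hj]; simp [div_eq_mul_inv]
  rw [div_le_iff₀ hu]
  unfold eordB
  rw [hjj]
  have h3 : 0 ≤ u ^ 3 := by positivity
  have h4 : u ^ 4 ≤ u ^ 3 := by
    have : u ^ 4 = u ^ 3 * u := by ring
    rw [this]; exact mul_le_of_le_one_right h3 hu1
  have h5 : A ^ 2 * u ^ 4 ≤ A ^ 2 * u ^ 3 := mul_le_mul_of_nonneg_left h4 (sq_nonneg A)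
  have key : (2 * u + u) ^ 2 * u ^ 2 + (2 * u + u) ^ 3 + (2 * u + u + A * u ^ 2) * (A * u ^ 2)
      ≤ (36 + 3 * A + A ^ 2) * u ^ 3 := by nlinarith
  calc C * ((2 * u + u) ^ 2 * u ^ 2 + (2 * u + u) ^ 3 + (2 * u + u + A * u ^ 2) * (A * u ^ 2))
      ≤ C * ((36 + 3 * A + A ^ 2) * u ^ 3) := mul_le_mul_of_nonneg_left key hC
    _ = C * (36 + 3 * A + A ^ 2) * u ^ 2 * u := by ring

theorem p41_ar_E2 (j : ℕ) (hj : u = 1 / (j : ℝ)) (hu : 0 < u) (hu1 : u ≤ 1) (hA : 0 ≤ A) (hC : 0 ≤ C) :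
    C * eordB j (2 * u) (A * u ^ 2 + u) / u ≤ C * (12 + (3 + A) * (1 + A)) * u := by
  have hjj : (2 * u) ^ 2 / (j : ℝ) ^ 2 = (2 * u) ^ 2 * u ^ 2 := by
    rw [hj]; simp [div_eq_mul_inv]
  rw [div_le_iff₀ hu]
  unfold eordB
  rw [hjj]
  have h2 : 0 ≤ u ^ 2 := by positivity
  have h3 : u ^ 3 ≤ u ^ 2 := by
    have : u ^ 3 = u ^ 2 * u := by ring
    rw [this]; exact mul_le_of_le_one_right h2 hu1
  have h4 : u ^ 4 ≤ u ^ 2 := by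
    have : u ^ 4 = u ^ 3 * u := by ring
    rw [this]; exact (mul_le_of_le_one_right (by positivity) hu1).trans h3
  have a3 : A * u ^ 3 ≤ A * u ^ 2 := mul_le_mul_of_nonneg_left h3 hA
  have a4 : A ^ 2 * u ^ 4 ≤ A ^ 2 * u ^ 2 := mul_le_mul_of_nonneg_left h4 (sq_nonneg A)
  have key : (2 * u) ^ 2 * u ^ 2 + (2 * u) ^ 3 + (2 * u + (A * u ^ 2 + u)) * (A * u ^ 2 + u)
      ≤ (12 + (3 + A) * (1 + A)) * u ^ 2 := by nlinarith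
  calc C * ((2 * u) ^ 2 * u ^ 2 + (2 * u) ^ 3 + (2 * u + (A * u ^ 2 + u)) * (A * u ^ 2 + u))
      ≤ C * ((12 + (3 + A) * (1 + A)) * u ^ 2) := mul_le_mul_of_nonneg_left key hC
    _ = C * (12 + (3 + A) * (1 + A)) * u * u := by ring

theorem p41_ar_Q1 (hu : 0 < u) (hA : 0 ≤ A) (hθ1 : θ ≤ 1) :
    (θ * (A * u ^ 2) + C * (2 * u + u) ^ 2) / u ≤ (A + 9 * C) * u := by
  rw [div_le_iff₀ hu]
  have : θ * (A * u ^ 2) ≤ 1 * (A * u ^ 2) := mul_le_mul_of_nonneg_right hθ1 (by positivity)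
  nlinarith

theorem p41_ar_Q2 (hu : 0 < u) (hA : 0 ≤ A) (hθ1 : θ ≤ 1) :
    (θ * (A * u ^ 2 + u) + C * (2 * u) ^ 2) / u ≤ θ + (A + 4 * C) * u := by
  rw [div_le_iff₀ hu]
  have : θ * (A * u ^ 2) ≤ 1 * (A * u ^ 2) := mul_le_mul_of_nonneg_right hθ1 (by positivity)
  nlinarith

theorem p41_ar_T1 (hu : 0 < u) : C * ((2 * u + u) ^ 2 + A * u ^ 2) / u = C * (9 + A) * u := by
  field_simp
  ring

theorem p41_ar_T2 (hu : 0 < u) (hu1 : u ≤ 1) (hA : 0 ≤ A) (hC : 0 ≤ C) :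
    C * ((2 * u) ^ 2 + (A * u ^ 2 + u)) / u ≤ C * (5 + A) := by
  rw [div_le_iff₀ hu]
  have h2 : u ^ 2 ≤ u := by
    have : u ^ 2 = u * u := by ring
    rw [this]; exact mul_le_of_le_one_right hu.le hu1
  have a2 : A * u ^ 2 ≤ A * u := mul_le_mul_of_nonneg_left h2 hA
  have key : (2 * u) ^ 2 + (A * u ^ 2 + u) ≤ (5 + A) * u := by nlinarith
  calc C * ((2 * u) ^ 2 + (A * u ^ 2 + u)) ≤ C * ((5 + A) * u) := mul_le_mul_of_nonneg_left key hC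
    _ = C * (5 + A) * u := by ring

theorem p41_ar_Z1 {e c : ℝ} (hu : 0 < u) (hC : 0 ≤ C) (he : e ≤ u / c) :
    C * (e * (2 * u + u) + (2 * u + u) ^ 2 + A * u ^ 2) / u ≤ C * (3 / c + 9 + A) * u := by
  rw [div_le_iff₀ hu]
  have h1 : e * (2 * u + u) ≤ u / c * (2 * u + u) := mul_le_mul_of_nonneg_right he (by positivity)
  have key : e * (2 * u + u) + (2 * u + u) ^ 2 + A * u ^ 2 ≤ (3 / c + 9 + A) * u * u := by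
    have : u / c * (2 * u + u) = 3 / c * u * u := by ring
    nlinarith
  calc C * (e * (2 * u + u) + (2 * u + u) ^ 2 + A * u ^ 2) ≤ C * ((3 / c + 9 + A) * u * u) :=
        mul_le_mul_of_nonneg_left key hC
    _ = C * (3 / c + 9 + A) * u * u := by ring

theorem p41_ar_Z2 {e : ℝ} (hu : 0 < u) (hu1 : u ≤ 1) (hA : 0 ≤ A) (hC : 0 ≤ C) (he : e ≤ 1) :
    C * (e * (2 * u) + (2 * u) ^ 2 + (A * u ^ 2 + u)) / u ≤ C * (7 + A) := by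
  rw [div_le_iff₀ hu]
  have h2 : u ^ 2 ≤ u := by
    have : u ^ 2 = u * u := by ring
    rw [this]; exact mul_le_of_le_one_right hu.le hu1
  have a2 : A * u ^ 2 ≤ A * u := mul_le_mul_of_nonneg_left h2 hA
  have h1 : e * (2 * u) ≤ 1 * (2 * u) := mul_le_mul_of_nonneg_right he (by positivity)
  have key : e * (2 * u) + (2 * u) ^ 2 + (A * u ^ 2 + u) ≤ (7 + A) * u := by nlinarith
  calc C * (e * (2 * u) + (2 * u) ^ 2 + (A * u ^ 2 + u)) ≤ C * ((7 + A) * u) := mul_le_mul_of_nonneg_left key hC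
    _ = C * (7 + A) * u := by ring

end arith

theorem p41_exp_le_inv {x : ℝ} (hx : 0 < x) : Real.exp (-x) ≤ 1 / x := by
  rw [Real.exp_neg, ← one_div]
  apply one_div_le_one_div_of_le hx
  linarith [Real.add_one_le_exp x]

/-- all block bounds of the plane maps at a point with the critical asymptotics (from `Maj.dbd`, helper90, radii `1 / j`) -/
theorem p41_near_dbd (κ : MapC) (C₀ : ℝ) : ∃ (K : ℝ) (jm : ℕ), 0 ≤ K ∧ 1 ≤ jm ∧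
    ∀ (H : Hist), Flow.MapOK κ H → ∀ j, H.j0 ≤ j → jm ≤ j → ∀ Y : ℂ × ℂ × H.Q j, NearCrit C₀ j Y →
      ‖Y‖ < κ.ρ ∧ wn Y ≤ 2 / (j : ℝ) ∧ ‖Y.2.2‖ ≤ 1 / (j : ℝ) ∧
      DBd (H.eX j) Y (K / (j : ℝ) ^ 2) (K / (j : ℝ)) ∧ DBd (H.eY j) Y (K / (j : ℝ) ^ 2) (K / (j : ℝ)) ∧
      DBd (H.Qp j) Y (K / (j : ℝ)) (κ.θ + K / (j : ℝ)) ∧
      DBd (H.eT κ j) Y (K / (j : ℝ)) K ∧ DBd (H.eZ κ j) Y (K / (j : ℝ)) K := by
  set A := |C₀| with hA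
  have hA0 : 0 ≤ A := abs_nonneg _
  obtain ⟨jm, hjm1, hjm⟩ := p41_near_size κ.ρ A κ.hρ
  have hC : 0 ≤ κ.C := le_trans zero_le_one κ.hC
  have hc := κ.hc
  set K1 := κ.C * (36 + 3 * A + A ^ 2) with hK1
  set K2 := κ.C * (12 + (3 + A) * (1 + A)) with hK2
  set K3 := A + 9 * κ.C with hK3
  set K4 := κ.C * (9 + A) with hK4
  set K5 := κ.C * (5 + A) with hK5
  set K6 := κ.C * (3 / κ.c + 9 + A) with hK6
  set K7 := κ.C * (7 + A) with hK7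
  have p1 : 0 ≤ K1 := by positivity
  have p2 : 0 ≤ K2 := by positivity
  have p3 : 0 ≤ K3 := by positivity
  have p4 : 0 ≤ K4 := by positivity
  have p5 : 0 ≤ K5 := by positivity
  have p6 : 0 ≤ K6 := by positivity
  have p7 : 0 ≤ K7 := by positivity
  refine ⟨K1 + K2 + K3 + K4 + K5 + K6 + K7, jm, by positivity, hjm1, ?_⟩
  set K := K1 + K2 + K3 + K4 + K5 + K6 + K7 with hK
  intro H hM j hj hjj Y hY
  obtain ⟨s1, s2, s3⟩ := hjm j hjj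
  have hj1 : 1 ≤ j := le_trans hjm1 hjj
  have hjr : (1 : ℝ) ≤ j := by exact_mod_cast hj1
  have hj0 : (0 : ℝ) < j := by linarith
  set u : ℝ := 1 / (j : ℝ) with hu
  have hu0 : 0 < u := by positivity
  have hu1 : u ≤ 1 := by rw [hu, div_le_one hj0]; exact hjr
  have hlog : 0 ≤ Real.log (2 + j) := Real.log_nonneg (by linarith)
  have hCA : C₀ ≤ A := le_abs_self _
  have hY' : NearCrit A j Y :=
    ⟨hY.1.trans (by gcongr), hY.2.1.trans (by gcongr), hY.2.2.trans (by gcongr)⟩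
  obtain ⟨hw, hn⟩ := p41_near_norm A hj1 s1 s2 hY'
  have e2 : (2 : ℝ) / j = 2 * u := by rw [hu]; ring
  have eA : A / (j : ℝ) ^ 2 = A * u ^ 2 := by rw [hu]; field_simp
  have e4 : (4 : ℝ) / j = 4 * u := by rw [hu]; ring
  have eK1 : K / (j : ℝ) = K * u := by rw [hu]; ring
  have eK2 : K / (j : ℝ) ^ 2 = K * u ^ 2 := by rw [hu]; field_simp
  have hreg : Y ∈ Reg (H.Q j) (2 * u) (A * u ^ 2) := ⟨by rw [← e2]; exact hw, by rw [← eA]; exact hY'.2.2⟩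
  rw [e4] at s3
  rw [eA] at s2
  have hW : 2 * u + u < κ.ρ := by linarith
  have hQ : A * u ^ 2 + u < κ.ρ := by linarith
  have hYρ : ‖Y‖ < κ.ρ := by rw [e2] at hn; linarith
  have hu2 : 0 ≤ u ^ 2 := by positivity
  have he1 : Real.exp (-κ.c * j) ≤ u / κ.c := by
    have h1 := p41_exp_le_inv (x := κ.c * j) (by positivity)
    have h2 : (1 : ℝ) / (κ.c * j) = u / κ.c := by rw [hu]; field_simp
    rw [h2] at h1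
    have h3 : -κ.c * (j : ℝ) = -(κ.c * j) := by ring
    rw [h3]; exact h1
  have he2 : Real.exp (-κ.c * j) ≤ 1 := by
    rw [Real.exp_le_one_iff]
    have : 0 ≤ κ.c * j := by positivity
    linarith
  rw [eK1, eK2]
  refine ⟨hYρ, hw, hreg.2.trans s2, ?_, ?_, ?_, ?_, ?_⟩
  · refine ((hM.maj_eX hj).dbd hu0 hu0 hW hQ hreg).mono
      ((p41_ar_E1 j hu hu0 hu1 hA0 hC).trans ?_) ((p41_ar_E2 j hu hu0 hu1 hA0 hC).trans ?_)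
    · apply mul_le_mul_of_nonneg_right _ hu2; linarith
    · apply mul_le_mul_of_nonneg_right _ hu0.le; linarith
  · refine ((hM.maj_eY hj).dbd hu0 hu0 hW hQ hreg).mono
      ((p41_ar_E1 j hu hu0 hu1 hA0 hC).trans ?_) ((p41_ar_E2 j hu hu0 hu1 hA0 hC).trans ?_)
    · apply mul_le_mul_of_nonneg_right _ hu2; linarith
    · apply mul_le_mul_of_nonneg_right _ hu0.le; linarith
  · refine ((hM.maj_Qp hj).dbd hu0 hu0 hW hQ hreg).mono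
      ((p41_ar_Q1 hu0 hA0 κ.hθ.le).trans ?_) ((p41_ar_Q2 hu0 hA0 κ.hθ.le).trans ?_)
    · apply mul_le_mul_of_nonneg_right _ hu0.le; linarith
    · have : (A + 4 * κ.C) * u ≤ K * u := by
        apply mul_le_mul_of_nonneg_right _ hu0.le; linarith
      linarith
  · refine ((hM.maj_eT hj).dbd hu0 hu0 hW hQ hreg).mono
      ((p41_ar_T1 hu0).le.trans ?_) ((p41_ar_T2 hu0 hu1 hA0 hC).trans ?_)
    · apply mul_le_mul_of_nonneg_right _ hu0.le; linarith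
    · linarith
  · refine ((hM.maj_eZ hj).dbd hu0 hu0 hW hQ hreg).mono
      ((p41_ar_Z1 hu0 hC he1).trans ?_) ((p41_ar_Z2 hu0 hu1 hA0 hC he2).trans ?_)
    · apply mul_le_mul_of_nonneg_right _ hu0.le; linarith
    · linarith

theorem p41_log_half (j : ℕ) : (1 : ℝ) / 2 ≤ Real.log (2 + j) := by
  have h1 : Real.log 2 ≤ Real.log (2 + j) := Real.log_le_log (by norm_num) (by linarith [(Nat.cast_nonneg j : (0 : ℝ) ≤ j)])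
  have h2 := Real.log_two_gt_d9
  linarith

/-- First row of (4.3). -/
theorem p41_dN_x (κ : MapC) (C₀ : ℝ) : ∃ (C₁ : ℝ) (jm : ℕ), ∀ (H : Hist), Flow.MapOK κ H → ∀ j, H.j0 ≤ j → jm ≤ j →
    ∀ Y : ℂ × ℂ × H.Q j, NearCrit C₀ j Y → ∀ ξ : ℂ × ℂ × H.Q j,
      ‖(fderiv ℂ (H.N j) Y ξ).1 - (ξ.1 - 2 / (j : ℂ) * ξ.2.1)‖
        ≤ C₁ * Real.log (2 + j) / (j : ℝ) ^ 2 * wn ξ + C₁ / (j : ℝ) * ‖ξ.2.2‖ := by
  obtain ⟨K, jm, hK, hjm1, h⟩ := p41_near_dbd κ C₀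
  refine ⟨2 * |C₀| + 2 * K, jm, ?_⟩
  intro H hM j hj hjj Y hY ξ
  obtain ⟨hYρ, _, _, hX, _⟩ := h H hM j hj hjj Y hY
  rw [hM.fderiv_N_x hj hYρ ξ]
  have e : ξ.1 - 2 * Y.2.1 * ξ.2.1 + fderiv ℂ (H.eX j) Y ξ - (ξ.1 - 2 / (j : ℂ) * ξ.2.1)
      = -(2 * (Y.2.1 - 1 / (j : ℂ)) * ξ.2.1) + fderiv ℂ (H.eX j) Y ξ := by ring
  rw [e]
  set L := Real.log (2 + j) with hL
  have hL2 : (1 : ℝ) / 2 ≤ L := p41_log_half j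
  have hw0 : 0 ≤ wn ξ := cau_wn_nonneg ξ
  have hq0 : 0 ≤ ‖ξ.2.2‖ := norm_nonneg _
  have hA : C₀ ≤ |C₀| := le_abs_self _
  have hA0 : 0 ≤ |C₀| := abs_nonneg _
  have hD : 0 ≤ (j : ℝ) ^ 2 := by positivity
  have hj0 : (0 : ℝ) ≤ j := Nat.cast_nonneg j
  have t0 : ‖2 * (Y.2.1 - 1 / (j : ℂ)) * ξ.2.1‖ ≤ 2 * (|C₀| * L / (j : ℝ) ^ 2) * wn ξ := by
    rw [norm_mul, norm_mul]
    have : ‖(2 : ℂ)‖ = 2 := by simp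
    rw [this]
    have h1 : ‖Y.2.1 - 1 / (j : ℂ)‖ ≤ |C₀| * L / (j : ℝ) ^ 2 := hY.2.1.trans (by gcongr)
    have h2 : ‖ξ.2.1‖ ≤ wn ξ := le_max_right _ _
    gcongr
  have t2 : K / (j : ℝ) ^ 2 * wn ξ ≤ 2 * K * L / (j : ℝ) ^ 2 * wn ξ := by
    have : K ≤ 2 * K * L := by nlinarith
    gcongr
  have t3 : K / (j : ℝ) * ‖ξ.2.2‖ ≤ (2 * |C₀| + 2 * K) / (j : ℝ) * ‖ξ.2.2‖ := by
    have : K ≤ 2 * |C₀| + 2 * K := by linarith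
    gcongr
  calc ‖-(2 * (Y.2.1 - 1 / (j : ℂ)) * ξ.2.1) + fderiv ℂ (H.eX j) Y ξ‖
      ≤ ‖2 * (Y.2.1 - 1 / (j : ℂ)) * ξ.2.1‖ + ‖fderiv ℂ (H.eX j) Y ξ‖ := by
        refine (norm_add_le _ _).trans ?_
        rw [norm_neg]
    _ ≤ 2 * (|C₀| * L / (j : ℝ) ^ 2) * wn ξ + (K / (j : ℝ) ^ 2 * wn ξ + K / (j : ℝ) * ‖ξ.2.2‖) :=
        add_le_add t0 (hX ξ)
    _ ≤ 2 * (|C₀| * L / (j : ℝ) ^ 2) * wn ξ
          + (2 * K * L / (j : ℝ) ^ 2 * wn ξ + (2 * |C₀| + 2 * K) / (j : ℝ) * ‖ξ.2.2‖) := by linarith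
    _ = (2 * |C₀| + 2 * K) * L / (j : ℝ) ^ 2 * wn ξ + (2 * |C₀| + 2 * K) / (j : ℝ) * ‖ξ.2.2‖ := by ring

/-- Second row of (4.3). -/
theorem p41_dN_y (κ : MapC) (C₀ : ℝ) : ∃ (C₁ : ℝ) (jm : ℕ), ∀ (H : Hist), Flow.MapOK κ H → ∀ j, H.j0 ≤ j → jm ≤ j →
    ∀ Y : ℂ × ℂ × H.Q j, NearCrit C₀ j Y → ∀ ξ : ℂ × ℂ × H.Q j,
      ‖(fderiv ℂ (H.N j) Y ξ).2.1 - (ξ.2.1 - 1 / (j : ℂ) * (ξ.1 + ξ.2.1))‖
        ≤ C₁ * Real.log (2 + j) / (j : ℝ) ^ 2 * wn ξ + C₁ / (j : ℝ) * ‖ξ.2.2‖ := by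
  obtain ⟨K, jm, hK, hjm1, h⟩ := p41_near_dbd κ C₀
  refine ⟨2 * |C₀| + 2 * K, jm, ?_⟩
  intro H hM j hj hjj Y hY ξ
  obtain ⟨hYρ, _, _, _, hX, _⟩ := h H hM j hj hjj Y hY
  rw [hM.fderiv_N_y hj hYρ ξ]
  have e : ξ.2.1 - (ξ.1 * Y.2.1 + Y.1 * ξ.2.1) + fderiv ℂ (H.eY j) Y ξ - (ξ.2.1 - 1 / (j : ℂ) * (ξ.1 + ξ.2.1))
      = -(ξ.1 * (Y.2.1 - 1 / (j : ℂ)) + (Y.1 - 1 / (j : ℂ)) * ξ.2.1) + fderiv ℂ (H.eY j) Y ξ := by ring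
  rw [e]
  set L := Real.log (2 + j) with hL
  have hL2 : (1 : ℝ) / 2 ≤ L := p41_log_half j
  have hw0 : 0 ≤ wn ξ := cau_wn_nonneg ξ
  have hq0 : 0 ≤ ‖ξ.2.2‖ := norm_nonneg _
  have hA : C₀ ≤ |C₀| := le_abs_self _
  have hA0 : 0 ≤ |C₀| := abs_nonneg _
  have hD : 0 ≤ (j : ℝ) ^ 2 := by positivity
  have hj0 : (0 : ℝ) ≤ j := Nat.cast_nonneg j
  have t0 : ‖ξ.1 * (Y.2.1 - 1 / (j : ℂ)) + (Y.1 - 1 / (j : ℂ)) * ξ.2.1‖ ≤ 2 * (|C₀| * L / (j : ℝ) ^ 2) * wn ξ := by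
    have h1 : ‖Y.2.1 - 1 / (j : ℂ)‖ ≤ |C₀| * L / (j : ℝ) ^ 2 := hY.2.1.trans (by gcongr)
    have h1' : ‖Y.1 - 1 / (j : ℂ)‖ ≤ |C₀| * L / (j : ℝ) ^ 2 := hY.1.trans (by gcongr)
    have h2 : ‖ξ.2.1‖ ≤ wn ξ := le_max_right _ _
    have h2' : ‖ξ.1‖ ≤ wn ξ := le_max_left _ _
    calc ‖ξ.1 * (Y.2.1 - 1 / (j : ℂ)) + (Y.1 - 1 / (j : ℂ)) * ξ.2.1‖
        ≤ ‖ξ.1‖ * ‖Y.2.1 - 1 / (j : ℂ)‖ + ‖Y.1 - 1 / (j : ℂ)‖ * ‖ξ.2.1‖ := by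
          refine (norm_add_le _ _).trans ?_
          rw [norm_mul, norm_mul]
      _ ≤ wn ξ * (|C₀| * L / (j : ℝ) ^ 2) + (|C₀| * L / (j : ℝ) ^ 2) * wn ξ := by gcongr
      _ = 2 * (|C₀| * L / (j : ℝ) ^ 2) * wn ξ := by ring
  have t2 : K / (j : ℝ) ^ 2 * wn ξ ≤ 2 * K * L / (j : ℝ) ^ 2 * wn ξ := by
    have : K ≤ 2 * K * L := by nlinarith
    gcongr
  have t3 : K / (j : ℝ) * ‖ξ.2.2‖ ≤ (2 * |C₀| + 2 * K) / (j : ℝ) * ‖ξ.2.2‖ := by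
    have : K ≤ 2 * |C₀| + 2 * K := by linarith
    gcongr
  calc ‖-(ξ.1 * (Y.2.1 - 1 / (j : ℂ)) + (Y.1 - 1 / (j : ℂ)) * ξ.2.1) + fderiv ℂ (H.eY j) Y ξ‖
      ≤ ‖ξ.1 * (Y.2.1 - 1 / (j : ℂ)) + (Y.1 - 1 / (j : ℂ)) * ξ.2.1‖ + ‖fderiv ℂ (H.eY j) Y ξ‖ := by
        refine (norm_add_le _ _).trans ?_
        rw [norm_neg]
    _ ≤ 2 * (|C₀| * L / (j : ℝ) ^ 2) * wn ξ + (K / (j : ℝ) ^ 2 * wn ξ + K / (j : ℝ) * ‖ξ.2.2‖) :=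
        add_le_add t0 (hX ξ)
    _ ≤ 2 * (|C₀| * L / (j : ℝ) ^ 2) * wn ξ
          + (2 * K * L / (j : ℝ) ^ 2 * wn ξ + (2 * |C₀| + 2 * K) / (j : ℝ) * ‖ξ.2.2‖) := by linarith
    _ = (2 * |C₀| + 2 * K) * L / (j : ℝ) ^ 2 * wn ξ + (2 * |C₀| + 2 * K) / (j : ℝ) * ‖ξ.2.2‖ := by ring

/-- Plane part of (4.4). -/
theorem p41_dN_q (κ : MapC) (C₀ : ℝ) : ∃ (C₁ : ℝ) (jm : ℕ), ∀ (H : Hist), Flow.MapOK κ H → ∀ j, H.j0 ≤ j → jm ≤ j →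
    ∀ Y : ℂ × ℂ × H.Q j, NearCrit C₀ j Y → ∀ ξ : ℂ × ℂ × H.Q j,
      ‖(fderiv ℂ (H.N j) Y ξ).2.2‖ ≤ (κ.θ + C₁ / (j : ℝ)) * ‖ξ.2.2‖ + C₁ / (j : ℝ) * wn ξ := by
  obtain ⟨K, jm, hK, hjm1, h⟩ := p41_near_dbd κ C₀
  refine ⟨K, jm, ?_⟩
  intro H hM j hj hjj Y hY ξ
  obtain ⟨hYρ, _, _, _, _, hX, _⟩ := h H hM j hj hjj Y hY
  rw [hM.fderiv_N_q hj hYρ ξ]
  linarith [hX ξ]

/-- The unbalanced scalars are `O(1/j)`. -/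
theorem p41_sc_near (κ : MapC) (C₀ : ℝ) : ∃ (C₁ : ℝ) (jm : ℕ), ∀ (H : Hist), Flow.MapOK κ H → ∀ j, H.j0 ≤ j → jm ≤ j →
    ∀ Y : ℂ × ℂ × H.Q j, NearCrit C₀ j Y → ‖H.sc j Y‖ ≤ C₁ / (j : ℝ) := by
  obtain ⟨K, jm, hK, hjm1, h⟩ := p41_near_dbd κ C₀
  refine ⟨2 * κ.ks + 7 * κ.C, jm, ?_⟩
  intro H hM j hj hjj Y hY
  obtain ⟨hYρ, hw, hq, _⟩ := h H hM j hj hjj Y hY
  have hj1 : (1 : ℝ) ≤ j := by exact_mod_cast le_trans hjm1 hjj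
  have hj0 : (0 : ℝ) < j := by linarith
  set u : ℝ := 1 / (j : ℝ) with hu
  have hu0 : 0 < u := by positivity
  have hu1 : u ≤ 1 := by rw [hu, div_le_one hj0]; exact hj1
  have e2 : (2 : ℝ) / j = 2 * u := by rw [hu]; ring
  rw [e2] at hw
  have hC : 0 ≤ κ.C := le_trans zero_le_one κ.hC
  have hx : ‖Y.1‖ ≤ 2 * u := le_trans (le_max_left _ _) hw
  have hy : ‖Y.2.1‖ ≤ 2 * u := le_trans (le_max_right _ _) hw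
  have hmem : Y ∈ Metric.ball (0 : ℂ × ℂ × H.Q j) κ.ρ := mem_ball_zero_iff.2 hYρ
  have hbs := κ.bs_pos
  have hk1 : 1 / κ.bs ≤ κ.ks := le_max_left _ _
  have hk2 : 1 / Real.sqrt (κ.bs * κ.Hq) ≤ κ.ks := le_max_right _ _
  have hks : 0 ≤ κ.ks := le_trans (by positivity) hk1
  have hw0 : 0 ≤ wn Y := cau_wn_nonneg Y
  have hx2 : wn Y ^ 2 ≤ 4 * u := by
    have : wn Y ^ 2 ≤ (2 * u) ^ 2 := by gcongr
    nlinarith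
  have he2 : Real.exp (-κ.c * j) ≤ 1 := by
    rw [Real.exp_le_one_iff]
    have : 0 ≤ κ.c * j := by have := κ.hc; positivity
    linarith
  have r1 : ‖(H.sc j Y).1‖ ≤ (2 * κ.ks + 7 * κ.C) * u := by
    have h1 := hM.sc_t j hj Y hmem
    have h2 : ‖Y.1 / (κ.bs : ℂ)‖ ≤ κ.ks * (2 * u) := by
      rw [norm_div, Complex.norm_real, Real.norm_of_nonneg hbs.le, div_eq_mul_one_div, mul_comm]
      gcongr
    have h3 : κ.C * (wn Y ^ 2 + ‖Y.2.2‖) ≤ κ.C * (4 * u + u) := by gcongr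
    calc ‖(H.sc j Y).1‖ = ‖((H.sc j Y).1 - Y.1 / κ.bs) + Y.1 / κ.bs‖ := by rw [sub_add_cancel]
      _ ≤ ‖(H.sc j Y).1 - Y.1 / κ.bs‖ + ‖Y.1 / (κ.bs : ℂ)‖ := norm_add_le _ _
      _ ≤ κ.C * (4 * u + u) + κ.ks * (2 * u) := by linarith
      _ ≤ (2 * κ.ks + 7 * κ.C) * u := by nlinarith
  have r2 : ‖(H.sc j Y).2‖ ≤ (2 * κ.ks + 7 * κ.C) * u := by
    have h1 := hM.sc_z j hj Y hmem
    have hs : 0 ≤ Real.sqrt (κ.bs * κ.Hq) := Real.sqrt_nonneg _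
    have h2 : ‖Y.2.1 / (Real.sqrt (κ.bs * κ.Hq) : ℂ)‖ ≤ κ.ks * (2 * u) := by
      rw [norm_div, Complex.norm_real, Real.norm_of_nonneg hs, div_eq_mul_one_div, mul_comm]
      gcongr
    have h3 : κ.C * (Real.exp (-κ.c * j) * ‖Y.2.1‖ + wn Y ^ 2 + ‖Y.2.2‖) ≤ κ.C * (1 * (2 * u) + 4 * u + u) := by
      gcongr
    calc ‖(H.sc j Y).2‖ = ‖((H.sc j Y).2 - Y.2.1 / Real.sqrt (κ.bs * κ.Hq)) + Y.2.1 / Real.sqrt (κ.bs * κ.Hq)‖ := by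
          rw [sub_add_cancel]
      _ ≤ ‖(H.sc j Y).2 - Y.2.1 / Real.sqrt (κ.bs * κ.Hq)‖ + ‖Y.2.1 / (Real.sqrt (κ.bs * κ.Hq) : ℂ)‖ := norm_add_le _ _
      _ ≤ κ.C * (1 * (2 * u) + 4 * u + u) + κ.ks * (2 * u) := by linarith
      _ = (2 * κ.ks + 7 * κ.C) * u := by ring
  have e3 : (2 * κ.ks + 7 * κ.C) / (j : ℝ) = (2 * κ.ks + 7 * κ.C) * u := by rw [hu]; ring
  rw [e3, Prod.norm_def]
  exact max_le r1 r2

/-- Derivative of the coordinate change. -/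
theorem p41_dsc (κ : MapC) (C₀ : ℝ) : ∃ (C₁ : ℝ) (jm : ℕ), ∀ (H : Hist), Flow.MapOK κ H → ∀ j, H.j0 ≤ j → jm ≤ j →
    ∀ Y : ℂ × ℂ × H.Q j, NearCrit C₀ j Y → ∀ ξ : ℂ × ℂ × H.Q j,
      ‖(fderiv ℂ (H.sc j) Y ξ).1 - ξ.1 / κ.bs‖ ≤ C₁ / (j : ℝ) * wn ξ + C₁ * ‖ξ.2.2‖ ∧
      ‖(fderiv ℂ (H.sc j) Y ξ).2 - ξ.2.1 / Real.sqrt (κ.bs * κ.Hq)‖ ≤ C₁ / (j : ℝ) * wn ξ + C₁ * ‖ξ.2.2‖ := by
  obtain ⟨K, jm, hK, hjm1, h⟩ := p41_near_dbd κ C₀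
  refine ⟨K, jm, ?_⟩
  intro H hM j hj hjj Y hY ξ
  obtain ⟨hYρ, _, _, _, _, _, hT, hZ⟩ := h H hM j hj hjj Y hY
  constructor
  · rw [hM.fderiv_sc_t hj hYρ ξ, add_sub_cancel_left]
    exact hT ξ
  · rw [hM.fderiv_sc_z hj hYρ ξ, add_sub_cancel_left]
    exact hZ ξ

/-- a torus state of critical size at the absolute index `j` -/
def NearCritT {E : Type} [NormedAddCommGroup E] (C₀ : ℝ) (j : ℕ) (X : (ℂ × ℂ) × E) : Prop :=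
  ‖X.1‖ ≤ C₀ / (j : ℝ) ∧ ‖X.2‖ ≤ C₀ / (j : ℝ) ^ 2

section arith2
variable {u A C θ : ℝ}

theorem p41_ar_max1 (hu : 0 < u) (hu1 : u ≤ 1) (hA : 0 ≤ A) : max (A * u + u) (A * u ^ 2) ≤ (A + 1) * u := by
  refine max_le (by linarith) ?_
  have h2 : u ^ 2 ≤ u := by
    have : u ^ 2 = u * u := by ring
    rw [this]; exact mul_le_of_le_one_right hu.le hu1
  have a2 : A * u ^ 2 ≤ A * u := mul_le_mul_of_nonneg_left h2 hA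
  linarith

theorem p41_ar_max2 (hu : 0 < u) (hu1 : u ≤ 1) (hA : 0 ≤ A) : max (A * u) (A * u ^ 2 + u) ≤ (A + 1) * u := by
  have h2 : u ^ 2 ≤ u := by
    have : u ^ 2 = u * u := by ring
    rw [this]; exact mul_le_of_le_one_right hu.le hu1
  have a2 : A * u ^ 2 ≤ A * u := mul_le_mul_of_nonneg_left h2 hA
  exact max_le (by linarith) (by linarith)

theorem p41_ar_sq {m : ℝ} (hu : 0 < u) (hA : 0 ≤ A) (hm0 : 0 ≤ m) (hm : m ≤ (A + 1) * u) : m ^ 2 ≤ (A + 1) ^ 2 * u * u := by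
  have : m ^ 2 ≤ ((A + 1) * u) ^ 2 := by gcongr
  calc m ^ 2 ≤ ((A + 1) * u) ^ 2 := this
    _ = (A + 1) ^ 2 * u * u := by ring

theorem p41_ar_P1 (hu : 0 < u) (hu1 : u ≤ 1) (hA : 0 ≤ A) (hC : 0 ≤ C) (hθ1 : θ ≤ 1) :
    (θ * (A * u ^ 2) + C * (max (A * u + u) (A * u ^ 2)) ^ 2) / u ≤ (A + C * (A + 1) ^ 2) * u := by
  rw [div_le_iff₀ hu]
  have h0 : 0 ≤ max (A * u + u) (A * u ^ 2) := le_max_of_le_left (by positivity)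
  have h1 := p41_ar_sq hu hA h0 (p41_ar_max1 hu hu1 hA)
  have h2 : θ * (A * u ^ 2) ≤ 1 * (A * u ^ 2) := mul_le_mul_of_nonneg_right hθ1 (by positivity)
  have h3 := mul_le_mul_of_nonneg_left h1 hC
  nlinarith

theorem p41_ar_P2 (hu : 0 < u) (hu1 : u ≤ 1) (hA : 0 ≤ A) (hC : 0 ≤ C) (hθ1 : θ ≤ 1) :
    (θ * (A * u ^ 2 + u) + C * (max (A * u) (A * u ^ 2 + u)) ^ 2) / u ≤ θ + (A + C * (A + 1) ^ 2) * u := by
  rw [div_le_iff₀ hu]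
  have h0 : 0 ≤ max (A * u) (A * u ^ 2 + u) := le_max_of_le_left (by positivity)
  have h1 := p41_ar_sq hu hA h0 (p41_ar_max2 hu hu1 hA)
  have h2 : θ * (A * u ^ 2) ≤ 1 * (A * u ^ 2) := mul_le_mul_of_nonneg_right hθ1 (by positivity)
  have h3 := mul_le_mul_of_nonneg_left h1 hC
  nlinarith

theorem p41_ar_V1 (hu : 0 < u) (hu1 : u ≤ 1) (hA : 0 ≤ A) (hC : 0 ≤ C) :
    C * (A * u ^ 2 + (max (A * u + u) (A * u ^ 2)) ^ 2) / u ≤ C * (A + (A + 1) ^ 2) * u := by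
  rw [div_le_iff₀ hu]
  have h0 : 0 ≤ max (A * u + u) (A * u ^ 2) := le_max_of_le_left (by positivity)
  have h1 := p41_ar_sq hu hA h0 (p41_ar_max1 hu hu1 hA)
  have key : A * u ^ 2 + (max (A * u + u) (A * u ^ 2)) ^ 2 ≤ (A + (A + 1) ^ 2) * u * u := by nlinarith
  calc C * (A * u ^ 2 + (max (A * u + u) (A * u ^ 2)) ^ 2) ≤ C * ((A + (A + 1) ^ 2) * u * u) :=
        mul_le_mul_of_nonneg_left key hC
    _ = C * (A + (A + 1) ^ 2) * u * u := by ring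

theorem p41_ar_V2 (hu : 0 < u) (hu1 : u ≤ 1) (hA : 0 ≤ A) (hC : 0 ≤ C) :
    C * ((A * u ^ 2 + u) + (max (A * u) (A * u ^ 2 + u)) ^ 2) / u ≤ C * (A + 1 + (A + 1) ^ 2) := by
  rw [div_le_iff₀ hu]
  have h0 : 0 ≤ max (A * u) (A * u ^ 2 + u) := le_max_of_le_left (by positivity)
  have h1 := p41_ar_sq hu hA h0 (p41_ar_max2 hu hu1 hA)
  have h2 : u ^ 2 ≤ u := by
    have : u ^ 2 = u * u := by ring
    rw [this]; exact mul_le_of_le_one_right hu.le hu1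
  have a2 : A * u ^ 2 ≤ A * u := mul_le_mul_of_nonneg_left h2 hA
  have a3 : (A + 1) ^ 2 * u * u ≤ (A + 1) ^ 2 * u := mul_le_of_le_one_right (by positivity) hu1
  have key : (A * u ^ 2 + u) + (max (A * u) (A * u ^ 2 + u)) ^ 2 ≤ (A + 1 + (A + 1) ^ 2) * u := by nlinarith
  calc C * ((A * u ^ 2 + u) + (max (A * u) (A * u ^ 2 + u)) ^ 2) ≤ C * ((A + 1 + (A + 1) ^ 2) * u) :=
        mul_le_mul_of_nonneg_left key hC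
    _ = C * (A + 1 + (A + 1) ^ 2) * u := by ring

end arith2

/-- region of a torus state of critical size -/
theorem p41_nearT_reg (ρ C₀ : ℝ) (hρ : 0 < ρ) : ∃ jm : ℕ, 1 ≤ jm ∧ ∀ j : ℕ, jm ≤ j →
    |C₀| * (1 / (j : ℝ)) + 1 / (j : ℝ) < ρ ∧ |C₀| * (1 / (j : ℝ)) ^ 2 + 1 / (j : ℝ) < ρ ∧
    ∀ {E : Type} [NormedAddCommGroup E] (X : (ℂ × ℂ) × E), NearCritT C₀ j X →
      X ∈ Reg2 (ℂ × ℂ) E (|C₀| * (1 / (j : ℝ))) (|C₀| * (1 / (j : ℝ)) ^ 2) ∧ ‖X‖ < ρ := by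
  have h3 : ∀ᶠ j : ℕ in atTop, (|C₀| + 1) / (j : ℝ) < ρ :=
    (tendsto_const_div_atTop_nhds_zero_nat (|C₀| + 1)).eventually (gt_mem_nhds hρ)
  obtain ⟨jm, hjm⟩ := eventually_atTop.1 h3
  refine ⟨max jm 1, le_max_right _ _, fun j hj => ?_⟩
  have a3 := hjm j (le_trans (le_max_left _ _) hj)
  have hj1 : (1 : ℝ) ≤ j := by exact_mod_cast le_trans (le_max_right _ _) hj
  have hj0 : (0 : ℝ) < j := by linarith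
  set u : ℝ := 1 / (j : ℝ) with hu
  have hu0 : 0 < u := by positivity
  have hu1 : u ≤ 1 := by rw [hu, div_le_one hj0]; exact hj1
  have hA0 : 0 ≤ |C₀| := abs_nonneg _
  have e1 : (|C₀| + 1) / (j : ℝ) = |C₀| * u + u := by rw [hu]; ring
  rw [e1] at a3
  have h2 : u ^ 2 ≤ u := by
    have : u ^ 2 = u * u := by ring
    rw [this]; exact mul_le_of_le_one_right hu0.le hu1
  have a2 : |C₀| * u ^ 2 ≤ |C₀| * u := mul_le_mul_of_nonneg_left h2 hA0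
  refine ⟨a3, by linarith, ?_⟩
  intro E _ X hX
  have hA : C₀ ≤ |C₀| := le_abs_self _
  have x1 : ‖X.1‖ ≤ |C₀| * u := by
    have : C₀ / (j : ℝ) ≤ |C₀| / (j : ℝ) := by gcongr
    have e : |C₀| / (j : ℝ) = |C₀| * u := by rw [hu]; ring
    linarith [hX.1]
  have x2 : ‖X.2‖ ≤ |C₀| * u ^ 2 := by
    have : C₀ / (j : ℝ) ^ 2 ≤ |C₀| / (j : ℝ) ^ 2 := by gcongr
    have e : |C₀| / (j : ℝ) ^ 2 = |C₀| * u ^ 2 := by rw [hu]; field_simp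
    linarith [hX.2]
  refine ⟨⟨x1, x2⟩, ?_⟩
  rw [Prod.norm_def, max_lt_iff]
  exact ⟨by linarith, by linarith⟩

/-- Torus part of (4.4): no linear forcing from the scalars. -/
theorem p41_dPsi (κ : MapC) (C₀ : ℝ) : ∃ (C₁ : ℝ) (jm : ℕ), ∀ (H : Hist), Flow.MapOK κ H → ∀ j h, H.j0 ≤ j → j < h → jm ≤ j →
    ∀ X : (ℂ × ℂ) × H.T j h, NearCritT C₀ j X → ∀ ξ : (ℂ × ℂ) × H.T j h,
      ‖fderiv ℂ (H.Ψ j h) X ξ‖ ≤ (κ.θ + C₁ / (j : ℝ)) * ‖ξ.2‖ + C₁ / (j : ℝ) * ‖ξ.1‖ := by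
  obtain ⟨jm, hjm1, hjm⟩ := p41_nearT_reg κ.ρ C₀ κ.hρ
  refine ⟨|C₀| + κ.C * (|C₀| + 1) ^ 2, jm, ?_⟩
  intro H hM j h hj hjh hjj X hX ξ
  obtain ⟨b1, b2, b3⟩ := hjm j hjj
  obtain ⟨hreg, _⟩ := b3 X hX
  have hj1 : (1 : ℝ) ≤ j := by exact_mod_cast le_trans hjm1 hjj
  have hj0 : (0 : ℝ) < j := by linarith
  set u : ℝ := 1 / (j : ℝ) with hu
  have hu0 : 0 < u := by positivity
  have hu1 : u ≤ 1 := by rw [hu, div_le_one hj0]; exact hj1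
  have hA0 : 0 ≤ |C₀| := abs_nonneg _
  have hC : 0 ≤ κ.C := le_trans zero_le_one κ.hC
  have e1 : (|C₀| + κ.C * (|C₀| + 1) ^ 2) / (j : ℝ) = (|C₀| + κ.C * (|C₀| + 1) ^ 2) * u := by rw [hu]; ring
  rw [e1]
  have := ((hM.maj_Psi hj hjh).dbd hu0 hu0 b1 b2 hreg).mono (p41_ar_P1 hu0 hu1 hA0 hC κ.hθ.le)
    (p41_ar_P2 hu0 hu1 hA0 hC κ.hθ.le) ξ
  linarith

/-- Derivative of the variance read-out. -/
theorem p41_drV (κ : MapC) (C₀ : ℝ) : ∃ (C₁ : ℝ) (jm : ℕ), ∀ (κe : EntC) (s : ℕ) (H : Hist), Flow.ReadOK κ κe s H →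
    ∀ h, H.j0 ≤ h → jm ≤ h → ∀ X : (ℂ × ℂ) × H.T h h, NearCritT C₀ h X → ∀ ξ : (ℂ × ℂ) × H.T h h,
      ‖fderiv ℂ (H.rV h) X ξ - (H.kV h : ℂ) * ξ.1.1‖ ≤ C₁ / (h : ℝ) * ‖ξ.1‖ + C₁ * ‖ξ.2‖ := by
  obtain ⟨jm, hjm1, hjm⟩ := p41_nearT_reg κ.ρ C₀ κ.hρ
  refine ⟨κ.C * (|C₀| + 1 + (|C₀| + 1) ^ 2), jm, ?_⟩
  intro κe s H hR j hj hjj X hX ξ
  obtain ⟨b1, b2, b3⟩ := hjm j hjj
  obtain ⟨hreg, hXρ⟩ := b3 X hX
  have hj1 : (1 : ℝ) ≤ j := by exact_mod_cast le_trans hjm1 hjj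
  have hj0 : (0 : ℝ) < j := by linarith
  set u : ℝ := 1 / (j : ℝ) with hu
  have hu0 : 0 < u := by positivity
  have hu1 : u ≤ 1 := by rw [hu, div_le_one hj0]; exact hj1
  have hA0 : 0 ≤ |C₀| := abs_nonneg _
  have hC : 0 ≤ κ.C := le_trans zero_le_one κ.hC
  have e1 : κ.C * (|C₀| + 1 + (|C₀| + 1) ^ 2) / (j : ℝ) = κ.C * (|C₀| + 1 + (|C₀| + 1) ^ 2) * u := by rw [hu]; ring
  rw [e1, hR.fderiv_rV hj hXρ ξ, add_sub_cancel_left]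
  have h1 : κ.C * (|C₀| + (|C₀| + 1) ^ 2) * u ≤ κ.C * (|C₀| + 1 + (|C₀| + 1) ^ 2) * u := by
    gcongr
    linarith
  exact ((hR.maj_eV hj).dbd hu0 hu0 b1 b2 hreg).mono ((p41_ar_V1 hu0 hu1 hA0 hC).trans h1)
    (p41_ar_V2 hu0 hu1 hA0 hC) ξ

/-- Derivative of the phase read-out. -/
theorem p41_drP (κ : MapC) (C₀ : ℝ) : ∃ (C₁ : ℝ) (jm : ℕ), ∀ (κe : EntC) (s : ℕ) (H : Hist), Flow.ReadOK κ κe s H →
    ∀ h, H.j0 ≤ h → jm ≤ h → ∀ X : (ℂ × ℂ) × H.T h h, NearCritT C₀ h X → ∀ ξ : (ℂ × ℂ) × H.T h h,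
      ‖fderiv ℂ (H.rP h) X ξ - (H.kP h : ℂ) * ξ.1.2‖ ≤ C₁ / (h : ℝ) * ‖ξ.1‖ + C₁ * ‖ξ.2‖ := by
  obtain ⟨jm, hjm1, hjm⟩ := p41_nearT_reg κ.ρ C₀ κ.hρ
  refine ⟨κ.C * (|C₀| + 1 + (|C₀| + 1) ^ 2), jm, ?_⟩
  intro κe s H hR j hj hjj X hX ξ
  obtain ⟨b1, b2, b3⟩ := hjm j hjj
  obtain ⟨hreg, hXρ⟩ := b3 X hX
  have hj1 : (1 : ℝ) ≤ j := by exact_mod_cast le_trans hjm1 hjj
  have hj0 : (0 : ℝ) < j := by linarith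
  set u : ℝ := 1 / (j : ℝ) with hu
  have hu0 : 0 < u := by positivity
  have hu1 : u ≤ 1 := by rw [hu, div_le_one hj0]; exact hj1
  have hA0 : 0 ≤ |C₀| := abs_nonneg _
  have hC : 0 ≤ κ.C := le_trans zero_le_one κ.hC
  have e1 : κ.C * (|C₀| + 1 + (|C₀| + 1) ^ 2) / (j : ℝ) = κ.C * (|C₀| + 1 + (|C₀| + 1) ^ 2) * u := by rw [hu]; ring
  rw [e1, hR.fderiv_rP hj hXρ ξ, add_sub_cancel_left]
  have h1 : κ.C * (|C₀| + (|C₀| + 1) ^ 2) * u ≤ κ.C * (|C₀| + 1 + (|C₀| + 1) ^ 2) * u := by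
    gcongr
    linarith
  exact ((hR.maj_eP hj).dbd hu0 hu0 b1 b2 hreg).mono ((p41_ar_V1 hu0 hu1 hA0 hC).trans h1)
    (p41_ar_V2 hu0 hu1 hA0 hC) ξ

end
end Claimed.Agent.R285.E4
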