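import Claimed.Agent.R285.E4.P44Model
import Claimed.Agent.R285.E4.P44Asym1

/-!
# ROW 285, cut of [E] P4.4, LEAF P44-ASYM-2 (this file; the header describes all three files P44Asym1/2/3): asymptotics of the scales (paper-free; `s = sf ε ≍ ε^{-1/3}`, `J = ⌊C_* log s⌋`, stops `h ≤ A/√ε`)

From `Sides.size`: `c ε^{-1/3} ≤ s ≤ C ε^{-1/3}` eventually (`c > 0`).  So `s → ∞`, `ε s² ≤ C² ε^{1/3} → 0`, `1/√ε ≤ (s/c)^{3/2}`, `log s ≤ log C + (1/3) log (1/ε)`.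
`Cs κ > 0` and `Cs κ * log L ≥ 1001` (`L ≥ 2`, `0 < rr κ < 1`).
* ASYM-1 = `p44_sf_tendsto`, `p44_disk_ev`, `p44_j0_le`, `p44_horizon`.
  `p44_j0_le`: `j0 log L = log q0 + log s`, `JJ ≥ Cs log s - 1 ≥ 1001 log s/log L - 1`.     `p44_horizon`: `Km s = ⌈|A| (s/c)^{3/2}⌉₊`.
* ASYM-2 = `p44_scales_ev`: `JJ → ∞` and `log (2+j) + 2 = o(j)`;  `K1 = ⌊m/√ε⌋₊`, `m = min τ A`: `K1 ≤ m/√ε`, `ε K1² ≤ τ²`, `K1 ≥ m/(2√ε)`,
  `τ ε K1³ ≥ τ m³/(8 √ε) ≥ log (2 + m/√ε)`, `JJ ≤ Cs log s ≤ Cs (log C + (1/3) log (1/ε)) ≤ m/(2√ε) ≤ K1`  (all because `log t = o(t)`).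
* ASYM-3 = `p44_valid_ev`: `n_h = D0 L^h ≥ L^J ≥ L^{Cs log s - 1} = s^{Cs log L}/L ≥ s^{1001}/L`, so `s/n_h ≤ L s^{-1000}`, `s P0 ≤ n_h`;
  `log cutErr = log κe.C + κe.C (log D0 + h log L) - κe.c s² ≤ c₁ + c₂ A/√ε - κe.c c² ε^{-2/3} → -∞`.
-/

set_option autoImplicit false

namespace Claimed.Agent.R285.E4

open Filter Topology Claims.C0459
open Claimed.Agent.R285.Flow

/-- `log (2 + x) + 2 = o(x)` -/
theorem p44_log_small {δ : ℝ} (hδ : 0 < δ) : ∀ᶠ x : ℝ in atTop, Real.log (2 + x) + 2 ≤ δ * x := by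
  have h1 : ∀ᶠ x : ℝ in atTop, ‖Real.log (2 + x)‖ ≤ δ / 4 * ‖id (2 + x)‖ :=
    (tendsto_atTop_add_const_left atTop (2 : ℝ) tendsto_id).eventually
      (Real.isLittleO_log_id_atTop.def (by positivity : 0 < δ / 4))
  filter_upwards [h1, eventually_ge_atTop (2 : ℝ), eventually_ge_atTop (4 / δ)] with x h2 h3 h4
  have h5 : Real.log (2 + x) ≤ δ / 4 * (2 + x) := by
    have := (le_abs_self _).trans h2
    rwa [id, Real.norm_eq_abs, abs_of_pos (by linarith : 0 < 2 + x)] at this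
  have h6 : 4 ≤ δ * x := by
    rw [div_le_iff₀ hδ] at h4
    linarith
  nlinarith

theorem p44_JJ_tendsto (κ : MapC) : Tendsto (JJ κ) atTop atTop := by
  unfold JJ
  exact tendsto_nat_floor_atTop.comp
    ((Real.tendsto_log_atTop.comp tendsto_natCast_atTop_atTop).const_mul_atTop (p44_Cs_pos κ))

theorem p44_scales_ev {κ : MapC} {κe : EntC} {sf : ℝ → ℕ} (h : Sides κ κe sf) (A τ : ℝ) (hA : 0 < A) (hτ : 0 < τ) :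
    ∀ᶠ ε in 𝓝[>] (0 : ℝ),
      (∀ j : ℕ, JJ κ (sf ε) ≤ j → Real.log (2 + j) + 2 ≤ τ * j) ∧
      ∃ K1 : ℕ, JJ κ (sf ε) ≤ K1 ∧ (K1 : ℝ) ≤ A / Real.sqrt ε ∧ ε * (K1 : ℝ) ^ 2 ≤ τ ^ 2 ∧
        Real.log (2 + K1) ≤ τ * ε * (K1 : ℝ) ^ 3 := by
  obtain ⟨c, C, hc, hC, hev⟩ := p44_size h
  have hCs := p44_Cs_pos κ
  -- part (a)
  obtain ⟨js, hjs⟩ := eventually_atTop.1
    (tendsto_natCast_atTop_atTop.eventually (p44_log_small hτ) : ∀ᶠ j : ℕ in atTop, _)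
  have ha : ∀ᶠ ε in 𝓝[>] (0 : ℝ), js ≤ JJ κ (sf ε) :=
    ((p44_JJ_tendsto κ).comp (p44_sf_tendsto h)).eventually_ge_atTop js
  -- part (b)
  set m := min τ A with hm
  have hm0 : 0 < m := lt_min hτ hA
  have hx : Tendsto (fun v : ℝ => m * v ^ 3) atTop atTop :=
    (tendsto_pow_atTop (by norm_num)).const_mul_atTop hm0
  have c1 : ∀ᶠ ε in 𝓝[>] (0 : ℝ), 2 ≤ m * p44_v ε ^ 3 :=
    p44_v_tendsto.eventually (hx.eventually_ge_atTop 2)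
  have c2 : ∀ᶠ ε in 𝓝[>] (0 : ℝ),
      Real.log (2 + m * p44_v ε ^ 3) + 2 ≤ τ * m ^ 2 / 8 * (m * p44_v ε ^ 3) :=
    p44_v_tendsto.eventually (hx.eventually (p44_log_small (by positivity)))
  have c3 : ∀ᶠ ε in 𝓝[>] (0 : ℝ), 2 * Cs κ * C / m ≤ p44_v ε :=
    p44_v_tendsto.eventually_ge_atTop _
  filter_upwards [hev, ha, c1, c2, c3] with ε ⟨hε, h1, h2⟩ ha c1 c2 c3
  have hvp := p44_v_pos hε
  have h6 := p44_v_six hε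
  rw [p44_div_sqrt hε]
  set v := p44_v ε with hvdef
  refine ⟨fun j hj => hjs j (ha.trans hj), ⌊m * v ^ 3⌋₊, ?_, ?_, ?_, ?_⟩
  · unfold JJ
    apply Nat.floor_le_floor
    have e1 : Real.log (sf ε) ≤ sf ε := Real.log_le_self (Nat.cast_nonneg _)
    have e2 : 2 * Cs κ * C ≤ v * m := by rwa [div_le_iff₀ hm0] at c3
    have e3 : Cs κ * (C * v ^ 2) ≤ m * v ^ 3 := by
      have : 0 ≤ v ^ 2 := by positivity
      have hCC : 0 ≤ Cs κ * C := by positivity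
      nlinarith
    calc Cs κ * Real.log (sf ε) ≤ Cs κ * (C * v ^ 2) :=
          mul_le_mul_of_nonneg_left (e1.trans h2) hCs.le
      _ ≤ m * v ^ 3 := e3
  · have e1 : ((⌊m * v ^ 3⌋₊ : ℕ) : ℝ) ≤ m * v ^ 3 := Nat.floor_le (by positivity)
    exact e1.trans (mul_le_mul_of_nonneg_right (min_le_right _ _) (by positivity))
  · have e1 : ((⌊m * v ^ 3⌋₊ : ℕ) : ℝ) ≤ m * v ^ 3 := Nat.floor_le (by positivity)
    have e2 : ((⌊m * v ^ 3⌋₊ : ℕ) : ℝ) ^ 2 ≤ (m * v ^ 3) ^ 2 :=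
      pow_le_pow_left₀ (Nat.cast_nonneg _) e1 2
    have e3 : m ^ 2 ≤ τ ^ 2 := pow_le_pow_left₀ hm0.le (min_le_left _ _) 2
    calc ε * ((⌊m * v ^ 3⌋₊ : ℕ) : ℝ) ^ 2 ≤ ε * (m * v ^ 3) ^ 2 :=
          mul_le_mul_of_nonneg_left e2 hε.le
      _ = m ^ 2 * (ε * v ^ 6) := by ring
      _ = m ^ 2 := by rw [h6, mul_one]
      _ ≤ τ ^ 2 := e3
  · have e1 : ((⌊m * v ^ 3⌋₊ : ℕ) : ℝ) ≤ m * v ^ 3 := Nat.floor_le (by positivity)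
    have e2 : m * v ^ 3 < ((⌊m * v ^ 3⌋₊ : ℕ) : ℝ) + 1 := Nat.lt_floor_add_one _
    have e3 : m * v ^ 3 / 2 ≤ ((⌊m * v ^ 3⌋₊ : ℕ) : ℝ) := by linarith
    have e4 : (m * v ^ 3 / 2) ^ 3 ≤ ((⌊m * v ^ 3⌋₊ : ℕ) : ℝ) ^ 3 :=
      pow_le_pow_left₀ (by positivity) e3 3
    have e5 : Real.log (2 + ((⌊m * v ^ 3⌋₊ : ℕ) : ℝ)) ≤ Real.log (2 + m * v ^ 3) :=
      Real.log_le_log (by positivity) (by linarith)
    calc Real.log (2 + ((⌊m * v ^ 3⌋₊ : ℕ) : ℝ)) ≤ τ * m ^ 2 / 8 * (m * v ^ 3) := by linarith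
      _ = τ * (ε * v ^ 6) * (m ^ 3 * v ^ 3 / 8) := by rw [h6]; ring
      _ = τ * ε * (m * v ^ 3 / 2) ^ 3 := by ring
      _ ≤ τ * ε * ((⌊m * v ^ 3⌋₊ : ℕ) : ℝ) ^ 3 :=
        mul_le_mul_of_nonneg_left e4 (by positivity)

end Claimed.Agent.R285.E4
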