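import Claimed.Agent.R285.E4.P44Model
import Claimed.Agent.R285.E4.P44Asym1

/-!
# ROW 285, cut of [E] P4.4, LEAF P44-ASYM-3 (this file; the header describes all three files P44Asym1/2/3): asymptotics of the scales (paper-free; `s = sf ε ≍ ε^{-1/3}`, `J = ⌊C_* log s⌋`, stops `h ≤ A/√ε`)

From `Sides.size`: `c ε^{-1/3} ≤ s ≤ C ε^{-1/3}` eventually (`c > 0`).  So `s → ∞`, `ε s² ≤ C² ε^{1/3} → 0`, `1/√ε ≤ (s/c)^{3/2}`, `log s ≤ log C + (1/3) log (1/ε)`.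
`Cs κ > 0` and `Cs κ * log L ≥ 1001` (`L ≥ 2`, `0 < rr κ < 1`).
* ASYM-1 = `p44_sf_tendsto`, `p44_disk_ev`, `p44_j0_le`, `p44_horizon`.
  `p44_j0_le`: `j0 log L = log q0 + log s`, `JJ ≥ Cs log s - 1 ≥ 1001 log s/log L - 1`.     `p44_horizon`: `Km s = ⌈|A| (s/c)^{3/2}⌉₊`.
* ASYM-2 = `p44_scales_ev`: `JJ → ∞` and `log (2+j) + 2 = o(j)`;  `K1 = ⌊m/√ε⌋₊`, `m = min τ A`: `K1 ≤ m/√ε`, `ε K1² ≤ τ²`, `K1 ≥ m/(2√ε)`,
  `τ ε K1³ ≥ τ m³/(8 √ε) ≥ log (2 + m/√ε)`, `JJ ≤ Cs log s ≤ Cs (log C + (1/3) log (1/ε)) ≤ m/(2√ε) ≤ K1`  (all because `log t = o(t)`).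
* ASYM-3 = `p44_valid_ev`: `n_h = D0 L^h ≥ L^J ≥ L^{Cs log s - 1} = s^{Cs log L}/L ≥ s^{1001}/L`, so `s/n_h ≤ L s^{-1000}`, `s P0 ≤ n_h`;
  `log cutErr = log κe.C + κe.C (log D0 + h log L) - κe.c s² ≤ c₁ + c₂ A/√ε - κe.c c² ε^{-2/3} → -∞`.
-/

set_option autoImplicit false

namespace Claimed.Agent.R285.E4

open Filter Topology Claims.C0459
open Claimed.Agent.R285.Flow

/-- beyond the matching index the torus sides are at least `s²` -/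
theorem p44_n_ge (κ : MapC) : ∀ᶠ s : ℕ in atTop, ∀ h : ℕ, JJ κ s ≤ h → (s : ℝ) ^ 2 ≤ κ.n h := by
  filter_upwards [eventually_ge_atTop (max κ.L 2)] with s hs h hh
  have hsL : κ.L ≤ s := le_trans (le_max_left _ _) hs
  have hs2 : 2 ≤ s := le_trans (le_max_right _ _) hs
  have hL := p44_logL_pos κ
  have hsR : (2 : ℝ) ≤ s := by exact_mod_cast hs2
  have hL2 : (2 : ℝ) ≤ κ.L := by exact_mod_cast κ.hL
  have hsLR : (κ.L : ℝ) ≤ s := by exact_mod_cast hsL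
  have hlogs : 0 < Real.log s := Real.log_pos (by linarith)
  have hCs := p44_Cs_logL κ
  have e1 : Cs κ * Real.log s < (JJ κ s : ℝ) + 1 := by
    unfold JJ
    exact Nat.lt_floor_add_one _
  have e2 : 3 * Real.log s ≤ ((JJ κ s : ℝ) + 1) * Real.log κ.L := by
    have a1 := mul_le_mul_of_nonneg_right hCs hlogs.le
    have a2 := mul_le_mul_of_nonneg_right e1.le hL.le
    nlinarith
  have e3 : (s : ℝ) ^ 3 ≤ (κ.L : ℝ) ^ (JJ κ s + 1) := by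
    rw [← Real.log_le_log_iff (by positivity) (by positivity), Real.log_pow, Real.log_pow]
    push_cast
    exact e2
  have e4 : (s : ℝ) ^ 2 ≤ (κ.L : ℝ) ^ JJ κ s := by
    have a1 : (κ.L : ℝ) * (s : ℝ) ^ 2 ≤ (κ.L : ℝ) * (κ.L : ℝ) ^ JJ κ s := by
      calc (κ.L : ℝ) * (s : ℝ) ^ 2 ≤ (s : ℝ) * (s : ℝ) ^ 2 :=
            mul_le_mul_of_nonneg_right hsLR (by positivity)
        _ = (s : ℝ) ^ 3 := by ring
        _ ≤ (κ.L : ℝ) ^ (JJ κ s + 1) := e3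
        _ = (κ.L : ℝ) * (κ.L : ℝ) ^ JJ κ s := by ring
    exact le_of_mul_le_mul_left a1 (by linarith)
  have e5 : (κ.L : ℝ) ^ JJ κ s ≤ (κ.L : ℝ) ^ h := pow_le_pow_right₀ (by linarith) hh
  have hD : (1 : ℝ) ≤ κ.D0 := by exact_mod_cast κ.hD
  unfold MapC.n
  push_cast
  have e6 : (0 : ℝ) ≤ (κ.L : ℝ) ^ h := by positivity
  nlinarith

/-- the algebraic consequences of `s² ≤ n` -/
theorem p44_valid_alg {κe : EntC} {τ : ℝ} (hτ : 0 < τ) : ∀ᶠ s : ℕ in atTop, ∀ n : ℕ, (s : ℝ) ^ 2 ≤ n →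
    s * κe.P0 ≤ n ∧ κe.C * ((s : ℝ) / n) ^ 4 ≤ τ / 2 ∧ (s : ℝ) / n + 1 / (n : ℝ) ^ 2 ≤ τ := by
  have h1 : ∀ᶠ s : ℕ in atTop, 2 * κe.C / τ ≤ (s : ℝ) :=
    tendsto_natCast_atTop_atTop.eventually_ge_atTop _
  have h2 : ∀ᶠ s : ℕ in atTop, 2 / τ ≤ (s : ℝ) :=
    tendsto_natCast_atTop_atTop.eventually_ge_atTop _
  filter_upwards [h1, h2, eventually_ge_atTop (max κe.P0 1)] with s h1 h2 h3 n hn
  have hsP : κe.P0 ≤ s := le_trans (le_max_left _ _) h3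
  have hs1 : 1 ≤ s := le_trans (le_max_right _ _) h3
  have hsR : (1 : ℝ) ≤ s := by exact_mod_cast hs1
  have hs0 : (0 : ℝ) < s := by linarith
  have hC := κe.hC
  have hn0 : (0 : ℝ) < n := lt_of_lt_of_le (by positivity) hn
  have hq : (s : ℝ) / n ≤ 1 / s := by
    rw [div_le_div_iff₀ hn0 hs0]
    nlinarith
  have hq0 : 0 ≤ (s : ℝ) / n := by positivity
  have hinv1 : 1 / (s : ℝ) ≤ 1 := by
    rw [div_le_one hs0]
    exact hsR
  have hinv0 : 0 ≤ 1 / (s : ℝ) := by positivity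
  refine ⟨?_, ?_, ?_⟩
  · have : ((s * κe.P0 : ℕ) : ℝ) ≤ (n : ℝ) := by
      push_cast
      have : (κe.P0 : ℝ) ≤ s := by exact_mod_cast hsP
      nlinarith
    exact_mod_cast this
  · have a1 : ((s : ℝ) / n) ^ 4 ≤ (1 / (s : ℝ)) ^ 4 := pow_le_pow_left₀ hq0 hq 4
    have a2 : (1 / (s : ℝ)) ^ 4 ≤ 1 / (s : ℝ) := by
      calc (1 / (s : ℝ)) ^ 4 ≤ (1 / (s : ℝ)) ^ 1 := pow_le_pow_of_le_one hinv0 hinv1 (by norm_num)
        _ = 1 / (s : ℝ) := pow_one _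
    have a3 : κe.C * (1 / (s : ℝ)) ≤ τ / 2 := by
      rw [div_le_iff₀ hτ] at h1
      rw [mul_one_div, div_le_iff₀ hs0]
      linarith
    calc κe.C * ((s : ℝ) / n) ^ 4 ≤ κe.C * (1 / (s : ℝ)) :=
          mul_le_mul_of_nonneg_left (a1.trans a2) (by linarith)
      _ ≤ τ / 2 := a3
  · have a1 : 1 / (n : ℝ) ^ 2 ≤ 1 / (s : ℝ) := by
      rw [div_le_div_iff₀ (by positivity) hs0]
      have : (s : ℝ) ≤ (s : ℝ) ^ 2 := by nlinarith
      have h5 : (1 : ℝ) ≤ n := by nlinarith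
      nlinarith
    have a2 : 2 * (1 / (s : ℝ)) ≤ τ := by
      rw [div_le_iff₀ hτ] at h2
      rw [mul_one_div, div_le_iff₀ hs0]
      linarith
    linarith

theorem p44_valid_ev {κ : MapC} {κe : EntC} {sf : ℝ → ℕ} (h : Sides κ κe sf) (A τ : ℝ) (hτ : 0 < τ) :
    ∀ᶠ ε in 𝓝[>] (0 : ℝ), ∀ h : ℕ, JJ κ (sf ε) ≤ h → (h : ℝ) ≤ A / Real.sqrt ε →
      sf ε * κe.P0 ≤ κ.n h ∧ cutErr κ κe (sf ε) h ≤ 1 ∧
      κe.C * ((sf ε : ℝ) / κ.n h) ^ 4 + cutErr κ κe (sf ε) h ≤ τ ∧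
      (sf ε : ℝ) / κ.n h + 1 / (κ.n h : ℝ) ^ 2 ≤ τ := by
  obtain ⟨c, C, hc, hC, hev⟩ := p44_size h
  have hsf := p44_sf_tendsto h
  have hL := p44_logL_pos κ
  have hκC := κe.hC
  have hκc := κe.hc
  set δ : ℝ := min 1 (τ / 2) with hδ
  have hδ0 : 0 < δ := lt_min one_pos (by positivity)
  set c1 : ℝ := Real.log κe.C + κe.C * Real.log κ.D0 with hc1
  set c2 : ℝ := κe.C * (|A| * Real.log κ.L) with hc2
  set c3 : ℝ := κe.c * c ^ 2 with hc3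
  have hc20 : 0 ≤ c2 := by positivity
  have hc30 : 0 < c3 := by positivity
  have v1 : ∀ᶠ ε in 𝓝[>] (0 : ℝ), 1 ≤ p44_v ε := p44_v_tendsto.eventually_ge_atTop 1
  have v2 : ∀ᶠ ε in 𝓝[>] (0 : ℝ), (c2 + |c1| + |Real.log δ|) / c3 ≤ p44_v ε :=
    p44_v_tendsto.eventually_ge_atTop _
  filter_upwards [hev, hsf.eventually (p44_n_ge κ), hsf.eventually (p44_valid_alg (κe := κe) hτ),
    v1, v2] with ε ⟨hε, h1, h2⟩ hn halg v1 v2 j hj hjA
  rw [p44_div_sqrt hε] at hjA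
  set v := p44_v ε with hvdef
  obtain ⟨a1, a2, a3⟩ := halg (κ.n j) (hn j hj)
  -- the cutoff error
  have hcut : cutErr κ κe (sf ε) j ≤ δ := by
    have hD : (1 : ℝ) ≤ κ.D0 := by exact_mod_cast κ.hD
    have hL2 : (2 : ℝ) ≤ κ.L := by exact_mod_cast κ.hL
    have hnpos : (0 : ℝ) < κ.n j := by
      unfold MapC.n
      push_cast
      positivity
    have hlogn : Real.log (κ.n j) = Real.log κ.D0 + j * Real.log κ.L := by
      unfold MapC.n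
      push_cast
      rw [Real.log_mul (by linarith) (by positivity), Real.log_pow]
    have hjv : (j : ℝ) ≤ |A| * v ^ 3 :=
      hjA.trans (mul_le_mul_of_nonneg_right (le_abs_self A) (by positivity))
    have hs2 : c ^ 2 * v ^ 4 ≤ (sf ε : ℝ) ^ 2 := by
      have := pow_le_pow_left₀ (by positivity) h1 2
      nlinarith
    have e1 : cutErr κ κe (sf ε) j
        = Real.exp (Real.log κe.C + Real.log (κ.n j) * κe.C + -κe.c * (sf ε : ℝ) ^ 2) := by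
      unfold cutErr
      rw [Real.exp_add, Real.exp_add, Real.exp_log (by linarith), Real.rpow_def_of_pos hnpos]
    have e2 : Real.log κe.C + Real.log (κ.n j) * κe.C + -κe.c * (sf ε : ℝ) ^ 2
        ≤ c1 + c2 * v ^ 3 - c3 * v ^ 4 := by
      rw [hlogn]
      have b1 : (j : ℝ) * Real.log κ.L ≤ |A| * v ^ 3 * Real.log κ.L :=
        mul_le_mul_of_nonneg_right hjv hL.le
      have b2 : (j : ℝ) * Real.log κ.L * κe.C ≤ |A| * v ^ 3 * Real.log κ.L * κe.C :=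
        mul_le_mul_of_nonneg_right b1 (by linarith)
      have b3 : κe.c * (c ^ 2 * v ^ 4) ≤ κe.c * (sf ε : ℝ) ^ 2 :=
        mul_le_mul_of_nonneg_left hs2 hκc.le
      rw [hc1, hc2, hc3]
      nlinarith
    have e3 : c1 + c2 * v ^ 3 - c3 * v ^ 4 ≤ Real.log δ := by
      rw [div_le_iff₀ hc30] at v2
      have hv3 : 1 ≤ v ^ 3 := one_le_pow₀ v1
      have b1 : (c2 + |c1| + |Real.log δ|) * v ^ 3 ≤ v * c3 * v ^ 3 :=
        mul_le_mul_of_nonneg_right v2 (by positivity)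
      have b2 : |c1| + |Real.log δ| ≤ (|c1| + |Real.log δ|) * v ^ 3 :=
        le_mul_of_one_le_right (by positivity) hv3
      have b3 := le_abs_self c1
      have b4 := neg_abs_le (Real.log δ)
      nlinarith
    rw [e1, ← Real.exp_log hδ0]
    exact Real.exp_le_exp.2 (e2.trans e3)
  refine ⟨a1, hcut.trans (min_le_left _ _), ?_, a3⟩
  have := hcut.trans (min_le_right _ _)
  linarith

end Claimed.Agent.R285.E4
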