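import Claimed.Agent.R285.E4.P44Tor

/-!
# ROW 285, cut of [E] P4.4, LEAF P44-READ: the variance read-out (glue from `ReadOK` and `MapOK.sc_t`)

`h = j0 + i`, `n = κ.n h`, `X = ts b h i = ((t, z), R)`, `‖X‖ < ρ`.
`|torVar - cV| ≤ κe.C (s/n)⁴ + cutErr` (`cmpV`);  `(cV : ℂ) = v0 + rV X` (`repV`), so `cV - v0 - kV re t = re (rV X - kV t)`, `≤ C (‖R‖ + ‖X‖²)` (`rV_bd`);
`|v0 - 1/π|, |kV - 1/π| ≤ C (s/n + 1/n²)`;  `|re t - re x / b_*| ≤ C (‖x‖² + ‖Q‖)` (`sc_t`);  `|re t| ≤ ‖X‖ < ρ`;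
`‖X‖ ≤ Cs (wn + ‖Q‖) + ‖R‖` (`p44_sc_bd`), `‖X‖² ≤ 3 Cs² (wn² + ρ ‖Q‖ + ρ ‖R‖)`.   No reality of `x` is needed.
-/

set_option autoImplicit false

namespace Claimed.Agent.R285.E4

open Claims.C0459
open Claimed.Agent.R285.Flow

theorem p44_read_sq {ρ Cs w q r N : ℝ} (hρ : 0 < ρ) (hCs : 1 ≤ Cs) (hN0 : 0 ≤ N) (hN : N < ρ)
    (f7 : N ≤ Cs * (w + q) + r) (hq : q < ρ) (hr : r ≤ N) (hq0 : 0 ≤ q) (hr0 : 0 ≤ r) :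
    N ^ 2 ≤ 3 * Cs ^ 2 * (w ^ 2 + ρ * q + ρ * r) := by
  have h1 : N ^ 2 ≤ (Cs * (w + q) + r) ^ 2 := pow_le_pow_left₀ hN0 f7 2
  have h2 : (Cs * (w + q) + r) ^ 2 ≤ 3 * ((Cs * w) ^ 2 + (Cs * q) ^ 2 + r ^ 2) := by
    nlinarith [sq_nonneg (Cs * w - Cs * q), sq_nonneg (Cs * w - r), sq_nonneg (Cs * q - r)]
  have h3 : q ^ 2 ≤ ρ * q := by nlinarith
  have h4 : r ^ 2 ≤ ρ * r := by nlinarith
  have h5 : (1 : ℝ) ≤ Cs ^ 2 := by nlinarith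
  have h6 : r ^ 2 ≤ Cs ^ 2 * (ρ * r) := by
    have : 0 ≤ ρ * r := by positivity
    nlinarith
  have h7 : (Cs * q) ^ 2 ≤ Cs ^ 2 * (ρ * q) := by
    rw [mul_pow]; exact mul_le_mul_of_nonneg_left h3 (by positivity)
  have h8 : (Cs * w) ^ 2 = Cs ^ 2 * w ^ 2 := mul_pow _ _ _
  have h9 : 3 * Cs ^ 2 * (w ^ 2 + ρ * q + ρ * r) = 3 * (Cs ^ 2 * w ^ 2 + Cs ^ 2 * (ρ * q) + Cs ^ 2 * (ρ * r)) := by ring
  rw [h9]
  linarith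

theorem p44_read_fin {C ρ Cs δ w q r : ℝ} (hC : 1 ≤ C) (hρ : 0 < ρ) (hq0 : 0 ≤ q) (hr0 : 0 ≤ r) (hδ : 0 ≤ δ) :
    C * (r + 3 * Cs ^ 2 * (w ^ 2 + ρ * q + ρ * r)) + C * δ + C * δ * ρ + C * (w ^ 2 + q)
      ≤ C * (1 + ρ) * (1 + 3 * Cs ^ 2) * (δ + w ^ 2 + q + r) := by
  have hC0 : 0 ≤ C := by linarith
  have e2 : C * (1 + ρ) * (1 + 3 * Cs ^ 2) * (δ + w ^ 2 + q + r)
      = (C * (r + 3 * Cs ^ 2 * (w ^ 2 + ρ * q + ρ * r)) + C * δ + C * δ * ρ + C * (w ^ 2 + q))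
      + C * (3 * Cs ^ 2 * (1 + ρ) * δ + (ρ + 3 * Cs ^ 2 * ρ) * w ^ 2 + (ρ + 3 * Cs ^ 2) * q + (ρ + 3 * Cs ^ 2) * r) := by
    ring
  rw [e2]
  exact le_add_of_nonneg_right (by positivity)

/-- the arithmetic of the read-out -/
theorem p44_read_arith {C ρ Cs TV cV v0 kV tr xr bs δ w q r N E0 : ℝ} (hC : 1 ≤ C) (hρ : 0 < ρ) (hCs : 1 ≤ Cs)
    (f1 : |TV - cV| ≤ E0) (f2 : |cV - v0 - kV * tr| ≤ C * (r + N ^ 2)) (f3 : |v0 - 1 / Real.pi| ≤ C * δ)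
    (f4 : |kV - 1 / Real.pi| ≤ C * δ) (f5 : |tr - xr / bs| ≤ C * (w ^ 2 + q)) (f6 : |tr| ≤ N) (hN : N < ρ)
    (f7 : N ≤ Cs * (w + q) + r) (hq : q < ρ) (hr : r ≤ N) (hq0 : 0 ≤ q) (hr0 : 0 ≤ r) (hδ : 0 ≤ δ) :
    |TV - 1 / Real.pi - xr / (Real.pi * bs)| ≤ C * (1 + ρ) * (1 + 3 * Cs ^ 2) * (δ + w ^ 2 + q + r) + E0 := by
  have hpi : 0 < Real.pi := Real.pi_pos
  have hpi1 : 1 / Real.pi ≤ 1 := by
    rw [div_le_one hpi]; linarith [Real.pi_gt_three]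
  have hpi0 : 0 ≤ 1 / Real.pi := by positivity
  have hN0 : 0 ≤ N := le_trans (abs_nonneg _) f6
  have e : TV - 1 / Real.pi - xr / (Real.pi * bs)
      = (TV - cV) + (cV - v0 - kV * tr) + (v0 - 1 / Real.pi) + (kV - 1 / Real.pi) * tr + 1 / Real.pi * (tr - xr / bs) := by
    have : xr / (Real.pi * bs) = 1 / Real.pi * (xr / bs) := by
      rw [div_mul_div_comm, one_mul]
    rw [this]; ring
  have g1 : |(kV - 1 / Real.pi) * tr| ≤ C * δ * ρ := by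
    rw [abs_mul]
    exact mul_le_mul f4 (f6.trans hN.le) (abs_nonneg _) (by positivity)
  have g2 : |1 / Real.pi * (tr - xr / bs)| ≤ C * (w ^ 2 + q) := by
    rw [abs_mul, abs_of_nonneg hpi0]
    calc 1 / Real.pi * |tr - xr / bs| ≤ 1 * |tr - xr / bs| := mul_le_mul_of_nonneg_right hpi1 (abs_nonneg _)
      _ = |tr - xr / bs| := one_mul _
      _ ≤ _ := f5
  have g3 := p44_read_sq (w := w) hρ hCs hN0 hN f7 hq hr hq0 hr0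
  have g4 : C * (r + N ^ 2) ≤ C * (r + 3 * Cs ^ 2 * (w ^ 2 + ρ * q + ρ * r)) :=
    mul_le_mul_of_nonneg_left (by linarith) (by linarith)
  have hfin := p44_read_fin (Cs := Cs) (w := w) hC hρ hq0 hr0 hδ
  rw [e]
  refine (abs_add_le _ _).trans ?_
  refine (add_le_add ((abs_add_le _ _).trans (add_le_add ((abs_add_le _ _).trans
    (add_le_add ((abs_add_le _ _).trans (add_le_add f1 (f2.trans g4))) f3)) g1)) g2).trans ?_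
  obtain ⟨X1, hX1⟩ : ∃ X, X = C * (r + 3 * Cs ^ 2 * (w ^ 2 + ρ * q + ρ * r)) := ⟨_, rfl⟩
  obtain ⟨X2, hX2⟩ : ∃ X, X = C * (1 + ρ) * (1 + 3 * Cs ^ 2) * (δ + w ^ 2 + q + r) := ⟨_, rfl⟩
  obtain ⟨X3, hX3⟩ : ∃ X, X = C * (w ^ 2 + q) := ⟨_, rfl⟩
  obtain ⟨X4, hX4⟩ : ∃ X, X = C * δ * ρ := ⟨_, rfl⟩
  obtain ⟨X5, hX5⟩ : ∃ X, X = C * δ := ⟨_, rfl⟩
  rw [← hX1, ← hX2, ← hX3, ← hX4, ← hX5] at hfin ⊢
  linarith only [hfin]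

theorem p44_readout (κ : MapC) : ∃ Cr : ℝ, 1 ≤ Cr ∧
    ∀ (κe : EntC) (ρe : ℝ) (s : ℕ) (H : Hist), SysOK κ κe ρe s H → ∀ (b : ℝ) (i : ℕ), (b : ℂ) ∈ disk κe s →
      Valid κ κe s H (H.j0 + i) → H.Inside κ.ρ (b : ℂ) (H.j0 + i) i →
      |torVar b (κ.n (H.j0 + i)) - 1 / Real.pi - (H.x (b : ℂ) i).re / (Real.pi * κ.bs)|
        ≤ Cr * (((s : ℝ) / κ.n (H.j0 + i) + 1 / (κ.n (H.j0 + i) : ℝ) ^ 2)
              + wn (H.st (b : ℂ) i) ^ 2 + H.q (b : ℂ) i + ‖H.tor (b : ℂ) (H.j0 + i) i‖)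
          + (κe.C * ((s : ℝ) / κ.n (H.j0 + i)) ^ 4 + cutErr κ κe s (H.j0 + i)) := by
  obtain ⟨Cs, hCs, hsc⟩ := p44_sc_bd κ
  have hC := κ.hC
  have hρ := κ.hρ
  refine ⟨κ.C * (1 + κ.ρ) * (1 + 3 * Cs ^ 2), ?_, ?_⟩
  · have h1 : (1 : ℝ) ≤ 1 + κ.ρ := by linarith
    have h2 : (1 : ℝ) ≤ 1 + 3 * Cs ^ 2 := by nlinarith
    have h3 : (1 : ℝ) ≤ κ.C * (1 + κ.ρ) := by nlinarith
    nlinarith
  intro κe ρe s H hs b i hb hv hin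
  have hj : H.j0 ≤ H.j0 + i := Nat.le_add_right _ _
  obtain ⟨hY, hX⟩ := hin i le_rfl
  have hYm : H.st (b : ℂ) i ∈ Metric.ball (0 : ℂ × ℂ × H.Q (H.j0 + i)) κ.ρ := mem_ball_zero_iff.2 hY
  have hXm : H.ts (b : ℂ) (H.j0 + i) i ∈ Metric.ball (0 : (ℂ × ℂ) × H.T (H.j0 + i) (H.j0 + i)) κ.ρ :=
    mem_ball_zero_iff.2 hX
  have f1 := hs.read.cmpV b (H.j0 + i) hb hv
  have hrep := hs.read.repV b i hb hv hin
  have hbd := hs.read.rV_bd (H.j0 + i) hj _ hXm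
  have f3 := hs.read.v0_bd (H.j0 + i) hj
  have f4 := hs.read.kV_bd (H.j0 + i) hj
  have hsct := hs.map.sc_t (H.j0 + i) hj _ hYm
  have hscb := hsc H hs.map (H.j0 + i) hj _ hYm
  refine p44_read_arith (C := κ.C) (ρ := κ.ρ) (Cs := Cs) (cV := H.cV (H.j0 + i) b) (v0 := H.v0 (H.j0 + i))
    (kV := H.kV (H.j0 + i)) (tr := ((H.ts (b : ℂ) (H.j0 + i) i).1.1).re) (N := ‖H.ts (b : ℂ) (H.j0 + i) i‖)
    hC hρ hCs f1 ?_ f3 f4 ?_ ?_ hX ?_ ?_ ?_ ?_ ?_ ?_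
  · -- f2
    have e1 : H.cV (H.j0 + i) b - H.v0 (H.j0 + i) - H.kV (H.j0 + i) * ((H.ts (b : ℂ) (H.j0 + i) i).1.1).re
        = (H.rV (H.j0 + i) (H.ts (b : ℂ) (H.j0 + i) i) - H.kV (H.j0 + i) * (H.ts (b : ℂ) (H.j0 + i) i).1.1).re := by
      have h1 : (H.rV (H.j0 + i) (H.ts (b : ℂ) (H.j0 + i) i)).re = H.cV (H.j0 + i) b - H.v0 (H.j0 + i) := by
        have := congrArg Complex.re hrep
        simp only [Complex.ofReal_re, Complex.add_re] at this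
        linarith
      rw [Complex.sub_re, h1, Complex.re_ofReal_mul]
    rw [e1]
    exact (Complex.abs_re_le_norm _).trans hbd
  · -- f5
    have e1 : ((H.ts (b : ℂ) (H.j0 + i) i).1.1).re - (H.x (b : ℂ) i).re / κ.bs
        = ((H.sc (H.j0 + i) (H.st (b : ℂ) i)).1 - (H.st (b : ℂ) i).1 / κ.bs).re := by
      rw [Complex.sub_re, Complex.div_ofReal_re]
      rfl
    rw [e1]
    exact (Complex.abs_re_le_norm _).trans hsct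
  · -- f6
    exact (Complex.abs_re_le_norm _).trans ((norm_fst_le _).trans (norm_fst_le _))
  · -- f7
    have h1 : ‖H.ts (b : ℂ) (H.j0 + i) i‖ = max ‖H.sc (H.j0 + i) (H.st (b : ℂ) i)‖ ‖H.tor (b : ℂ) (H.j0 + i) i‖ := rfl
    rw [h1]
    have hw0 : 0 ≤ wn (H.st (b : ℂ) i) := le_max_of_le_left (norm_nonneg _)
    have hq0 : 0 ≤ H.q (b : ℂ) i := norm_nonneg _
    refine max_le (hscb.trans (le_add_of_nonneg_right (norm_nonneg _))) ?_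
    have : 0 ≤ Cs * (wn (H.st (b : ℂ) i) + H.q (b : ℂ) i) := by positivity
    linarith
  · exact lt_of_le_of_lt ((norm_snd_le _).trans (norm_snd_le _)) hY
  · exact norm_snd_le (H.ts (b : ℂ) (H.j0 + i) i)
  · exact norm_nonneg (H.st (b : ℂ) i).2.2
  · exact norm_nonneg _
  · positivity

end Claimed.Agent.R285.E4
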