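import Claimed.Agent.R285.E4.P44Tame
import Claimed.Agent.R285.E4.P44Read

/-!
# ROW 285, cut of [E] P4.4, LEAF P44-CORE (PROVED, helper14): the deterministic core (glue of `p44_sys_of_start`, `p44_master`, `p44_tame`, `p44_readout`)

`b = b_c - ε`, `J = JJ κ s`, `x = p44_x H b`, `κ_ε = √(3 P ε) = √(3P) √ε`, `b_* = κ.bs = 2 log L > 0`, `κ.n h = κ.D0 * κ.L ^ h` (definitional).
Constants: `C, τ0 := p44_sys_of_start`;  `d0, _ := p44_master C κ.θ κ.ρ P`;  `d1, K := p44_tame`;  `Cr := p44_readout κ`.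
`d := min d0 (min d1 (1 / (4 π b_* · 9 Cr (1 + 2K))))`,  `c := d / (2 π b_*)`.
* read-out at a stage `i` with `J ≤ j0 + i ≤ A/√ε`, no exit before: by `p44_tame`, `p44_Start.valid`, `p44_readout`, with `w = wn (st b i)`:
  `|torVar b (κ.n (j0+i)) - 1/π - x_{j0+i}/(π b_*)| ≤ Cr (τ + (1 + 2K) w²) + τ`    (`(H.x b i).re = p44_x H b (j0 + i)` by `Nat.add_sub_cancel_left`).
* exit: second part of `p44_master` with `min ζ 1`; `je = p44_exit d J x`, `p44_exit_spec`: `J ≤ je`, `x je ≤ -d`, no exit before; `je ≤ (π+1)/κ_ε ≤ A/√ε`; `je = j0 + i`; `w ≤ 3d`: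
  `torVar ≤ 1/π - d/(π b_*) + 9 Cr (1+2K) d² + (Cr + 1) τ ≤ 1/π - c`   if `(Cr+1) τ1 ≤ d/(4 π b_*)`.
* before: third part of `p44_master` with `ϖ'` small: no exit up to `j`, `w_j ≤ ϖ'`, `|x_j| ≤ w_j`; `j ≤ π/κ_ε ≤ A/√ε`; `J ≤ K1 ≤ j`:
  `|torVar - 1/π| ≤ ϖ'/(π b_*) + Cr (τ + (1+2K) ϖ'²) + τ ≤ ϖ`.
-/

set_option autoImplicit false

namespace Claimed.Agent.R285.E4

open Claims.C0459
open Claimed.Agent.R285.Flow

/-- the horizon: `κ_ε j ≤ π + 1` implies `j ≤ A / √ε` -/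
theorem p44_core_hor (P A ε j : ℝ) (hP : 0 < P) (hε : 0 < ε) (hA : (Real.pi + 1) / Real.sqrt (3 * P) ≤ A)
    (h : Real.sqrt (3 * P * ε) * j ≤ Real.pi + 1) : j ≤ A / Real.sqrt ε := by
  have h3P : 0 < 3 * P := by positivity
  have hs1 : 0 < Real.sqrt (3 * P) := Real.sqrt_pos.2 h3P
  have hs2 : 0 < Real.sqrt ε := Real.sqrt_pos.2 hε
  rw [Real.sqrt_mul h3P.le] at h
  rw [le_div_iff₀ hs2]
  refine le_trans ?_ hA
  rw [le_div_iff₀ hs1]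
  linarith

/-- real-variable end of the exit estimate -/
theorem p44_core_fin1 (T X w d τ Cr K B : ℝ) (hB : 0 < B) (hCr : 1 ≤ Cr) (hK : 1 ≤ K) (hd : 0 < d)
    (h : |T - 1 / Real.pi - X / B| ≤ Cr * (τ + (1 + 2 * K) * w ^ 2) + τ) (hX : X ≤ -d) (hw0 : 0 ≤ w) (hw : w ≤ 3 * d)
    (hd1 : d ≤ 1 / (4 * B * (9 * Cr * (1 + 2 * K)))) (hτ : (Cr + 1) * τ ≤ d / (4 * B)) :
    T ≤ 1 / Real.pi - d / (2 * B) := by
  obtain ⟨M, hM⟩ : ∃ M, M = 9 * Cr * (1 + 2 * K) := ⟨_, rfl⟩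
  have hM0 : 0 < M := by rw [hM]; positivity
  rw [← hM] at hd1
  have h1 : M * d ≤ 1 / (4 * B) := by
    have : 1 / (4 * B * M) = 1 / (4 * B) / M := by field_simp
    rw [this, le_div_iff₀ hM0] at hd1
    linarith
  have h2 : M * d ^ 2 ≤ d / (4 * B) := by
    have : M * d ^ 2 = d * (M * d) := by ring
    rw [this]
    calc d * (M * d) ≤ d * (1 / (4 * B)) := mul_le_mul_of_nonneg_left h1 hd.le
      _ = d / (4 * B) := by ring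
  have h3 : w ^ 2 ≤ 9 * d ^ 2 := by nlinarith
  have h4 : Cr * ((1 + 2 * K) * w ^ 2) ≤ M * d ^ 2 := by
    have : Cr * ((1 + 2 * K) * w ^ 2) ≤ Cr * ((1 + 2 * K) * (9 * d ^ 2)) := by gcongr
    calc _ ≤ Cr * ((1 + 2 * K) * (9 * d ^ 2)) := this
      _ = M * d ^ 2 := by rw [hM]; ring
  have h5 : X / B ≤ -d / B := by gcongr
  have h6 := (abs_le.1 h).2
  have e1 : -d / B + d / (4 * B) + d / (4 * B) = -(d / (2 * B)) := by field_simp; ring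
  have e2 : Cr * (τ + (1 + 2 * K) * w ^ 2) + τ = (Cr + 1) * τ + Cr * ((1 + 2 * K) * w ^ 2) := by ring
  linarith

/-- real-variable end of the estimate before the exit -/
theorem p44_core_fin2 (T X w τ Cr K B ϖ ϖ' : ℝ) (hB : 0 < B) (hCr : 1 ≤ Cr) (hK : 1 ≤ K)
    (h : |T - 1 / Real.pi - X / B| ≤ Cr * (τ + (1 + 2 * K) * w ^ 2) + τ) (hX : |X| ≤ w) (hw : w ≤ ϖ')
    (h1 : ϖ' ≤ 1) (h2 : ϖ' * (1 / B + Cr * (1 + 2 * K)) ≤ ϖ / 2) (hτ : (Cr + 1) * τ ≤ ϖ / 2) :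
    |T - 1 / Real.pi| ≤ ϖ := by
  have hw0 : 0 ≤ w := (abs_nonneg X).trans hX
  have hϖ0 : 0 ≤ ϖ' := hw0.trans hw
  have h3 : w ^ 2 ≤ ϖ' := by
    calc w ^ 2 ≤ ϖ' ^ 2 := by gcongr
      _ = ϖ' * ϖ' := sq _
      _ ≤ ϖ' * 1 := by gcongr
      _ = ϖ' := mul_one _
  have h4 : |X / B| ≤ ϖ' * (1 / B) := by
    rw [abs_div, abs_of_pos hB, div_eq_mul_one_div]
    gcongr
    exact hX.trans hw
  have h5 : Cr * ((1 + 2 * K) * w ^ 2) ≤ ϖ' * (Cr * (1 + 2 * K)) := by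
    calc Cr * ((1 + 2 * K) * w ^ 2) ≤ Cr * ((1 + 2 * K) * ϖ') := by gcongr
      _ = ϖ' * (Cr * (1 + 2 * K)) := by ring
  have h6 : |T - 1 / Real.pi| ≤ |T - 1 / Real.pi - X / B| + |X / B| := by
    have : T - 1 / Real.pi = (T - 1 / Real.pi - X / B) + X / B := by ring
    calc |T - 1 / Real.pi| = |(T - 1 / Real.pi - X / B) + X / B| := by rw [← this]
      _ ≤ _ := abs_add_le _ _
  have e2 : Cr * (τ + (1 + 2 * K) * w ^ 2) + τ = (Cr + 1) * τ + Cr * ((1 + 2 * K) * w ^ 2) := by ring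
  have e3 : ϖ' * (1 / B + Cr * (1 + 2 * K)) = ϖ' * (1 / B) + ϖ' * (Cr * (1 + 2 * K)) := by ring
  linarith

/-- the read-out at an index before (or at) the exit -/
theorem p44_core_ro (κ : MapC) (P Cl A : ℝ) (hP : 0 < P) (hCl : 1 ≤ Cl) :
    ∃ d1 K Cr : ℝ, 0 < d1 ∧ 1 ≤ K ∧ 1 ≤ Cr ∧ ∀ d : ℝ, 0 < d → d ≤ d1 → ∃ τ1 : ℝ, 0 < τ1 ∧
    ∀ (κe : EntC) (ρe : ℝ) (s : ℕ) (H : Hist) (ε τ : ℝ) (K1 : ℕ), 0 < ε → 0 < τ → τ ≤ τ1 →
      p44_Start κ κe ρe s H P Cl A ε τ K1 →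
      ∀ j : ℕ, JJ κ s ≤ j → (j : ℝ) ≤ A / Real.sqrt ε →
        p44_NoExit d (JJ κ s) (p44_x H (xyCritical - ε)) j →
        p44_w (p44_x H (xyCritical - ε)) (p44_y H (xyCritical - ε)) j ≤ 3 * d ∧
        |torVar (xyCritical - ε) (κ.D0 * κ.L ^ j) - 1 / Real.pi - p44_x H (xyCritical - ε) j / (Real.pi * κ.bs)|
          ≤ Cr * (τ + (1 + 2 * K) * p44_w (p44_x H (xyCritical - ε)) (p44_y H (xyCritical - ε)) j ^ 2) + τ := by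
  obtain ⟨d1, K, hd1, hK, Ht⟩ := p44_tame κ P Cl A hP hCl
  obtain ⟨Cr, hCr, Hr⟩ := p44_readout κ
  refine ⟨d1, K, Cr, hd1, hK, hCr, ?_⟩
  intro d hd hdd
  obtain ⟨τ1, hτ1, Ht⟩ := Ht d hd hdd
  refine ⟨τ1, hτ1, ?_⟩
  intro κe ρe s H ε τ K1 hε hτ hττ hS j hJj hjA hNE
  obtain ⟨i, rfl⟩ := Nat.exists_eq_add_of_le (hS.j0J.trans hJj)
  obtain ⟨t1, t2, t3, t4, t5⟩ := Ht κe ρe s H ε τ K1 hε hτ hττ hS i hJj hjA hNE
  obtain ⟨v1, v2, v3⟩ := hS.valid (H.j0 + i) hJj hjA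
  have hr := Hr κe ρe s H hS.sys (xyCritical - ε) i hS.hb v1 t1
  rw [← t2]
  refine ⟨t3, ?_⟩
  rw [p44_x_add]
  obtain ⟨w, hw⟩ : ∃ w, w = wn (H.st ((xyCritical - ε : ℝ) : ℂ) i) := ⟨_, rfl⟩
  rw [← hw] at hr t4 t5 ⊢
  have hn : κ.D0 * κ.L ^ (H.j0 + i) = κ.n (H.j0 + i) := rfl
  rw [hn]
  refine hr.trans ?_
  have : Cr * (((s : ℝ) / κ.n (H.j0 + i) + 1 / (κ.n (H.j0 + i) : ℝ) ^ 2)
              + w ^ 2 + H.q ((xyCritical - ε : ℝ) : ℂ) i + ‖H.tor ((xyCritical - ε : ℝ) : ℂ) (H.j0 + i) i‖)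
      ≤ Cr * (τ + (1 + 2 * K) * w ^ 2) := by
    apply mul_le_mul_of_nonneg_left _ (by linarith)
    linarith
  linarith

theorem p44_core (κ : MapC) (P Cl A : ℝ) (hP : 0 < P) (hCl : 1 ≤ Cl)
    (hA : (Real.pi + 1) / Real.sqrt (3 * P) ≤ A) :
    ∃ d c : ℝ, 0 < d ∧ 0 < c ∧
      (∀ ζ : ℝ, 0 < ζ → ∃ τ1 : ℝ, 0 < τ1 ∧
        ∀ (κe : EntC) (ρe : ℝ) (s : ℕ) (H : Hist) (ε τ : ℝ) (K1 : ℕ), 0 < ε → 0 < τ → τ ≤ τ1 →
          p44_Start κ κe ρe s H P Cl A ε τ K1 →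
          |Real.sqrt (3 * P * ε) * (p44_exit d (JJ κ s) (p44_x H (xyCritical - ε)) : ℝ) - Real.pi| ≤ ζ ∧
          torVar (xyCritical - ε) (κ.D0 * κ.L ^ p44_exit d (JJ κ s) (p44_x H (xyCritical - ε))) ≤ 1 / Real.pi - c) ∧
      (∀ ζ : ℝ, 0 < ζ → ∀ ϖ : ℝ, 0 < ϖ → ∃ τ1 : ℝ, 0 < τ1 ∧
        ∀ (κe : EntC) (ρe : ℝ) (s : ℕ) (H : Hist) (ε τ : ℝ) (K1 : ℕ), 0 < ε → 0 < τ → τ ≤ τ1 →
          p44_Start κ κe ρe s H P Cl A ε τ K1 →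
          ∀ j : ℕ, K1 ≤ j → Real.sqrt (3 * P * ε) * j ≤ Real.pi - ζ →
            |torVar (xyCritical - ε) (κ.D0 * κ.L ^ j) - 1 / Real.pi| ≤ ϖ) := by
  obtain ⟨C, τ0, hC, hτ0, Hsys⟩ := p44_sys_of_start κ P Cl A hCl
  obtain ⟨d0, Km, hd0, hKm, Hm⟩ := p44_master C κ.θ κ.ρ P hC κ.hθ0 κ.hθ κ.hρ hP
  obtain ⟨d1, K, Cr, hd1, hK, hCr, Hro⟩ := p44_core_ro κ P Cl A hP hCl
  obtain ⟨B, hB⟩ : ∃ B, B = Real.pi * κ.bs := ⟨_, rfl⟩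
  have hB0 : 0 < B := by rw [hB]; exact mul_pos Real.pi_pos κ.bs_pos
  obtain ⟨d, hd⟩ : ∃ d, d = min d0 (min d1 (1 / (4 * B * (9 * Cr * (1 + 2 * K))))) := ⟨_, rfl⟩
  have hd_pos : 0 < d := by
    rw [hd]; exact lt_min hd0 (lt_min hd1 (by positivity))
  have hdd0 : d ≤ d0 := by rw [hd]; exact min_le_left _ _
  have hdd1 : d ≤ d1 := by rw [hd]; exact (min_le_right _ _).trans (min_le_left _ _)
  have hdd2 : d ≤ 1 / (4 * B * (9 * Cr * (1 + 2 * K))) := by rw [hd]; exact (min_le_right _ _).trans (min_le_right _ _)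
  obtain ⟨-, Hm2, Hm3⟩ := Hm d hd_pos hdd0
  obtain ⟨τt, hτt, Hro⟩ := Hro d hd_pos hdd1
  refine ⟨d, d / (2 * B), hd_pos, by positivity, ?_, ?_⟩
  · intro ζ hζ
    obtain ⟨τm, hτm, Hm2⟩ := Hm2 (min ζ 1) (lt_min hζ one_pos)
    refine ⟨min τ0 (min τm (min τt (d / (4 * B) / (Cr + 1)))),
      lt_min hτ0 (lt_min hτm (lt_min hτt (by positivity))), ?_⟩
    intro κe ρe s H ε τ K1 hε hτ hττ hS
    have u0 : τ ≤ τ0 := hττ.trans (min_le_left _ _)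
    have u1 : τ ≤ τm := hττ.trans ((min_le_right _ _).trans (min_le_left _ _))
    have u2 : τ ≤ τt := hττ.trans ((min_le_right _ _).trans ((min_le_right _ _).trans (min_le_left _ _)))
    have u3 : τ ≤ d / (4 * B) / (Cr + 1) :=
      hττ.trans ((min_le_right _ _).trans ((min_le_right _ _).trans (min_le_right _ _)))
    have hSys := Hsys κe ρe s H ε τ K1 hε hτ u0 hS
    obtain ⟨hex, htime⟩ := Hm2 ε τ _ K1 _ _ _ _ _ _ hε hτ u1 hSys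
    obtain ⟨x1, x2, x3⟩ := p44_exit_spec hex
    refine ⟨htime.trans (min_le_left _ _), ?_⟩
    obtain ⟨je, hje⟩ : ∃ je, je = p44_exit d (JJ κ s) (p44_x H (xyCritical - ε)) := ⟨_, rfl⟩
    rw [← hje] at x1 x2 x3 htime ⊢
    have hhor : (je : ℝ) ≤ A / Real.sqrt ε := by
      apply p44_core_hor P A ε je hP hε hA
      have := (abs_le.1 (htime.trans (min_le_right _ _))).2
      linarith
    obtain ⟨r1, r2⟩ := Hro κe ρe s H ε τ K1 hε hτ u2 hS je x1 hhor x3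
    rw [← hB] at r2
    have hw0 : 0 ≤ p44_w (p44_x H (xyCritical - ε)) (p44_y H (xyCritical - ε)) je :=
      le_max_of_le_left (abs_nonneg _)
    refine p44_core_fin1 _ _ _ d τ Cr K B hB0 hCr hK hd_pos r2 x2 hw0 r1 hdd2 ?_
    rw [le_div_iff₀ (by linarith)] at u3
    linarith
  · intro ζ hζ ϖ hϖ
    obtain ⟨E, hE⟩ : ∃ E, E = 1 / B + Cr * (1 + 2 * K) := ⟨_, rfl⟩
    have hE0 : 0 < E := by rw [hE]; positivity
    obtain ⟨ϖ', hϖ'⟩ : ∃ ϖ', ϖ' = min 1 (ϖ / 2 / E) := ⟨_, rfl⟩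
    have p0 : 0 < ϖ' := by rw [hϖ']; exact lt_min one_pos (by positivity)
    have p1 : ϖ' ≤ 1 := by rw [hϖ']; exact min_le_left _ _
    have p2 : ϖ' * E ≤ ϖ / 2 := by
      have : ϖ' ≤ ϖ / 2 / E := by rw [hϖ']; exact min_le_right _ _
      rwa [le_div_iff₀ hE0] at this
    obtain ⟨τm, hτm, Hm3⟩ := Hm3 ζ hζ ϖ' p0
    refine ⟨min τ0 (min τm (min τt (ϖ / 2 / (Cr + 1)))),
      lt_min hτ0 (lt_min hτm (lt_min hτt (by positivity))), ?_⟩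
    intro κe ρe s H ε τ K1 hε hτ hττ hS j hKj hj
    have u0 : τ ≤ τ0 := hττ.trans (min_le_left _ _)
    have u1 : τ ≤ τm := hττ.trans ((min_le_right _ _).trans (min_le_left _ _))
    have u2 : τ ≤ τt := hττ.trans ((min_le_right _ _).trans ((min_le_right _ _).trans (min_le_left _ _)))
    have u3 : τ ≤ ϖ / 2 / (Cr + 1) :=
      hττ.trans ((min_le_right _ _).trans ((min_le_right _ _).trans (min_le_right _ _)))
    have hSys := Hsys κe ρe s H ε τ K1 hε hτ u0 hS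
    obtain ⟨n1, n2⟩ := Hm3 ε τ _ K1 _ _ _ _ _ _ hε hτ u1 hSys j hKj hj
    have hNE : p44_NoExit d (JJ κ s) (p44_x H (xyCritical - ε)) j :=
      fun i hi1 hi2 => n1 i hi1 (Nat.lt_succ_of_lt hi2)
    have hhor : (j : ℝ) ≤ A / Real.sqrt ε := by
      apply p44_core_hor P A ε j hP hε hA
      linarith
    obtain ⟨r1, r2⟩ := Hro κe ρe s H ε τ K1 hε hτ u2 hS j (hS.JK.trans hKj) hhor hNE
    rw [← hB] at r2
    refine p44_core_fin2 _ _ _ τ Cr K B ϖ ϖ' hB0 hCr hK r2 (le_max_left _ _) n2 p1 (by rw [← hE]; exact p2) ?_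
    rw [le_div_iff₀ (by linarith)] at u3
    linarith

end Claimed.Agent.R285.E4
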