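import Mathlib

/-!
# ROW 285, cut of [E] P4.4 (`E4.passage_time`), file 1: PURE VOCABULARY                      (architect helper14)

Everything in this file and in `P44StepA/B, P44Inv, P44Time, P44Slave, P44Early, P44Match, P44Master` is PAPER-FREE real analysis of
sequences `ℕ → ℝ` (index = ABSOLUTE scale index `j`).  No `Hist`, no Banach space.

## The route (differs from the paper; no ODE, no compactness, no Gronwall, no cone)
Notation: `x j, y j` scalars of the perturbed history (`b = b_c - ε`), `q j = ‖Q_j‖`, `w = max |x| |y|`, `κ = √(3 P ε)`.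
The map: `x' = x - y² + O(e)`, `y' = y - x y + O(e)`, `q' ≤ θ q + C w²`, `e = w²/j² + w³ + (w + q) q`.

* EARLY  (`J ≤ j ≤ K1`, `ε K1² ≤ τ²`): the differences `a = x - xc`, `b = y - yc` to the critical history obey a linear recursion
  `(a,b)' = (I + M/j)(a,b) + err`, `M = [[0,-2],[-1,-1]]`.  In the eigen-coordinates `u = 2(a-b)/3`, `v = (a+2b)/3`:
  `u' = (1+1/j) u + e_u`, `v' = (1-2/j) v + e_v`; so `u_j / j` is almost constant.  Result `a_j = -ε j (P + O(τ))`, `b_j = ε j (P/2 + O(τ))`.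
* MATCH  (at `K1`, `log (2+K1) ≤ τ ε K1³`): `y² - x² = 3 P ε (1 + O(τ)) = κ² (1 + O(τ))`, `x, y ∈ [1/(2 K1), 2/K1]`.
* SLAVE  : `q ≤ K w²` is propagated as long as `w` is small, because `w' ≥ w (1 - O(w))`.  Same for the torus remainders.
* PASS   (`j ≥ K1`, until the first `j` with `x j ≤ -d`): with `D = x² + κ²`, `E = y² - x² - κ²`, `G t = t³ + 3 κ² t`:
  exact identity `(y - x y)² - (x - y²)² = (y² - x²)(1 - y²)`; hence `|E' - E| ≤ C D² ≤ C (G x - G x')` (telescopes, `x` decreases by `≈ D`);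
  so `|E| ≤ C (τ + |x|) D`; and the ANGLE `Φ = arctan (x/κ)` decreases by `κ (1 + O(τ + w))` per step (mean value theorem).
  `κ w ≤ κ μ + (κ/μ) w²` and `w² ≤ 6 (x - x')` make the error telescope.  `Φ` runs from `π/2 - o(1)` to `-π/2 + o(1)`: exit time `π/κ (1+o(1))`.
-/

set_option autoImplicit false

namespace Claimed.Agent.R285.E4

noncomputable section

/-- `|W_j| = max (|x_j|, |y_j|)` -/
def p44_w (x y : ℕ → ℝ) (j : ℕ) : ℝ := max |x j| |y j|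

/-- the order of the scalar error -/
def p44_e (x y q : ℕ → ℝ) (j : ℕ) : ℝ :=
  p44_w x y j ^ 2 / (j : ℝ) ^ 2 + p44_w x y j ^ 3 + (p44_w x y j + q j) * q j

/-- the real model of one history from the absolute index `J` on; the recursion is only known while the history stays in the domain -/
structure p44_Flow (C θ ρ : ℝ) (J : ℕ) (x y q : ℕ → ℝ) : Prop where
  q_nonneg : ∀ j, 0 ≤ q j
  step : ∀ j, J ≤ j → (∀ i, J ≤ i → i ≤ j → |x i| < ρ ∧ |y i| < ρ ∧ q i < ρ) →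
    |x (j + 1) - (x j - y j ^ 2)| ≤ C * p44_e x y q j ∧
    |y (j + 1) - (y j - x j * y j)| ≤ C * p44_e x y q j ∧
    q (j + 1) ≤ θ * q j + C * p44_w x y j ^ 2

/-- hypotheses of the EARLY regime; `a = x - xc`, `b = y - yc`, `dq = ‖Q - Qc‖` -/
structure p44_Early (C θ1 P ε τ : ℝ) (J K : ℕ) (xc yc a b dq : ℕ → ℝ) : Prop where
  crit_x : ∀ j : ℕ, J ≤ j → j ≤ K → |xc j - 1 / (j : ℝ)| ≤ C * Real.log (2 + j) / (j : ℝ) ^ 2
  crit_y : ∀ j : ℕ, J ≤ j → j ≤ K → |yc j - 1 / (j : ℝ)| ≤ C * Real.log (2 + j) / (j : ℝ) ^ 2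
  dq_nonneg : ∀ j, 0 ≤ dq j
  step : ∀ j : ℕ, J ≤ j → j < K →
    (∀ i : ℕ, J ≤ i → i ≤ j → |a i| ≤ 1 / (2 * (i : ℝ)) ∧ |b i| ≤ 1 / (2 * (i : ℝ)) ∧ dq i ≤ 1 / (i : ℝ) ^ 2) →
    |a (j + 1) - (a j - 2 * yc j * b j - b j ^ 2)| ≤ C * (max |a j| |b j| / (j : ℝ) ^ 2 + dq j / (j : ℝ)) ∧
    |b (j + 1) - (b j - xc j * b j - yc j * a j - a j * b j)| ≤ C * (max |a j| |b j| / (j : ℝ) ^ 2 + dq j / (j : ℝ)) ∧
    dq (j + 1) ≤ θ1 * dq j + C * (max |a j| |b j| / (j : ℝ))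
  init_a : |a J + ε * J * P| ≤ τ * ε * J
  init_b : |b J - ε * J * P / 2| ≤ τ * ε * J
  init_q : dq J ≤ C * ε
  logJ : ∀ j : ℕ, J ≤ j → Real.log (2 + j) + 2 ≤ τ * j
  epsK : ε * (K : ℝ) ^ 2 ≤ τ ^ 2

/-- hypotheses of the PASSAGE regime, started at `j1` -/
structure p44_Pass (C2 κ τ d : ℝ) (j1 : ℕ) (x y : ℕ → ℝ) : Prop where
  κ_pos : 0 < κ
  x_pos : 0 < x j1
  x_le_τ : x j1 ≤ τ
  x_le_d : x j1 ≤ d
  x_cube : x j1 ^ 3 ≤ τ * κ ^ 2
  κ_le : κ ≤ τ * x j1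
  κ_j1 : κ * j1 ≤ τ
  y_pos : 0 < y j1
  inv0 : |y j1 ^ 2 - x j1 ^ 2 - κ ^ 2| ≤ τ * κ ^ 2
  step : ∀ j, j1 ≤ j → (∀ i, j1 ≤ i → i ≤ j → p44_w x y i ≤ 3 * d) →
    |x (j + 1) - (x j - y j ^ 2)| ≤ C2 * (κ * p44_w x y j ^ 2 + p44_w x y j ^ 3) ∧
    |y (j + 1) - (y j - x j * y j)| ≤ C2 * (κ * p44_w x y j ^ 2 + p44_w x y j ^ 3)

/-- no exit through `x = -d` at the indices `J ≤ i < j` -/
def p44_NoExit (d : ℝ) (J : ℕ) (x : ℕ → ℝ) (j : ℕ) : Prop := ∀ i, J ≤ i → i < j → -d < x i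

/-- the first exit index (`0` if there is none) -/
def p44_exit (d : ℝ) (J : ℕ) (x : ℕ → ℝ) : ℕ := sInf {j | J ≤ j ∧ x j ≤ -d}

theorem p44_exit_spec {d : ℝ} {J : ℕ} {x : ℕ → ℝ} (h : ∃ j, J ≤ j ∧ x j ≤ -d) :
    J ≤ p44_exit d J x ∧ x (p44_exit d J x) ≤ -d ∧ p44_NoExit d J x (p44_exit d J x) := by
  have hne : {j | J ≤ j ∧ x j ≤ -d}.Nonempty := h
  have hm := Nat.sInf_mem hne
  refine ⟨hm.1, hm.2, fun i hi hlt => ?_⟩
  by_contra hcon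
  exact Nat.notMem_of_lt_sInf hlt ⟨hi, not_lt.mp hcon⟩

/-- the complete pure hypothesis: one perturbed history `x y q` and the critical one `xc yc`, between `J` and `K1` -/
structure p44_Sys (C θ ρ P ε τ : ℝ) (J K1 : ℕ) (x y q xc yc dq : ℕ → ℝ) : Prop where
  J_pos : 1 ≤ J
  JK : J ≤ K1
  flow : p44_Flow C θ ρ J x y q
  early : p44_Early C ((1 + θ) / 2) P ε τ J K1 xc yc (fun j => x j - xc j) (fun j => y j - yc j) dq
  q_le : ∀ j : ℕ, J ≤ j → j ≤ K1 → q j ≤ C / (j : ℝ) ^ 2 + dq j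
  logK : Real.log (2 + K1) ≤ τ * ε * (K1 : ℝ) ^ 3

end

end Claimed.Agent.R285.E4
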