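import Claimed.Agent.R285.E4.P44Def

/-!
# ROW 285, cut of [E] P4.4, LEAF P44-EARLY (PROVED, helper14): the early perturbation [E] (4.20) (paper-free; bootstrap + variation of constants as ONE induction)

Eigen-coordinates `u = 2 (a - b)/3`, `v = (a + 2 b)/3` (`a = u + v`, `b = v - u/2`), `m = max |a| |b|`, `C1 = P + 1`, `C2 = max C (C C1/(1-θ1))`.
With `e_a = a' - (a - 2 b/j)`, `e_b = b' - (b - b/j - a/j)`:  `u' = (1 + 1/j) u + 2 (e_a - e_b)/3`,  `v' = (1 - 2/j) v + (e_a + 2 e_b)/3`.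
If `m_j ≤ C1 ε j`, `dq_j ≤ C2 ε`:  `|e_a|, |e_b| ≤ 2 C log(2+j)/j² · m + m² + C (m/j² + dq/j) ≤ C3 ε (log (2+j)/j + ε j²)`   (`log (2+j) ≥ 1`).
Inductive invariant on `J ≤ j ≤ K` (strong induction, so that the cumulative tube condition of `p44_Early.step` is available):
  (i)   `|u_j / j - u_J / J| ≤ A ε (g J - g j) + A ε² j²`,   `g h = (log (2+h) + 2)/h`,  `g h - g (h+1) ≥ log (2+h)/(h (h+1))`  (`log(3+h) - log(2+h) ≤ 1/(2+h)`),
  (ii)  `|v_j| ≤ |v_J| + A ε log (2+j) + A ε² j³`      (uses `0 ≤ 1 - 2/j ≤ 1`, and `(1 - 2/j) log(2+j) + (C3/A) log (2+j)/j ≤ log (2+j)` if `C3 ≤ 2A`; NB `logJ` at `J` forces `J ≥ 3/τ ≥ 3`),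
  (iii) `dq_j ≤ C2 ε`.
They give, with `g J ≤ τ`, `log (2+j) ≤ τ j`, `ε j² ≤ τ² ≤ τ`, `u_J = -ε J P + O(τ ε J)`, `v_J = O(τ ε J)`:  `|u_j + ε j P| ≤ C τ ε j`, `|v_j| ≤ C τ ε j`,
hence the claim and (for `C' τ0 ≤ 1`) `m_j ≤ C1 ε j ≤ C1 τ²/j ≤ 1/(2j)`, `dq_j ≤ C2 τ²/j² ≤ 1/j²`, which closes the bootstrap.
-/

set_option autoImplicit false

namespace Claimed.Agent.R285.E4

/-- telescoping majorant for `∑ log (2+h) / (h (h+1))` -/
theorem p44_early_g (h : ℝ) (hh : 1 ≤ h) :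
    Real.log (2 + h) / (h * (h + 1)) ≤ (Real.log (2 + h) + 2) / h - (Real.log (2 + (h + 1)) + 2) / (h + 1) := by
  have h0 : 0 < h := by linarith
  have h2 : 0 < 2 + h := by linarith
  have hlog : Real.log (2 + (h + 1)) ≤ Real.log (2 + h) + 1 / (2 + h) := by
    have e : 2 + (h + 1) = (2 + h) * (1 + 1 / (2 + h)) := by field_simp; ring
    rw [e, Real.log_mul h2.ne' (by positivity)]
    have : Real.log (1 + 1 / (2 + h)) ≤ 1 / (2 + h) := by
      have := Real.log_le_sub_one_of_pos (show 0 < 1 + 1 / (2 + h) by positivity)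
      linarith
    linarith
  have h3 : 1 / (2 + h) ≤ 1 := by rw [div_le_one h2]; linarith
  have hL : Real.log (2 + (h + 1)) ≤ Real.log (2 + h) + 1 / h := by
    have : 1 / (2 + h) ≤ 1 / h := one_div_le_one_div_of_le h0 (by linarith)
    linarith
  have key : (Real.log (2 + (h + 1)) + 2) / (h + 1) ≤ (Real.log (2 + h) + 1 / h + 2) / (h + 1) := by gcongr
  have e : (Real.log (2 + h) + 2) / h - (Real.log (2 + h) + 1 / h + 2) / (h + 1)
      = (Real.log (2 + h) + 1) / (h * (h + 1)) := by field_simp; ring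
  have : Real.log (2 + h) / (h * (h + 1)) ≤ (Real.log (2 + h) + 1) / (h * (h + 1)) := by gcongr; linarith
  linarith

/-- linearisation error of the `a`-row -/
theorem p44_early_ea (n c m R yc a b a' : ℝ) (hyc : |yc - 1 / n| ≤ c) (hb : |b| ≤ m)
    (h : |a' - (a - 2 * yc * b - b ^ 2)| ≤ R) : |a' - (a - 2 * b / n)| ≤ R + 2 * c * m + m ^ 2 := by
  have e : a' - (a - 2 * b / n) = (a' - (a - 2 * yc * b - b ^ 2)) - 2 * ((yc - 1 / n) * b) - b ^ 2 := by ring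
  have hm : 0 ≤ m := (abs_nonneg b).trans hb
  have h1 : |(yc - 1 / n) * b| ≤ c * m := by
    rw [abs_mul]; exact mul_le_mul hyc hb (abs_nonneg _) ((abs_nonneg _).trans hyc)
  have h2 : b ^ 2 ≤ m ^ 2 := by rw [← sq_abs]; exact pow_le_pow_left₀ (abs_nonneg _) hb 2
  have a1 := abs_le.1 h
  have a2 := abs_le.1 h1
  rw [e, abs_le]
  constructor <;> linarith [a1.1, a1.2, a2.1, a2.2, sq_nonneg b]

/-- linearisation error of the `b`-row -/
theorem p44_early_eb (n c m R xc yc a b b' : ℝ) (hxc : |xc - 1 / n| ≤ c) (hyc : |yc - 1 / n| ≤ c)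
    (ha : |a| ≤ m) (hb : |b| ≤ m)
    (h : |b' - (b - xc * b - yc * a - a * b)| ≤ R) : |b' - (b - b / n - a / n)| ≤ R + 2 * c * m + m ^ 2 := by
  have e : b' - (b - b / n - a / n)
      = (b' - (b - xc * b - yc * a - a * b)) - (xc - 1 / n) * b - (yc - 1 / n) * a - a * b := by ring
  have hm : 0 ≤ m := (abs_nonneg b).trans hb
  have h1 : |(xc - 1 / n) * b| ≤ c * m := by
    rw [abs_mul]; exact mul_le_mul hxc hb (abs_nonneg _) ((abs_nonneg _).trans hxc)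
  have h2 : |(yc - 1 / n) * a| ≤ c * m := by
    rw [abs_mul]; exact mul_le_mul hyc ha (abs_nonneg _) ((abs_nonneg _).trans hyc)
  have h3 : |a * b| ≤ m ^ 2 := by
    rw [abs_mul, sq]; exact mul_le_mul ha hb (abs_nonneg _) hm
  have a1 := abs_le.1 h
  have a2 := abs_le.1 h1
  have a3 := abs_le.1 h2
  have a4 := abs_le.1 h3
  rw [e, abs_le]
  constructor <;> linarith [a1.1, a1.2, a2.1, a2.2, a3.1, a3.2, a4.1, a4.2]

/-- size of the error under the bootstrap hypothesis -/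
theorem p44_early_size (C C1 C2 ε n L m dq : ℝ) (hC : 1 ≤ C) (hC1 : 0 ≤ C1) (hC2 : 0 ≤ C2) (hε : 0 < ε) (hn : 1 ≤ n)
    (hL : 1 ≤ L) (hm0 : 0 ≤ m) (hm : m ≤ C1 * ε * n) (hq0 : 0 ≤ dq) (hq : dq ≤ C2 * ε) :
    C * (m / n ^ 2 + dq / n) + 2 * (C * L / n ^ 2) * m + m ^ 2
      ≤ (3 * C * C1 + C * C2 + C1 ^ 2) * ε * (L / n + ε * n ^ 2) := by
  have hn0 : 0 < n := by linarith
  have h1 : m / n ^ 2 ≤ C1 * ε * (L / n) := by
    calc m / n ^ 2 ≤ C1 * ε * n / n ^ 2 := by gcongr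
      _ = C1 * ε * (1 / n) := by field_simp
      _ ≤ C1 * ε * (L / n) := by gcongr
  have h2 : dq / n ≤ C2 * ε * (L / n) := by
    calc dq / n ≤ C2 * ε / n := by gcongr
      _ = C2 * ε * (1 / n) := by ring
      _ ≤ C2 * ε * (L / n) := by gcongr
  have h3 : 2 * (C * L / n ^ 2) * m ≤ 2 * C * C1 * ε * (L / n) := by
    calc 2 * (C * L / n ^ 2) * m ≤ 2 * (C * L / n ^ 2) * (C1 * ε * n) := by gcongr
      _ = 2 * C * C1 * ε * (L / n) := by field_simp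
  have h4 : m ^ 2 ≤ C1 ^ 2 * ε * (ε * n ^ 2) := by
    calc m ^ 2 ≤ (C1 * ε * n) ^ 2 := pow_le_pow_left₀ hm0 hm 2
      _ = C1 ^ 2 * ε * (ε * n ^ 2) := by ring
  have h5 : C * (m / n ^ 2 + dq / n) ≤ C * (C1 * ε * (L / n) + C2 * ε * (L / n)) := by gcongr
  have hLn : 0 ≤ ε * (L / n) := by positivity
  have hεn : 0 ≤ ε * (ε * n ^ 2) := by positivity
  have hA : 0 ≤ (3 * C * C1 + C * C2) * (ε * (ε * n ^ 2)) := by positivity
  have hB : 0 ≤ C1 ^ 2 * (ε * (L / n)) := by positivity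
  nlinarith

/-- one step of `U = u / n`, `u = 2 (a - b)/3` -/
theorem p44_early_U (n a b a' b' e : ℝ) (hn : 1 ≤ n) (ha : |a' - (a - 2 * b / n)| ≤ e)
    (hb : |b' - (b - b / n - a / n)| ≤ e) :
    |2 * (a' - b') / 3 / (n + 1) - 2 * (a - b) / 3 / n| ≤ 4 / 3 * e / (n + 1) := by
  have hn0 : 0 < n := by linarith
  have hn1 : 0 < n + 1 := by linarith
  have e1 : 2 * (a' - b') / 3 / (n + 1) - 2 * (a - b) / 3 / n
      = 2 / 3 * ((a' - (a - 2 * b / n)) - (b' - (b - b / n - a / n))) / (n + 1) := by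
    field_simp; ring
  rw [e1, abs_div, abs_of_pos hn1]
  apply div_le_div_of_nonneg_right _ hn1.le
  rw [abs_mul, abs_of_pos (by norm_num : (0 : ℝ) < 2 / 3)]
  have : |(a' - (a - 2 * b / n)) - (b' - (b - b / n - a / n))| ≤ e + e :=
    (abs_sub _ _).trans (add_le_add ha hb)
  linarith

/-- one step of `V = (a + 2 b)/3` -/
theorem p44_early_V (n a b a' b' e : ℝ) (hn : 2 ≤ n) (ha : |a' - (a - 2 * b / n)| ≤ e)
    (hb : |b' - (b - b / n - a / n)| ≤ e) :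
    |(a' + 2 * b') / 3| ≤ (1 - 2 / n) * |(a + 2 * b) / 3| + e := by
  have hn0 : 0 < n := by linarith
  have h2n : 0 ≤ 1 - 2 / n := by
    have : 2 / n ≤ 1 := by rw [div_le_one hn0]; exact hn
    linarith
  have e1 : (a' + 2 * b') / 3
      = (1 - 2 / n) * ((a + 2 * b) / 3) + ((a' - (a - 2 * b / n)) + 2 * (b' - (b - b / n - a / n))) / 3 := by
    field_simp; ring
  rw [e1]
  refine (abs_add_le _ _).trans ?_
  rw [abs_mul, abs_of_nonneg h2n]
  have a1 := abs_le.1 ha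
  have a2 := abs_le.1 hb
  have : |((a' - (a - 2 * b / n)) + 2 * (b' - (b - b / n - a / n))) / 3| ≤ e := by
    rw [abs_le]; constructor <;> linarith [a1.1, a1.2, a2.1, a2.2]
  linarith

/-- the invariant implies the claim -/
theorem p44_early_concl (A P ε τ N n aJ bJ a b gJ g L : ℝ) (hA : 0 ≤ A) (hε : 0 < ε) (hτ : 0 < τ)
    (hτ1 : τ ≤ 1) (hN : 1 ≤ N) (hNn : N ≤ n)
    (ia : |aJ + ε * N * P| ≤ τ * ε * N) (ib : |bJ - ε * N * P / 2| ≤ τ * ε * N)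
    (hg : 0 ≤ g) (hgJ : gJ ≤ τ) (hL : L ≤ τ * n) (hεn : ε * n ^ 2 ≤ τ ^ 2)
    (hU : |2 * (a - b) / 3 / n - 2 * (aJ - bJ) / 3 / N| ≤ A * ε * (gJ - g) + A * ε ^ 2 * n ^ 2)
    (hV : |(a + 2 * b) / 3| ≤ |(aJ + 2 * bJ) / 3| + A * ε * L + A * ε ^ 2 * n ^ 3) :
    |a + ε * n * P| ≤ (4 * A + 3) * τ * ε * n ∧ |b - ε * n * P / 2| ≤ (4 * A + 3) * τ * ε * n := by
  have hN0 : 0 < N := by linarith
  have hn0 : 0 < n := by linarith
  have hτ2 : τ ^ 2 ≤ τ := by rw [sq]; exact mul_le_of_le_one_left hτ.le hτ1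
  have ia' := abs_le.1 ia
  have ib' := abs_le.1 ib
  have hτε : 0 ≤ τ * ε := by positivity
  have hAε : 0 ≤ A * ε := by positivity
  -- `U_J`
  have hUJ : |2 * (aJ - bJ) / 3 / N + ε * P| ≤ 4 / 3 * (τ * ε) := by
    have e : 2 * (aJ - bJ) / 3 / N + ε * P = 2 / 3 * ((aJ + ε * N * P) - (bJ - ε * N * P / 2)) / N := by
      field_simp; ring
    rw [e, abs_div, abs_of_pos hN0, div_le_iff₀ hN0, abs_le]
    constructor <;> nlinarith [ia'.1, ia'.2, ib'.1, ib'.2]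
  have hU2 : A * ε * (gJ - g) + A * ε ^ 2 * n ^ 2 ≤ 2 * A * (τ * ε) := by
    have h1 : A * ε * (gJ - g) ≤ A * ε * τ := mul_le_mul_of_nonneg_left (by linarith) hAε
    have h2 : A * ε ^ 2 * n ^ 2 ≤ A * ε * τ := by
      calc A * ε ^ 2 * n ^ 2 = A * ε * (ε * n ^ 2) := by ring
        _ ≤ A * ε * τ := mul_le_mul_of_nonneg_left (hεn.trans hτ2) hAε
    linarith
  have hU3 : |2 * (a - b) / 3 / n + ε * P| ≤ (2 * A + 4 / 3) * (τ * ε) := by
    have e : 2 * (a - b) / 3 / n + ε * P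
        = (2 * (a - b) / 3 / n - 2 * (aJ - bJ) / 3 / N) + (2 * (aJ - bJ) / 3 / N + ε * P) := by ring
    rw [e]
    refine (abs_add_le _ _).trans ?_
    linarith
  have hu : |2 * (a - b) / 3 + ε * n * P| ≤ (2 * A + 4 / 3) * (τ * ε) * n := by
    have e : 2 * (a - b) / 3 + ε * n * P = (2 * (a - b) / 3 / n + ε * P) * n := by field_simp
    rw [e, abs_mul, abs_of_pos hn0]
    exact mul_le_mul_of_nonneg_right hU3 hn0.le
  -- `V`
  have hVJ : |(aJ + 2 * bJ) / 3| ≤ τ * ε * n := by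
    have e : (aJ + 2 * bJ) / 3 = ((aJ + ε * N * P) + 2 * (bJ - ε * N * P / 2)) / 3 := by ring
    have h1 : |(aJ + 2 * bJ) / 3| ≤ τ * ε * N := by
      rw [e, abs_le]; constructor <;> linarith [ia'.1, ia'.2, ib'.1, ib'.2]
    exact h1.trans (mul_le_mul_of_nonneg_left hNn hτε)
  have hV2 : A * ε * L + A * ε ^ 2 * n ^ 3 ≤ 2 * A * (τ * ε) * n := by
    have h1 : A * ε * L ≤ A * ε * (τ * n) := mul_le_mul_of_nonneg_left hL hAε
    have h2 : A * ε ^ 2 * n ^ 3 ≤ A * ε * (τ * n) := by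
      calc A * ε ^ 2 * n ^ 3 = A * ε * ((ε * n ^ 2) * n) := by ring
        _ ≤ A * ε * (τ * n) := by
            apply mul_le_mul_of_nonneg_left _ hAε
            exact mul_le_mul_of_nonneg_right (hεn.trans hτ2) hn0.le
    linarith
  have hv : |(a + 2 * b) / 3| ≤ (1 + 2 * A) * (τ * ε) * n := by linarith
  have eu : (2 * A + 4 / 3) * (τ * ε) * n = 2 * (A * (τ * ε * n)) + 4 / 3 * (τ * ε * n) := by ring
  have ev : (1 + 2 * A) * (τ * ε) * n = (τ * ε * n) + 2 * (A * (τ * ε * n)) := by ring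
  have eg : (4 * A + 3) * τ * ε * n = 4 * (A * (τ * ε * n)) + 3 * (τ * ε * n) := by ring
  rw [eu] at hu
  rw [ev] at hv
  rw [eg]
  have hu' := abs_le.1 hu
  have hv' := abs_le.1 hv
  have hpos : 0 ≤ τ * ε * n := by positivity
  have hApos : 0 ≤ A * (τ * ε * n) := by positivity
  constructor
  · have e : a + ε * n * P = (2 * (a - b) / 3 + ε * n * P) + (a + 2 * b) / 3 := by ring
    rw [e, abs_le]
    constructor <;> linarith [hu'.1, hu'.2, hv'.1, hv'.2]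
  · have e : b - ε * n * P / 2 = (a + 2 * b) / 3 - (2 * (a - b) / 3 + ε * n * P) / 2 := by ring
    rw [e, abs_le]
    constructor <;> linarith [hu'.1, hu'.2, hv'.1, hv'.2]

/-- propagation of the invariant (i) -/
theorem p44_early_Uinv (A C3 ε n L g g' gJ U U' UJ e : ℝ) (hC3 : 0 ≤ C3) (hA : 4 / 3 * C3 ≤ A) (hε : 0 < ε) (hn : 1 ≤ n)
    (hL : 0 ≤ L) (hg : L / (n * (n + 1)) ≤ g - g') (he : e ≤ C3 * ε * (L / n + ε * n ^ 2))
    (hstep : |U' - U| ≤ 4 / 3 * e / (n + 1))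
    (hU : |U - UJ| ≤ A * ε * (gJ - g) + A * ε ^ 2 * n ^ 2) :
    |U' - UJ| ≤ A * ε * (gJ - g') + A * ε ^ 2 * (n + 1) ^ 2 := by
  have hn0 : 0 < n := by linarith
  have hn1 : 0 < n + 1 := by linarith
  have hA0 : 0 ≤ A := by linarith
  have h1 : 4 / 3 * e / (n + 1) ≤ A * ε * ((g - g') + ε * n) := by
    calc 4 / 3 * e / (n + 1) ≤ 4 / 3 * (C3 * ε * (L / n + ε * n ^ 2)) / (n + 1) := by gcongr
      _ = 4 / 3 * C3 * ε * (L / (n * (n + 1)) + ε * (n ^ 2 / (n + 1))) := by field_simp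
      _ ≤ 4 / 3 * C3 * ε * ((g - g') + ε * n) := by
          have h2 : n ^ 2 / (n + 1) ≤ n := by rw [div_le_iff₀ hn1]; nlinarith
          gcongr
      _ ≤ A * ε * ((g - g') + ε * n) := by
          have h3 : 0 ≤ g - g' := le_trans (by positivity) hg
          gcongr
  have e1 : U' - UJ = (U' - U) + (U - UJ) := by ring
  rw [e1]
  refine (abs_add_le _ _).trans ?_
  have h4 : A * ε * ((g - g') + ε * n) + (A * ε * (gJ - g) + A * ε ^ 2 * n ^ 2)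
      = A * ε * (gJ - g') + A * ε ^ 2 * (n ^ 2 + n) := by ring
  have h5 : A * ε ^ 2 * (n ^ 2 + n) ≤ A * ε ^ 2 * (n + 1) ^ 2 := by
    apply mul_le_mul_of_nonneg_left _ (by positivity)
    nlinarith
  linarith

/-- propagation of the invariant (ii) -/
theorem p44_early_Vinv (A C3 ε n L L' VJ V V' e : ℝ) (hC3 : 0 ≤ C3) (hA : C3 ≤ A) (hε : 0 < ε) (hn : 2 ≤ n)
    (hL : 0 ≤ L) (hLL : L ≤ L') (hVJ : 0 ≤ VJ) (he : e ≤ C3 * ε * (L / n + ε * n ^ 2))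
    (hstep : V' ≤ (1 - 2 / n) * V + e)
    (hV : V ≤ VJ + A * ε * L + A * ε ^ 2 * n ^ 3) :
    V' ≤ VJ + A * ε * L' + A * ε ^ 2 * (n + 1) ^ 3 := by
  have hn0 : 0 < n := by linarith
  have hA0 : 0 ≤ A := by linarith
  have h2n : 0 ≤ 1 - 2 / n := by
    have : 2 / n ≤ 1 := by rw [div_le_one hn0]; exact hn
    linarith
  have h2n' : 0 ≤ 2 / n := by positivity
  have h1 : (1 - 2 / n) * V ≤ (1 - 2 / n) * (VJ + A * ε * L + A * ε ^ 2 * n ^ 3) :=
    mul_le_mul_of_nonneg_left hV h2n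
  have h2 : (1 - 2 / n) * (VJ + A * ε * L + A * ε ^ 2 * n ^ 3)
      ≤ VJ + A * ε * L - 2 * (A * ε * (L / n)) + A * ε ^ 2 * n ^ 3 := by
    have p1 : 0 ≤ 2 / n * VJ := by positivity
    have p2 : 0 ≤ 2 / n * (A * ε ^ 2 * n ^ 3) := by positivity
    have e1 : (1 - 2 / n) * (VJ + A * ε * L + A * ε ^ 2 * n ^ 3)
        = VJ + A * ε * L - 2 * (A * ε * (L / n)) + A * ε ^ 2 * n ^ 3 - 2 / n * VJ - 2 / n * (A * ε ^ 2 * n ^ 3) := by
      ring
    rw [e1]; linarith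
  have h3 : C3 * ε * (L / n + ε * n ^ 2) ≤ A * ε * (L / n + ε * n ^ 2) := by gcongr
  have h4 : A * ε * (L / n + ε * n ^ 2) = A * ε * (L / n) + A * ε ^ 2 * n ^ 2 := by ring
  have h5 : 0 ≤ A * ε * (L / n) := by positivity
  have h6 : A * ε * L ≤ A * ε * L' := by gcongr
  have h7 : A * ε ^ 2 * n ^ 3 + A * ε ^ 2 * n ^ 2 ≤ A * ε ^ 2 * (n + 1) ^ 3 := by
    have : A * ε ^ 2 * n ^ 3 + A * ε ^ 2 * n ^ 2 = A * ε ^ 2 * (n ^ 3 + n ^ 2) := by ring
    rw [this]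
    apply mul_le_mul_of_nonneg_left _ (by positivity)
    nlinarith [sq_nonneg n]
  linarith

theorem p44_early (C θ1 P : ℝ) (hC : 1 ≤ C) (hθ0 : 0 < θ1) (hθ : θ1 < 1) (hP : 0 < P) :
    ∃ C' τ0 : ℝ, 1 ≤ C' ∧ 0 < τ0 ∧
    ∀ (ε τ : ℝ) (J K : ℕ) (xc yc a b dq : ℕ → ℝ), 0 < ε → 0 < τ → τ ≤ τ0 → 1 ≤ J →
      p44_Early C θ1 P ε τ J K xc yc a b dq →
      ∀ j : ℕ, J ≤ j → j ≤ K →
        |a j + ε * j * P| ≤ C' * τ * ε * j ∧ |b j - ε * j * P / 2| ≤ C' * τ * ε * j ∧ dq j ≤ C' * ε := by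
  have h1θ : 0 < 1 - θ1 := by linarith
  obtain ⟨C1, hC1⟩ : ∃ C1, C1 = P + 1 := ⟨_, rfl⟩
  have hC1pos : 0 < C1 := by rw [hC1]; linarith
  obtain ⟨C2, hC2⟩ : ∃ C2, C2 = C + C * C1 / (1 - θ1) := ⟨_, rfl⟩
  have hC2C : C ≤ C2 := by rw [hC2]; have : 0 ≤ C * C1 / (1 - θ1) := by positivity
                           linarith
  have hC2pos : 0 < C2 := by linarith
  have hC2θ : θ1 * C2 + C * C1 ≤ C2 := by
    have h1 : C * C1 / (1 - θ1) ≤ C2 := by rw [hC2]; linarith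
    rw [div_le_iff₀ h1θ] at h1
    linarith
  obtain ⟨C3, hC3⟩ : ∃ C3, C3 = 3 * C * C1 + C * C2 + C1 ^ 2 := ⟨_, rfl⟩
  have hC3pos : 0 < C3 := by rw [hC3]; positivity
  obtain ⟨A, hA⟩ : ∃ A, A = 2 * C3 := ⟨_, rfl⟩
  have hApos : 0 < A := by rw [hA]; positivity
  obtain ⟨C', hC'⟩ : ∃ C', C' = 4 * A + 3 + C2 := ⟨_, rfl⟩
  have hC'1 : 1 ≤ C' := by rw [hC']; linarith
  refine ⟨C', 1 / (2 * (C' + C1)), hC'1, by positivity, ?_⟩
  intro ε τ J K xc yc a b dq hε hτ hτ0 hJ hE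
  have hsum : 0 < C' + C1 := by linarith
  have hτs : τ * (2 * (C' + C1)) ≤ 1 := by rwa [le_div_iff₀ (by positivity)] at hτ0
  have hτ1 : τ ≤ 1 := by nlinarith
  have hτ2 : τ ^ 2 ≤ τ := by rw [sq]; exact mul_le_of_le_one_left hτ.le hτ1
  have hC'τ : (4 * A + 3) * τ ≤ 1 := by
    have : (4 * A + 3) ≤ 2 * (C' + C1) := by rw [hC']; linarith
    calc (4 * A + 3) * τ ≤ (2 * (C' + C1)) * τ := by gcongr
      _ = τ * (2 * (C' + C1)) := mul_comm _ _
      _ ≤ 1 := hτs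
  have hC1τ : C1 * τ ^ 2 ≤ 1 / 2 := by
    have : C1 * τ ≤ 1 / 2 := by nlinarith
    calc C1 * τ ^ 2 ≤ C1 * τ := by gcongr
      _ ≤ 1 / 2 := this
  have hC2τ : C2 * τ ^ 2 ≤ 1 := by
    have h1 : C2 ≤ 2 * (C' + C1) := by rw [hC']; linarith
    calc C2 * τ ^ 2 ≤ C2 * τ := by gcongr
      _ ≤ (2 * (C' + C1)) * τ := by gcongr
      _ = τ * (2 * (C' + C1)) := mul_comm _ _
      _ ≤ 1 := hτs
  -- notation
  obtain ⟨Lg, hLg⟩ : ∃ Lg : ℕ → ℝ, Lg = fun j : ℕ => Real.log (2 + (j : ℝ)) := ⟨_, rfl⟩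
  obtain ⟨g, hgdef⟩ : ∃ g : ℕ → ℝ, g = fun j : ℕ => (Lg j + 2) / (j : ℝ) := ⟨_, rfl⟩
  have hLg1 : ∀ j : ℕ, 1 ≤ j → 1 ≤ Lg j := by
    intro j hj
    rw [hLg]
    have h3 : (3 : ℝ) ≤ 2 + (j : ℝ) := by
      have : (1 : ℝ) ≤ j := by exact_mod_cast hj
      linarith
    have he : Real.exp 1 ≤ 2 + (j : ℝ) := by
      have := Real.exp_one_lt_d9
      linarith
    calc (1 : ℝ) = Real.log (Real.exp 1) := (Real.log_exp 1).symm
      _ ≤ Real.log (2 + (j : ℝ)) := Real.log_le_log (Real.exp_pos 1) he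
  have hJ3 : 3 ≤ J := by
    have h1 := hE.logJ J le_rfl
    have h2 := hLg1 J hJ
    rw [hLg] at h2
    have h3 : (3 : ℝ) ≤ τ * J := by linarith
    have h4 : τ * (J : ℝ) ≤ 1 * J := by gcongr
    have : (3 : ℝ) ≤ J := by linarith
    exact_mod_cast this
  have hJr : (1 : ℝ) ≤ (J : ℝ) := by exact_mod_cast hJ
  -- the invariant
  obtain ⟨Inv, hInv⟩ : ∃ Inv : ℕ → Prop, Inv = fun j : ℕ =>
      |2 * (a j - b j) / 3 / (j : ℝ) - 2 * (a J - b J) / 3 / (J : ℝ)| ≤ A * ε * (g J - g j) + A * ε ^ 2 * (j : ℝ) ^ 2 ∧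
      |(a j + 2 * b j) / 3| ≤ |(a J + 2 * b J) / 3| + A * ε * Lg j + A * ε ^ 2 * (j : ℝ) ^ 3 ∧
      dq j ≤ C2 * ε := ⟨_, rfl⟩
  have hεj : ∀ j : ℕ, j ≤ K → ε * (j : ℝ) ^ 2 ≤ τ ^ 2 := by
    intro j hj
    have : (j : ℝ) ≤ K := by exact_mod_cast hj
    calc ε * (j : ℝ) ^ 2 ≤ ε * (K : ℝ) ^ 2 := by gcongr
      _ ≤ τ ^ 2 := hE.epsK
  -- invariant ⇒ claim
  have hconcl : ∀ j : ℕ, J ≤ j → j ≤ K → Inv j →
      |a j + ε * j * P| ≤ (4 * A + 3) * τ * ε * j ∧ |b j - ε * j * P / 2| ≤ (4 * A + 3) * τ * ε * j := by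
    intro j hj hjK hI
    rw [hInv] at hI
    obtain ⟨hU, hV, -⟩ := hI
    have hjr : (J : ℝ) ≤ (j : ℝ) := by exact_mod_cast hj
    have hj1 : 1 ≤ j := hJ.trans hj
    have hgj : 0 ≤ g j := by
      rw [hgdef]
      have := hLg1 j hj1
      positivity
    have hgJ : g J ≤ τ := by
      rw [hgdef, hLg]
      rw [div_le_iff₀ (by linarith)]
      exact hE.logJ J le_rfl
    have hLj : Lg j ≤ τ * j := by
      have := hE.logJ j hj
      rw [hLg]; linarith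
    exact p44_early_concl A P ε τ J j (a J) (b J) (a j) (b j) (g J) (g j) (Lg j) hApos.le hε hτ hτ1 hJr hjr
      hE.init_a hE.init_b hgj hgJ hLj (hεj j hjK) hU hV
  -- claim ⇒ bootstrap bounds
  have hboot : ∀ j : ℕ, J ≤ j → j ≤ K → Inv j →
      |a j| ≤ C1 * ε * j ∧ |b j| ≤ C1 * ε * j := by
    intro j hj hjK hI
    obtain ⟨h1, h2⟩ := hconcl j hj hjK hI
    have hεj0 : 0 ≤ ε * (j : ℝ) := by positivity
    have h3 : (4 * A + 3) * τ * ε * j ≤ ε * j := by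
      calc (4 * A + 3) * τ * ε * j = ((4 * A + 3) * τ) * (ε * j) := by ring
        _ ≤ 1 * (ε * j) := by gcongr
        _ = ε * j := one_mul _
    have a1 := abs_le.1 (h1.trans h3)
    have a2 := abs_le.1 (h2.trans h3)
    have hPp : 0 ≤ ε * j * P := by positivity
    have e : C1 * ε * j = ε * j * P + ε * j := by rw [hC1]; ring
    rw [e]
    constructor <;> rw [abs_le] <;> constructor <;> linarith [a1.1, a1.2, a2.1, a2.2]
  have htube : ∀ j : ℕ, J ≤ j → j ≤ K → Inv j →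
      |a j| ≤ 1 / (2 * (j : ℝ)) ∧ |b j| ≤ 1 / (2 * (j : ℝ)) ∧ dq j ≤ 1 / (j : ℝ) ^ 2 := by
    intro j hj hjK hI
    obtain ⟨h1, h2⟩ := hboot j hj hjK hI
    have hj0 : (0 : ℝ) < (j : ℝ) := by exact_mod_cast (hJ.trans hj)
    have h3 : C1 * ε * j ≤ 1 / (2 * (j : ℝ)) := by
      rw [le_div_iff₀ (by positivity)]
      calc C1 * ε * j * (2 * (j : ℝ)) = 2 * (C1 * (ε * (j : ℝ) ^ 2)) := by ring
        _ ≤ 2 * (C1 * τ ^ 2) := by have := hεj j hjK; gcongr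
        _ ≤ 1 := by linarith
    refine ⟨h1.trans h3, h2.trans h3, ?_⟩
    rw [hInv] at hI
    refine hI.2.2.trans ?_
    rw [le_div_iff₀ (by positivity)]
    calc C2 * ε * (j : ℝ) ^ 2 = C2 * (ε * (j : ℝ) ^ 2) := by ring
      _ ≤ C2 * τ ^ 2 := by have := hεj j hjK; gcongr
      _ ≤ 1 := hC2τ
  -- the induction
  have hall : ∀ j : ℕ, J ≤ j → j ≤ K → ∀ i : ℕ, J ≤ i → i ≤ j → Inv i := by
    intro j hj
    induction j, hj using Nat.le_induction with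
    | base =>
      intro _ i hi1 hi2
      have : i = J := le_antisymm hi2 hi1
      rw [this, hInv]
      refine ⟨?_, ?_, ?_⟩
      · simp only [sub_self, abs_zero, mul_zero, zero_add]; positivity
      · have h1 : 0 ≤ A * ε * Lg J := by have := hLg1 J hJ; positivity
        have h2 : 0 ≤ A * ε ^ 2 * (J : ℝ) ^ 3 := by positivity
        linarith
      · exact hE.init_q.trans (by gcongr)
    | succ j hj ih =>
      intro hjK i hi1 hi2
      have hjK' : j ≤ K := by omega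
      have hprev := ih hjK'
      rcases Nat.lt_or_ge i (j + 1) with hlt | hge
      · exact hprev i hi1 (by omega)
      have hi : i = j + 1 := le_antisymm hi2 hge
      rw [hi]
      have hIj := hprev j hj le_rfl
      obtain ⟨s1, s2, s3⟩ := hE.step j hj (by omega)
        (fun i h1 h2 => htube i h1 (h2.trans hjK') (hprev i h1 h2))
      obtain ⟨ba, bb⟩ := hboot j hj hjK' hIj
      have hj1 : 1 ≤ j := hJ.trans hj
      have hjr1 : (1 : ℝ) ≤ (j : ℝ) := by exact_mod_cast hj1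
      have hjr2 : (2 : ℝ) ≤ (j : ℝ) := by exact_mod_cast (show 2 ≤ j by omega)
      have hj0 : (0 : ℝ) < (j : ℝ) := by linarith
      obtain ⟨m, hm⟩ : ∃ m, m = max |a j| |b j| := ⟨_, rfl⟩
      rw [← hm] at s1 s2 s3
      have hma : |a j| ≤ m := by rw [hm]; exact le_max_left _ _
      have hmb : |b j| ≤ m := by rw [hm]; exact le_max_right _ _
      have hm0 : 0 ≤ m := (abs_nonneg _).trans hma
      have hmC : m ≤ C1 * ε * j := by rw [hm]; exact max_le ba bb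
      have hIj' := hIj
      rw [hInv] at hIj'
      obtain ⟨hU, hV, hq⟩ := hIj'
      have hcx : |xc j - 1 / (j : ℝ)| ≤ C * Lg j / (j : ℝ) ^ 2 := by rw [hLg]; exact hE.crit_x j hj hjK'
      have hcy : |yc j - 1 / (j : ℝ)| ≤ C * Lg j / (j : ℝ) ^ 2 := by rw [hLg]; exact hE.crit_y j hj hjK'
      have ea := p44_early_ea (j : ℝ) _ m _ (yc j) (a j) (b j) (a (j + 1)) hcy hmb s1
      have eb := p44_early_eb (j : ℝ) _ m _ (xc j) (yc j) (a j) (b j) (b (j + 1)) hcx hcy hma hmb s2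
      have hsize := p44_early_size C C1 C2 ε (j : ℝ) (Lg j) m (dq j) hC hC1pos.le hC2pos.le hε hjr1 (hLg1 j hj1)
        hm0 hmC (hE.dq_nonneg j) hq
      rw [← hC3] at hsize
      have hLj0 : 0 ≤ Lg j := by have := hLg1 j hj1; linarith
      have ecast : ((j + 1 : ℕ) : ℝ) = (j : ℝ) + 1 := by push_cast; ring
      have hUs := p44_early_U (j : ℝ) (a j) (b j) (a (j + 1)) (b (j + 1)) _ hjr1 ea eb
      have hVs := p44_early_V (j : ℝ) (a j) (b j) (a (j + 1)) (b (j + 1)) _ hjr2 ea eb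
      have hgstep : Lg j / ((j : ℝ) * ((j : ℝ) + 1)) ≤ g j - g (j + 1) := by
        have := p44_early_g (j : ℝ) hjr1
        rw [hgdef, hLg]
        simp only [ecast]
        exact this
      have hLL : Lg j ≤ Lg (j + 1) := by
        rw [hLg]
        simp only [ecast]
        exact Real.log_le_log (by linarith) (by linarith)
      rw [hInv]
      simp only [ecast]
      refine ⟨?_, ?_, ?_⟩
      · exact p44_early_Uinv A C3 ε (j : ℝ) (Lg j) (g j) (g (j + 1)) (g J) _ _ _ _ hC3pos.le (by rw [hA]; linarith) hε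
          hjr1 hLj0 hgstep hsize hUs hU
      · exact p44_early_Vinv A C3 ε (j : ℝ) (Lg j) (Lg (j + 1)) _ _ _ _ hC3pos.le (by rw [hA]; linarith) hε hjr2 hLj0
          hLL (abs_nonneg _) hsize hVs hV
      · have h1 : m / (j : ℝ) ≤ C1 * ε := by
          rw [div_le_iff₀ hj0]; exact hmC
        calc dq (j + 1) ≤ θ1 * dq j + C * (m / (j : ℝ)) := s3
          _ ≤ θ1 * (C2 * ε) + C * (C1 * ε) := by gcongr
          _ = (θ1 * C2 + C * C1) * ε := by ring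
          _ ≤ C2 * ε := by gcongr
  intro j hj hjK
  have hI := hall j hj hjK j hj le_rfl
  obtain ⟨h1, h2⟩ := hconcl j hj hjK hI
  have hpos : 0 ≤ τ * ε * (j : ℝ) := by positivity
  have hle : (4 * A + 3) * τ * ε * j ≤ C' * τ * ε * j := by
    have e1 : (4 * A + 3) * τ * ε * j = (4 * A + 3) * (τ * ε * j) := by ring
    have e2 : C' * τ * ε * j = C' * (τ * ε * j) := by ring
    rw [e1, e2]
    apply mul_le_mul_of_nonneg_right _ hpos
    rw [hC']; linarith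
  refine ⟨h1.trans hle, h2.trans hle, ?_⟩
  rw [hInv] at hI
  refine hI.2.2.trans ?_
  apply mul_le_mul_of_nonneg_right _ hε.le
  rw [hC']; linarith

end Claimed.Agent.R285.E4
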