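import Claimed.Agent.R285.E4.P44StepB

/-!
# ROW 285, cut of [E] P4.4, LEAF P44-INV (PROVED, helper14): the invariants of the passage regime (paper-free; induction over `P44StepA/B`)

Notation: `a = x j1`, `D_j = x_j² + κ²`, `E_j = y_j² - x_j² - κ²`, `G t = t³ + 3 κ² t`, `Φ_j = arctan (x_j/κ)`, `w_j = p44_w x y j`, `C = 3 C2`.
Induction on `j ≥ j1` (under `p44_NoExit d j1 x j`) of
  (I1) `0 < y_j`,  (I2) `x_j ≤ a`, `-(2d) ≤ x_j`,  (I3) `|E_j| ≤ τ κ² + 134 C (G a - G x_j)`,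
  (I4) `∀ μ > 0, |Φ_{j1} - Φ_j - κ (j - j1)| ≤ C3 (κ (j - j1)(τ + μ) + (κ/μ)(a - x_j))`.
Consequences of (I2), (I3): `G a - G x_j = a³ - x_j³ + 3 κ² (a - x_j) ≤ τ κ² + |x_j| x_j² + 3 κ² (τ + |x_j|) ≤ 4 (τ + |x_j|) D_j`, so
  `|E_j| ≤ 537 C (τ + |x_j|) D_j ≤ D_j / 2` (if `537 C · 3 c0 ≤ 1/2`);  `κ ≤ τ a ≤ d`;  `y_j² ≤ 3 D_j / 2 ≤ 7.5 d²`, so `w_j ≤ 3 d`.
Step `j → j+1` (now also `-d < x_j`): all `w_i ≤ 3 d`, `i ≤ j`, so `p44_Pass.step` applies; `κ² ≤ D_j ≤ 2 y_j² ≤ 2 w_j²` gives `κ ≤ 2 w_j` and the errors are `≤ C w_j³`.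
  `p44_step_y` → (I1).  `p44_step_x` → `x_{j+1} ≤ x_j`, `x_{j+1} ≥ x_j - 7 D_j/4 ≥ -d - 3.5 d² ≥ -2d`.  `p44_step_E` → (I3) (telescoping).
  `p44_step_arctan` → `|Φ_j - Φ_{j+1} - κ| ≤ κ (1074 C (τ + w_j) + 23 C w_j)`, `κ w_j ≤ κ μ + (κ/μ) w_j²`, `w_j² ≤ 3 D_j/2 ≤ 6 (x_j - x_{j+1})` → (I4) with `C3 = 6582 C`.
-/

set_option autoImplicit false

namespace Claimed.Agent.R285.E4

/-- (I2), (I3) ⇒ `|E| ≤ 537 C (τ + |x|) D` -/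
theorem p44_inv_bound (C κ τ a x y : ℝ) (hC : 1 ≤ C) (hτ : 0 < τ) (haτ : a ≤ τ)
    (ha3 : a ^ 3 ≤ τ * κ ^ 2) (hx2 : x ≤ a)
    (hI : |y ^ 2 - x ^ 2 - κ ^ 2| ≤ τ * κ ^ 2 + 134 * C * ((a ^ 3 + 3 * κ ^ 2 * a) - (x ^ 3 + 3 * κ ^ 2 * x))) :
    |y ^ 2 - x ^ 2 - κ ^ 2| ≤ 537 * C * (τ + |x|) * (x ^ 2 + κ ^ 2) := by
  have hκ2 : 0 ≤ κ ^ 2 := sq_nonneg κ
  have hx20 : 0 ≤ x ^ 2 := sq_nonneg x
  have hax : 0 ≤ |x| := abs_nonneg x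
  have h1 : -x ^ 3 ≤ |x| * x ^ 2 := by
    have : -x ^ 3 = (-x) * x ^ 2 := by ring
    rw [this]
    exact mul_le_mul_of_nonneg_right (neg_le_abs x) hx20
  have h2 : a - x ≤ τ + |x| := by linarith [neg_le_abs x]
  have h3 : 3 * κ ^ 2 * (a - x) ≤ 3 * κ ^ 2 * (τ + |x|) := mul_le_mul_of_nonneg_left h2 (by positivity)
  have hG : (a ^ 3 + 3 * κ ^ 2 * a) - (x ^ 3 + 3 * κ ^ 2 * x) ≤ 4 * ((τ + |x|) * (x ^ 2 + κ ^ 2)) := by
    have e : (a ^ 3 + 3 * κ ^ 2 * a) - (x ^ 3 + 3 * κ ^ 2 * x) = a ^ 3 + -x ^ 3 + 3 * κ ^ 2 * (a - x) := by ring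
    rw [e]
    have p1 : 0 ≤ τ * x ^ 2 := by positivity
    have p2 : 0 ≤ |x| * κ ^ 2 := by positivity
    nlinarith
  have hpos : 0 ≤ (τ + |x|) * (x ^ 2 + κ ^ 2) := by positivity
  have h4 : τ * κ ^ 2 ≤ (τ + |x|) * (x ^ 2 + κ ^ 2) := by
    have p1 : 0 ≤ τ * x ^ 2 := by positivity
    have p2 : 0 ≤ |x| * κ ^ 2 := by positivity
    have p3 : 0 ≤ |x| * x ^ 2 := by positivity
    nlinarith
  calc |y ^ 2 - x ^ 2 - κ ^ 2| ≤ τ * κ ^ 2 + 134 * C * ((a ^ 3 + 3 * κ ^ 2 * a) - (x ^ 3 + 3 * κ ^ 2 * x)) := hI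
    _ ≤ (τ + |x|) * (x ^ 2 + κ ^ 2) + 134 * C * (4 * ((τ + |x|) * (x ^ 2 + κ ^ 2))) := by gcongr
    _ ≤ C * ((τ + |x|) * (x ^ 2 + κ ^ 2)) + 134 * C * (4 * ((τ + |x|) * (x ^ 2 + κ ^ 2))) := by
        have := le_mul_of_one_le_left hpos hC
        linarith
    _ = 537 * C * (τ + |x|) * (x ^ 2 + κ ^ 2) := by ring

/-- the error of one angle step, in telescoping form -/
theorem p44_inv_ang (C κ τ μ x x' w D E : ℝ) (hC : 1 ≤ C) (hκ : 0 < κ) (hτ : 0 < τ) (hμ : 0 < μ) (hD : 0 < D)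
    (hw0 : 0 ≤ w) (hxw : |x| ≤ w) (hE : |E| ≤ 537 * C * (τ + |x|) * D) (hw2 : w ^ 2 ≤ 6 * (x - x')) :
    κ * (2 * |E| / D + 23 * C * w) ≤ 6582 * C * (κ * (τ + μ) + κ / μ * (x - x')) := by
  have h1 : 2 * |E| / D ≤ 1074 * C * (τ + w) := by
    rw [div_le_iff₀ hD]
    calc 2 * |E| ≤ 2 * (537 * C * (τ + |x|) * D) := by linarith
      _ ≤ 2 * (537 * C * (τ + w) * D) := by gcongr
      _ = 1074 * C * (τ + w) * D := by ring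
  have h2 : w ≤ μ + w ^ 2 / μ := by
    have : μ * w ≤ μ ^ 2 + w ^ 2 := by nlinarith [sq_nonneg (μ - w)]
    have e : μ + w ^ 2 / μ = (μ ^ 2 + w ^ 2) / μ := by field_simp
    rw [e, le_div_iff₀ hμ]
    linarith
  have h3 : w ^ 2 / μ ≤ 6 * (x - x') / μ := by gcongr
  have h4 : 2 * |E| / D + 23 * C * w ≤ 1097 * C * (τ + μ + 6 * (x - x') / μ) := by
    have hw' : w ≤ μ + 6 * (x - x') / μ := by linarith
    have hCτ : 0 ≤ C * τ := by positivity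
    have : C * w ≤ C * (μ + 6 * (x - x') / μ) := by gcongr
    nlinarith
  have hxx : 0 ≤ x - x' := by nlinarith [sq_nonneg w]
  calc κ * (2 * |E| / D + 23 * C * w) ≤ κ * (1097 * C * (τ + μ + 6 * (x - x') / μ)) := by gcongr
    _ = 1097 * C * (κ * (τ + μ)) + 6582 * C * (κ / μ * (x - x')) := by field_simp; ring
    _ ≤ 6582 * C * (κ * (τ + μ)) + 6582 * C * (κ / μ * (x - x')) := by
        have : 0 ≤ C * (κ * (τ + μ)) := by positivity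
        linarith
    _ = 6582 * C * (κ * (τ + μ) + κ / μ * (x - x')) := by ring

/-- the inductive invariant -/
structure p44_InvAt (C2 κ τ d : ℝ) (j1 : ℕ) (x y : ℕ → ℝ) (j : ℕ) : Prop where
  y_pos : 0 < y j
  x_ge : -(2 * d) ≤ x j
  x_le : x j ≤ x j1
  inv : |y j ^ 2 - x j ^ 2 - κ ^ 2| ≤ τ * κ ^ 2
    + 134 * (3 * C2) * ((x j1 ^ 3 + 3 * κ ^ 2 * x j1) - (x j ^ 3 + 3 * κ ^ 2 * x j))
  ang : ∀ μ : ℝ, 0 < μ →
    |Real.arctan (x j1 / κ) - Real.arctan (x j / κ) - κ * ((j : ℝ) - j1)|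
      ≤ 20000 * C2 * (κ * ((j : ℝ) - j1) * (τ + μ) + κ / μ * (x j1 - x j))

/-- consequences of the invariant at one index -/
theorem p44_InvAt.bounds {C2 κ τ d : ℝ} {j1 : ℕ} {x y : ℕ → ℝ} {j : ℕ} (hC2 : 1 ≤ C2) (hτ : 0 < τ)
    (hτ0 : τ ≤ 1 / (10000 * C2)) (hd : 0 < d) (hd0 : d ≤ 1 / (10000 * C2)) (hp : p44_Pass C2 κ τ d j1 x y)
    (h : p44_InvAt C2 κ τ d j1 x y j) :
    |y j ^ 2 - x j ^ 2 - κ ^ 2| ≤ 537 * (3 * C2) * (τ + |x j|) * (x j ^ 2 + κ ^ 2) ∧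
    |y j ^ 2 - x j ^ 2 - κ ^ 2| ≤ (x j ^ 2 + κ ^ 2) / 2 ∧ p44_w x y j ≤ 3 * d ∧ |x j| ≤ 2 * d ∧ κ ≤ d := by
  have hC : (1 : ℝ) ≤ 3 * C2 := by linarith
  have hc0 : 1 / (10000 * C2) ≤ 1 / 10000 := by
    apply div_le_div_of_nonneg_left (by norm_num) (by norm_num); linarith
  have hb := p44_inv_bound (3 * C2) κ τ (x j1) (x j) (y j) hC hτ hp.x_le_τ hp.x_cube h.x_le h.inv
  have hxabs : |x j| ≤ 2 * d := by
    rw [abs_le]; exact ⟨by linarith [h.x_ge], by linarith [h.x_le, hp.x_le_d]⟩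
  have hκd : κ ≤ d := by
    have h1 : τ * x j1 ≤ 1 * d := mul_le_mul (by linarith) hp.x_le_d hp.x_pos.le (by norm_num)
    linarith [hp.κ_le]
  have hD0 : 0 ≤ x j ^ 2 + κ ^ 2 := by positivity
  have hsmall : 537 * (3 * C2) * (τ + |x j|) ≤ 1 / 2 := by
    have h1 : τ + |x j| ≤ 3 * (1 / (10000 * C2)) := by linarith
    calc 537 * (3 * C2) * (τ + |x j|) ≤ 537 * (3 * C2) * (3 * (1 / (10000 * C2))) := by gcongr
      _ = 4833 / 10000 := by field_simp; norm_num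
      _ ≤ 1 / 2 := by norm_num
  have hhalf : |y j ^ 2 - x j ^ 2 - κ ^ 2| ≤ (x j ^ 2 + κ ^ 2) / 2 := by
    calc _ ≤ 537 * (3 * C2) * (τ + |x j|) * (x j ^ 2 + κ ^ 2) := hb
      _ ≤ 1 / 2 * (x j ^ 2 + κ ^ 2) := mul_le_mul_of_nonneg_right hsmall hD0
      _ = (x j ^ 2 + κ ^ 2) / 2 := by ring
  refine ⟨hb, hhalf, ?_, hxabs, hκd⟩
  obtain ⟨-, -, -, -, -, hy2, -⟩ := p44_step_aux κ (x j) (y j) hhalf
  have hx2 : x j ^ 2 ≤ (2 * d) ^ 2 := by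
    rw [← sq_abs]; exact pow_le_pow_left₀ (abs_nonneg _) hxabs 2
  have hκ2 : κ ^ 2 ≤ d ^ 2 := pow_le_pow_left₀ hp.κ_pos.le hκd 2
  have hy3 : |y j| ≤ 3 * d := by
    have : |y j| ^ 2 ≤ (3 * d) ^ 2 := by rw [sq_abs]; nlinarith
    exact (pow_le_pow_iff_left₀ (abs_nonneg _) (by linarith) (by norm_num)).1 this
  exact max_le (by linarith) hy3

theorem p44_InvAt.step {C2 κ τ d : ℝ} {j1 : ℕ} {x y : ℕ → ℝ} {j : ℕ} (hC2 : 1 ≤ C2) (hτ : 0 < τ)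
    (hτ0 : τ ≤ 1 / (10000 * C2)) (hd : 0 < d) (hd0 : d ≤ 1 / (10000 * C2)) (hp : p44_Pass C2 κ τ d j1 x y)
    (hj : j1 ≤ j) (hall : ∀ i, j1 ≤ i → i ≤ j → p44_InvAt C2 κ τ d j1 x y i) (hne : -d < x j) :
    p44_InvAt C2 κ τ d j1 x y (j + 1) := by
  have h := hall j hj le_rfl
  obtain ⟨hb, hhalf, hw3, hxabs, hκd⟩ := h.bounds hC2 hτ hτ0 hd hd0 hp
  have hC : (1 : ℝ) ≤ 3 * C2 := by linarith
  have hκ := hp.κ_pos
  obtain ⟨hsx, hsy⟩ := hp.step j hj (fun i hi1 hi2 => ((hall i hi1 hi2).bounds hC2 hτ hτ0 hd hd0 hp).2.2.1)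
  obtain ⟨hw0, hxw, hyw, hw2, hy1, hy2, hDw⟩ := p44_step_aux κ (x j) (y j) hhalf
  have hwdef : p44_w x y j = max |x j| |y j| := rfl
  rw [hwdef] at hsx hsy hw3
  obtain ⟨w, hw⟩ : ∃ w, w = max |x j| |y j| := ⟨_, rfl⟩
  rw [← hw] at hsx hsy hw3 hw0 hxw hyw hw2 hDw
  -- `κ ≤ 2 w`
  have hκw : κ ≤ 2 * w := by
    have : κ ^ 2 ≤ (2 * w) ^ 2 := by nlinarith [sq_nonneg (x j)]
    exact (pow_le_pow_iff_left₀ hκ.le (by linarith) (by norm_num)).1 this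
  have herr : C2 * (κ * w ^ 2 + w ^ 3) ≤ 3 * C2 * w ^ 3 := by
    have h1 : κ * w ^ 2 ≤ 2 * w * w ^ 2 := mul_le_mul_of_nonneg_right hκw (sq_nonneg w)
    have h2 : C2 * (κ * w ^ 2 + w ^ 3) ≤ C2 * (2 * w * w ^ 2 + w ^ 3) := by gcongr
    calc _ ≤ C2 * (2 * w * w ^ 2 + w ^ 3) := h2
      _ = 3 * C2 * w ^ 3 := by ring
  have hc0 : 1 / (10000 * C2) ≤ 1 / 10000 := by
    apply div_le_div_of_nonneg_left (by norm_num) (by norm_num); linarith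
  have hCw : 3 * C2 * w ≤ 1 / 6 := by
    calc 3 * C2 * w ≤ 3 * C2 * (3 * (1 / (10000 * C2))) := by gcongr; linarith
      _ = 9 / 10000 := by field_simp; norm_num
      _ ≤ 1 / 6 := by norm_num
  have hw20 : w ≤ 1 / 20 := by linarith
  have hsx' : |x (j + 1) - (x j - y j ^ 2)| ≤ 3 * C2 * max |x j| |y j| ^ 3 := by rw [← hw]; exact hsx.trans herr
  have hsy' : |y (j + 1) - (y j - x j * y j)| ≤ 3 * C2 * max |x j| |y j| ^ 3 := by rw [← hw]; exact hsy.trans herr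
  have hCw' : 3 * C2 * max |x j| |y j| ≤ 1 / 6 := by rw [← hw]; exact hCw
  have hw20' : max |x j| |y j| ≤ 1 / 20 := by rw [← hw]; exact hw20
  obtain ⟨hΔ1, hΔ2⟩ := p44_step_x (3 * C2) κ (x j) (y j) (x (j + 1)) hC hhalf hCw' hsx'
  have hypos := p44_step_y (3 * C2) κ (x j) (y j) (y (j + 1)) hC h.y_pos hhalf hCw' hsy'
  have hEstep := p44_step_E (3 * C2) κ (x j) (y j) (x (j + 1)) (y (j + 1)) hC hhalf hCw' hsx' hsy'
  have hAstep := p44_step_arctan (3 * C2) κ (x j) (y j) (x (j + 1)) hC hκ hhalf hCw' hw20' hsx'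
  have hDpos : 0 < x j ^ 2 + κ ^ 2 := by positivity
  refine ⟨hypos, ?_, by linarith [h.x_le], ?_, ?_⟩
  · -- `x (j+1) ≥ -2d`
    have hxd : |x j| ≤ d := by
      rw [abs_le]; exact ⟨hne.le, by linarith [h.x_le, hp.x_le_d]⟩
    have hx2 : x j ^ 2 ≤ d ^ 2 := by rw [← sq_abs]; exact pow_le_pow_left₀ (abs_nonneg _) hxd 2
    have hκ2 : κ ^ 2 ≤ d ^ 2 := pow_le_pow_left₀ hκ.le hκd 2
    have hd1 : d ≤ 1 / 10000 := by linarith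
    nlinarith
  · -- (I3)
    have e1 := abs_le.1 hEstep
    have e2 := abs_le.1 h.inv
    rw [abs_le]
    constructor <;> linarith [e1.1, e1.2, e2.1, e2.2]
  · -- (I4)
    intro μ hμ
    have hang := h.ang μ hμ
    have hw6 : w ^ 2 ≤ 6 * (x j - x (j + 1)) := by linarith
    have hone := p44_inv_ang (3 * C2) κ τ μ (x j) (x (j + 1)) w (x j ^ 2 + κ ^ 2) (y j ^ 2 - x j ^ 2 - κ ^ 2)
      hC hκ hτ hμ hDpos hw0 hxw hb hw6
    rw [← hw] at hAstep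
    have hA2 : |Real.arctan (x j / κ) - Real.arctan (x (j + 1) / κ) - κ|
        ≤ 20000 * C2 * (κ * (τ + μ) + κ / μ * (x j - x (j + 1))) := by
      refine (hAstep.trans hone).trans ?_
      have hxx : 0 ≤ x j - x (j + 1) := by linarith
      have hZ : 0 ≤ κ * (τ + μ) + κ / μ * (x j - x (j + 1)) := by positivity
      exact mul_le_mul_of_nonneg_right (by linarith) hZ
    have ecast : ((j + 1 : ℕ) : ℝ) = (j : ℝ) + 1 := by push_cast; ring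
    rw [ecast]
    have e1 := abs_le.1 hang
    have e2 := abs_le.1 hA2
    have esum : 20000 * C2 * (κ * ((j : ℝ) + 1 - j1) * (τ + μ) + κ / μ * (x j1 - x (j + 1)))
        = 20000 * C2 * (κ * ((j : ℝ) - j1) * (τ + μ) + κ / μ * (x j1 - x j))
          + 20000 * C2 * (κ * (τ + μ) + κ / μ * (x j - x (j + 1))) := by ring
    rw [esum, abs_le]
    constructor <;> linarith [e1.1, e1.2, e2.1, e2.2]

theorem p44_pass_inv (C2 : ℝ) (hC2 : 1 ≤ C2) : ∃ c0 C3 : ℝ, 0 < c0 ∧ c0 ≤ 1 ∧ 1 ≤ C3 ∧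
    ∀ (κ τ d : ℝ) (j1 : ℕ) (x y : ℕ → ℝ), 0 < τ → τ ≤ c0 → 0 < d → d ≤ c0 → p44_Pass C2 κ τ d j1 x y →
    ∀ j, j1 ≤ j → p44_NoExit d j1 x j →
      0 < y j ∧ -(2 * d) ≤ x j ∧ x j ≤ x j1 ∧ p44_w x y j ≤ 3 * d ∧
      |y j ^ 2 - x j ^ 2 - κ ^ 2| ≤ (x j ^ 2 + κ ^ 2) / 2 ∧
      ∀ μ : ℝ, 0 < μ →
        |Real.arctan (x j1 / κ) - Real.arctan (x j / κ) - κ * ((j : ℝ) - j1)|
          ≤ C3 * (κ * ((j : ℝ) - j1) * (τ + μ) + κ / μ * (x j1 - x j)) := by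
  refine ⟨1 / (10000 * C2), 20000 * C2, by positivity, ?_, by linarith, ?_⟩
  · rw [div_le_one (by positivity)]; linarith
  intro κ τ d j1 x y hτ hτ0 hd hd0 hp
  have hbase : p44_InvAt C2 κ τ d j1 x y j1 := by
    refine ⟨hp.y_pos, by linarith [hp.x_pos], le_rfl, ?_, ?_⟩
    · simpa using hp.inv0
    · intro μ hμ
      simp
  have hall : ∀ j, j1 ≤ j → p44_NoExit d j1 x j → ∀ i, j1 ≤ i → i ≤ j → p44_InvAt C2 κ τ d j1 x y i := by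
    intro j hj
    induction j, hj using Nat.le_induction with
    | base =>
      intro _ i hi1 hi2
      have : i = j1 := le_antisymm hi2 hi1
      rw [this]; exact hbase
    | succ j hj ih =>
      intro hne i hi1 hi2
      have hne' : p44_NoExit d j1 x j := fun i h1 h2 => hne i h1 (by omega)
      have hprev := ih hne'
      rcases Nat.lt_or_ge i (j + 1) with hlt | hge
      · exact hprev i hi1 (by omega)
      · have : i = j + 1 := le_antisymm hi2 hge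
        rw [this]
        exact p44_InvAt.step hC2 hτ hτ0 hd hd0 hp hj hprev (hne j hj (by omega))
  intro j hj hne
  have h := hall j hj hne j hj le_rfl
  obtain ⟨-, hhalf, hw3, -, -⟩ := h.bounds hC2 hτ hτ0 hd hd0 hp
  exact ⟨h.y_pos, h.x_ge, h.x_le, hw3, hhalf, h.ang⟩

end Claimed.Agent.R285.E4
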