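import Claimed.Agent.R285.E4.P44Model
import Claimed.Agent.R285.Flow.CauchyHist

/-!
# ROW 285, cut of [E] P4.4, LEAF P44-LIP (PROVED, helper14): Lipschitz bounds of the plane map in the critical tube (Cauchy estimates along complex lines)

Tube at the index `j`: `T_j = {‖x‖, ‖y‖ ≤ 2/j, ‖Q‖ ≤ C0/j²}` (convex).  `𝓔_x Y = (N Y).1 - (x - y²)`, `𝓔_y Y = (N Y).2.1 - (y - x y)`, `Q₊ Y = (N Y).2.2`; all holomorphic on the ball `κ.ρ`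
(`MapOK.N_an`), bounded by `κ.C * eord j Y` resp. `κ.θ ‖Q‖ + κ.C (wn Y)²`.
**The Cauchy work is DONE**: `Flow.cau_sec_step` (helper90, `R285/Flow/CauchyHist.lean`, proved) is exactly this statement with free radii: use it with `w = 2/j`, `q = C0/j²`, `rW = rQ = 1/j`
(`Y, Y' ∈ Reg (H.Q j) w q`; `j1` so large that `3/j1 < κ.ρ`, `C0/j1² + 1/j1 < κ.ρ`).  What is left is the ARITHMETIC of the coefficients (`eordB j w q = w²/j² + w³ + (w+q) q`):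
Path `Y' = (W', Q') → (W, Q') → (W, Q) = Y`:
* leg 1, radius `r = 1/j` in `W`: on `‖W''‖ ≤ 3/j`, `‖Q'‖ ≤ C0/j²`: `eord ≤ c/j³`, so `|Δ𝓔| ≤ c ‖W - W'‖/j²`;  `‖Q₊‖ ≤ c/j²`, so `‖ΔQ₊‖ ≤ c ‖W - W'‖/j`.
* leg 2, radius `r = 1/j` in `Q`: on `‖W‖ ≤ 2/j`, `‖Q''‖ ≤ C0/j² + 1/j ≤ 2/j`: `eord ≤ c/j²`, so `|Δ𝓔| ≤ c ‖Q - Q'‖/j`;
  `‖Q₊‖ ≤ θ (C0/j² + 1/j) + 4C/j²`, so `‖ΔQ₊‖ ≤ (θ + c/j) ‖Q - Q'‖ ≤ th1 κ ‖Q - Q'‖` for `j ≥ j1`.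
-/

set_option autoImplicit false

namespace Claimed.Agent.R285.E4

open Claimed.Agent.R285.Flow

/-- arithmetic of the Cauchy coefficients, `i = 1/j` -/
theorem p44_lip_coef (C θ C0 i n : ℝ) (hC : 1 ≤ C) (hθ0 : 0 < θ) (hθ : θ < 1) (hC0 : 0 ≤ C0) (hi0 : 0 < i) (hi1 : i ≤ 1)
    (hn : n * i = 1) (hsm : (C0 + 4 * C) * i ≤ (1 - θ) / 2) :
    C * ((2 * i + i) ^ 2 / n ^ 2 + (2 * i + i) ^ 3 + ((2 * i + i) + C0 * i ^ 2) * (C0 * i ^ 2)) / i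
      ≤ C * (36 + 3 * C0 + C0 ^ 2) * i ^ 2 ∧
    C * ((2 * i) ^ 2 / n ^ 2 + (2 * i) ^ 3 + ((2 * i) + (C0 * i ^ 2 + i)) * (C0 * i ^ 2 + i)) / i
      ≤ C * (12 + (3 + C0) * (1 + C0)) * i ∧
    (θ * (C0 * i ^ 2) + C * (2 * i + i) ^ 2) / i ≤ (C0 + 9 * C) * i ∧
    (θ * (C0 * i ^ 2 + i) + C * (2 * i) ^ 2) / i ≤ (1 + θ) / 2 := by
  have hn0 : n ≠ 0 := by
    intro h; rw [h, zero_mul] at hn; norm_num at hn
  have hinv : ∀ t : ℝ, t / n ^ 2 = t * i ^ 2 := by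
    intro t
    have : i = 1 / n := by field_simp; linarith
    rw [this]; field_simp
  have hi2 : 0 < i ^ 2 := by positivity
  have hi3 : 0 < i ^ 3 := by positivity
  have h43 : i ^ 4 ≤ i ^ 3 := by
    have : i ^ 4 = i * i ^ 3 := by ring
    rw [this]; exact mul_le_of_le_one_left hi3.le hi1
  have h32 : i ^ 3 ≤ i ^ 2 := by
    have : i ^ 3 = i * i ^ 2 := by ring
    rw [this]; exact mul_le_of_le_one_left hi2.le hi1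
  have h21 : i ^ 2 ≤ i := by
    rw [sq]; exact mul_le_of_le_one_left hi0.le hi1
  have hC00 : 0 ≤ C0 ^ 2 := sq_nonneg C0
  refine ⟨?_, ?_, ?_, ?_⟩
  · rw [div_le_iff₀ hi0, hinv]
    have e : C * (36 + 3 * C0 + C0 ^ 2) * i ^ 2 * i = C * ((36 + 3 * C0 + C0 ^ 2) * i ^ 3) := by ring
    rw [e]
    apply mul_le_mul_of_nonneg_left _ (by linarith)
    have e2 : (2 * i + i) ^ 2 * i ^ 2 + (2 * i + i) ^ 3 + ((2 * i + i) + C0 * i ^ 2) * (C0 * i ^ 2)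
        = (9 + C0 ^ 2) * i ^ 4 + (27 + 3 * C0) * i ^ 3 := by ring
    rw [e2]
    have : (9 + C0 ^ 2) * i ^ 4 ≤ (9 + C0 ^ 2) * i ^ 3 := by gcongr
    linarith
  · rw [div_le_iff₀ hi0, hinv]
    have e : C * (12 + (3 + C0) * (1 + C0)) * i * i = C * ((12 + (3 + C0) * (1 + C0)) * i ^ 2) := by ring
    rw [e]
    apply mul_le_mul_of_nonneg_left _ (by linarith)
    have a1 : (2 * i) ^ 2 * i ^ 2 ≤ 4 * i ^ 2 := by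
      have : (2 * i) ^ 2 * i ^ 2 = 4 * i ^ 4 := by ring
      rw [this]; linarith
    have a2 : (2 * i) ^ 3 ≤ 8 * i ^ 2 := by
      have : (2 * i) ^ 3 = 8 * i ^ 3 := by ring
      rw [this]; linarith
    have a3 : C0 * i ^ 2 ≤ C0 * i := by gcongr
    have a4 : ((2 * i) + (C0 * i ^ 2 + i)) * (C0 * i ^ 2 + i) ≤ ((3 + C0) * i) * ((1 + C0) * i) := by
      apply mul_le_mul (by linarith) (by linarith) (by positivity) (by positivity)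
    have e3 : ((3 + C0) * i) * ((1 + C0) * i) = (3 + C0) * (1 + C0) * i ^ 2 := by ring
    linarith
  · rw [div_le_iff₀ hi0]
    have e : θ * (C0 * i ^ 2) + C * (2 * i + i) ^ 2 = (θ * C0 + 9 * C) * i ^ 2 := by ring
    have e2 : (C0 + 9 * C) * i * i = (C0 + 9 * C) * i ^ 2 := by ring
    rw [e, e2]
    apply mul_le_mul_of_nonneg_right _ hi2.le
    have : θ * C0 ≤ 1 * C0 := by gcongr
    linarith
  · rw [div_le_iff₀ hi0]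
    have e : θ * (C0 * i ^ 2 + i) + C * (2 * i) ^ 2 = (θ + (θ * C0 + 4 * C) * i) * i := by ring
    rw [e]
    apply mul_le_mul_of_nonneg_right _ hi0.le
    have h1 : θ * C0 ≤ 1 * C0 := by gcongr
    have h2 : (θ * C0 + 4 * C) * i ≤ (C0 + 4 * C) * i := by
      apply mul_le_mul_of_nonneg_right _ hi0.le; linarith
    linarith

theorem p44_lip (κ : MapC) (C0 : ℝ) (hC0 : 0 ≤ C0) : ∃ (C1 : ℝ) (j1 : ℕ), 1 ≤ C1 ∧ 1 ≤ j1 ∧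
    ∀ (H : Hist), Flow.MapOK κ H → ∀ j : ℕ, H.j0 ≤ j → j1 ≤ j → ∀ Y Y' : ℂ × ℂ × H.Q j,
      (‖Y.1‖ ≤ 2 / (j : ℝ) ∧ ‖Y.2.1‖ ≤ 2 / (j : ℝ) ∧ ‖Y.2.2‖ ≤ C0 / (j : ℝ) ^ 2) →
      (‖Y'.1‖ ≤ 2 / (j : ℝ) ∧ ‖Y'.2.1‖ ≤ 2 / (j : ℝ) ∧ ‖Y'.2.2‖ ≤ C0 / (j : ℝ) ^ 2) →
      ‖((H.N j Y).1 - (Y.1 - Y.2.1 ^ 2)) - ((H.N j Y').1 - (Y'.1 - Y'.2.1 ^ 2))‖
        ≤ C1 * (max ‖Y.1 - Y'.1‖ ‖Y.2.1 - Y'.2.1‖ / (j : ℝ) ^ 2 + ‖Y.2.2 - Y'.2.2‖ / (j : ℝ)) ∧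
      ‖((H.N j Y).2.1 - (Y.2.1 - Y.1 * Y.2.1)) - ((H.N j Y').2.1 - (Y'.2.1 - Y'.1 * Y'.2.1))‖
        ≤ C1 * (max ‖Y.1 - Y'.1‖ ‖Y.2.1 - Y'.2.1‖ / (j : ℝ) ^ 2 + ‖Y.2.2 - Y'.2.2‖ / (j : ℝ)) ∧
      ‖(H.N j Y).2.2 - (H.N j Y').2.2‖
        ≤ th1 κ * ‖Y.2.2 - Y'.2.2‖ + C1 * (max ‖Y.1 - Y'.1‖ ‖Y.2.1 - Y'.2.1‖ / (j : ℝ)) := by
  have hC := κ.hC
  have hθ0 := κ.hθ0
  have hθ := κ.hθ
  have hρ := κ.hρ
  have h1θ : 0 < 1 - κ.θ := by linarith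
  obtain ⟨A1, hA1⟩ : ∃ A1, A1 = κ.C * (36 + 3 * C0 + C0 ^ 2) := ⟨_, rfl⟩
  obtain ⟨A2, hA2⟩ : ∃ A2, A2 = κ.C * (12 + (3 + C0) * (1 + C0)) := ⟨_, rfl⟩
  obtain ⟨A3, hA3⟩ : ∃ A3, A3 = C0 + 9 * κ.C := ⟨_, rfl⟩
  have hA1p : 0 ≤ A1 := by rw [hA1]; positivity
  have hA2p : 0 ≤ A2 := by rw [hA2]; positivity
  have hA3p : 0 ≤ A3 := by rw [hA3]; positivity
  obtain ⟨B, hB⟩ : ∃ B, B = 1 + (4 + C0) / κ.ρ + 2 * (C0 + 4 * κ.C) / (1 - κ.θ) := ⟨_, rfl⟩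
  have hB1 : 1 ≤ B := by
    rw [hB]
    have : 0 ≤ (4 + C0) / κ.ρ + 2 * (C0 + 4 * κ.C) / (1 - κ.θ) := by positivity
    linarith
  have hB2 : (4 + C0) / κ.ρ < B := by
    rw [hB]
    have : 0 ≤ 2 * (C0 + 4 * κ.C) / (1 - κ.θ) := by positivity
    linarith
  have hB3 : 2 * (C0 + 4 * κ.C) / (1 - κ.θ) ≤ B := by
    rw [hB]
    have : 0 ≤ (4 + C0) / κ.ρ := by positivity
    linarith
  refine ⟨1 + A1 + A2 + A3, ⌈B⌉₊, by linarith, ?_, ?_⟩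
  · exact Nat.one_le_iff_ne_zero.2 (by
      intro h
      have := Nat.le_ceil B
      rw [h] at this
      norm_num at this
      linarith)
  intro H hM j hj hj1 Y Y' hY hY'
  have hnB : B ≤ (j : ℝ) := (Nat.le_ceil B).trans (by exact_mod_cast hj1)
  have hn0 : (0 : ℝ) < (j : ℝ) := by linarith
  obtain ⟨i, hi⟩ : ∃ i : ℝ, i = 1 / (j : ℝ) := ⟨_, rfl⟩
  have hi0 : 0 < i := by rw [hi]; positivity
  have hi1 : i ≤ 1 := by rw [hi, div_le_one hn0]; linarith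
  have hni : (j : ℝ) * i = 1 := by rw [hi]; field_simp
  have hiB : B * i ≤ 1 := by
    calc B * i ≤ (j : ℝ) * i := by gcongr
      _ = 1 := hni
  have hρi : (4 + C0) * i < κ.ρ := by
    rw [div_lt_iff₀ hρ] at hB2
    have : (4 + C0) * i < B * κ.ρ * i := mul_lt_mul_of_pos_right hB2 hi0
    calc (4 + C0) * i < B * κ.ρ * i := this
      _ = (B * i) * κ.ρ := by ring
      _ ≤ 1 * κ.ρ := by gcongr
      _ = κ.ρ := one_mul _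
  have hsm : (C0 + 4 * κ.C) * i ≤ (1 - κ.θ) / 2 := by
    rw [div_le_iff₀ h1θ] at hB3
    have h1 : 2 * (C0 + 4 * κ.C) * i ≤ B * (1 - κ.θ) * i := mul_le_mul_of_nonneg_right hB3 hi0.le
    have h2 : B * (1 - κ.θ) * i = (B * i) * (1 - κ.θ) := by ring
    have h3 : (B * i) * (1 - κ.θ) ≤ 1 * (1 - κ.θ) := by gcongr
    linarith
  have e2 : 2 / (j : ℝ) = 2 * i := by rw [hi]; ring
  have e3 : C0 / (j : ℝ) ^ 2 = C0 * i ^ 2 := by rw [hi]; field_simp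
  rw [e2, e3] at hY hY'
  have hi2 : i ^ 2 ≤ i := by rw [sq]; exact mul_le_of_le_one_left hi0.le hi1
  have hW : 2 * i + i < κ.ρ := by nlinarith
  have hQ : C0 * i ^ 2 + i < κ.ρ := by
    have : C0 * i ^ 2 ≤ C0 * i := by gcongr
    nlinarith
  have hYr : Y ∈ Reg (H.Q j) (2 * i) (C0 * i ^ 2) := ⟨max_le hY.1 hY.2.1, hY.2.2⟩
  have hYr' : Y' ∈ Reg (H.Q j) (2 * i) (C0 * i ^ 2) := ⟨max_le hY'.1 hY'.2.1, hY'.2.2⟩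
  obtain ⟨s1, s2, s3⟩ := cau_sec_step hM hj hi0 hi0 hW hQ hYr' hYr
  obtain ⟨c1, c2, c3, c4⟩ := p44_lip_coef κ.C κ.θ C0 i (j : ℝ) hC hθ0 hθ hC0 hi0 hi1 hni hsm
  rw [← hA1] at c1
  rw [← hA2] at c2
  rw [← hA3] at c3
  have hwn : wn (Y - Y') = max ‖Y.1 - Y'.1‖ ‖Y.2.1 - Y'.2.1‖ := rfl
  obtain ⟨Wd, hWd⟩ : ∃ Wd, Wd = max ‖Y.1 - Y'.1‖ ‖Y.2.1 - Y'.2.1‖ := ⟨_, rfl⟩
  obtain ⟨Qd, hQd⟩ : ∃ Qd, Qd = ‖Y.2.2 - Y'.2.2‖ := ⟨_, rfl⟩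
  rw [hwn, ← hWd, ← hQd] at s1 s2 s3
  rw [← hWd, ← hQd]
  have hWd0 : 0 ≤ Wd := by rw [hWd]; exact le_max_of_le_left (norm_nonneg _)
  have hQd0 : 0 ≤ Qd := by rw [hQd]; exact norm_nonneg _
  have e4 : Wd / (j : ℝ) ^ 2 = Wd * i ^ 2 := by rw [hi]; field_simp
  have e5 : Qd / (j : ℝ) = Qd * i := by rw [hi]; ring
  have e6 : Wd / (j : ℝ) = Wd * i := by rw [hi]; ring
  rw [e4, e5, e6]
  have hmain : κ.C * eordB j (2 * i + i) (C0 * i ^ 2) / i * Wd + κ.C * eordB j (2 * i) (C0 * i ^ 2 + i) / i * Qd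
      ≤ (1 + A1 + A2 + A3) * (Wd * i ^ 2 + Qd * i) := by
    have h1 : κ.C * eordB j (2 * i + i) (C0 * i ^ 2) / i * Wd ≤ A1 * i ^ 2 * Wd :=
      mul_le_mul_of_nonneg_right c1 hWd0
    have h2 : κ.C * eordB j (2 * i) (C0 * i ^ 2 + i) / i * Qd ≤ A2 * i * Qd :=
      mul_le_mul_of_nonneg_right c2 hQd0
    have p1 : 0 ≤ Wd * i ^ 2 := by positivity
    have p2 : 0 ≤ Qd * i := by positivity
    have h3 : A1 * i ^ 2 * Wd ≤ (1 + A1 + A2 + A3) * (Wd * i ^ 2) := by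
      have : A1 * i ^ 2 * Wd = A1 * (Wd * i ^ 2) := by ring
      rw [this]; gcongr; linarith
    have h4 : A2 * i * Qd ≤ (1 + A1 + A2 + A3) * (Qd * i) := by
      have : A2 * i * Qd = A2 * (Qd * i) := by ring
      rw [this]; gcongr; linarith
    rw [mul_add]
    linarith
  refine ⟨?_, ?_, ?_⟩
  · have e : ((H.N j Y).1 - (Y.1 - Y.2.1 ^ 2)) - ((H.N j Y').1 - (Y'.1 - Y'.2.1 ^ 2))
        = ((H.N j Y).1 - (H.N j Y').1) - ((Y.1 - Y'.1) - (Y.2.1 ^ 2 - Y'.2.1 ^ 2)) := by ring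
    rw [e]
    exact s1.trans hmain
  · have e : ((H.N j Y).2.1 - (Y.2.1 - Y.1 * Y.2.1)) - ((H.N j Y').2.1 - (Y'.2.1 - Y'.1 * Y'.2.1))
        = ((H.N j Y).2.1 - (H.N j Y').2.1) - ((Y.2.1 - Y'.2.1) - (Y.1 * Y.2.1 - Y'.1 * Y'.2.1)) := by ring
    rw [e]
    exact s2.trans hmain
  · refine s3.trans ?_
    have h1 : (κ.θ * (C0 * i ^ 2) + κ.C * (2 * i + i) ^ 2) / i * Wd ≤ A3 * i * Wd :=
      mul_le_mul_of_nonneg_right c3 hWd0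
    have h2 : (κ.θ * (C0 * i ^ 2 + i) + κ.C * (2 * i) ^ 2) / i * Qd ≤ (1 + κ.θ) / 2 * Qd :=
      mul_le_mul_of_nonneg_right c4 hQd0
    have h3 : A3 * i * Wd ≤ (1 + A1 + A2 + A3) * (Wd * i) := by
      have : A3 * i * Wd = A3 * (Wd * i) := by ring
      rw [this]
      have p1 : 0 ≤ Wd * i := by positivity
      gcongr; linarith
    unfold th1
    linarith

end Claimed.Agent.R285.E4
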