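import Claimed.Agent.R285.E4.P44Def

/-!
# ROW 285, cut of [E] P4.4, LEAF P44-MATCH (PROVED, helper14): size of the perturbed scalars in the early regime and the value of the invariant (paper-free, real inequalities)

`x = xc + a`, `y = yc + b`.  `log (2+j)/j² ≤ τ/j`;  `|a|, |b| ≤ (P + C τ) ε j ≤ (P + C τ) τ²/j`.  So `|x - 1/j| ≤ (C τ + (P + C τ) τ²)/j ≤ 1/(2j)`.
`y² - x² = (yc² - xc²) + 2 (yc b - xc a) + (b² - a²)`:
* `|yc² - xc²| ≤ |yc - xc| |yc + xc| ≤ (2 C log(2+j)/j²)(3/j) ≤ 6 C τ ε`   (by `log (2+j) ≤ τ ε j³`),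
* `2 (yc b - xc a) = (2/j)(b - a) + 2 ((yc - 1/j) b - (xc - 1/j) a)`, `(2/j)(b - a) = 3 P ε + O(4 C τ ε)`, the rest is `≤ 4 (C τ/j)(P + C τ) ε j`,
* `|b² - a²| ≤ 2 (P + Cτ)² ε (ε j²) ≤ 2 (P + C τ)² τ² ε`.
-/

set_option autoImplicit false

namespace Claimed.Agent.R285.E4

/-- the real-variable core of `p44_match`: `i = 1/n`, `u = xc - i`, `v = yc - i`, `α = a + ε n P`, `β = b - ε n P/2` -/
theorem p44_match_core (C P ε τ n i L u v α β : ℝ) (hC : 1 ≤ C) (hP : 0 < P) (hε : 0 < ε) (hτ : 0 < τ)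
    (hτ0 : τ ≤ 1 / (2 * (2 * C + P))) (hn : 0 < n) (hi : n * i = 1) (hL : 0 ≤ L)
    (hu : |u| ≤ C * L * i ^ 2) (hv : |v| ≤ C * L * i ^ 2) (hα : |α| ≤ C * τ * ε * n) (hβ : |β| ≤ C * τ * ε * n)
    (hLn : L ≤ τ * n) (hεn : ε * n ^ 2 ≤ τ ^ 2) :
    (i / 2 ≤ (i + u) + (α - ε * n * P) ∧ (i + u) + (α - ε * n * P) ≤ 2 * i ∧
      i / 2 ≤ (i + v) + (β + ε * n * P / 2) ∧ (i + v) + (β + ε * n * P / 2) ≤ 2 * i) ∧
    (L ≤ τ * ε * n ^ 3 →
      |((i + v) + (β + ε * n * P / 2)) ^ 2 - ((i + u) + (α - ε * n * P)) ^ 2 - 3 * P * ε|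
        ≤ (16 * C + 3 * P * C + 3 * P * (P + C)) * τ * ε) := by
  have hi0 : 0 < i := by
    by_contra h
    have : n * i ≤ 0 := mul_nonpos_of_nonneg_of_nonpos hn.le (not_lt.mp h)
    linarith
  have hCP : 0 < 2 * C + P := by linarith
  have hτ1 : τ ≤ 1 := by
    refine hτ0.trans ?_
    rw [div_le_one (by positivity)]; linarith
  have hτs : τ * (2 * (2 * C + P)) ≤ 1 := by rwa [le_div_iff₀ (by positivity)] at hτ0
  -- `L i ≤ τ`
  have hLi : L * i ≤ τ := by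
    calc L * i ≤ τ * n * i := mul_le_mul_of_nonneg_right hLn hi0.le
      _ = τ * (n * i) := by ring
      _ = τ := by rw [hi, mul_one]
  have hu' : |u| ≤ C * τ * i := by
    calc |u| ≤ C * L * i ^ 2 := hu
      _ = C * (L * i) * i := by ring
      _ ≤ C * τ * i := by gcongr
  have hv' : |v| ≤ C * τ * i := by
    calc |v| ≤ C * L * i ^ 2 := hv
      _ = C * (L * i) * i := by ring
      _ ≤ C * τ * i := by gcongr
  -- `ε n ≤ τ² i`
  have hεn' : ε * n ≤ τ ^ 2 * i := by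
    calc ε * n = ε * n ^ 2 * i := by
          have : ε * n ^ 2 * i = ε * n * (n * i) := by ring
          rw [this, hi, mul_one]
      _ ≤ τ ^ 2 * i := mul_le_mul_of_nonneg_right hεn hi0.le
  have hεn0 : 0 < ε * n := by positivity
  have hτ2 : τ ^ 2 ≤ τ := by rw [sq]; exact mul_le_of_le_one_left hτ.le hτ1
  have hεnτ : ε * n ≤ τ * i := hεn'.trans (mul_le_mul_of_nonneg_right hτ2 hi0.le)
  have hα' : |α| ≤ C * (ε * n) := by
    calc |α| ≤ C * τ * ε * n := hα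
      _ = τ * (C * (ε * n)) := by ring
      _ ≤ 1 * (C * (ε * n)) := by gcongr
      _ = C * (ε * n) := one_mul _
  have hβ' : |β| ≤ C * (ε * n) := by
    calc |β| ≤ C * τ * ε * n := hβ
      _ = τ * (C * (ε * n)) := by ring
      _ ≤ 1 * (C * (ε * n)) := by gcongr
      _ = C * (ε * n) := one_mul _
  have ua := abs_le.1 hu'
  have va := abs_le.1 hv'
  have αa := abs_le.1 hα'
  have βa := abs_le.1 hβ'
  have hτi : 0 ≤ τ * i := by positivity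
  -- `(2C + P) τ i ≤ i/2`
  have hsm : (2 * C + P) * (τ * i) ≤ i / 2 := by
    have : (2 * C + P) * (τ * i) = (τ * (2 * (2 * C + P))) * (i / 2) := by ring
    rw [this]
    calc (τ * (2 * (2 * C + P))) * (i / 2) ≤ 1 * (i / 2) := by gcongr
      _ = i / 2 := one_mul _
  have hCεn : C * (ε * n) ≤ C * (τ * i) := by gcongr
  have hPεn : ε * n * P ≤ P * (τ * i) := by
    calc ε * n * P = P * (ε * n) := by ring
      _ ≤ P * (τ * i) := by gcongr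
  have hPεn0 : 0 ≤ ε * n * P := by positivity
  have hsz : (i / 2 ≤ (i + u) + (α - ε * n * P) ∧ (i + u) + (α - ε * n * P) ≤ 2 * i ∧
      i / 2 ≤ (i + v) + (β + ε * n * P / 2) ∧ (i + v) + (β + ε * n * P / 2) ≤ 2 * i) := by
    have e : (2 * C + P) * (τ * i) = C * τ * i + C * (τ * i) + P * (τ * i) := by ring
    refine ⟨?_, ?_, ?_, ?_⟩ <;> linarith [ua.1, ua.2, va.1, va.2, αa.1, αa.2, βa.1, βa.2]
  refine ⟨hsz, fun hL3 => ?_⟩
  obtain ⟨x1, x2, y1, y2⟩ := hsz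
  obtain ⟨X, hX⟩ : ∃ X, X = (i + u) + (α - ε * n * P) := ⟨_, rfl⟩
  obtain ⟨Y, hY⟩ : ∃ Y, Y = (i + v) + (β + ε * n * P / 2) := ⟨_, rfl⟩
  rw [← hX] at x1 x2
  rw [← hY] at y1 y2
  rw [← hX, ← hY]
  have hS : |Y + X| ≤ 4 * i := by rw [abs_le]; constructor <;> linarith
  -- decomposition
  have hdec : Y ^ 2 - X ^ 2 - 3 * P * ε
      = (v - u) * (Y + X) + (β - α) * (Y + X) + 3 / 2 * (ε * n * P) * (u + v)
        + 3 / 2 * (ε * n * P) * ((α - ε * n * P) + (β + ε * n * P / 2)) := by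
    have h3 : 3 * P * ε = 3 / 2 * (ε * n * P) * (2 * i) := by
      have : 3 / 2 * (ε * n * P) * (2 * i) = 3 * P * ε * (n * i) := by ring
      rw [this, hi, mul_one]
    rw [h3, hX, hY]; ring
  -- `L i³ ≤ τ ε`
  have hLi3 : L * i ^ 3 ≤ τ * ε := by
    calc L * i ^ 3 ≤ τ * ε * n ^ 3 * i ^ 3 := mul_le_mul_of_nonneg_right hL3 (by positivity)
      _ = τ * ε * (n * i) ^ 3 := by ring
      _ = τ * ε := by rw [hi]; ring
  have t1 : |(v - u) * (Y + X)| ≤ 8 * C * (τ * ε) := by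
    rw [abs_mul]
    have h1 : |v - u| ≤ 2 * (C * L * i ^ 2) := by
      calc |v - u| ≤ |v| + |u| := abs_sub _ _
        _ ≤ 2 * (C * L * i ^ 2) := by linarith
    calc |v - u| * |Y + X| ≤ 2 * (C * L * i ^ 2) * (4 * i) := mul_le_mul h1 hS (abs_nonneg _) (by positivity)
      _ = 8 * C * (L * i ^ 3) := by ring
      _ ≤ 8 * C * (τ * ε) := by gcongr
  have t2 : |(β - α) * (Y + X)| ≤ 8 * C * (τ * ε) := by
    rw [abs_mul]
    have h1 : |β - α| ≤ 2 * (C * τ * ε * n) := by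
      calc |β - α| ≤ |β| + |α| := abs_sub _ _
        _ ≤ 2 * (C * τ * ε * n) := by linarith
    calc |β - α| * |Y + X| ≤ 2 * (C * τ * ε * n) * (4 * i) := mul_le_mul h1 hS (abs_nonneg _) (by positivity)
      _ = 8 * C * (τ * ε) * (n * i) := by ring
      _ = 8 * C * (τ * ε) := by rw [hi, mul_one]
  have t3 : |3 / 2 * (ε * n * P) * (u + v)| ≤ 3 * P * C * (τ * ε) := by
    rw [abs_mul, abs_of_nonneg (by positivity : (0 : ℝ) ≤ 3 / 2 * (ε * n * P))]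
    have h1 : |u + v| ≤ 2 * (C * τ * i) := by
      calc |u + v| ≤ |u| + |v| := abs_add_le _ _
        _ ≤ 2 * (C * τ * i) := by linarith
    calc 3 / 2 * (ε * n * P) * |u + v| ≤ 3 / 2 * (ε * n * P) * (2 * (C * τ * i)) := by gcongr
      _ = 3 * P * C * (τ * ε) * (n * i) := by ring
      _ = 3 * P * C * (τ * ε) := by rw [hi, mul_one]
  have t4 : |3 / 2 * (ε * n * P) * ((α - ε * n * P) + (β + ε * n * P / 2))| ≤ 3 * P * (P + C) * (τ * ε) := by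
    rw [abs_mul, abs_of_nonneg (by positivity : (0 : ℝ) ≤ 3 / 2 * (ε * n * P))]
    have h1 : |(α - ε * n * P) + (β + ε * n * P / 2)| ≤ 2 * ((P + C) * (ε * n)) := by
      rw [abs_le]
      constructor <;> linarith [αa.1, αa.2, βa.1, βa.2, hPεn0]
    have h2 : (ε * n) * (ε * n) ≤ τ * ε := by
      calc (ε * n) * (ε * n) = ε * (ε * n ^ 2) := by ring
        _ ≤ ε * τ ^ 2 := by gcongr
        _ ≤ ε * τ := by gcongr
        _ = τ * ε := mul_comm _ _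
    calc 3 / 2 * (ε * n * P) * |(α - ε * n * P) + (β + ε * n * P / 2)|
        ≤ 3 / 2 * (ε * n * P) * (2 * ((P + C) * (ε * n))) := by gcongr
      _ = 3 * P * (P + C) * ((ε * n) * (ε * n)) := by ring
      _ ≤ 3 * P * (P + C) * (τ * ε) := by gcongr
  rw [hdec]
  have a1 := abs_le.1 t1
  have a2 := abs_le.1 t2
  have a3 := abs_le.1 t3
  have a4 := abs_le.1 t4
  have e : (16 * C + 3 * P * C + 3 * P * (P + C)) * τ * ε
      = 8 * C * (τ * ε) + 8 * C * (τ * ε) + 3 * P * C * (τ * ε) + 3 * P * (P + C) * (τ * ε) := by ring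
  rw [e, abs_le]
  constructor <;> linarith [a1.1, a1.2, a2.1, a2.2, a3.1, a3.2, a4.1, a4.2]

theorem p44_match (C P : ℝ) (hC : 1 ≤ C) (hP : 0 < P) : ∃ C' τ0 : ℝ, 1 ≤ C' ∧ 0 < τ0 ∧
    ∀ (ε τ : ℝ) (j : ℕ) (xc yc a b : ℝ), 0 < ε → 0 < τ → τ ≤ τ0 → 1 ≤ j →
      |xc - 1 / (j : ℝ)| ≤ C * Real.log (2 + j) / (j : ℝ) ^ 2 →
      |yc - 1 / (j : ℝ)| ≤ C * Real.log (2 + j) / (j : ℝ) ^ 2 →
      |a + ε * j * P| ≤ C * τ * ε * j → |b - ε * j * P / 2| ≤ C * τ * ε * j →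
      Real.log (2 + j) ≤ τ * j → ε * (j : ℝ) ^ 2 ≤ τ ^ 2 →
      (1 / (2 * (j : ℝ)) ≤ xc + a ∧ xc + a ≤ 2 / (j : ℝ) ∧ 1 / (2 * (j : ℝ)) ≤ yc + b ∧ yc + b ≤ 2 / (j : ℝ)) ∧
      (Real.log (2 + j) ≤ τ * ε * (j : ℝ) ^ 3 → |(yc + b) ^ 2 - (xc + a) ^ 2 - 3 * P * ε| ≤ C' * τ * ε) := by
  refine ⟨16 * C + 3 * P * C + 3 * P * (P + C), 1 / (2 * (2 * C + P)), ?_, by positivity, ?_⟩
  · have : 0 ≤ 3 * P * C + 3 * P * (P + C) := by positivity
    linarith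
  intro ε τ j xc yc a b hε hτ hτ0 hj hxc hyc ha hb hL hεj
  have hn : (0 : ℝ) < (j : ℝ) := by exact_mod_cast hj
  have hi : (j : ℝ) * (1 / (j : ℝ)) = 1 := by field_simp
  have hL0 : 0 ≤ Real.log (2 + j) := Real.log_nonneg (by linarith)
  have e2 : C * Real.log (2 + j) / (j : ℝ) ^ 2 = C * Real.log (2 + j) * (1 / (j : ℝ)) ^ 2 := by
    field_simp
  rw [e2] at hxc hyc
  have key := p44_match_core C P ε τ (j : ℝ) (1 / (j : ℝ)) (Real.log (2 + j)) (xc - 1 / (j : ℝ)) (yc - 1 / (j : ℝ))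
    (a + ε * j * P) (b - ε * j * P / 2) hC hP hε hτ hτ0 hn hi hL0 hxc hyc ha hb hL hεj
  have ex : (1 / (j : ℝ) + (xc - 1 / (j : ℝ))) + ((a + ε * j * P) - ε * j * P) = xc + a := by ring
  have ey : (1 / (j : ℝ) + (yc - 1 / (j : ℝ))) + ((b - ε * j * P / 2) + ε * j * P / 2) = yc + b := by ring
  rw [ex, ey] at key
  have e3 : 1 / (j : ℝ) / 2 = 1 / (2 * (j : ℝ)) := by field_simp
  have e4 : 2 * (1 / (j : ℝ)) = 2 / (j : ℝ) := by field_simp
  rw [e3, e4] at key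
  exact key

end Claimed.Agent.R285.E4
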