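import Claimed.Agent.R285.E4.P44Def

/-!
# ROW 285, cut of [E] P4.4, LEAF P44-SLAVE (PROVED, helper14): the remainders are slaved, `q ≤ K w²` (paper-free inductions)

`p44_slave_q`: `K = max 1 (max K0 (2C/(1-θ)))`.  Induction on `j`: if `q_j ≤ K w_j²`, `w_j ≤ ρ1` (all earlier ones too, so the history is in the domain and
`p44_Flow.step` applies): `e_j ≤ w²/j² + w³ + (w + K w²) K w² ≤ w² (1 + (1 + K + K² ρ1) ρ1)`-type bound, more precisely `e_j ≤ w_j (w_j + (1+K+K²ρ1) w_j²)` (`j ≥ 1`);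
`w_{j+1} ≥ w_j - w_j² - C e_j` (look at the coordinate which realises the max) `≥ (1 - λ) w_j` with `λ = (1+C) ρ1 + C (1+K+K²ρ1) ρ1²`, `(1-λ)² ≥ (1+θ)/2` for `ρ1` small;
`q_{j+1} ≤ (θ K + C) w_j² ≤ K (1+θ)/2 w_j² ≤ K w_{j+1}²`.

`p44_slave_r`: `K' = max 1 (max K0 (8C/(1-θ)))`, `ρ2` with `(K + K') ρ2 ≤ 1`, `3 ρ2 ≤ ρ3`: `r_{j+1} ≤ θ K' w² + C (w + K w² + K' w²)² ≤ (θ K' + 4 C) w_j² ≤ K' (1+θ)/2 w_j² ≤ K' w_{j+1}²`.
-/

set_option autoImplicit false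

namespace Claimed.Agent.R285.E4

/-- one step of the plane slaving -/
theorem p44_slave_step (C θ K Λ ρ1 x y q x' y' q' jj w w' : ℝ) (hC : 1 ≤ C) (hθ : θ < 1)
    (hK1 : 1 ≤ K) (hKC : C ≤ K * (1 - θ) / 2) (hΛ : Λ = 1 + C * (2 + K + K ^ 2)) (hρ1 : ρ1 ≤ 1)
    (hρΛ : ρ1 * Λ ≤ (1 - θ) / 4) (hjj : 1 ≤ jj) (hw : w = max |x| |y|) (hw' : w' = max |x'| |y'|)
    (hq0 : 0 ≤ q) (hq : q ≤ K * w ^ 2) (hwρ : w ≤ ρ1) (hθ0 : 0 < θ)
    (hx : |x' - (x - y ^ 2)| ≤ C * (w ^ 2 / jj ^ 2 + w ^ 3 + (w + q) * q))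
    (hy : |y' - (y - x * y)| ≤ C * (w ^ 2 / jj ^ 2 + w ^ 3 + (w + q) * q))
    (hq' : q' ≤ θ * q + C * w ^ 2) :
    (1 + θ) / 2 * w ^ 2 ≤ w' ^ 2 ∧ q' ≤ K * w' ^ 2 := by
  have hw0 : 0 ≤ w := by rw [hw]; exact le_max_of_le_left (abs_nonneg x)
  have hxw : |x| ≤ w := by rw [hw]; exact le_max_left _ _
  have hyw : |y| ≤ w := by rw [hw]; exact le_max_right _ _
  have hw1 : w ≤ 1 := hwρ.trans hρ1
  have hw2 : 0 ≤ w ^ 2 := sq_nonneg w
  have hK0 : 0 ≤ K := by linarith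
  -- the error
  have e1 : w ^ 2 / jj ^ 2 ≤ w ^ 2 := div_le_self hw2 (by nlinarith)
  have e2 : w ^ 3 ≤ w ^ 2 := by
    have : w ^ 3 = w * w ^ 2 := by ring
    rw [this]; exact mul_le_of_le_one_left hw2 hw1
  have hq1 : q ≤ K * w ^ 2 := hq
  have hqw : q ≤ K * w := by
    have : w ^ 2 ≤ w := by rw [sq]; exact mul_le_of_le_one_left hw0 hw1
    exact hq.trans (mul_le_mul_of_nonneg_left this hK0)
  have e3 : (w + q) * q ≤ (K + K ^ 2) * w ^ 2 := by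
    have h1 : w + q ≤ (1 + K) * w := by linarith
    calc (w + q) * q ≤ ((1 + K) * w) * (K * w ^ 2) := mul_le_mul h1 hq hq0 (by positivity)
      _ = (K + K ^ 2) * (w * w ^ 2) := by ring
      _ ≤ (K + K ^ 2) * w ^ 2 := by
          apply mul_le_mul_of_nonneg_left _ (by positivity)
          exact mul_le_of_le_one_left hw2 hw1
  have he : C * (w ^ 2 / jj ^ 2 + w ^ 3 + (w + q) * q) ≤ C * ((2 + K + K ^ 2) * w ^ 2) := by
    apply mul_le_mul_of_nonneg_left _ (by linarith)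
    linarith
  have hx2 := abs_le.1 (hx.trans he)
  have hy2 := abs_le.1 (hy.trans he)
  -- lower bound of `w'`
  have hlow : w - Λ * w ^ 2 ≤ w' := by
    have hΛw : Λ * w ^ 2 = w ^ 2 + C * ((2 + K + K ^ 2) * w ^ 2) := by rw [hΛ]; ring
    rw [hΛw, hw']
    have hyy : y ^ 2 ≤ w ^ 2 := by rw [← sq_abs]; exact pow_le_pow_left₀ (abs_nonneg _) hyw 2
    have hxy : |x * y| ≤ w ^ 2 := by
      rw [abs_mul, sq]; exact mul_le_mul hxw hyw (abs_nonneg _) hw0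
    have hxy' := abs_le.1 hxy
    rcases max_cases |x| |y| with ⟨hm, -⟩ | ⟨hm, -⟩
    · refine le_trans ?_ (le_max_left _ _)
      have hwx : w = |x| := by rw [hw, hm]
      rcases abs_cases x with ⟨ha, -⟩ | ⟨ha, -⟩
      · have : x' ≤ |x'| := le_abs_self _
        linarith [hx2.1]
      · have : -x' ≤ |x'| := neg_le_abs _
        linarith [hx2.2, sq_nonneg y]
    · refine le_trans ?_ (le_max_right _ _)
      have hwy : w = |y| := by rw [hw, hm]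
      rcases abs_cases y with ⟨ha, -⟩ | ⟨ha, -⟩
      · have : y' ≤ |y'| := le_abs_self _
        linarith [hy2.1, hxy'.2]
      · have : -y' ≤ |y'| := neg_le_abs _
        linarith [hy2.2, hxy'.1]
  have hΛ0 : 0 ≤ Λ := by rw [hΛ]; positivity
  have hΛw : Λ * w ≤ (1 - θ) / 4 := by
    calc Λ * w ≤ Λ * ρ1 := mul_le_mul_of_nonneg_left hwρ hΛ0
      _ = ρ1 * Λ := mul_comm _ _
      _ ≤ (1 - θ) / 4 := hρΛ
  have hpos : 0 ≤ w - Λ * w ^ 2 := by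
    have : Λ * w ^ 2 = (Λ * w) * w := by ring
    rw [this]
    have : (Λ * w) * w ≤ 1 * w := mul_le_mul_of_nonneg_right (by linarith) hw0
    linarith
  have hsq : (w - Λ * w ^ 2) ^ 2 ≤ w' ^ 2 := pow_le_pow_left₀ hpos hlow 2
  have hratio : (1 + θ) / 2 * w ^ 2 ≤ w' ^ 2 := by
    refine le_trans ?_ hsq
    have e : (w - Λ * w ^ 2) ^ 2 = w ^ 2 * (1 - Λ * w) ^ 2 := by ring
    rw [e, mul_comm]
    apply mul_le_mul_of_nonneg_left _ hw2
    nlinarith [sq_nonneg (Λ * w)]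
  refine ⟨hratio, ?_⟩
  calc q' ≤ θ * q + C * w ^ 2 := hq'
    _ ≤ θ * (K * w ^ 2) + K * (1 - θ) / 2 * w ^ 2 := by gcongr
    _ = K * ((1 + θ) / 2 * w ^ 2) := by ring
    _ ≤ K * w' ^ 2 := mul_le_mul_of_nonneg_left hratio hK0

theorem p44_slave_q (C θ ρ K0 : ℝ) (hC : 1 ≤ C) (hθ0 : 0 < θ) (hθ : θ < 1) (hρ : 0 < ρ) :
    ∃ K ρ1 : ℝ, 1 ≤ K ∧ K0 ≤ K ∧ 0 < ρ1 ∧ ρ1 < ρ ∧ K * ρ1 ^ 2 < ρ ∧
    ∀ (J M : ℕ) (x y q : ℕ → ℝ), 1 ≤ J → p44_Flow C θ ρ J x y q → q J ≤ K0 * p44_w x y J ^ 2 →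
      (∀ j, J ≤ j → j ≤ M → p44_w x y j ≤ ρ1) →
      (∀ j, J ≤ j → j ≤ M + 1 → q j ≤ K * p44_w x y j ^ 2) ∧
      (∀ j, J ≤ j → j ≤ M → (1 + θ) / 2 * p44_w x y j ^ 2 ≤ p44_w x y (j + 1) ^ 2) := by
  have h1θ : 0 < 1 - θ := by linarith
  obtain ⟨K, hKdef⟩ : ∃ K, K = max 1 (max K0 (2 * C / (1 - θ))) := ⟨_, rfl⟩
  have hK1 : 1 ≤ K := by rw [hKdef]; exact le_max_left _ _
  have hK0 : K0 ≤ K := by rw [hKdef]; exact (le_max_left _ _).trans (le_max_right _ _)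
  have hKC : C ≤ K * (1 - θ) / 2 := by
    have : 2 * C / (1 - θ) ≤ K := by rw [hKdef]; exact (le_max_right _ _).trans (le_max_right _ _)
    rw [div_le_iff₀ h1θ] at this
    linarith
  obtain ⟨Λ, hΛ⟩ : ∃ Λ, Λ = 1 + C * (2 + K + K ^ 2) := ⟨_, rfl⟩
  have hΛpos : 0 < Λ := by rw [hΛ]; positivity
  have hKpos : 0 < K := by linarith
  obtain ⟨ρ1, hρ1def⟩ : ∃ ρ1, ρ1 = min (min 1 (ρ / 2)) (min (ρ / (2 * K)) ((1 - θ) / (4 * Λ))) := ⟨_, rfl⟩
  have hρ1pos : 0 < ρ1 := by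
    rw [hρ1def]; exact lt_min (lt_min one_pos (by positivity)) (lt_min (by positivity) (by positivity))
  have hρ11 : ρ1 ≤ 1 := by rw [hρ1def]; exact (min_le_left _ _).trans (min_le_left _ _)
  have hρ12 : ρ1 ≤ ρ / 2 := by rw [hρ1def]; exact (min_le_left _ _).trans (min_le_right _ _)
  have hρ13 : ρ1 ≤ ρ / (2 * K) := by rw [hρ1def]; exact (min_le_right _ _).trans (min_le_left _ _)
  have hρ14 : ρ1 ≤ (1 - θ) / (4 * Λ) := by rw [hρ1def]; exact (min_le_right _ _).trans (min_le_right _ _)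
  have hρΛ : ρ1 * Λ ≤ (1 - θ) / 4 := by
    rw [le_div_iff₀ (by positivity)] at hρ14
    linarith
  have hKρ : K * ρ1 ^ 2 < ρ := by
    rw [le_div_iff₀ (by positivity)] at hρ13
    have : ρ1 ^ 2 ≤ ρ1 := by rw [sq]; exact mul_le_of_le_one_left hρ1pos.le hρ11
    have : K * ρ1 ^ 2 ≤ K * ρ1 := mul_le_mul_of_nonneg_left this hKpos.le
    linarith
  refine ⟨K, ρ1, hK1, hK0, hρ1pos, by linarith, hKρ, ?_⟩
  intro J M x y q hJ hF hqJ hw
  have hwn : ∀ j, 0 ≤ p44_w x y j := fun j => le_max_of_le_left (abs_nonneg _)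
  -- one step, given the slaving up to `j`
  have hstep : ∀ j, J ≤ j → j ≤ M → (∀ i, J ≤ i → i ≤ j → q i ≤ K * p44_w x y i ^ 2) →
      (1 + θ) / 2 * p44_w x y j ^ 2 ≤ p44_w x y (j + 1) ^ 2 ∧ q (j + 1) ≤ K * p44_w x y (j + 1) ^ 2 := by
    intro j hj hjM hall
    have hdom : ∀ i, J ≤ i → i ≤ j → |x i| < ρ ∧ |y i| < ρ ∧ q i < ρ := by
      intro i hi1 hi2
      have hwi := hw i hi1 (hi2.trans hjM)
      refine ⟨lt_of_le_of_lt ((le_max_left _ _).trans hwi) (by linarith),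
        lt_of_le_of_lt ((le_max_right _ _).trans hwi) (by linarith), ?_⟩
      have h1 : p44_w x y i ^ 2 ≤ ρ1 ^ 2 := pow_le_pow_left₀ (hwn i) hwi 2
      have h2 : K * p44_w x y i ^ 2 ≤ K * ρ1 ^ 2 := mul_le_mul_of_nonneg_left h1 hKpos.le
      linarith [hall i hi1 hi2]
    obtain ⟨s1, s2, s3⟩ := hF.step j hj hdom
    have hjj : (1 : ℝ) ≤ (j : ℝ) := by exact_mod_cast hJ.trans hj
    exact p44_slave_step C θ K Λ ρ1 (x j) (y j) (q j) (x (j + 1)) (y (j + 1)) (q (j + 1)) (j : ℝ)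
      (p44_w x y j) (p44_w x y (j + 1)) hC hθ hK1 hKC hΛ hρ11 hρΛ hjj rfl rfl (hF.q_nonneg j)
      (hall j hj le_rfl) (hw j hj hjM) hθ0 s1 s2 s3
  have hall : ∀ j, J ≤ j → j ≤ M + 1 → ∀ i, J ≤ i → i ≤ j → q i ≤ K * p44_w x y i ^ 2 := by
    intro j hj
    induction j, hj using Nat.le_induction with
    | base =>
      intro _ i hi1 hi2
      have : i = J := le_antisymm hi2 hi1
      rw [this]
      exact hqJ.trans (mul_le_mul_of_nonneg_right hK0 (sq_nonneg _))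
    | succ j hj ih =>
      intro hjM i hi1 hi2
      have hprev := ih (by omega)
      rcases Nat.lt_or_ge i (j + 1) with hlt | hge
      · exact hprev i hi1 (by omega)
      · have : i = j + 1 := le_antisymm hi2 hge
        rw [this]
        exact (hstep j hj (by omega) hprev).2
  refine ⟨fun j hj hjM => hall j hj hjM j hj le_rfl, fun j hj hjM => ?_⟩
  exact (hstep j hj hjM (hall j hj (by omega))).1

theorem p44_slave_r (C θ K K0 ρ3 : ℝ) (hC : 1 ≤ C) (hθ0 : 0 < θ) (hθ : θ < 1) (hK : 0 ≤ K) (hρ3 : 0 < ρ3) :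
    ∃ K' ρ2 : ℝ, 1 ≤ K' ∧ 0 < ρ2 ∧
    ∀ (J M : ℕ) (w q r : ℕ → ℝ), (∀ j, 0 ≤ r j) →
      (∀ j, J ≤ j → j ≤ M → 0 ≤ w j ∧ w j ≤ ρ2 ∧ 0 ≤ q j ∧ q j ≤ K * w j ^ 2) →
      (∀ j, J ≤ j → j < M → (1 + θ) / 2 * w j ^ 2 ≤ w (j + 1) ^ 2) →
      r J ≤ K0 * w J ^ 2 →
      (∀ j, J ≤ j → j < M → w j + q j + r j ≤ ρ3 → r (j + 1) ≤ θ * r j + C * (w j + q j + r j) ^ 2) →
      ∀ j, J ≤ j → j ≤ M → r j ≤ K' * w j ^ 2 ∧ w j + q j + r j ≤ ρ3 := by
  have h1θ : 0 < 1 - θ := by linarith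
  obtain ⟨K', hKdef⟩ : ∃ K', K' = max 1 (max K0 (8 * C / (1 - θ))) := ⟨_, rfl⟩
  have hK1 : 1 ≤ K' := by rw [hKdef]; exact le_max_left _ _
  have hK0 : K0 ≤ K' := by rw [hKdef]; exact (le_max_left _ _).trans (le_max_right _ _)
  have hKC : 4 * C ≤ K' * (1 - θ) / 2 := by
    have : 8 * C / (1 - θ) ≤ K' := by rw [hKdef]; exact (le_max_right _ _).trans (le_max_right _ _)
    rw [div_le_iff₀ h1θ] at this
    linarith
  have hKK : 0 < K + K' := by linarith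
  refine ⟨K', min (1 / (K + K')) (ρ3 / 2), hK1, lt_min (by positivity) (by positivity), ?_⟩
  intro J M w q r hr hwq hratio hrJ hstep
  -- the sum bound from the slaving
  have hsum : ∀ j, J ≤ j → j ≤ M → r j ≤ K' * w j ^ 2 → w j + q j + r j ≤ 2 * w j ∧ w j + q j + r j ≤ ρ3 := by
    intro j hj hjM hrj
    obtain ⟨h0, h1, h2, h3⟩ := hwq j hj hjM
    have ha : w j ≤ 1 / (K + K') := h1.trans (min_le_left _ _)
    have hb : w j ≤ ρ3 / 2 := h1.trans (min_le_right _ _)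
    rw [le_div_iff₀ hKK] at ha
    have hc : (K + K') * w j ^ 2 ≤ w j := by
      have : (K + K') * w j ^ 2 = (w j * (K + K')) * w j := by ring
      rw [this]
      exact mul_le_of_le_one_left h0 ha
    have hd : w j + q j + r j ≤ 2 * w j := by nlinarith
    exact ⟨hd, by linarith⟩
  have hmain : ∀ j, J ≤ j → j ≤ M → r j ≤ K' * w j ^ 2 := by
    intro j hj
    induction j, hj using Nat.le_induction with
    | base =>
      intro _
      exact hrJ.trans (mul_le_mul_of_nonneg_right hK0 (sq_nonneg _))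
    | succ j hj ih =>
      intro hjM
      have hrj := ih (by omega)
      obtain ⟨hs1, hs2⟩ := hsum j hj (by omega) hrj
      obtain ⟨h0, h1, h2, h3⟩ := hwq j hj (by omega)
      have hst := hstep j hj (by omega) hs2
      have hs0 : 0 ≤ w j + q j + r j := by linarith [hr j]
      have hsq : (w j + q j + r j) ^ 2 ≤ (2 * w j) ^ 2 := pow_le_pow_left₀ hs0 hs1 2
      calc r (j + 1) ≤ θ * r j + C * (w j + q j + r j) ^ 2 := hst
        _ ≤ θ * (K' * w j ^ 2) + C * (2 * w j) ^ 2 := by gcongr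
        _ = (θ * K' + 4 * C) * w j ^ 2 := by ring
        _ ≤ (θ * K' + K' * (1 - θ) / 2) * w j ^ 2 := by gcongr
        _ = K' * ((1 + θ) / 2 * w j ^ 2) := by ring
        _ ≤ K' * w (j + 1) ^ 2 := mul_le_mul_of_nonneg_left (hratio j hj (by omega)) (by linarith)
  intro j hj hjM
  exact ⟨hmain j hj hjM, (hsum j hj hjM (hmain j hj hjM)).2⟩

end Claimed.Agent.R285.E4
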