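import Claimed.Agent.R285.E4.P44Time
import Claimed.Agent.R285.E4.P44Slave
import Claimed.Agent.R285.E4.P44Early
import Claimed.Agent.R285.E4.P44Match

/-!
# ROW 285, cut of [E] P4.4, LEAF P44-MASTER (PROVED, helper14): assembly of the pure part (paper-free glue of `p44_early, p44_match, p44_slave_q, p44_pass_inv, p44_pass_time, p44_pass_before`)

Order of the constants: `C'` := max of `C` and the constant of `p44_early C ((1+θ)/2) P`;  `Cm, τm` := `p44_match C' P`;  `K0 := 4 (C + 1)`;  `K, ρ1` := `p44_slave_q C θ ρ K0`;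
`C2 := C (1 + K + K²)`;  `c0` := min of the three `c0` of `p44_pass_*  C2`;  `d0 := min c0 (ρ1/3)` (and `≤ 1`).  `κ := √(3 P ε)`, `κ² = 3 P ε`.
For a given `τ` the passage lemmas are used with `τ' := Cτ τ`, `Cτ := max (Cm/(3P)) (max (8/(3 P log 2)) (max 1 (2 √(3P)) ...))`.
1. `p44_early`: on `[J, K1]`: `|a_j + ε j P| ≤ C' τ ε j`, ..., `dq_j ≤ C' ε`.
2. `p44_match` at every `j ∈ [J, K1]` (`ε j² ≤ ε K1² ≤ τ²`, `log (2+j) ≤ τ j` from `logJ`): `x_j, y_j ∈ [1/(2j), 2/j]`; so no exit on `[J, K1]`, `w_j ≤ 2/j ≤ 2/J ≤ τ` (`logJ` at `J`: `2 ≤ τ J`),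
   `q_j ≤ C/j² + C' ε ≤ (C + 1)/j² ≤ K0 w_j²` (`C' ε j² ≤ C' τ² ≤ 1`).  At `K1`: `|y² - x² - κ²| ≤ Cm τ ε = (Cm/(3P)) τ κ²`.
3. `p44_Pass C2 κ τ' d K1 x y`: `x_cube`: `x³ ≤ 8/K1³` and `ε K1³ ≥ log (2+K1)/τ ≥ log 2/τ`;  `κ_le`, `κ_j1`: `(κ K1)² = 3 P ε K1² ≤ 3 P τ²`;
   `step`: if `w_i ≤ 3 d ≤ ρ1` on `[K1, j]` then (with 2.) `w_i ≤ ρ1` on `[J, j]`, `p44_slave_q` gives `q_i ≤ K w_i² < ρ`; `p44_Flow.step`;
   `e_j ≤ w²/j² + (1 + K + K²) w³` (`w ≤ 1`) and `1/j² ≤ 1/K1² ≤ κ` since `κ² K1⁴ = 3 P ε K1³ K1 ≥ 3 P log 2/τ ≥ 1`.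
4. `p44_NoExit d J x j ↔ p44_NoExit d K1 x j` for `j ≥ K1` by 2.;  `p44_exit_spec` identifies `p44_exit d J x` with the `je` of `p44_pass_time`.
5. tame part for `j ≥ K1`: `p44_pass_inv` (`w_i ≤ 3 d` for all `i ≤ j`), then `p44_slave_q` with `M = j`.
-/

set_option autoImplicit false

namespace Claimed.Agent.R285.E4

/-- what the early regime delivers to the passage regime -/
structure p44_Mid (K ρ1 C2 θ κ τ τ' d : ℝ) (J K1 : ℕ) (x y q : ℕ → ℝ) : Prop where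
  early : ∀ j : ℕ, J ≤ j → j ≤ K1 → 0 < x j ∧ p44_w x y j ≤ τ ∧ 1 / (2 * (j : ℝ)) ≤ p44_w x y j
  pass : p44_Pass C2 κ τ' d K1 x y
  slave : ∀ M : ℕ, (∀ j, J ≤ j → j ≤ M → p44_w x y j ≤ ρ1) →
    (∀ j, J ≤ j → j ≤ M + 1 → q j ≤ K * p44_w x y j ^ 2) ∧
    (∀ j, J ≤ j → j ≤ M → (1 + θ) / 2 * p44_w x y j ^ 2 ≤ p44_w x y (j + 1) ^ 2)

/-- bound of the scalar error in the passage regime -/
theorem p44_master_err (K κ w q jj : ℝ) (hK : 1 ≤ K) (hw0 : 0 ≤ w) (hw1 : w ≤ 1) (hq0 : 0 ≤ q) (hq : q ≤ K * w ^ 2)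
    (hκ : 0 ≤ κ) (hjj : 1 / jj ^ 2 ≤ κ) :
    w ^ 2 / jj ^ 2 + w ^ 3 + (w + q) * q ≤ (1 + K + K ^ 2) * (κ * w ^ 2 + w ^ 3) := by
  have hw2 : 0 ≤ w ^ 2 := sq_nonneg w
  have hw3 : 0 ≤ w ^ 3 := by positivity
  have h1 : w ^ 2 / jj ^ 2 ≤ κ * w ^ 2 := by
    calc w ^ 2 / jj ^ 2 = 1 / jj ^ 2 * w ^ 2 := by ring
      _ ≤ κ * w ^ 2 := mul_le_mul_of_nonneg_right hjj hw2
  have hqw : q ≤ K * w := by
    have : w ^ 2 ≤ w := by rw [sq]; exact mul_le_of_le_one_left hw0 hw1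
    exact hq.trans (mul_le_mul_of_nonneg_left this (by linarith))
  have h2 : (w + q) * q ≤ (K + K ^ 2) * w ^ 3 := by
    have h3 : w + q ≤ (1 + K) * w := by linarith
    calc (w + q) * q ≤ ((1 + K) * w) * (K * w ^ 2) := mul_le_mul h3 hq hq0 (by positivity)
      _ = (K + K ^ 2) * w ^ 3 := by ring
  have h4 : 0 ≤ (K + K ^ 2) * (κ * w ^ 2) := by positivity
  nlinarith

theorem p44_master_mid (C θ ρ P : ℝ) (hC : 1 ≤ C) (hθ0 : 0 < θ) (hθ : θ < 1) (hρ : 0 < ρ) (hP : 0 < P) :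
    ∃ K ρ1 C2 Cτ τa : ℝ, 1 ≤ K ∧ 0 < ρ1 ∧ 1 ≤ C2 ∧ 1 ≤ Cτ ∧ 0 < τa ∧
    ∀ (d ε τ : ℝ) (J K1 : ℕ) (x y q xc yc dq : ℕ → ℝ), 0 < d → 3 * d ≤ ρ1 → d ≤ 1 / 3 → 0 < ε → 0 < τ → τ ≤ τa → τ ≤ d →
      p44_Sys C θ ρ P ε τ J K1 x y q xc yc dq →
      p44_Mid K ρ1 C2 θ (Real.sqrt (3 * P * ε)) τ (Cτ * τ) d J K1 x y q := by
  have hθ1a : 0 < (1 + θ) / 2 := by linarith
  have hθ1b : (1 + θ) / 2 < 1 := by linarith
  obtain ⟨Ce, τe, hCe1, hτe, He⟩ := p44_early C ((1 + θ) / 2) P hC hθ1a hθ1b hP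
  obtain ⟨Cm0, hCm0⟩ : ∃ Cm0, Cm0 = max C Ce := ⟨_, rfl⟩
  have hCm0C : C ≤ Cm0 := by rw [hCm0]; exact le_max_left _ _
  have hCm0e : Ce ≤ Cm0 := by rw [hCm0]; exact le_max_right _ _
  obtain ⟨Cm, τm, hCm1, hτm, Hm⟩ := p44_match Cm0 P (hC.trans hCm0C) hP
  obtain ⟨K, ρ1, hK1, hK0K, hρ1, hρ1ρ, hKρ, Hs⟩ := p44_slave_q C θ ρ (4 * (C + 1)) hC hθ0 hθ hρ
  have hlog2 : 0 < Real.log 2 := Real.log_pos (by norm_num)
  have h3P : 0 < 3 * P := by positivity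
  have hs3P : 0 < Real.sqrt (3 * P) := Real.sqrt_pos.2 h3P
  obtain ⟨Cτ, hCτ⟩ : ∃ Cτ, Cτ = 1 + Cm / (3 * P) + 8 / (3 * P * Real.log 2) + 2 * Real.sqrt (3 * P) := ⟨_, rfl⟩
  have c1 : 1 ≤ Cτ := by
    rw [hCτ]
    have : 0 ≤ Cm / (3 * P) + 8 / (3 * P * Real.log 2) + 2 * Real.sqrt (3 * P) := by positivity
    linarith
  have c2 : Cm / (3 * P) ≤ Cτ := by
    rw [hCτ]
    have : 0 ≤ 8 / (3 * P * Real.log 2) + 2 * Real.sqrt (3 * P) := by positivity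
    linarith
  have c3 : 8 / (3 * P * Real.log 2) ≤ Cτ := by
    rw [hCτ]
    have : 0 ≤ Cm / (3 * P) + 2 * Real.sqrt (3 * P) := by positivity
    linarith
  have c4 : 2 * Real.sqrt (3 * P) ≤ Cτ := by
    rw [hCτ]
    have : 0 ≤ Cm / (3 * P) + 8 / (3 * P * Real.log 2) := by positivity
    linarith
  refine ⟨K, ρ1, C * (1 + K + K ^ 2), Cτ, min (min τe τm) (min (min 1 (1 / Ce)) (3 * P * Real.log 2)), hK1, hρ1, ?_, c1,
    lt_min (lt_min hτe hτm) (lt_min (lt_min one_pos (by positivity)) (by positivity)), ?_⟩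
  · nlinarith
  intro d ε τ J K1 x y q xc yc dq hd hdρ hd1 hε hτ hτa hτd hS
  have t1 : τ ≤ τe := hτa.trans ((min_le_left _ _).trans (min_le_left _ _))
  have t2 : τ ≤ τm := hτa.trans ((min_le_left _ _).trans (min_le_right _ _))
  have t3 : τ ≤ 1 := hτa.trans ((min_le_right _ _).trans ((min_le_left _ _).trans (min_le_left _ _)))
  have t4 : τ ≤ 1 / Ce := hτa.trans ((min_le_right _ _).trans ((min_le_left _ _).trans (min_le_right _ _)))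
  have t5 : τ ≤ 3 * P * Real.log 2 := hτa.trans ((min_le_right _ _).trans (min_le_right _ _))
  have hJ := hS.J_pos
  have hE := hS.early
  have hCe0 : 0 < Ce := by linarith
  have hCeτ : Ce * τ ^ 2 ≤ 1 := by
    rw [le_div_iff₀ hCe0] at t4
    have : τ ^ 2 ≤ τ := by rw [sq]; exact mul_le_of_le_one_left hτ.le t3
    nlinarith
  have hεj : ∀ j : ℕ, j ≤ K1 → ε * (j : ℝ) ^ 2 ≤ τ ^ 2 := by
    intro j hj
    have : (j : ℝ) ≤ K1 := by exact_mod_cast hj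
    calc ε * (j : ℝ) ^ 2 ≤ ε * (K1 : ℝ) ^ 2 := by gcongr
      _ ≤ τ ^ 2 := hE.epsK
  have hearly := He ε τ J K1 xc yc _ _ dq hε hτ t1 hJ hE
  -- matching at every index of the early regime
  have hmatch : ∀ j : ℕ, J ≤ j → j ≤ K1 →
      (1 / (2 * (j : ℝ)) ≤ x j ∧ x j ≤ 2 / (j : ℝ) ∧ 1 / (2 * (j : ℝ)) ≤ y j ∧ y j ≤ 2 / (j : ℝ)) ∧
      (Real.log (2 + j) ≤ τ * ε * (j : ℝ) ^ 3 → |y j ^ 2 - x j ^ 2 - 3 * P * ε| ≤ Cm * τ * ε) := by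
    intro j hj hjK
    obtain ⟨e1, e2, -⟩ := hearly j hj hjK
    have hj1 : 1 ≤ j := hJ.trans hj
    have hj0 : (0 : ℝ) < (j : ℝ) := by exact_mod_cast hj1
    have hL0 : 0 ≤ Real.log (2 + (j : ℝ)) := Real.log_nonneg (by linarith)
    have hmono : C * Real.log (2 + j) / (j : ℝ) ^ 2 ≤ Cm0 * Real.log (2 + j) / (j : ℝ) ^ 2 := by gcongr
    have hmono2 : Ce * τ * ε * j ≤ Cm0 * τ * ε * j := by gcongr
    have hlog : Real.log (2 + j) ≤ τ * j := by have := hE.logJ j hj; linarith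
    have := Hm ε τ j (xc j) (yc j) (x j - xc j) (y j - yc j) hε hτ t2 hj1 ((hE.crit_x j hj hjK).trans hmono)
      ((hE.crit_y j hj hjK).trans hmono) (e1.trans hmono2) (e2.trans hmono2) hlog (hεj j hjK)
    simpa using this
  have hJr : (0 : ℝ) < (J : ℝ) := by exact_mod_cast hJ
  have h2J : 2 / (J : ℝ) ≤ τ := by
    rw [div_le_iff₀ hJr]
    have h1 := hE.logJ J le_rfl
    have h2 : 0 ≤ Real.log (2 + (J : ℝ)) := Real.log_nonneg (by linarith)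
    linarith
  have hsize : ∀ j : ℕ, J ≤ j → j ≤ K1 →
      0 < x j ∧ 0 < y j ∧ p44_w x y j ≤ 2 / (j : ℝ) ∧ p44_w x y j ≤ τ ∧ 1 / (2 * (j : ℝ)) ≤ p44_w x y j := by
    intro j hj hjK
    obtain ⟨⟨x1, x2, y1, y2⟩, -⟩ := hmatch j hj hjK
    have hj0 : (0 : ℝ) < (j : ℝ) := by exact_mod_cast (hJ.trans hj)
    have hpos : 0 < 1 / (2 * (j : ℝ)) := by positivity
    have hx0 : 0 < x j := by linarith
    have hy0 : 0 < y j := by linarith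
    have hw2 : p44_w x y j ≤ 2 / (j : ℝ) := by
      unfold p44_w
      rw [abs_of_pos hx0, abs_of_pos hy0]
      exact max_le x2 y2
    have hjJ : 2 / (j : ℝ) ≤ 2 / (J : ℝ) := by
      have : (J : ℝ) ≤ j := by exact_mod_cast hj
      gcongr
    refine ⟨hx0, hy0, hw2, by linarith, ?_⟩
    unfold p44_w
    rw [abs_of_pos hx0]
    exact x1.trans (le_max_left _ _)
  have hwn : ∀ j, 0 ≤ p44_w x y j := fun j => le_max_of_le_left (abs_nonneg _)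
  -- the remainder at `J`
  have hqJ : q J ≤ 4 * (C + 1) * p44_w x y J ^ 2 := by
    obtain ⟨-, -, -, -, hlow⟩ := hsize J le_rfl hS.JK
    obtain ⟨-, -, e3⟩ := hearly J le_rfl hS.JK
    have h1 := hS.q_le J le_rfl hS.JK
    have h2 : Ce * ε ≤ 1 / (J : ℝ) ^ 2 := by
      rw [le_div_iff₀ (by positivity)]
      calc Ce * ε * (J : ℝ) ^ 2 = Ce * (ε * (J : ℝ) ^ 2) := by ring
        _ ≤ Ce * τ ^ 2 := by have := hεj J hS.JK; gcongr
        _ ≤ 1 := hCeτ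
    have h3 : (1 / (2 * (J : ℝ))) ^ 2 ≤ p44_w x y J ^ 2 := pow_le_pow_left₀ (by positivity) hlow 2
    calc q J ≤ C / (J : ℝ) ^ 2 + 1 / (J : ℝ) ^ 2 := by linarith
      _ = 4 * (C + 1) * (1 / (2 * (J : ℝ))) ^ 2 := by field_simp; ring
      _ ≤ 4 * (C + 1) * p44_w x y J ^ 2 := by gcongr
  have hslave := fun M => Hs J M x y q hJ hS.flow hqJ
  -- the scale `κ`
  obtain ⟨κ, hκdef⟩ : ∃ κ, κ = Real.sqrt (3 * P * ε) := ⟨_, rfl⟩
  rw [← hκdef]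
  have h3Pε : 0 < 3 * P * ε := by positivity
  have hκ : 0 < κ := by rw [hκdef]; exact Real.sqrt_pos.2 h3Pε
  have hκ2 : κ ^ 2 = 3 * P * ε := by rw [hκdef]; exact Real.sq_sqrt h3Pε.le
  have hK1pos : 1 ≤ K1 := hJ.trans hS.JK
  have hK1r : (1 : ℝ) ≤ (K1 : ℝ) := by exact_mod_cast hK1pos
  have hK10 : (0 : ℝ) < (K1 : ℝ) := by linarith
  have hlogK : Real.log 2 ≤ τ * ε * (K1 : ℝ) ^ 3 := by
    refine le_trans ?_ hS.logK
    exact Real.log_le_log (by norm_num) (by linarith)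
  -- `κ K1 ≤ √(3P) τ`
  have hκK : κ * K1 ≤ Real.sqrt (3 * P) * τ := by
    have h1 : (κ * K1) ^ 2 ≤ (Real.sqrt (3 * P) * τ) ^ 2 := by
      rw [mul_pow, mul_pow, hκ2, Real.sq_sqrt h3P.le]
      calc 3 * P * ε * (K1 : ℝ) ^ 2 = 3 * P * (ε * (K1 : ℝ) ^ 2) := by ring
        _ ≤ 3 * P * τ ^ 2 := by have := hE.epsK; gcongr
    exact (pow_le_pow_iff_left₀ (by positivity) (by positivity) (by norm_num)).1 h1
  -- `1 ≤ κ K1²`
  have hκK2 : 1 / (K1 : ℝ) ^ 2 ≤ κ := by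
    rw [div_le_iff₀ (by positivity)]
    have h1 : (1 : ℝ) ^ 2 ≤ (κ * (K1 : ℝ) ^ 2) ^ 2 := by
      rw [mul_pow, hκ2, one_pow]
      have h2 : Real.log 2 ≤ τ * (ε * (K1 : ℝ) ^ 3) := by linarith
      have h3 : τ * (ε * (K1 : ℝ) ^ 3) ≤ 3 * P * Real.log 2 * (ε * (K1 : ℝ) ^ 3) := by gcongr
      have h4 : 1 ≤ 3 * P * (ε * (K1 : ℝ) ^ 3) := by
        by_contra hcon
        have hcon' : 3 * P * (ε * (K1 : ℝ) ^ 3) < 1 := not_le.mp hcon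
        have : 3 * P * Real.log 2 * (ε * (K1 : ℝ) ^ 3) < Real.log 2 := by
          calc 3 * P * Real.log 2 * (ε * (K1 : ℝ) ^ 3) = (3 * P * (ε * (K1 : ℝ) ^ 3)) * Real.log 2 := by ring
            _ < 1 * Real.log 2 := mul_lt_mul_of_pos_right hcon' hlog2
            _ = Real.log 2 := one_mul _
        linarith
      calc (1 : ℝ) ≤ 3 * P * (ε * (K1 : ℝ) ^ 3) := h4
        _ ≤ 3 * P * (ε * (K1 : ℝ) ^ 3) * K1 := le_mul_of_one_le_right (by positivity) hK1r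
        _ = 3 * P * ε * ((K1 : ℝ) ^ 2) ^ 2 := by ring
    exact (pow_le_pow_iff_left₀ (by norm_num) (by positivity) (by norm_num)).1 h1
  obtain ⟨hxK, hyK, hwK2, hwKτ, hwKlow⟩ := hsize K1 hS.JK le_rfl
  obtain ⟨⟨x1, x2, y1, y2⟩, hinv⟩ := hmatch K1 hS.JK le_rfl
  have hττ' : τ ≤ Cτ * τ := le_mul_of_one_le_left hτ.le c1
  have hxKτ : x K1 ≤ τ := by
    have : x K1 ≤ p44_w x y K1 := (le_abs_self _).trans (le_max_left _ _)
    linarith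
  refine ⟨fun j hj hjK => ?_, ?_, hslave⟩
  · obtain ⟨h1, -, -, h4, h5⟩ := hsize j hj hjK
    exact ⟨h1, h4, h5⟩
  refine ⟨hκ, hxK, hxKτ.trans hττ', hxKτ.trans hτd, ?_, ?_, ?_, hyK, ?_, ?_⟩
  · -- x_cube
    have h1 : x K1 ^ 3 ≤ (2 / (K1 : ℝ)) ^ 3 := pow_le_pow_left₀ hxK.le x2 3
    have h2 : (2 / (K1 : ℝ)) ^ 3 ≤ 8 / Real.log 2 * (τ * ε) := by
      have e : (2 / (K1 : ℝ)) ^ 3 = 8 / (K1 : ℝ) ^ 3 := by field_simp; norm_num
      rw [e, div_le_iff₀ (by positivity)]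
      calc (8 : ℝ) = 8 / Real.log 2 * Real.log 2 := by field_simp
        _ ≤ 8 / Real.log 2 * (τ * ε * (K1 : ℝ) ^ 3) := by gcongr
        _ = 8 / Real.log 2 * (τ * ε) * (K1 : ℝ) ^ 3 := by ring
    have h3 : 8 / Real.log 2 * (τ * ε) = 8 / (3 * P * Real.log 2) * τ * κ ^ 2 := by
      rw [hκ2]; field_simp
    calc x K1 ^ 3 ≤ 8 / (3 * P * Real.log 2) * τ * κ ^ 2 := by linarith
      _ ≤ Cτ * τ * κ ^ 2 := by gcongr
  · -- κ_le
    have h1 : κ ≤ Cτ * τ * (1 / (2 * (K1 : ℝ))) := by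
      have e : Cτ * τ * (1 / (2 * (K1 : ℝ))) = Cτ * τ / (2 * (K1 : ℝ)) := by ring
      rw [e, le_div_iff₀ (by positivity)]
      calc κ * (2 * (K1 : ℝ)) = 2 * (κ * K1) := by ring
        _ ≤ 2 * (Real.sqrt (3 * P) * τ) := by gcongr
        _ = 2 * Real.sqrt (3 * P) * τ := by ring
        _ ≤ Cτ * τ := by gcongr
    exact h1.trans (mul_le_mul_of_nonneg_left x1 (by positivity))
  · -- κ_j1
    calc κ * K1 ≤ Real.sqrt (3 * P) * τ := hκK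
      _ ≤ (2 * Real.sqrt (3 * P)) * τ := by gcongr; linarith
      _ ≤ Cτ * τ := by gcongr
  · -- inv0
    rw [hκ2]
    refine (hinv hS.logK).trans ?_
    calc Cm * τ * ε = Cm / (3 * P) * τ * (3 * P * ε) := by field_simp
      _ ≤ Cτ * τ * (3 * P * ε) := by gcongr
  · -- step
    intro j hj hw3
    have hwρ : ∀ i, J ≤ i → i ≤ j → p44_w x y i ≤ ρ1 := by
      intro i hi1 hi2
      rcases Nat.lt_or_ge i K1 with hlt | hge
      · obtain ⟨-, -, -, h4, -⟩ := hsize i hi1 hlt.le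
        linarith
      · exact (hw3 i hge hi2).trans hdρ
    obtain ⟨hq, -⟩ := hslave j hwρ
    have hdom : ∀ i, J ≤ i → i ≤ j → |x i| < ρ ∧ |y i| < ρ ∧ q i < ρ := by
      intro i hi1 hi2
      have hwi := hwρ i hi1 hi2
      refine ⟨lt_of_le_of_lt ((le_max_left _ _).trans hwi) hρ1ρ,
        lt_of_le_of_lt ((le_max_right _ _).trans hwi) hρ1ρ, ?_⟩
      have h1 : p44_w x y i ^ 2 ≤ ρ1 ^ 2 := pow_le_pow_left₀ (hwn i) hwi 2
      have h2 : K * p44_w x y i ^ 2 ≤ K * ρ1 ^ 2 := mul_le_mul_of_nonneg_left h1 (by linarith)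
      linarith [hq i hi1 (by omega)]
    have hJj : J ≤ j := hS.JK.trans hj
    obtain ⟨s1, s2, -⟩ := hS.flow.step j hJj hdom
    have hw1 : p44_w x y j ≤ 1 := by
      have := hw3 j hj le_rfl
      linarith
    have hjj : 1 / (j : ℝ) ^ 2 ≤ κ := by
      refine le_trans ?_ hκK2
      have : (K1 : ℝ) ≤ j := by exact_mod_cast hj
      gcongr
    have herr := p44_master_err K κ (p44_w x y j) (q j) (j : ℝ) hK1 (hwn j) hw1 (hS.flow.q_nonneg j)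
      (hq j hJj (by omega)) hκ.le hjj
    have herr2 : C * p44_e x y q j ≤ C * (1 + K + K ^ 2) * (κ * p44_w x y j ^ 2 + p44_w x y j ^ 3) := by
      unfold p44_e
      calc _ ≤ C * ((1 + K + K ^ 2) * (κ * p44_w x y j ^ 2 + p44_w x y j ^ 3)) := by gcongr
        _ = _ := by ring
    exact ⟨s1.trans herr2, s2.trans herr2⟩

/-- no exit in the early regime: the two notions of "no exit" agree -/
theorem p44_Mid.noExit_iff {K ρ1 C2 θ κ τ τ' d : ℝ} {J K1 : ℕ} {x y q : ℕ → ℝ}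
    (h : p44_Mid K ρ1 C2 θ κ τ τ' d J K1 x y q) (hd : 0 < d) (j : ℕ) :
    p44_NoExit d K1 x j → p44_NoExit d J x j := by
  intro hne i hi1 hi2
  rcases Nat.lt_or_ge i K1 with hlt | hge
  · have := (h.early i hi1 hlt.le).1
    linarith
  · exact hne i hge hi2

theorem p44_master (C θ ρ P : ℝ) (hC : 1 ≤ C) (hθ0 : 0 < θ) (hθ : θ < 1) (hρ : 0 < ρ) (hP : 0 < P) :
    ∃ d0 K : ℝ, 0 < d0 ∧ 1 ≤ K ∧ ∀ d : ℝ, 0 < d → d ≤ d0 →
      (∃ τ1 : ℝ, 0 < τ1 ∧ ∀ (ε τ : ℝ) (J K1 : ℕ) (x y q xc yc dq : ℕ → ℝ), 0 < ε → 0 < τ → τ ≤ τ1 →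
        p44_Sys C θ ρ P ε τ J K1 x y q xc yc dq →
          1 / (2 * (J : ℝ)) ≤ p44_w x y J ∧
          ∀ j, J ≤ j → p44_NoExit d J x j →
            p44_w x y j ≤ 3 * d ∧ -(2 * d) ≤ x j ∧ q j ≤ K * p44_w x y j ^ 2 ∧
            (1 + θ) / 2 * p44_w x y j ^ 2 ≤ p44_w x y (j + 1) ^ 2) ∧
      (∀ ζ : ℝ, 0 < ζ → ∃ τ1 : ℝ, 0 < τ1 ∧ ∀ (ε τ : ℝ) (J K1 : ℕ) (x y q xc yc dq : ℕ → ℝ), 0 < ε → 0 < τ → τ ≤ τ1 →
        p44_Sys C θ ρ P ε τ J K1 x y q xc yc dq →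
          (∃ j, J ≤ j ∧ x j ≤ -d) ∧ |Real.sqrt (3 * P * ε) * (p44_exit d J x : ℝ) - Real.pi| ≤ ζ) ∧
      (∀ ζ : ℝ, 0 < ζ → ∀ ϖ : ℝ, 0 < ϖ →
        ∃ τ1 : ℝ, 0 < τ1 ∧ ∀ (ε τ : ℝ) (J K1 : ℕ) (x y q xc yc dq : ℕ → ℝ), 0 < ε → 0 < τ → τ ≤ τ1 →
        p44_Sys C θ ρ P ε τ J K1 x y q xc yc dq →
          ∀ j : ℕ, K1 ≤ j → Real.sqrt (3 * P * ε) * j ≤ Real.pi - ζ → p44_NoExit d J x (j + 1) ∧ p44_w x y j ≤ ϖ) := by
  obtain ⟨K, ρ1, C2, Cτ, τa, hK1, hρ1, hC2, hCτ, hτa, Hmid⟩ := p44_master_mid C θ ρ P hC hθ0 hθ hρ hP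
  obtain ⟨ci, C3, hci, -, -, Hinv⟩ := p44_pass_inv C2 hC2
  obtain ⟨ct, hct, Htime⟩ := p44_pass_time C2 hC2
  obtain ⟨cb, hcb, Hbef⟩ := p44_pass_before C2 hC2
  have hCτ0 : 0 < Cτ := by linarith
  refine ⟨min (min ci ct) (min cb (min (ρ1 / 3) (1 / 3))),
    K, lt_min (lt_min hci hct) (lt_min hcb (lt_min (by positivity) (by norm_num))), hK1, ?_⟩
  intro d hd hd0
  have d1 : d ≤ ci := hd0.trans ((min_le_left _ _).trans (min_le_left _ _))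
  have d2 : d ≤ ct := hd0.trans ((min_le_left _ _).trans (min_le_right _ _))
  have d3 : d ≤ cb := hd0.trans ((min_le_right _ _).trans (min_le_left _ _))
  have d4 : d ≤ ρ1 / 3 := hd0.trans ((min_le_right _ _).trans ((min_le_right _ _).trans (min_le_left _ _)))
  have d5 : d ≤ 1 / 3 := hd0.trans ((min_le_right _ _).trans ((min_le_right _ _).trans (min_le_right _ _)))
  have d4' : 3 * d ≤ ρ1 := by linarith
  refine ⟨?_, ?_, ?_⟩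
  · -- tame
    refine ⟨min (min τa d) (ci / Cτ), lt_min (lt_min hτa hd) (by positivity), ?_⟩
    intro ε τ J K1 x y q xc yc dq hε hτ hτ1 hS
    have t1 : τ ≤ τa := hτ1.trans ((min_le_left _ _).trans (min_le_left _ _))
    have t2 : τ ≤ d := hτ1.trans ((min_le_left _ _).trans (min_le_right _ _))
    have t3 : Cτ * τ ≤ ci := by
      have := hτ1.trans (min_le_right _ _)
      rw [le_div_iff₀ hCτ0] at this
      linarith
    have hM := Hmid d ε τ J K1 x y q xc yc dq hd d4' d5 hε hτ t1 t2 hS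
    refine ⟨(hM.early J le_rfl hS.JK).2.2, ?_⟩
    intro j hj hne
    -- all earlier sizes
    have hw3 : ∀ i, J ≤ i → i ≤ j → p44_w x y i ≤ 3 * d ∧ -(2 * d) ≤ x i := by
      intro i hi1 hi2
      rcases Nat.lt_or_ge i K1 with hlt | hge
      · obtain ⟨h1, h2, -⟩ := hM.early i hi1 hlt.le
        exact ⟨by linarith, by linarith⟩
      · have hne' : p44_NoExit d K1 x i := fun k hk1 hk2 => hne k (hS.JK.trans hk1) (by omega)
        obtain ⟨-, h2, -, h4, -⟩ := Hinv _ (Cτ * τ) d K1 x y (by positivity) t3 hd d1 hM.pass i hge hne'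
        exact ⟨h4, h2⟩
    obtain ⟨hq, hr⟩ := hM.slave j (fun i hi1 hi2 => (hw3 i hi1 hi2).1.trans d4')
    exact ⟨(hw3 j hj le_rfl).1, (hw3 j hj le_rfl).2, hq j hj (by omega), hr j hj le_rfl⟩
  · -- time
    intro ζ hζ
    obtain ⟨τt, hτt, Ht⟩ := Htime d hd d2 ζ hζ
    refine ⟨min (min τa d) (τt / Cτ), lt_min (lt_min hτa hd) (by positivity), ?_⟩
    intro ε τ J K1 x y q xc yc dq hε hτ hτ1 hS
    have t1 : τ ≤ τa := hτ1.trans ((min_le_left _ _).trans (min_le_left _ _))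
    have t2 : τ ≤ d := hτ1.trans ((min_le_left _ _).trans (min_le_right _ _))
    have t3 : Cτ * τ ≤ τt := by
      have := hτ1.trans (min_le_right _ _)
      rw [le_div_iff₀ hCτ0] at this
      linarith
    have hM := Hmid d ε τ J K1 x y q xc yc dq hd d4' d5 hε hτ t1 t2 hS
    obtain ⟨⟨j, hj1, hj2⟩, Hje⟩ := Ht _ (Cτ * τ) K1 x y (by positivity) t3 hM.pass
    have hex : ∃ j, J ≤ j ∧ x j ≤ -d := ⟨j, hS.JK.trans hj1, hj2⟩
    refine ⟨hex, ?_⟩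
    obtain ⟨e1, e2, e3⟩ := p44_exit_spec hex
    have hK1e : K1 ≤ p44_exit d J x := by
      by_contra hcon
      have hlt : p44_exit d J x < K1 := not_le.mp hcon
      have := (hM.early _ e1 hlt.le).1
      linarith
    exact Hje _ hK1e e2 (fun k hk1 hk2 => e3 k (hS.JK.trans hk1) hk2)
  · -- before
    intro ζ hζ ϖ hϖ
    obtain ⟨τb, hτb, Hb⟩ := Hbef d hd d3 ζ hζ ϖ hϖ
    refine ⟨min (min τa d) (τb / Cτ), lt_min (lt_min hτa hd) (by positivity), ?_⟩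
    intro ε τ J K1 x y q xc yc dq hε hτ hτ1 hS
    have t1 : τ ≤ τa := hτ1.trans ((min_le_left _ _).trans (min_le_left _ _))
    have t2 : τ ≤ d := hτ1.trans ((min_le_left _ _).trans (min_le_right _ _))
    have t3 : Cτ * τ ≤ τb := by
      have := hτ1.trans (min_le_right _ _)
      rw [le_div_iff₀ hCτ0] at this
      linarith
    have hM := Hmid d ε τ J K1 x y q xc yc dq hd d4' d5 hε hτ t1 t2 hS
    intro j hj hκj
    obtain ⟨h1, h2⟩ := Hb _ (Cτ * τ) K1 x y (by positivity) t3 hM.pass j hj hκj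
    exact ⟨hM.noExit_iff hd _ h1, h2⟩

end Claimed.Agent.R285.E4
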