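import Claimed.Agent.R285.E4.Defs
import Claimed.Agent.R285.E4.P44Def

/-!
# ROW 285, cut of [E] P4.4, file MODEL: the real sequences of a history, and the hypothesis `p44_Start` at ONE fixed `ε`      (architect helper14)

The proof of `E4.passage_time` has three layers:
* (EV)   `p44_start_ev`  (`P44Ev.lean`):  for every tolerance `τ > 0`, eventually as `ε ↓ 0`, `p44_Start … ε τ K1` holds for some `K1`.  Filters, asymptotics of the scales, and the contracts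
         `late_critical`, `secant`, `secant_inside`, `Crit.conf`.
* (CORE) `p44_core`      (`P44Core.lean`): DETERMINISTIC: `p44_Start` with small `τ` implies the exit-time estimate and the two variance estimates.
         = `p44_sys_of_start` (Start ⇒ the pure hypothesis `p44_Sys`) + `p44_master` (pure) + torus slaving + read-out.
* (TOP)  `p44_passage_time` (`P44.lean`): filters again.
Index convention: the pure sequences are indexed by the ABSOLUTE index `j`; the stage of `j` is `j - j0`.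
-/

set_option autoImplicit false

namespace Claimed.Agent.R285.E4

open Filter Topology Claims.C0459
open Claimed.Agent.R285.Flow

noncomputable section

/-- `x_j(b)` (real part), absolute index -/
def p44_x (H : Hist) (b : ℝ) (j : ℕ) : ℝ := (H.x (b : ℂ) (j - H.j0)).re
/-- `y_j(b)` (real part), absolute index -/
def p44_y (H : Hist) (b : ℝ) (j : ℕ) : ℝ := (H.y (b : ℂ) (j - H.j0)).re
/-- `‖Q_j(b)‖` -/
def p44_q (H : Hist) (b : ℝ) (j : ℕ) : ℝ := H.q (b : ℂ) (j - H.j0)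
/-- `‖Q_j(b) - Q_j(b_c)‖` -/
def p44_dq (H : Hist) (b : ℝ) (j : ℕ) : ℝ :=
  ‖(H.st (b : ℂ) (j - H.j0)).2.2 - (H.st (xyCritical : ℂ) (j - H.j0)).2.2‖
/-- the torus remainder behind the stop `h` -/
def p44_r (H : Hist) (b : ℝ) (h j : ℕ) : ℝ := ‖H.tor (b : ℂ) h (j - H.j0)‖

/-- everything that is known about the history with side `s` at the parameter `b_c - ε`, at the matching index `J = JJ κ s`, with tolerance `τ`.
`Cl`: the constant of `late_critical` / `secant`;  `A / √ε`: the horizon of the stops;  `K1`: the end of the early regime. -/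
structure p44_Start (κ : MapC) (κe : EntC) (ρe : ℝ) (s : ℕ) (H : Hist) (P Cl A ε τ : ℝ) (K1 : ℕ) : Prop where
  sys : SysOK κ κe ρe s H
  hb : ((xyCritical - ε : ℝ) : ℂ) ∈ disk κe s
  hbc : (xyCritical : ℂ) ∈ disk κe s
  j0J : H.j0 ≤ JJ κ s
  J_pos : 1 ≤ JJ κ s
  JK : JJ κ s ≤ K1
  crit : ∀ i, JJ κ s ≤ H.j0 + i → H.j0 + i ≤ K1 → CritAt H Cl i
  critT : ∀ h : ℕ, JJ κ s ≤ h → (h : ℝ) ≤ A / Real.sqrt ε → CritTor H Cl h (JJ κ s - H.j0)
  crit_in : ∀ i, H.j0 + i ≤ K1 → ‖H.st xyCritical i‖ < κ.ρ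
  sec_x : ‖H.x ((xyCritical - ε : ℝ) : ℂ) (JJ κ s - H.j0) - H.x xyCritical (JJ κ s - H.j0) + ((ε * JJ κ s * P : ℝ) : ℂ)‖
    ≤ τ * ε * JJ κ s
  sec_y : ‖H.y ((xyCritical - ε : ℝ) : ℂ) (JJ κ s - H.j0) - H.y xyCritical (JJ κ s - H.j0) - ((ε * JJ κ s * P / 2 : ℝ) : ℂ)‖
    ≤ τ * ε * JJ κ s
  sec_q : ‖(H.st ((xyCritical - ε : ℝ) : ℂ) (JJ κ s - H.j0)).2.2 - (H.st xyCritical (JJ κ s - H.j0)).2.2‖ ≤ Cl * ε
  sec_t : ∀ h : ℕ, JJ κ s ≤ h → (h : ℝ) ≤ A / Real.sqrt ε →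
    ‖H.tor ((xyCritical - ε : ℝ) : ℂ) h (JJ κ s - H.j0) - H.tor xyCritical h (JJ κ s - H.j0)‖ ≤ Cl * ε
  inside : ∀ i, H.j0 + i ≤ JJ κ s → ‖H.st ((xyCritical - ε : ℝ) : ℂ) i‖ < κ.ρ ∧
    ∀ h : ℕ, JJ κ s ≤ h → (h : ℝ) ≤ A / Real.sqrt ε → ‖H.ts ((xyCritical - ε : ℝ) : ℂ) h i‖ < κ.ρ
  valid : ∀ h : ℕ, JJ κ s ≤ h → (h : ℝ) ≤ A / Real.sqrt ε → Valid κ κe s H h ∧
    κe.C * ((s : ℝ) / κ.n h) ^ 4 + cutErr κ κe s h ≤ τ ∧ (s : ℝ) / κ.n h + 1 / (κ.n h : ℝ) ^ 2 ≤ τ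
  logJ : ∀ j : ℕ, JJ κ s ≤ j → Real.log (2 + j) + 2 ≤ τ * j
  epsK : ε * (K1 : ℝ) ^ 2 ≤ τ ^ 2
  logK : Real.log (2 + K1) ≤ τ * ε * (K1 : ℝ) ^ 3

end

end Claimed.Agent.R285.E4
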