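import Claimed.Agent.R285.E4.P44Model
import Claimed.Agent.R285.Flow.Cauchy

/-!
# ROW 285, cut of [E] P4.4, LEAF P44-REAL (PROVED, helper14): the real model of a history (glue `SysOK` ⇒ `p44_Flow`)

* `p44_real`: `EntryOK.real`, rewritten.
* `p44_real_inside`: strong induction on the stage.  The norm on `ℂ × ℂ × Q` is the sup norm; once `x, y` are real, `‖x‖ = |re x|`.
* `p44_wn`: `wn (st b i) = p44_w … (j0 + i)` for real scalars.
* `p44_flow`: for `j ≥ J ≥ j0` write `j = j0 + i` (`Nat.add_sub_cancel_left`, `(j0 + i) + 1 - j0 = i + 1`); `st b (i+1) = N (j0+i) (st b i)` by definition; take real parts of `MapOK.N_x`, `N_y`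
  (`|re z| ≤ ‖z‖`, `re (y²) = (re y)²` for real `y`); `eord (j0+i) (st b i) = p44_e … (j0+i)`.
-/

set_option autoImplicit false

namespace Claimed.Agent.R285.E4

open Claimed.Agent.R285.Flow

theorem p44_x_add (H : Hist) (b : ℝ) (i : ℕ) : p44_x H b (H.j0 + i) = (H.x (b : ℂ) i).re := by
  unfold p44_x; rw [Nat.add_sub_cancel_left]

theorem p44_y_add (H : Hist) (b : ℝ) (i : ℕ) : p44_y H b (H.j0 + i) = (H.y (b : ℂ) i).re := by
  unfold p44_y; rw [Nat.add_sub_cancel_left]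

theorem p44_q_add (H : Hist) (b : ℝ) (i : ℕ) : p44_q H b (H.j0 + i) = H.q (b : ℂ) i := by
  unfold p44_q; rw [Nat.add_sub_cancel_left]

theorem p44_real {κ : MapC} {κe : EntC} {ρe : ℝ} {s : ℕ} {H : Hist} (hs : SysOK κ κe ρe s H) (b : ℝ)
    (hb : (b : ℂ) ∈ disk κe s) (i : ℕ) (h : ∀ i' < i, ‖H.st (b : ℂ) i'‖ < κ.ρ) :
    H.x (b : ℂ) i = ((H.x (b : ℂ) i).re : ℂ) ∧ H.y (b : ℂ) i = ((H.y (b : ℂ) i).re : ℂ) := by
  obtain ⟨h1, h2⟩ := hs.entry.real b hb i h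
  exact ⟨Complex.ext (by simp) (by simp [h1]), Complex.ext (by simp) (by simp [h2])⟩

theorem p44_wn {κ : MapC} {κe : EntC} {ρe : ℝ} {s : ℕ} {H : Hist} (hs : SysOK κ κe ρe s H) (b : ℝ)
    (hb : (b : ℂ) ∈ disk κe s) (i : ℕ) (h : ∀ i' < i, ‖H.st (b : ℂ) i'‖ < κ.ρ) :
    wn (H.st (b : ℂ) i) = p44_w (p44_x H b) (p44_y H b) (H.j0 + i) := by
  obtain ⟨h1, h2⟩ := p44_real hs b hb i h
  unfold wn p44_w
  rw [p44_x_add, p44_y_add]
  have e1 : ‖(H.st (b : ℂ) i).1‖ = |(H.x (b : ℂ) i).re| := by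
    have : (H.st (b : ℂ) i).1 = H.x (b : ℂ) i := rfl
    rw [this]
    conv_lhs => rw [h1]
    rw [Complex.norm_real, Real.norm_eq_abs]
  have e2 : ‖(H.st (b : ℂ) i).2.1‖ = |(H.y (b : ℂ) i).re| := by
    have : (H.st (b : ℂ) i).2.1 = H.y (b : ℂ) i := rfl
    rw [this]
    conv_lhs => rw [h2]
    rw [Complex.norm_real, Real.norm_eq_abs]
  rw [e1, e2]

theorem p44_real_inside {κ : MapC} {κe : EntC} {ρe : ℝ} {s : ℕ} {H : Hist} (hs : SysOK κ κe ρe s H) (b : ℝ)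
    (hb : (b : ℂ) ∈ disk κe s) (J j : ℕ)
    (h0 : ∀ i, H.j0 + i ≤ J → ‖H.st (b : ℂ) i‖ < κ.ρ)
    (h1 : ∀ i, J ≤ i → i ≤ j → |p44_x H b i| < κ.ρ ∧ |p44_y H b i| < κ.ρ ∧ p44_q H b i < κ.ρ) :
    ∀ i, H.j0 + i ≤ j → ‖H.st (b : ℂ) i‖ < κ.ρ := by
  intro i
  induction i using Nat.strong_induction_on with
  | _ i ih =>
    intro hij
    rcases Nat.le_total (H.j0 + i) J with hle | hge
    · exact h0 i hle
    · have hprev : ∀ i' < i, ‖H.st (b : ℂ) i'‖ < κ.ρ := fun i' hi' => ih i' hi' (by omega)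
      obtain ⟨a1, a2, a3⟩ := h1 (H.j0 + i) hge hij
      rw [cau_norm_lt, p44_wn hs b hb i hprev]
      refine ⟨max_lt a1 a2, ?_⟩
      rw [p44_q_add] at a3
      exact a3

theorem p44_flow {κ : MapC} {κe : EntC} {ρe : ℝ} {s : ℕ} {H : Hist} (hs : SysOK κ κe ρe s H) (b : ℝ)
    (hb : (b : ℂ) ∈ disk κe s) (J : ℕ) (hJ : H.j0 ≤ J)
    (h0 : ∀ i, H.j0 + i ≤ J → ‖H.st (b : ℂ) i‖ < κ.ρ) :
    p44_Flow κ.C κ.θ κ.ρ J (p44_x H b) (p44_y H b) (p44_q H b) := by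
  refine ⟨fun j => norm_nonneg _, ?_⟩
  intro j hj hdom
  obtain ⟨i, rfl⟩ := Nat.exists_eq_add_of_le (hJ.trans hj)
  have hin := p44_real_inside hs b hb J (H.j0 + i) h0 hdom
  have hprev : ∀ i' < i, ‖H.st (b : ℂ) i'‖ < κ.ρ := fun i' hi' => hin i' (by omega)
  have hY : H.st (b : ℂ) i ∈ Metric.ball (0 : ℂ × ℂ × H.Q (H.j0 + i)) κ.ρ := by
    rw [mem_ball_zero_iff]; exact hin i le_rfl
  obtain ⟨r1, r2⟩ := p44_real hs b hb i hprev
  have hwn := p44_wn hs b hb i hprev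
  have hj0 : H.j0 ≤ H.j0 + i := Nat.le_add_right _ _
  have nx := hs.map.N_x (H.j0 + i) hj0 _ hY
  have ny := hs.map.N_y (H.j0 + i) hj0 _ hY
  have nq := hs.map.N_q (H.j0 + i) hj0 _ hY
  have he : eord (H.j0 + i) (H.st (b : ℂ) i) = p44_e (p44_x H b) (p44_y H b) (p44_q H b) (H.j0 + i) := by
    unfold eord p44_e
    rw [hwn, p44_q_add]
    rfl
  have hs1 : H.j0 + i + 1 = H.j0 + (i + 1) := by omega
  rw [hs1, p44_x_add, p44_y_add, p44_q_add, p44_x_add, p44_y_add, p44_q_add, ← he, ← hwn]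
  have ex : (H.st (b : ℂ) i).1 = H.x (b : ℂ) i := rfl
  have ey : (H.st (b : ℂ) i).2.1 = H.y (b : ℂ) i := rfl
  have ex' : (H.N (H.j0 + i) (H.st (b : ℂ) i)).1 = H.x (b : ℂ) (i + 1) := rfl
  have ey' : (H.N (H.j0 + i) (H.st (b : ℂ) i)).2.1 = H.y (b : ℂ) (i + 1) := rfl
  rw [ex, ey, ex'] at nx
  rw [ex, ey, ey'] at ny
  refine ⟨?_, ?_, nq⟩
  · refine le_trans ?_ nx
    have e : (H.x (b : ℂ) (i + 1)).re - ((H.x (b : ℂ) i).re - (H.y (b : ℂ) i).re ^ 2)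
        = (H.x (b : ℂ) (i + 1) - (H.x (b : ℂ) i - H.y (b : ℂ) i ^ 2)).re := by
      conv_rhs => rw [r1, r2]
      simp [← Complex.ofReal_pow]
    rw [e]
    exact Complex.abs_re_le_norm _
  · refine le_trans ?_ ny
    have e : (H.y (b : ℂ) (i + 1)).re - ((H.y (b : ℂ) i).re - (H.x (b : ℂ) i).re * (H.y (b : ℂ) i).re)
        = (H.y (b : ℂ) (i + 1) - (H.y (b : ℂ) i - H.x (b : ℂ) i * H.y (b : ℂ) i)).re := by
      conv_rhs => rw [r1, r2]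
      simp [← Complex.ofReal_mul]
    rw [e]
    exact Complex.abs_re_le_norm _

end Claimed.Agent.R285.E4
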