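import Claimed.Agent.R285.E4.P44Def

/-!
# ROW 285, cut of [E] P4.4, LEAF P44-STEP-A (PROVED, helper14): one step of the passage regime, algebraic part (paper-free, real inequalities)

`D = x² + κ²`, `E = y² - x² - κ²`, `w = max |x| |y|`, `α = x' - (x - y²)`, `β = y' - (y - x y)`, `|α|, |β| ≤ C w³`, `C w ≤ 1/6`, `|E| ≤ D/2`.
Facts: `D/2 ≤ y² ≤ 3D/2`, `x² ≤ D`, `w² ≤ 3D/2`, `κ² ≤ D ≤ 2 y² ≤ 2 w²`, `w ≤ 1/6`.
* `x - x' = y² - α`, `|α| ≤ (C w) w² ≤ D/4`.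
* `y' ≥ y (1 - w) - C w³`, `w² ≤ 3 y²` so `w ≤ 2 y`, `C w³ ≤ w² / 6 ≤ w y / 3`.
* `E' - E = - y² (E + κ²) + 2 β (y - x y) + β² - 2 α (x - y²) - α²`  (from `(y - x y)² - (x - y²)² = (y² - x²)(1 - y²)`), so
  `|E' - E| ≤ 9 D²/4 + 10 C w⁴ ≤ 25 C D²`; `G x - G x' = (x - x')(x² + x x' + x'² + 3 κ²) ≥ (3/4)(x - x') D ≥ (3/16) D²`.
(Numerically tested by the architect; the true constant is about 3.5 instead of 134.)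
-/

set_option autoImplicit false

namespace Claimed.Agent.R285.E4

/-- elementary consequences of `|E| ≤ D/2` -/
theorem p44_step_aux (κ x y : ℝ) (hE : |y ^ 2 - x ^ 2 - κ ^ 2| ≤ (x ^ 2 + κ ^ 2) / 2) :
    0 ≤ max |x| |y| ∧ |x| ≤ max |x| |y| ∧ |y| ≤ max |x| |y| ∧
    max |x| |y| ^ 2 ≤ 3 * (x ^ 2 + κ ^ 2) / 2 ∧ (x ^ 2 + κ ^ 2) / 2 ≤ y ^ 2 ∧ y ^ 2 ≤ 3 * (x ^ 2 + κ ^ 2) / 2 ∧
    x ^ 2 + κ ^ 2 ≤ 2 * max |x| |y| ^ 2 := by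
  have h := abs_le.1 hE
  have h1 : (x ^ 2 + κ ^ 2) / 2 ≤ y ^ 2 := by linarith [h.1]
  have h2 : y ^ 2 ≤ 3 * (x ^ 2 + κ ^ 2) / 2 := by linarith [h.2]
  have hw0 : 0 ≤ max |x| |y| := le_max_of_le_left (abs_nonneg x)
  have hκ : 0 ≤ κ ^ 2 := sq_nonneg κ
  have hx2 : 0 ≤ x ^ 2 := sq_nonneg x
  refine ⟨hw0, le_max_left _ _, le_max_right _ _, ?_, h1, h2, ?_⟩
  · rcases max_cases |x| |y| with ⟨he, -⟩ | ⟨he, -⟩
    · rw [he, sq_abs]; linarith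
    · rw [he, sq_abs]; exact h2
  · have : y ^ 2 ≤ max |x| |y| ^ 2 := by
      rw [← sq_abs y]
      exact pow_le_pow_left₀ (abs_nonneg y) (le_max_right _ _) 2
    linarith

theorem p44_step_x (C κ x y x' : ℝ) (hC : 1 ≤ C)
    (hE : |y ^ 2 - x ^ 2 - κ ^ 2| ≤ (x ^ 2 + κ ^ 2) / 2)
    (hw : C * max |x| |y| ≤ 1 / 6)
    (hx : |x' - (x - y ^ 2)| ≤ C * max |x| |y| ^ 3) :
    (x ^ 2 + κ ^ 2) / 4 ≤ x - x' ∧ x - x' ≤ 7 * (x ^ 2 + κ ^ 2) / 4 := by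
  obtain ⟨hw0, -, -, hw2, hy1, hy2, -⟩ := p44_step_aux κ x y hE
  set w := max |x| |y| with hwdef
  have hα : C * w ^ 3 ≤ (x ^ 2 + κ ^ 2) / 4 := by
    have h1 : C * w ^ 3 = (C * w) * w ^ 2 := by ring
    rw [h1]
    calc (C * w) * w ^ 2 ≤ (1 / 6) * w ^ 2 := mul_le_mul_of_nonneg_right hw (sq_nonneg w)
      _ ≤ (1 / 6) * (3 * (x ^ 2 + κ ^ 2) / 2) := by gcongr
      _ = (x ^ 2 + κ ^ 2) / 4 := by ring
  have h := abs_le.1 (hx.trans hα)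
  constructor <;> linarith [h.1, h.2]

theorem p44_step_y (C κ x y y' : ℝ) (hC : 1 ≤ C) (hy0 : 0 < y)
    (hE : |y ^ 2 - x ^ 2 - κ ^ 2| ≤ (x ^ 2 + κ ^ 2) / 2)
    (hw : C * max |x| |y| ≤ 1 / 6)
    (hy : |y' - (y - x * y)| ≤ C * max |x| |y| ^ 3) :
    0 < y' := by
  obtain ⟨hw0, hxw, hyw, hw2, hy1, hy2, -⟩ := p44_step_aux κ x y hE
  set w := max |x| |y| with hwdef
  have hw6 : w ≤ 1 / 6 := by nlinarith
  -- `w ≤ 2 y`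
  have hw2y : w ≤ 2 * y := by
    have h1 : w ^ 2 ≤ (2 * y) ^ 2 := by nlinarith
    exact (pow_le_pow_iff_left₀ hw0 (by linarith) (by norm_num)).1 h1
  have hβ : C * w ^ 3 ≤ w * y / 3 := by
    have h1 : C * w ^ 3 = (C * w) * (w * w) := by ring
    rw [h1]
    calc (C * w) * (w * w) ≤ (1 / 6) * (w * w) := mul_le_mul_of_nonneg_right hw (mul_nonneg hw0 hw0)
      _ ≤ (1 / 6) * (w * (2 * y)) := by gcongr
      _ = w * y / 3 := by ring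
  have h := abs_le.1 (hy.trans hβ)
  have hxy : x * y ≤ w * y := mul_le_mul_of_nonneg_right ((le_abs_self x).trans hxw) hy0.le
  have : y' ≥ y - w * y - w * y / 3 := by linarith [h.1]
  nlinarith

/-- lower bound for the decrease of the potential `G t = t³ + 3 κ² t` -/
theorem p44_step_G (κ x x' : ℝ) (h : (x ^ 2 + κ ^ 2) / 4 ≤ x - x') :
    (3 / 16) * (x ^ 2 + κ ^ 2) ^ 2 ≤ (x ^ 3 + 3 * κ ^ 2 * x) - (x' ^ 3 + 3 * κ ^ 2 * x') := by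
  have hfac : (x ^ 3 + 3 * κ ^ 2 * x) - (x' ^ 3 + 3 * κ ^ 2 * x')
      = (x - x') * (x ^ 2 + x * x' + x' ^ 2 + 3 * κ ^ 2) := by ring
  rw [hfac]
  have h1 : (3 / 4) * (x ^ 2 + κ ^ 2) ≤ x ^ 2 + x * x' + x' ^ 2 + 3 * κ ^ 2 := by
    nlinarith [sq_nonneg (x / 2 + x'), sq_nonneg κ]
  have hD0 : 0 ≤ x ^ 2 + κ ^ 2 := by positivity
  calc (3 / 16) * (x ^ 2 + κ ^ 2) ^ 2 = ((x ^ 2 + κ ^ 2) / 4) * ((3 / 4) * (x ^ 2 + κ ^ 2)) := by ring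
    _ ≤ (x - x') * (x ^ 2 + x * x' + x' ^ 2 + 3 * κ ^ 2) :=
        mul_le_mul h h1 (by positivity) (by linarith)

/-- the change of `E`, with the errors `α`, `β` as free variables -/
theorem p44_step_E_aux (C κ x y α β w D : ℝ) (hC : 1 ≤ C) (hD : D = x ^ 2 + κ ^ 2)
    (hE : |y ^ 2 - x ^ 2 - κ ^ 2| ≤ D / 2) (hw0 : 0 ≤ w) (hxw : |x| ≤ w) (hyw : |y| ≤ w)
    (hw2 : w ^ 2 ≤ 3 * D / 2) (hy2 : y ^ 2 ≤ 3 * D / 2)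
    (hw : C * w ≤ 1 / 6) (hx : |α| ≤ C * w ^ 3) (hy : |β| ≤ C * w ^ 3) :
    |-(y ^ 2 * ((y ^ 2 - x ^ 2 - κ ^ 2) + κ ^ 2)) + 2 * β * (y - x * y) + β ^ 2 - 2 * α * (x - y ^ 2) - α ^ 2|
      ≤ 25 * C * D ^ 2 := by
  have hD0 : 0 ≤ D := by rw [hD]; positivity
  have hw6 : w ≤ 1 / 6 := by nlinarith
  have hw4 : w ^ 4 ≤ 9 * D ^ 2 / 4 := by
    have : w ^ 4 = (w ^ 2) ^ 2 := by ring
    rw [this]
    have h0 : 0 ≤ w ^ 2 := sq_nonneg w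
    nlinarith
  have t1 : |y ^ 2 * ((y ^ 2 - x ^ 2 - κ ^ 2) + κ ^ 2)| ≤ 9 * D ^ 2 / 4 := by
    rw [abs_mul, abs_of_nonneg (sq_nonneg y)]
    have h1 : |(y ^ 2 - x ^ 2 - κ ^ 2) + κ ^ 2| ≤ 3 * D / 2 := by
      calc |(y ^ 2 - x ^ 2 - κ ^ 2) + κ ^ 2| ≤ |y ^ 2 - x ^ 2 - κ ^ 2| + |κ ^ 2| := abs_add_le _ _
        _ ≤ D / 2 + D := by
          have : |κ ^ 2| ≤ D := by rw [abs_of_nonneg (sq_nonneg κ), hD]; nlinarith [sq_nonneg x]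
          linarith
        _ = 3 * D / 2 := by ring
    calc y ^ 2 * |(y ^ 2 - x ^ 2 - κ ^ 2) + κ ^ 2| ≤ (3 * D / 2) * (3 * D / 2) :=
          mul_le_mul hy2 h1 (abs_nonneg _) (by positivity)
      _ = 9 * D ^ 2 / 4 := by ring
  have hyb : |y - x * y| ≤ 2 * w := by
    have : y - x * y = y * (1 - x) := by ring
    rw [this, abs_mul]
    have h1 : |1 - x| ≤ 2 := by
      have := abs_le.1 (hxw.trans hw6)
      rw [abs_le]; constructor <;> linarith [this.1, this.2]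
    calc |y| * |1 - x| ≤ w * 2 := mul_le_mul hyw h1 (abs_nonneg _) hw0
      _ = 2 * w := by ring
  have hxb : |x - y ^ 2| ≤ 2 * w := by
    calc |x - y ^ 2| ≤ |x| + |y ^ 2| := abs_sub _ _
      _ ≤ w + w := by
        have : |y ^ 2| ≤ w := by
          rw [abs_of_nonneg (sq_nonneg y), ← sq_abs y]
          have : |y| ^ 2 ≤ w ^ 2 := pow_le_pow_left₀ (abs_nonneg y) hyw 2
          nlinarith
        linarith
      _ = 2 * w := by ring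
  have t2 : |2 * β * (y - x * y)| ≤ 4 * C * w ^ 4 := by
    rw [abs_mul, abs_mul, abs_of_pos (by norm_num : (0 : ℝ) < 2)]
    calc 2 * |β| * |y - x * y| ≤ 2 * (C * w ^ 3) * (2 * w) := by gcongr
      _ = 4 * C * w ^ 4 := by ring
  have t3 : |2 * α * (x - y ^ 2)| ≤ 4 * C * w ^ 4 := by
    rw [abs_mul, abs_mul, abs_of_pos (by norm_num : (0 : ℝ) < 2)]
    calc 2 * |α| * |x - y ^ 2| ≤ 2 * (C * w ^ 3) * (2 * w) := by gcongr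
      _ = 4 * C * w ^ 4 := by ring
  have hsq : ∀ γ : ℝ, |γ| ≤ C * w ^ 3 → γ ^ 2 ≤ C * w ^ 4 := by
    intro γ hγ
    have h1 : γ ^ 2 ≤ (C * w ^ 3) ^ 2 := by
      rw [← sq_abs γ]; exact pow_le_pow_left₀ (abs_nonneg γ) hγ 2
    have h2 : (C * w ^ 3) ^ 2 = (C * w) * w * (C * w ^ 4) := by ring
    have h3 : (C * w) * w ≤ 1 := by nlinarith
    have h4 : 0 ≤ C * w ^ 4 := by positivity
    calc γ ^ 2 ≤ (C * w) * w * (C * w ^ 4) := by rw [← h2]; exact h1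
      _ ≤ 1 * (C * w ^ 4) := mul_le_mul_of_nonneg_right h3 h4
      _ = C * w ^ 4 := one_mul _
  have t4 := hsq β hy
  have t5 := hsq α hx
  have hsum : |-(y ^ 2 * ((y ^ 2 - x ^ 2 - κ ^ 2) + κ ^ 2)) + 2 * β * (y - x * y) + β ^ 2 - 2 * α * (x - y ^ 2) - α ^ 2|
      ≤ 9 * D ^ 2 / 4 + 10 * C * w ^ 4 := by
    have e1 := abs_le.1 t1
    have e2 := abs_le.1 t2
    have e3 := abs_le.1 t3
    have b0 : 0 ≤ β ^ 2 := sq_nonneg β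
    have a0 : 0 ≤ α ^ 2 := sq_nonneg α
    rw [abs_le]
    constructor <;> linarith [e1.1, e1.2, e2.1, e2.2, e3.1, e3.2]
  have h25 : 9 * D ^ 2 / 4 + 10 * C * w ^ 4 ≤ 25 * C * D ^ 2 := by
    have hD2 : 0 ≤ D ^ 2 := sq_nonneg D
    have h1 : 10 * C * w ^ 4 ≤ 10 * C * (9 * D ^ 2 / 4) := by gcongr
    have h2 : 9 * D ^ 2 / 4 ≤ C * (9 * D ^ 2 / 4) := le_mul_of_one_le_left (by positivity) hC
    nlinarith
  exact hsum.trans h25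

theorem p44_step_E (C κ x y x' y' : ℝ) (hC : 1 ≤ C)
    (hE : |y ^ 2 - x ^ 2 - κ ^ 2| ≤ (x ^ 2 + κ ^ 2) / 2)
    (hw : C * max |x| |y| ≤ 1 / 6)
    (hx : |x' - (x - y ^ 2)| ≤ C * max |x| |y| ^ 3)
    (hy : |y' - (y - x * y)| ≤ C * max |x| |y| ^ 3) :
    |(y' ^ 2 - x' ^ 2 - κ ^ 2) - (y ^ 2 - x ^ 2 - κ ^ 2)|
      ≤ 134 * C * ((x ^ 3 + 3 * κ ^ 2 * x) - (x' ^ 3 + 3 * κ ^ 2 * x')) := by
  obtain ⟨hΔ1, -⟩ := p44_step_x C κ x y x' hC hE hw hx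
  obtain ⟨hw0, hxw, hyw, hw2, -, hy2, -⟩ := p44_step_aux κ x y hE
  have hid : (y' ^ 2 - x' ^ 2 - κ ^ 2) - (y ^ 2 - x ^ 2 - κ ^ 2)
      = -(y ^ 2 * ((y ^ 2 - x ^ 2 - κ ^ 2) + κ ^ 2)) + 2 * (y' - (y - x * y)) * (y - x * y) + (y' - (y - x * y)) ^ 2
        - 2 * (x' - (x - y ^ 2)) * (x - y ^ 2) - (x' - (x - y ^ 2)) ^ 2 := by ring
  have h25 := p44_step_E_aux C κ x y (x' - (x - y ^ 2)) (y' - (y - x * y)) (max |x| |y|) (x ^ 2 + κ ^ 2) hC rfl hE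
    hw0 hxw hyw hw2 hy2 hw hx hy
  have hG := p44_step_G κ x x' hΔ1
  rw [hid]
  calc _ ≤ 25 * C * (x ^ 2 + κ ^ 2) ^ 2 := h25
    _ ≤ 134 * C * ((3 / 16) * (x ^ 2 + κ ^ 2) ^ 2) := by
        have : 0 ≤ C * (x ^ 2 + κ ^ 2) ^ 2 := by positivity
        nlinarith
    _ ≤ 134 * C * ((x ^ 3 + 3 * κ ^ 2 * x) - (x' ^ 3 + 3 * κ ^ 2 * x')) := by gcongr

end Claimed.Agent.R285.E4
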