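import Claimed.Agent.R285.E4.P44StepA

/-!
# ROW 285, cut of [E] P4.4, LEAF P44-STEP-B (PROVED, helper14): one step of the passage regime, the angle (paper-free)

Notation of `P44StepA`.  `Δ = x - x' ∈ [D/4, 7D/4]` (`p44_step_x`).  Mean value theorem for `arctan` on `[x'/κ, x/κ]`:
`arctan (x/κ) - arctan (x'/κ) = (Δ/κ) / (1 + (ξ/κ)²) = κ Δ / (κ² + ξ²)` with `x' < ξ < x`.
`|ξ² - x²| ≤ Δ (2 |x| + Δ) ≤ (7D/4)(2 w + 7 w/2) ≤ 10 w D` (`D ≤ 2 w² ≤ 2 w`), so `κ² + ξ² ≥ D/2` (`w ≤ 1/20`);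
`Δ = D + E - α`, `|α| ≤ (3/2) C w D`.  Hence `|κ Δ/(κ²+ξ²) - κ| = κ |Δ - (κ² + ξ²)| / (κ²+ξ²) ≤ 2 κ (|E| + (3C/2 + 10) w D)/D`.
(Numerically tested by the architect.)
-/

set_option autoImplicit false

namespace Claimed.Agent.R285.E4

/-- mean value theorem for `arctan (·/κ)` -/
theorem p44_arctan_mvt (κ x x' : ℝ) (hκ : 0 < κ) (h : x' < x) :
    ∃ ξ : ℝ, x' < ξ ∧ ξ < x ∧
      Real.arctan (x / κ) - Real.arctan (x' / κ) = κ * (x - x') / (κ ^ 2 + ξ ^ 2) := by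
  have hd : ∀ t : ℝ, HasDerivAt (fun t : ℝ => Real.arctan (t / κ)) (1 / (1 + (t / κ) ^ 2) * (1 / κ)) t := by
    intro t
    have h1 : HasDerivAt (fun t : ℝ => t / κ) (1 / κ) t := (hasDerivAt_id t).div_const κ
    exact h1.arctan
  obtain ⟨ξ, hξ, hξe⟩ := exists_hasDerivAt_eq_slope (fun t : ℝ => Real.arctan (t / κ))
    (fun t => 1 / (1 + (t / κ) ^ 2) * (1 / κ)) h
    (fun t _ => (hd t).continuousAt.continuousWithinAt) (fun t _ => hd t)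
  refine ⟨ξ, hξ.1, hξ.2, ?_⟩
  have hx : 0 < x - x' := by linarith
  have hpos : 0 < κ ^ 2 + ξ ^ 2 := by positivity
  have h1 : Real.arctan (x / κ) - Real.arctan (x' / κ) = (1 / (1 + (ξ / κ) ^ 2) * (1 / κ)) * (x - x') := by
    rw [hξe]; field_simp
  rw [h1]
  field_simp

theorem p44_step_arctan_aux (C κ x y x' w D E ξ : ℝ) (hC : 1 ≤ C) (hκ : 0 < κ) (hD : D = x ^ 2 + κ ^ 2)
    (hEdef : E = y ^ 2 - x ^ 2 - κ ^ 2) (hw0 : 0 ≤ w) (hxw : |x| ≤ w) (hw2 : w ^ 2 ≤ 3 * D / 2)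
    (hDw : D ≤ 2 * w ^ 2) (hw' : w ≤ 1 / 20) (hx : |x' - (x - y ^ 2)| ≤ C * w ^ 3)
    (hΔ2 : x - x' ≤ 7 * D / 4) (hξ1 : x' < ξ) (hξ2 : ξ < x) :
    |κ * (x - x') / (κ ^ 2 + ξ ^ 2) - κ| ≤ κ * (2 * |E| / D + 23 * C * w) := by
  have hDpos : 0 < D := by rw [hD]; positivity
  have hDw' : D ≤ 2 * w := by nlinarith
  have hwD : 0 ≤ w * D := mul_nonneg hw0 hDpos.le
  have hξx : |ξ ^ 2 - x ^ 2| ≤ 10 * w * D := by
    have h1 : ξ ^ 2 - x ^ 2 = (ξ - x) * (ξ + x) := by ring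
    rw [h1, abs_mul]
    have h2 : |ξ - x| ≤ 7 * D / 4 := by
      rw [abs_le]; constructor <;> linarith
    have hxx := abs_le.1 hxw
    have h3 : |ξ + x| ≤ 2 * w + 7 * D / 4 := by
      rw [abs_le]; constructor <;> linarith [hxx.1, hxx.2]
    calc |ξ - x| * |ξ + x| ≤ (7 * D / 4) * (2 * w + 7 * D / 4) :=
          mul_le_mul h2 h3 (abs_nonneg _) (by positivity)
      _ ≤ (7 * D / 4) * (2 * w + 7 * (2 * w) / 4) := by gcongr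
      _ ≤ 10 * w * D := by nlinarith
  have hξx' := abs_le.1 hξx
  have hden : D / 2 ≤ κ ^ 2 + ξ ^ 2 := by
    have : 10 * w * D ≤ D / 2 := by nlinarith
    have h2 : κ ^ 2 + ξ ^ 2 = D + (ξ ^ 2 - x ^ 2) := by rw [hD]; ring
    rw [h2]; linarith [hξx'.1]
  have hdenpos : 0 < κ ^ 2 + ξ ^ 2 := by linarith
  have hCw : 0 ≤ C * w := by positivity
  have hα : |x' - (x - y ^ 2)| ≤ 3 / 2 * C * w * D := by
    calc |x' - (x - y ^ 2)| ≤ C * w ^ 3 := hx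
      _ = C * w * w ^ 2 := by ring
      _ ≤ C * w * (3 * D / 2) := mul_le_mul_of_nonneg_left hw2 hCw
      _ = 3 / 2 * C * w * D := by ring
  have hα' := abs_le.1 hα
  have hnum : |(x - x') - (κ ^ 2 + ξ ^ 2)| ≤ |E| + (3 / 2 * C + 10) * w * D := by
    have h1 : (x - x') - (κ ^ 2 + ξ ^ 2) = E - (x' - (x - y ^ 2)) - (ξ ^ 2 - x ^ 2) := by
      rw [hEdef]; ring
    rw [h1]
    have hE1 : E ≤ |E| := le_abs_self E
    have hE2 : -|E| ≤ E := neg_abs_le E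
    have e : (3 / 2 * C + 10) * w * D = 3 / 2 * C * w * D + 10 * w * D := by ring
    rw [abs_le, e]
    constructor <;> linarith [hα'.1, hα'.2, hξx'.1, hξx'.2]
  have h2 : κ * (x - x') / (κ ^ 2 + ξ ^ 2) - κ = κ * (((x - x') - (κ ^ 2 + ξ ^ 2)) / (κ ^ 2 + ξ ^ 2)) := by
    field_simp
  rw [h2, abs_mul, abs_of_pos hκ]
  apply mul_le_mul_of_nonneg_left _ hκ.le
  rw [abs_div, abs_of_pos hdenpos, div_le_iff₀ hdenpos]
  have hrhs0 : 0 ≤ 2 * |E| / D + 23 * C * w := by positivity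
  calc |(x - x') - (κ ^ 2 + ξ ^ 2)| ≤ |E| + (3 / 2 * C + 10) * w * D := hnum
    _ ≤ (2 * |E| / D + 23 * C * w) * (D / 2) := by
        have h3 : 2 * |E| / D * (D / 2) = |E| := by field_simp
        have h4 : (3 / 2 * C + 10) * w * D ≤ 23 * C * w * (D / 2) := by nlinarith
        have h5 : (2 * |E| / D + 23 * C * w) * (D / 2) = 2 * |E| / D * (D / 2) + 23 * C * w * (D / 2) := by ring
        rw [h5, h3]
        linarith
    _ ≤ (2 * |E| / D + 23 * C * w) * (κ ^ 2 + ξ ^ 2) := mul_le_mul_of_nonneg_left hden hrhs0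

theorem p44_step_arctan (C κ x y x' : ℝ) (hC : 1 ≤ C) (hκ : 0 < κ)
    (hE : |y ^ 2 - x ^ 2 - κ ^ 2| ≤ (x ^ 2 + κ ^ 2) / 2)
    (hw : C * max |x| |y| ≤ 1 / 6) (hw' : max |x| |y| ≤ 1 / 20)
    (hx : |x' - (x - y ^ 2)| ≤ C * max |x| |y| ^ 3) :
    |Real.arctan (x / κ) - Real.arctan (x' / κ) - κ|
      ≤ κ * (2 * |y ^ 2 - x ^ 2 - κ ^ 2| / (x ^ 2 + κ ^ 2) + 23 * C * max |x| |y|) := by
  obtain ⟨hΔ1, hΔ2⟩ := p44_step_x C κ x y x' hC hE hw hx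
  obtain ⟨hw0, hxw, -, hw2, -, -, hDw⟩ := p44_step_aux κ x y hE
  have hDpos : 0 < x ^ 2 + κ ^ 2 := by positivity
  have hlt : x' < x := by linarith
  obtain ⟨ξ, hξ1, hξ2, hξe⟩ := p44_arctan_mvt κ x x' hκ hlt
  rw [hξe]
  exact p44_step_arctan_aux C κ x y x' _ _ _ ξ hC hκ rfl rfl hw0 hxw hw2 hDw hw' hx hΔ2 hξ1 hξ2

end Claimed.Agent.R285.E4
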