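import Claimed.Agent.R285.E4.P44Lip
import Claimed.Agent.R285.E4.P44Real

/-!
# ROW 285, cut of [E] P4.4, LEAF P44-SYS: `p44_Start` ⇒ the pure hypothesis `p44_Sys` (glue)

`b = b_c - ε`, `J = JJ κ s`.  `C1, j1 := p44_lip κ (Cl + 1)`;  `C := max κ.C (max Cl C1)`;  `τ0` so small that `logJ` at `J` (`2 ≤ τ J`) forces `J ≥ j1`, `2/J < κ.ρ`, `(Cl+1)/J² < κ.ρ`, and `Cl τ ≤ 1/2`.
* `flow`: `p44_flow` (with `p44_Start.inside`), then enlarge the constant (`p44_e ≥ 0`).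
* `early.crit_x/y`: real part of `CritAt` (`re (1/(j:ℂ)) = 1/j`).   `early.init_*`: real parts of `sec_x`, `sec_y`; `sec_q`.   `logJ`, `epsK`, `logK`: copied.
* `q_le`: triangle inequality + third part of `CritAt`.
* `early.step` at `j = j0 + i`, `J ≤ j < K1`, under the cumulative tube condition: the critical history is inside by `crit_in`, so real (`p44_real`); `|xc_j| ≤ 1/j + Cl log(2+j)/j² ≤ 3/(2j)` (`log (2+j) ≤ τ j`);
  the perturbed history: `|x_i| ≤ 3/(2i) + 1/(2i) = 2/i < κ.ρ`, `q_i ≤ Cl/i² + 1/i²`, for `J ≤ i ≤ j`; so it is inside (`p44_real_inside`) and real.  Both states lie in the tube of `p44_lip`.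
  Take real parts in `p44_lip`:  `(x - y²) - (xc - yc²) = a - 2 yc b - b²`,  `(y - x y) - (yc - xc yc) = b - xc b - yc a - a b`.
-/

set_option autoImplicit false

namespace Claimed.Agent.R285.E4

open Claims.C0459
open Claimed.Agent.R285.Flow

theorem p44_re_step_x {n1 n2 : ℂ} {x y xc yc B : ℝ}
    (h : ‖(n1 - ((x : ℂ) - (y : ℂ) ^ 2)) - (n2 - ((xc : ℂ) - (yc : ℂ) ^ 2))‖ ≤ B) :
    |(n1.re - n2.re) - ((x - xc) - 2 * yc * (y - yc) - (y - yc) ^ 2)| ≤ B := by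
  have e : (n1.re - n2.re) - ((x - xc) - 2 * yc * (y - yc) - (y - yc) ^ 2)
      = ((n1 - ((x : ℂ) - (y : ℂ) ^ 2)) - (n2 - ((xc : ℂ) - (yc : ℂ) ^ 2))).re := by
    have h1 : ((y : ℂ) ^ 2).re = y ^ 2 := by rw [← Complex.ofReal_pow, Complex.ofReal_re]
    have h2 : ((yc : ℂ) ^ 2).re = yc ^ 2 := by rw [← Complex.ofReal_pow, Complex.ofReal_re]
    simp only [Complex.sub_re, Complex.ofReal_re, h1, h2]
    ring
  rw [e]
  exact (Complex.abs_re_le_norm _).trans h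

theorem p44_re_step_y {n1 n2 : ℂ} {x y xc yc B : ℝ}
    (h : ‖(n1 - ((y : ℂ) - (x : ℂ) * (y : ℂ))) - (n2 - ((yc : ℂ) - (xc : ℂ) * (yc : ℂ)))‖ ≤ B) :
    |(n1.re - n2.re) - ((y - yc) - xc * (y - yc) - yc * (x - xc) - (x - xc) * (y - yc))| ≤ B := by
  have e : (n1.re - n2.re) - ((y - yc) - xc * (y - yc) - yc * (x - xc) - (x - xc) * (y - yc))
      = ((n1 - ((y : ℂ) - (x : ℂ) * (y : ℂ))) - (n2 - ((yc : ℂ) - (xc : ℂ) * (yc : ℂ)))).re := by
    have h1 : ((x : ℂ) * (y : ℂ)).re = x * y := by rw [← Complex.ofReal_mul, Complex.ofReal_re]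
    have h2 : ((xc : ℂ) * (yc : ℂ)).re = xc * yc := by rw [← Complex.ofReal_mul, Complex.ofReal_re]
    simp only [Complex.sub_re, Complex.ofReal_re, h1, h2]
    ring
  rw [e]
  exact (Complex.abs_re_le_norm _).trans h

theorem p44_w_nonneg (x y : ℕ → ℝ) (j : ℕ) : 0 ≤ p44_w x y j := le_max_of_le_left (abs_nonneg _)

theorem p44_e_nonneg (x y q : ℕ → ℝ) (hq : ∀ j, 0 ≤ q j) (j : ℕ) : 0 ≤ p44_e x y q j := by
  have h1 := p44_w_nonneg x y j
  have h2 := hq j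
  unfold p44_e
  positivity

theorem p44_flow_mono {C C' θ ρ : ℝ} {J : ℕ} {x y q : ℕ → ℝ} (h : p44_Flow C θ ρ J x y q) (hC : C ≤ C') :
    p44_Flow C' θ ρ J x y q where
  q_nonneg := h.q_nonneg
  step := fun j hj hin => by
    obtain ⟨h1, h2, h3⟩ := h.step j hj hin
    have he := p44_e_nonneg x y q h.q_nonneg j
    exact ⟨h1.trans (mul_le_mul_of_nonneg_right hC he), h2.trans (mul_le_mul_of_nonneg_right hC he),
      h3.trans (add_le_add le_rfl (mul_le_mul_of_nonneg_right hC (by positivity)))⟩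

/-- the critical asymptotics in the real model -/
theorem p44_crit_real {κ : MapC} {κe : EntC} {ρe : ℝ} {s : ℕ} {H : Hist} {P Cl A ε τ : ℝ} {K1 : ℕ}
    (hS : p44_Start κ κe ρe s H P Cl A ε τ K1) (j : ℕ) (hJ : JJ κ s ≤ j) (hK : j ≤ K1) :
    |p44_x H xyCritical j - 1 / (j : ℝ)| ≤ Cl * Real.log (2 + j) / (j : ℝ) ^ 2 ∧
    |p44_y H xyCritical j - 1 / (j : ℝ)| ≤ Cl * Real.log (2 + j) / (j : ℝ) ^ 2 ∧
    p44_q H xyCritical j ≤ Cl / (j : ℝ) ^ 2 := by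
  obtain ⟨i, rfl⟩ := Nat.exists_eq_add_of_le (hS.j0J.trans hJ)
  obtain ⟨h1, h2, h3⟩ := hS.crit i hJ hK
  have e : (1 / ((H.j0 + i : ℕ) : ℂ)).re = 1 / ((H.j0 + i : ℕ) : ℝ) := by
    rw [← Complex.ofReal_natCast, ← Complex.ofReal_one, ← Complex.ofReal_div, Complex.ofReal_re]
  unfold p44_x p44_y p44_q
  rw [Nat.add_sub_cancel_left]
  refine ⟨?_, ?_, h3⟩
  · rw [← e, ← Complex.sub_re]
    exact (Complex.abs_re_le_norm _).trans h1
  · rw [← e, ← Complex.sub_re]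
    exact (Complex.abs_re_le_norm _).trans h2

theorem p44_crit_size {Cl τ v : ℝ} {j : ℕ} (hj : 0 < (j : ℝ)) (hCl : 0 ≤ Cl) (hlog : Real.log (2 + j) ≤ τ * j)
    (hτ : Cl * τ ≤ 1 / 2) (h : |v - 1 / (j : ℝ)| ≤ Cl * Real.log (2 + j) / (j : ℝ) ^ 2) : |v| ≤ 3 / (2 * (j : ℝ)) := by
  have h1 : Cl * Real.log (2 + j) / (j : ℝ) ^ 2 ≤ 1 / (2 * (j : ℝ)) := by
    rw [div_le_div_iff₀ (by positivity) (by positivity)]
    have h2 : Cl * Real.log (2 + j) ≤ Cl * (τ * j) := mul_le_mul_of_nonneg_left hlog hCl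
    have h3 : Cl * (τ * j) ≤ 1 / 2 * j := by
      rw [← mul_assoc]; exact mul_le_mul_of_nonneg_right hτ hj.le
    nlinarith
  have h4 : |v| ≤ |v - 1 / (j : ℝ)| + |1 / (j : ℝ)| := by
    have := abs_add_le (v - 1 / (j : ℝ)) (1 / (j : ℝ))
    rwa [sub_add_cancel] at this
  rw [abs_of_pos (by positivity : 0 < 1 / (j : ℝ))] at h4
  have h5 : 3 / (2 * (j : ℝ)) = 1 / (2 * (j : ℝ)) + 1 / (j : ℝ) := by field_simp; norm_num
  rw [h5]
  linarith

/-- the tube of `p44_lip` for the perturbed and for the critical history -/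
theorem p44_sys_tube {κ : MapC} {κe : EntC} {ρe : ℝ} {s : ℕ} {H : Hist} {P Cl A ε τ : ℝ} {K1 : ℕ}
    (hS : p44_Start κ κe ρe s H P Cl A ε τ K1) (hCl : 1 ≤ Cl) (hτ : 0 < τ) (hτCl : Cl * τ ≤ 1 / 2)
    (j : ℕ) (hJ : JJ κ s ≤ j) (hK : j ≤ K1)
    (ht : |p44_x H (xyCritical - ε) j - p44_x H xyCritical j| ≤ 1 / (2 * (j : ℝ)) ∧
      |p44_y H (xyCritical - ε) j - p44_y H xyCritical j| ≤ 1 / (2 * (j : ℝ)) ∧ p44_dq H (xyCritical - ε) j ≤ 1 / (j : ℝ) ^ 2) :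
    0 < (j : ℝ) ∧ 2 ≤ τ * j ∧
    (|p44_x H xyCritical j| ≤ 2 / (j : ℝ) ∧ |p44_y H xyCritical j| ≤ 2 / (j : ℝ) ∧ p44_q H xyCritical j ≤ (Cl + 1) / (j : ℝ) ^ 2) ∧
    (|p44_x H (xyCritical - ε) j| ≤ 2 / (j : ℝ) ∧ |p44_y H (xyCritical - ε) j| ≤ 2 / (j : ℝ) ∧
      p44_q H (xyCritical - ε) j ≤ (Cl + 1) / (j : ℝ) ^ 2) := by
  have hj1 : 1 ≤ j := hS.J_pos.trans hJ
  have hj0 : 0 < (j : ℝ) := by exact_mod_cast hj1
  have hl := hS.logJ j hJ
  have hl0 : 0 ≤ Real.log (2 + j) := Real.log_nonneg (by linarith)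
  have hlog : Real.log (2 + j) ≤ τ * j := by linarith
  obtain ⟨c1, c2, c3⟩ := p44_crit_real hS j hJ hK
  have s1 := p44_crit_size hj0 (by linarith) hlog hτCl c1
  have s2 := p44_crit_size hj0 (by linarith) hlog hτCl c2
  have e1 : 3 / (2 * (j : ℝ)) + 1 / (2 * (j : ℝ)) = 2 / (j : ℝ) := by field_simp; norm_num
  have e2 : 0 < 1 / (2 * (j : ℝ)) := by positivity
  have e3 : (Cl + 1) / (j : ℝ) ^ 2 = Cl / (j : ℝ) ^ 2 + 1 / (j : ℝ) ^ 2 := by rw [add_div]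
  have e4 : 0 < 1 / (j : ℝ) ^ 2 := by positivity
  refine ⟨hj0, by linarith, ⟨by linarith, by linarith, by linarith⟩, ?_, ?_, ?_⟩
  · have := abs_add_le (p44_x H (xyCritical - ε) j - p44_x H xyCritical j) (p44_x H xyCritical j)
    rw [sub_add_cancel] at this
    linarith [ht.1]
  · have := abs_add_le (p44_y H (xyCritical - ε) j - p44_y H xyCritical j) (p44_y H xyCritical j)
    rw [sub_add_cancel] at this
    linarith [ht.2.1]
  · have h1 : p44_q H (xyCritical - ε) j ≤ p44_dq H (xyCritical - ε) j + p44_q H xyCritical j := by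
      unfold p44_q p44_dq Hist.q
      have := norm_add_le ((H.st ((xyCritical - ε : ℝ) : ℂ) (j - H.j0)).2.2 - (H.st (xyCritical : ℂ) (j - H.j0)).2.2)
        ((H.st (xyCritical : ℂ) (j - H.j0)).2.2)
      rwa [sub_add_cancel] at this
    linarith [ht.2.2]

theorem p44_dq_add (H : Hist) (b : ℝ) (i : ℕ) :
    p44_dq H b (H.j0 + i) = ‖(H.st (b : ℂ) i).2.2 - (H.st (xyCritical : ℂ) i).2.2‖ := by
  unfold p44_dq; rw [Nat.add_sub_cancel_left]

/-- the perturbed history is inside the domain as long as it stays in the cumulative tube -/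
theorem p44_sys_inside {κ : MapC} {κe : EntC} {ρe : ℝ} {s : ℕ} {H : Hist} {P Cl A ε τ : ℝ} {K1 : ℕ}
    (hS : p44_Start κ κe ρe s H P Cl A ε τ K1) (hCl : 1 ≤ Cl) (hτ : 0 < τ) (hτCl : Cl * τ ≤ 1 / 2) (hτ1 : τ ≤ 1)
    (hτρ : τ < κ.ρ) (hτq : (Cl + 1) * τ < κ.ρ) (j : ℕ) (hK : j ≤ K1)
    (ht : ∀ i : ℕ, JJ κ s ≤ i → i ≤ j →
      |p44_x H (xyCritical - ε) i - p44_x H xyCritical i| ≤ 1 / (2 * (i : ℝ)) ∧
      |p44_y H (xyCritical - ε) i - p44_y H xyCritical i| ≤ 1 / (2 * (i : ℝ)) ∧ p44_dq H (xyCritical - ε) i ≤ 1 / (i : ℝ) ^ 2) :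
    ∀ i, H.j0 + i ≤ j → ‖H.st ((xyCritical - ε : ℝ) : ℂ) i‖ < κ.ρ := by
  refine p44_real_inside hS.sys _ hS.hb (JJ κ s) j (fun i' h => (hS.inside i' h).1) ?_
  intro i' h h'
  obtain ⟨hp, h2, -, hx, hy, hq⟩ := p44_sys_tube hS hCl hτ hτCl i' h (h'.trans hK) (ht i' h h')
  have h3 : 2 / (i' : ℝ) ≤ τ := by rw [div_le_iff₀ hp]; linarith
  have h4 : (Cl + 1) / (i' : ℝ) ^ 2 ≤ (Cl + 1) * τ := by
    rw [div_le_iff₀ (by positivity)]
    have h5 : 1 ≤ τ * (i' : ℝ) ^ 2 := by nlinarith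
    have h6 : 0 < Cl + 1 := by linarith
    nlinarith
  exact ⟨by linarith, by linarith, by linarith⟩

theorem p44_sys_step {κ : MapC} {κe : EntC} {ρe : ℝ} {s : ℕ} {H : Hist} {P Cl A ε τ : ℝ} {K1 : ℕ}
    (hS : p44_Start κ κe ρe s H P Cl A ε τ K1) (hCl : 1 ≤ Cl) (hτ : 0 < τ) (hτCl : Cl * τ ≤ 1 / 2) (hτ1 : τ ≤ 1)
    (hτρ : τ < κ.ρ) (hτq : (Cl + 1) * τ < κ.ρ) {C1 : ℝ} {j1 : ℕ} (hj1 : (j1 : ℝ) * τ ≤ 1)
    (hlip : ∀ j : ℕ, H.j0 ≤ j → j1 ≤ j → ∀ Y Y' : ℂ × ℂ × H.Q j,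
      (‖Y.1‖ ≤ 2 / (j : ℝ) ∧ ‖Y.2.1‖ ≤ 2 / (j : ℝ) ∧ ‖Y.2.2‖ ≤ (Cl + 1) / (j : ℝ) ^ 2) →
      (‖Y'.1‖ ≤ 2 / (j : ℝ) ∧ ‖Y'.2.1‖ ≤ 2 / (j : ℝ) ∧ ‖Y'.2.2‖ ≤ (Cl + 1) / (j : ℝ) ^ 2) →
      ‖((H.N j Y).1 - (Y.1 - Y.2.1 ^ 2)) - ((H.N j Y').1 - (Y'.1 - Y'.2.1 ^ 2))‖
        ≤ C1 * (max ‖Y.1 - Y'.1‖ ‖Y.2.1 - Y'.2.1‖ / (j : ℝ) ^ 2 + ‖Y.2.2 - Y'.2.2‖ / (j : ℝ)) ∧
      ‖((H.N j Y).2.1 - (Y.2.1 - Y.1 * Y.2.1)) - ((H.N j Y').2.1 - (Y'.2.1 - Y'.1 * Y'.2.1))‖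
        ≤ C1 * (max ‖Y.1 - Y'.1‖ ‖Y.2.1 - Y'.2.1‖ / (j : ℝ) ^ 2 + ‖Y.2.2 - Y'.2.2‖ / (j : ℝ)) ∧
      ‖(H.N j Y).2.2 - (H.N j Y').2.2‖
        ≤ th1 κ * ‖Y.2.2 - Y'.2.2‖ + C1 * (max ‖Y.1 - Y'.1‖ ‖Y.2.1 - Y'.2.1‖ / (j : ℝ)))
    (j : ℕ) (hJ : JJ κ s ≤ j) (hK : j < K1)
    (ht : ∀ i : ℕ, JJ κ s ≤ i → i ≤ j →
      |p44_x H (xyCritical - ε) i - p44_x H xyCritical i| ≤ 1 / (2 * (i : ℝ)) ∧
      |p44_y H (xyCritical - ε) i - p44_y H xyCritical i| ≤ 1 / (2 * (i : ℝ)) ∧ p44_dq H (xyCritical - ε) i ≤ 1 / (i : ℝ) ^ 2) :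
    |(p44_x H (xyCritical - ε) (j + 1) - p44_x H xyCritical (j + 1))
        - ((p44_x H (xyCritical - ε) j - p44_x H xyCritical j)
          - 2 * p44_y H xyCritical j * (p44_y H (xyCritical - ε) j - p44_y H xyCritical j)
          - (p44_y H (xyCritical - ε) j - p44_y H xyCritical j) ^ 2)|
      ≤ C1 * (max |p44_x H (xyCritical - ε) j - p44_x H xyCritical j| |p44_y H (xyCritical - ε) j - p44_y H xyCritical j|
          / (j : ℝ) ^ 2 + p44_dq H (xyCritical - ε) j / (j : ℝ)) ∧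
    |(p44_y H (xyCritical - ε) (j + 1) - p44_y H xyCritical (j + 1))
        - ((p44_y H (xyCritical - ε) j - p44_y H xyCritical j)
          - p44_x H xyCritical j * (p44_y H (xyCritical - ε) j - p44_y H xyCritical j)
          - p44_y H xyCritical j * (p44_x H (xyCritical - ε) j - p44_x H xyCritical j)
          - (p44_x H (xyCritical - ε) j - p44_x H xyCritical j) * (p44_y H (xyCritical - ε) j - p44_y H xyCritical j))|
      ≤ C1 * (max |p44_x H (xyCritical - ε) j - p44_x H xyCritical j| |p44_y H (xyCritical - ε) j - p44_y H xyCritical j|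
          / (j : ℝ) ^ 2 + p44_dq H (xyCritical - ε) j / (j : ℝ)) ∧
    p44_dq H (xyCritical - ε) (j + 1) ≤ th1 κ * p44_dq H (xyCritical - ε) j
      + C1 * (max |p44_x H (xyCritical - ε) j - p44_x H xyCritical j| |p44_y H (xyCritical - ε) j - p44_y H xyCritical j|
          / (j : ℝ)) := by
  have hin := p44_sys_inside hS hCl hτ hτCl hτ1 hτρ hτq j hK.le ht
  obtain ⟨hp, h2, ⟨cx, cy, cq⟩, bx, by', bq⟩ := p44_sys_tube hS hCl hτ hτCl j hJ hK.le (ht j hJ le_rfl)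
  have hjj1 : j1 ≤ j := by
    have : (j1 : ℝ) ≤ j := by
      by_contra hcon
      push Not at hcon
      nlinarith
    exact_mod_cast this
  obtain ⟨i, rfl⟩ := Nat.exists_eq_add_of_le (hS.j0J.trans hJ)
  have hrb := p44_real hS.sys _ hS.hb i (fun i' hi' => hin i' (by omega))
  have hrc := p44_real hS.sys xyCritical hS.hbc i (fun i' hi' => hS.crit_in i' (by omega))
  rw [Nat.add_assoc]
  simp only [p44_x_add, p44_y_add, p44_q_add, p44_dq_add] at cx cy cq bx by' bq ⊢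
  obtain ⟨X, hX⟩ : ∃ X : ℝ, X = (H.x ((xyCritical - ε : ℝ) : ℂ) i).re := ⟨_, rfl⟩
  obtain ⟨Y, hY⟩ : ∃ Y : ℝ, Y = (H.y ((xyCritical - ε : ℝ) : ℂ) i).re := ⟨_, rfl⟩
  obtain ⟨Xc, hXc⟩ : ∃ X : ℝ, X = (H.x ((xyCritical : ℝ) : ℂ) i).re := ⟨_, rfl⟩
  obtain ⟨Yc, hYc⟩ : ∃ Y : ℝ, Y = (H.y ((xyCritical : ℝ) : ℂ) i).re := ⟨_, rfl⟩
  rw [← hX, ← hY] at hrb
  rw [← hXc, ← hYc] at hrc
  rw [← hX, ← hY, ← hXc, ← hYc]
  rw [← hX] at bx
  rw [← hY] at by'
  rw [← hXc] at cx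
  rw [← hYc] at cy
  have e1 : (H.st ((xyCritical - ε : ℝ) : ℂ) i).1 = (X : ℂ) := hrb.1
  have e2 : (H.st ((xyCritical - ε : ℝ) : ℂ) i).2.1 = (Y : ℂ) := hrb.2
  have e3 : (H.st ((xyCritical : ℝ) : ℂ) i).1 = (Xc : ℂ) := hrc.1
  have e4 : (H.st ((xyCritical : ℝ) : ℂ) i).2.1 = (Yc : ℂ) := hrc.2
  have L := hlip (H.j0 + i) (Nat.le_add_right _ _) hjj1 (H.st ((xyCritical - ε : ℝ) : ℂ) i) (H.st ((xyCritical : ℝ) : ℂ) i)
    ⟨by rw [e1, Complex.norm_real, Real.norm_eq_abs]; exact bx, by rw [e2, Complex.norm_real, Real.norm_eq_abs]; exact by', bq⟩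
    ⟨by rw [e3, Complex.norm_real, Real.norm_eq_abs]; exact cx, by rw [e4, Complex.norm_real, Real.norm_eq_abs]; exact cy, cq⟩
  rw [e1, e2, e3, e4, ← Complex.ofReal_sub, ← Complex.ofReal_sub, Complex.norm_real, Complex.norm_real, Real.norm_eq_abs,
    Real.norm_eq_abs] at L
  exact ⟨p44_re_step_x L.1, p44_re_step_y L.2.1, L.2.2⟩

theorem p44_sys_of_start (κ : MapC) (P Cl A : ℝ) (hCl : 1 ≤ Cl) : ∃ C τ0 : ℝ, 1 ≤ C ∧ 0 < τ0 ∧
    ∀ (κe : EntC) (ρe : ℝ) (s : ℕ) (H : Hist) (ε τ : ℝ) (K1 : ℕ), 0 < ε → 0 < τ → τ ≤ τ0 →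
      p44_Start κ κe ρe s H P Cl A ε τ K1 →
      p44_Sys C κ.θ κ.ρ P ε τ (JJ κ s) K1
        (p44_x H (xyCritical - ε)) (p44_y H (xyCritical - ε)) (p44_q H (xyCritical - ε))
        (p44_x H xyCritical) (p44_y H xyCritical) (p44_dq H (xyCritical - ε)) := by
  obtain ⟨C1, j1, hC1, hj1, hlip⟩ := p44_lip κ (Cl + 1) (by linarith)
  have hρ := κ.hρ
  have hj1' : (0 : ℝ) < j1 := by exact_mod_cast hj1
  have hCl0 : 0 < Cl := by linarith
  refine ⟨max κ.C (max Cl C1), min (min 1 (κ.ρ / 2)) (min (κ.ρ / (2 * (Cl + 1))) (min (1 / (2 * Cl)) (1 / j1))),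
    le_max_of_le_left κ.hC, by positivity, ?_⟩
  intro κe ρe s H ε τ K1 hε hτ hτ0 hS
  have hτ1 : τ ≤ 1 := hτ0.trans ((min_le_left _ _).trans (min_le_left _ _))
  have hτρ : τ < κ.ρ := by
    have : τ ≤ κ.ρ / 2 := hτ0.trans ((min_le_left _ _).trans (min_le_right _ _))
    linarith
  have hτq : (Cl + 1) * τ < κ.ρ := by
    have h1 : τ ≤ κ.ρ / (2 * (Cl + 1)) := hτ0.trans ((min_le_right _ _).trans (min_le_left _ _))
    rw [le_div_iff₀ (by positivity)] at h1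
    nlinarith
  have hτCl : Cl * τ ≤ 1 / 2 := by
    have h1 : τ ≤ 1 / (2 * Cl) := hτ0.trans ((min_le_right _ _).trans ((min_le_right _ _).trans (min_le_left _ _)))
    rw [le_div_iff₀ (by positivity)] at h1
    linarith
  have hτj : (j1 : ℝ) * τ ≤ 1 := by
    have h1 : τ ≤ 1 / (j1 : ℝ) := hτ0.trans ((min_le_right _ _).trans ((min_le_right _ _).trans (min_le_right _ _)))
    rw [le_div_iff₀ hj1'] at h1
    linarith
  have hCa : κ.C ≤ max κ.C (max Cl C1) := le_max_left _ _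
  have hCb : Cl ≤ max κ.C (max Cl C1) := (le_max_left _ _).trans (le_max_right _ _)
  have hCc : C1 ≤ max κ.C (max Cl C1) := (le_max_right _ _).trans (le_max_right _ _)
  have hJ0 : (0 : ℝ) < JJ κ s := by exact_mod_cast hS.J_pos
  have hJsub : H.j0 + (JJ κ s - H.j0) = JJ κ s := Nat.add_sub_cancel' hS.j0J
  refine
    { J_pos := hS.J_pos
      JK := hS.JK
      flow := p44_flow_mono (p44_flow hS.sys _ hS.hb (JJ κ s) hS.j0J (fun i h => (hS.inside i h).1)) hCa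
      early :=
        { crit_x := fun j hJ hK => by
            have hj0 : (0 : ℝ) < j := by exact_mod_cast hS.J_pos.trans hJ
            have hl0 : 0 ≤ Real.log (2 + j) := Real.log_nonneg (by linarith)
            refine (p44_crit_real hS j hJ hK).1.trans ?_
            exact div_le_div_of_nonneg_right (mul_le_mul_of_nonneg_right hCb hl0) (by positivity)
          crit_y := fun j hJ hK => by
            have hj0 : (0 : ℝ) < j := by exact_mod_cast hS.J_pos.trans hJ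
            have hl0 : 0 ≤ Real.log (2 + j) := Real.log_nonneg (by linarith)
            refine (p44_crit_real hS j hJ hK).2.1.trans ?_
            exact div_le_div_of_nonneg_right (mul_le_mul_of_nonneg_right hCb hl0) (by positivity)
          dq_nonneg := fun j => norm_nonneg _
          step := fun j hJ hK ht => by
            have hj0 : (0 : ℝ) < j := by exact_mod_cast hS.J_pos.trans hJ
            obtain ⟨s1, s2, s3⟩ := p44_sys_step hS hCl hτ hτCl hτ1 hτρ hτq hτj (hlip H hS.sys.map) j hJ hK ht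
            have hdq : 0 ≤ p44_dq H (xyCritical - ε) j := norm_nonneg _
            have hm : 0 ≤ max |p44_x H (xyCritical - ε) j - p44_x H xyCritical j|
                |p44_y H (xyCritical - ε) j - p44_y H xyCritical j| := le_max_of_le_left (abs_nonneg _)
            exact ⟨s1.trans (mul_le_mul_of_nonneg_right hCc (by positivity)),
              s2.trans (mul_le_mul_of_nonneg_right hCc (by positivity)),
              s3.trans (add_le_add le_rfl (mul_le_mul_of_nonneg_right hCc (by positivity)))⟩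
          init_a := by
            have h1 := (Complex.abs_re_le_norm _).trans hS.sec_x
            simp only [Complex.add_re, Complex.sub_re, Complex.ofReal_re] at h1
            exact h1
          init_b := by
            have h1 := (Complex.abs_re_le_norm _).trans hS.sec_y
            simp only [Complex.sub_re, Complex.ofReal_re] at h1
            exact h1
          init_q := hS.sec_q.trans (mul_le_mul_of_nonneg_right hCb hε.le)
          logJ := hS.logJ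
          epsK := hS.epsK }
      q_le := fun j hJ hK => by
        have hj0 : (0 : ℝ) < j := by exact_mod_cast hS.J_pos.trans hJ
        have h1 : p44_q H (xyCritical - ε) j ≤ p44_dq H (xyCritical - ε) j + p44_q H xyCritical j := by
          unfold p44_q p44_dq Hist.q
          have := norm_add_le ((H.st ((xyCritical - ε : ℝ) : ℂ) (j - H.j0)).2.2 - (H.st (xyCritical : ℂ) (j - H.j0)).2.2)
            ((H.st (xyCritical : ℂ) (j - H.j0)).2.2)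
          rwa [sub_add_cancel] at this
        have h2 := (p44_crit_real hS j hJ hK).2.2
        have h3 : Cl / (j : ℝ) ^ 2 ≤ max κ.C (max Cl C1) / (j : ℝ) ^ 2 := div_le_div_of_nonneg_right hCb (by positivity)
        linarith
      logK := hS.logK }

end Claimed.Agent.R285.E4
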