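import Claimed.Agent.R285.E4.P44Model
import Claimed.Agent.R285.Flow.CauchyHist

/-!
# ROW 285, cut of [E] P4.4, LEAF P44-TOR (PROVED, helper14): size of the unbalanced scalars and one step of a torus remainder (glue from `MapOK.sc_t, sc_z, Ψ_bd`)

`‖sc j Y‖ = max ‖t‖ ‖z‖`, `‖t‖ ≤ ‖x‖/b_* + C (|W|² + ‖Q‖)`, `‖z‖ ≤ ‖y‖/√(b_* Hq) + C (‖y‖ + |W|² + ‖Q‖)` (`exp (-c j) ≤ 1`), `‖x‖ < ρ`.  `b_* = 2 log L > 0`.
`ts b h i = (sc (st b i), tor b h i)`, sup norm.  `tor b h (i+1) = Ψ (j0+i) h (ts b h i)` by definition.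
-/

set_option autoImplicit false

namespace Claimed.Agent.R285.E4

open Claimed.Agent.R285.Flow

theorem p44_sc_bd (κ : MapC) : ∃ Cs : ℝ, 1 ≤ Cs ∧ ∀ (H : Hist), Flow.MapOK κ H → ∀ j, H.j0 ≤ j →
    ∀ Y ∈ Metric.ball (0 : ℂ × ℂ × H.Q j) κ.ρ, ‖H.sc j Y‖ ≤ Cs * (wn Y + ‖Y.2.2‖) := by
  have hbs := κ.bs_pos
  have hC := κ.hC
  have hρ := κ.hρ
  have hsq : 0 < Real.sqrt (κ.bs * κ.Hq) := Real.sqrt_pos.2 (mul_pos hbs κ.hH)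
  refine ⟨1 + 1 / κ.bs + 1 / Real.sqrt (κ.bs * κ.Hq) + 2 * κ.C + κ.C * κ.ρ, ?_, ?_⟩
  · have : 0 ≤ 1 / κ.bs + 1 / Real.sqrt (κ.bs * κ.Hq) + 2 * κ.C + κ.C * κ.ρ := by positivity
    linarith
  intro H hM j hj Y hY
  have hYn : ‖Y‖ < κ.ρ := by rwa [mem_ball_zero_iff] at hY
  obtain ⟨hw, hq⟩ := cau_norm_lt.1 hYn
  have hx : ‖Y.1‖ ≤ wn Y := le_max_left _ _
  have hy : ‖Y.2.1‖ ≤ wn Y := le_max_right _ _
  have hw0 : 0 ≤ wn Y := cau_wn_nonneg Y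
  have hq0 : 0 ≤ ‖Y.2.2‖ := norm_nonneg _
  have hx2 : wn Y ^ 2 ≤ κ.ρ * wn Y := by
    rw [sq]
    exact mul_le_mul hw.le le_rfl hw0 hρ.le
  have t1 := hM.sc_t j hj Y hY
  have t2 := hM.sc_z j hj Y hY
  have n1 : ‖Y.1 / (κ.bs : ℂ)‖ = ‖Y.1‖ / κ.bs := by
    rw [norm_div, Complex.norm_real, Real.norm_eq_abs, abs_of_pos hbs]
  have n2 : ‖Y.2.1 / (Real.sqrt (κ.bs * κ.Hq) : ℂ)‖ = ‖Y.2.1‖ / Real.sqrt (κ.bs * κ.Hq) := by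
    rw [norm_div, Complex.norm_real, Real.norm_eq_abs, abs_of_pos hsq]
  have hexp : Real.exp (-κ.c * j) ≤ 1 := by
    rw [Real.exp_le_one_iff]
    have : 0 ≤ κ.c * (j : ℝ) := mul_nonneg κ.hc.le (Nat.cast_nonneg _)
    linarith
  obtain ⟨S, hS⟩ : ∃ S, S = wn Y + ‖Y.2.2‖ := ⟨_, rfl⟩
  have hS0 : 0 ≤ S := by rw [hS]; positivity
  have hwS : wn Y ≤ S := by rw [hS]; linarith
  have hqS : ‖Y.2.2‖ ≤ S := by rw [hS]; linarith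
  rw [← hS]
  have b1 : ‖(H.sc j Y).1‖ ≤ (1 / κ.bs + κ.C + κ.C * κ.ρ) * S := by
    have h1 : ‖(H.sc j Y).1‖ ≤ ‖Y.1 / (κ.bs : ℂ)‖ + κ.C * (wn Y ^ 2 + ‖Y.2.2‖) := by
      have := norm_sub_norm_le (H.sc j Y).1 (Y.1 / (κ.bs : ℂ))
      linarith
    rw [n1] at h1
    have h2 : ‖Y.1‖ / κ.bs ≤ 1 / κ.bs * S := by
      rw [div_eq_mul_one_div, mul_comm]
      exact mul_le_mul_of_nonneg_left (hx.trans hwS) (by positivity)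
    have h3 : κ.C * (wn Y ^ 2 + ‖Y.2.2‖) ≤ κ.C * (κ.ρ * S + S) := by
      have : κ.ρ * wn Y ≤ κ.ρ * S := by gcongr
      gcongr
      linarith
    nlinarith
  have b2 : ‖(H.sc j Y).2‖ ≤ (1 / Real.sqrt (κ.bs * κ.Hq) + 2 * κ.C + κ.C * κ.ρ) * S := by
    have h1 : ‖(H.sc j Y).2‖ ≤ ‖Y.2.1 / (Real.sqrt (κ.bs * κ.Hq) : ℂ)‖
        + κ.C * (Real.exp (-κ.c * j) * ‖Y.2.1‖ + wn Y ^ 2 + ‖Y.2.2‖) := by
      have := norm_sub_norm_le (H.sc j Y).2 (Y.2.1 / (Real.sqrt (κ.bs * κ.Hq) : ℂ))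
      linarith
    rw [n2] at h1
    have h2 : ‖Y.2.1‖ / Real.sqrt (κ.bs * κ.Hq) ≤ 1 / Real.sqrt (κ.bs * κ.Hq) * S := by
      rw [div_eq_mul_one_div, mul_comm]
      exact mul_le_mul_of_nonneg_left (hy.trans hwS) (by positivity)
    have h4 : Real.exp (-κ.c * j) * ‖Y.2.1‖ ≤ S := by
      calc Real.exp (-κ.c * j) * ‖Y.2.1‖ ≤ 1 * ‖Y.2.1‖ := by gcongr
        _ = ‖Y.2.1‖ := one_mul _
        _ ≤ S := hy.trans hwS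
    have h3 : κ.C * (Real.exp (-κ.c * j) * ‖Y.2.1‖ + wn Y ^ 2 + ‖Y.2.2‖) ≤ κ.C * (S + κ.ρ * S + S) := by
      have : κ.ρ * wn Y ≤ κ.ρ * S := by gcongr
      gcongr
      linarith
    nlinarith
  rw [Prod.norm_def]
  have p1 : 0 ≤ 1 / κ.bs * S := by positivity
  have p2 : 0 ≤ 1 / Real.sqrt (κ.bs * κ.Hq) * S := by positivity
  have p3 : 0 ≤ κ.C * S := by positivity
  refine max_le ?_ ?_ <;> nlinarith

theorem p44_tor_step (κ : MapC) : ∃ Ct ρ3 : ℝ, 1 ≤ Ct ∧ 0 < ρ3 ∧ ∀ (H : Hist), Flow.MapOK κ H → ∀ (b : ℂ) (h i : ℕ),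
    ‖H.st b i‖ < κ.ρ → wn (H.st b i) + H.q b i + ‖H.tor b h i‖ ≤ ρ3 →
      ‖H.ts b h i‖ < κ.ρ ∧
      (H.j0 + i < h →
        ‖H.tor b h (i + 1)‖ ≤ κ.θ * ‖H.tor b h i‖ + Ct * (wn (H.st b i) + H.q b i + ‖H.tor b h i‖) ^ 2) := by
  obtain ⟨Cs, hCs, Hsc⟩ := p44_sc_bd κ
  have hC := κ.hC
  have hρ := κ.hρ
  have hCs0 : 0 < Cs := by linarith
  refine ⟨κ.C * Cs ^ 2, κ.ρ / (2 * Cs), ?_, by positivity, ?_⟩
  · nlinarith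
  intro H hM b h i hst hS
  have hj0 : H.j0 ≤ H.j0 + i := Nat.le_add_right _ _
  have hY : H.st b i ∈ Metric.ball (0 : ℂ × ℂ × H.Q (H.j0 + i)) κ.ρ := by rwa [mem_ball_zero_iff]
  have hsc := Hsc H hM (H.j0 + i) hj0 _ hY
  have hq : H.q b i = ‖(H.st b i).2.2‖ := rfl
  obtain ⟨S, hSdef⟩ : ∃ S, S = wn (H.st b i) + H.q b i + ‖H.tor b h i‖ := ⟨_, rfl⟩
  rw [← hSdef] at hS ⊢
  have hr0 : 0 ≤ ‖H.tor b h i‖ := norm_nonneg _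
  have hw0 : 0 ≤ wn (H.st b i) := cau_wn_nonneg _
  have hq0 : 0 ≤ H.q b i := norm_nonneg _
  have hS0 : 0 ≤ S := by rw [hSdef]; positivity
  have hts : ‖H.ts b h i‖ ≤ Cs * S := by
    unfold Hist.ts
    rw [Prod.norm_def]
    refine max_le ?_ ?_
    · refine hsc.trans ?_
      rw [← hq]
      apply mul_le_mul_of_nonneg_left _ hCs0.le
      rw [hSdef]; linarith
    · have : ‖H.tor b h i‖ ≤ S := by rw [hSdef]; linarith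
      calc ‖H.tor b h i‖ ≤ S := this
        _ ≤ Cs * S := le_mul_of_one_le_left hS0 hCs
  have hlt : ‖H.ts b h i‖ < κ.ρ := by
    rw [le_div_iff₀ (by positivity)] at hS
    have : Cs * S ≤ κ.ρ / 2 := by linarith
    linarith
  refine ⟨hlt, fun hjh => ?_⟩
  have hX : H.ts b h i ∈ Metric.ball (0 : (ℂ × ℂ) × H.T (H.j0 + i) h) κ.ρ := by rwa [mem_ball_zero_iff]
  have hΨ := hM.Ψ_bd (H.j0 + i) h hj0 hjh _ hX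
  have e1 : H.tor b h (i + 1) = H.Ψ (H.j0 + i) h (H.ts b h i) := rfl
  have e2 : (H.ts b h i).2 = H.tor b h i := rfl
  rw [e1]
  rw [e2] at hΨ
  refine hΨ.trans ?_
  have h2 : ‖H.ts b h i‖ ^ 2 ≤ (Cs * S) ^ 2 := pow_le_pow_left₀ (norm_nonneg _) hts 2
  have h3 : κ.C * ‖H.ts b h i‖ ^ 2 ≤ κ.C * (Cs * S) ^ 2 := by gcongr
  have h4 : κ.C * (Cs * S) ^ 2 = κ.C * Cs ^ 2 * S ^ 2 := by ring
  linarith

end Claimed.Agent.R285.E4
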