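import Claimed.Agent.R285.E4.P44Sys
import Claimed.Agent.R285.E4.P44Tor
import Claimed.Agent.R285.E4.P44Master

/-!
# ROW 285, cut of [E] P4.4, LEAF P44-TAME: before the exit the whole history (plane and stopped torus) is inside the domain, remainders `O(w²)` (glue)

`b = b_c - ε`, `J = JJ κ s`, `x = p44_x H b`, `y = p44_y H b`, `q = p44_q H b`, `h = j0 + i` (the stop = the terminal index), `r j = p44_r H b h j`.
Constants: `C, τ0 := p44_sys_of_start κ P Cl A`;  `d0, K := p44_master C κ.θ κ.ρ P`;  `Ct, ρ3 := p44_tor_step κ`;  `K', ρ2 := p44_slave_r Ct κ.θ K (8 Cl) ρ3`;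
`d1 := min d0 (min (ρ2/3) …)` with `3 d1 < κ.ρ`, `9 K d1² < κ.ρ`.
1. `p44_Sys` from `p44_sys_of_start`; first part of `p44_master`: for all `J ≤ j ≤ h` (`p44_NoExit` is monotone in the last argument): `w_j ≤ 3d`, `q_j ≤ K w_j²`, ratio; `w_J ≥ 1/(2J)`.
2. `p44_real_inside` (with `p44_Start.inside` below `J`): `‖st b i'‖ < κ.ρ` for all `i' ≤ i`; `p44_wn`: `wn (st b i') = w_{j0+i'}`.
3. torus: `r_J ≤ ‖tor b_c h (J-j0)‖ + Cl ε ≤ Cl/J² + Cl ε ≤ 2 Cl/J² ≤ 8 Cl w_J²`  (`critT`, `sec_t`; `j0 + (J - j0) = J`; `ε J² ≤ ε K1² ≤ τ² ≤ 1`);  step: `p44_tor_step` for `J ≤ j < h`;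
   `p44_slave_r` with `M = h`: `r_j ≤ K' w_j²`, `w_j + q_j + r_j ≤ ρ3`.
4. `Inside`: stages with `j0 + i' ≤ J`: `p44_Start.inside`; the others: 2. and the first conclusion of `p44_tor_step`.
-/

set_option autoImplicit false

namespace Claimed.Agent.R285.E4

open Claims.C0459
open Claimed.Agent.R285.Flow

theorem p44_tame (κ : MapC) (P Cl A : ℝ) (hP : 0 < P) (hCl : 1 ≤ Cl) :
    ∃ d1 K : ℝ, 0 < d1 ∧ 1 ≤ K ∧ ∀ d : ℝ, 0 < d → d ≤ d1 → ∃ τ1 : ℝ, 0 < τ1 ∧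
    ∀ (κe : EntC) (ρe : ℝ) (s : ℕ) (H : Hist) (ε τ : ℝ) (K1 : ℕ), 0 < ε → 0 < τ → τ ≤ τ1 →
      p44_Start κ κe ρe s H P Cl A ε τ K1 →
      ∀ i : ℕ, JJ κ s ≤ H.j0 + i → ((H.j0 + i : ℕ) : ℝ) ≤ A / Real.sqrt ε →
        p44_NoExit d (JJ κ s) (p44_x H (xyCritical - ε)) (H.j0 + i) →
        H.Inside κ.ρ ((xyCritical - ε : ℝ) : ℂ) (H.j0 + i) i ∧
        wn (H.st ((xyCritical - ε : ℝ) : ℂ) i)
          = p44_w (p44_x H (xyCritical - ε)) (p44_y H (xyCritical - ε)) (H.j0 + i) ∧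
        wn (H.st ((xyCritical - ε : ℝ) : ℂ) i) ≤ 3 * d ∧
        H.q ((xyCritical - ε : ℝ) : ℂ) i ≤ K * wn (H.st ((xyCritical - ε : ℝ) : ℂ) i) ^ 2 ∧
        ‖H.tor ((xyCritical - ε : ℝ) : ℂ) (H.j0 + i) i‖ ≤ K * wn (H.st ((xyCritical - ε : ℝ) : ℂ) i) ^ 2 := by
  obtain ⟨C, τ0, hC, hτ0, hsys⟩ := p44_sys_of_start κ P Cl A hCl
  obtain ⟨d0, Km, hd0, hKm, hmaster⟩ := p44_master C κ.θ κ.ρ P hC κ.hθ0 κ.hθ κ.hρ hP
  obtain ⟨Ct, ρ3, hCt, hρ3, htor⟩ := p44_tor_step κ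
  obtain ⟨K', ρ2, hK', hρ2, hslave⟩ := p44_slave_r Ct κ.θ Km (8 * Cl) ρ3 hCt κ.hθ0 κ.hθ (by linarith) hρ3
  have hρ := κ.hρ
  refine ⟨min d0 (min (ρ2 / 3) (min (κ.ρ / 6) (min (1 / 3) (κ.ρ / (6 * Km))))), max Km K', by positivity,
    le_max_of_le_left hKm, ?_⟩
  intro d hd hd1
  have hdd0 : d ≤ d0 := hd1.trans (min_le_left _ _)
  have hdρ2 : 3 * d ≤ ρ2 := by
    have : d ≤ ρ2 / 3 := hd1.trans ((min_le_right _ _).trans (min_le_left _ _))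
    linarith
  have hdρ : 3 * d < κ.ρ := by
    have : d ≤ κ.ρ / 6 := hd1.trans ((min_le_right _ _).trans ((min_le_right _ _).trans (min_le_left _ _)))
    linarith
  have hd3 : 3 * d ≤ 1 := by
    have : d ≤ 1 / 3 := hd1.trans ((min_le_right _ _).trans ((min_le_right _ _).trans ((min_le_right _ _).trans (min_le_left _ _))))
    linarith
  have hdK : Km * (3 * d) < κ.ρ := by
    have h1 : d ≤ κ.ρ / (6 * Km) :=
      hd1.trans ((min_le_right _ _).trans ((min_le_right _ _).trans ((min_le_right _ _).trans (min_le_right _ _))))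
    rw [le_div_iff₀ (by positivity)] at h1
    nlinarith
  obtain ⟨⟨τm, hτm, hM1⟩, -, -⟩ := hmaster d hd hdd0
  refine ⟨min τ0 (min τm 1), by positivity, ?_⟩
  intro κe ρe s H ε τ K1 hε hτ hτ1 hS i hJi hiA hne
  have hSys := hsys κe ρe s H ε τ K1 hε hτ (hτ1.trans (min_le_left _ _)) hS
  obtain ⟨hwJ, hM⟩ := hM1 ε τ (JJ κ s) K1 _ _ _ _ _ _ hε hτ (hτ1.trans ((min_le_right _ _).trans (min_le_left _ _))) hSys
  have hτle1 : τ ≤ 1 := hτ1.trans ((min_le_right _ _).trans (min_le_right _ _))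
  -- abbreviations
  obtain ⟨b, hbdef⟩ : ∃ b : ℝ, b = xyCritical - ε := ⟨_, rfl⟩
  rw [← hbdef] at hM hwJ hne ⊢
  have hb : (b : ℂ) ∈ disk κe s := by rw [hbdef]; exact hS.hb
  have hins : ∀ i, H.j0 + i ≤ JJ κ s → ‖H.st (b : ℂ) i‖ < κ.ρ ∧
      ∀ h : ℕ, JJ κ s ≤ h → (h : ℝ) ≤ A / Real.sqrt ε → ‖H.ts (b : ℂ) h i‖ < κ.ρ := by rw [hbdef]; exact hS.inside
  have hall : ∀ j, JJ κ s ≤ j → j ≤ H.j0 + i →
      p44_w (p44_x H b) (p44_y H b) j ≤ 3 * d ∧ p44_q H b j ≤ Km * p44_w (p44_x H b) (p44_y H b) j ^ 2 ∧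
      (1 + κ.θ) / 2 * p44_w (p44_x H b) (p44_y H b) j ^ 2 ≤ p44_w (p44_x H b) (p44_y H b) (j + 1) ^ 2 := by
    intro j hj hjh
    obtain ⟨h1, -, h3, h4⟩ := hM j hj (fun i' hi' hlt => hne i' hi' (lt_of_lt_of_le hlt hjh))
    exact ⟨h1, h3, h4⟩
  have hw0 : ∀ j, 0 ≤ p44_w (p44_x H b) (p44_y H b) j := fun j => le_max_of_le_left (abs_nonneg _)
  have hqρ : ∀ j, JJ κ s ≤ j → j ≤ H.j0 + i → p44_q H b j < κ.ρ := by
    intro j hj hjh
    obtain ⟨h1, h2, -⟩ := hall j hj hjh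
    have h3 : p44_w (p44_x H b) (p44_y H b) j ^ 2 ≤ 3 * d := by nlinarith [hw0 j]
    have h4 : Km * p44_w (p44_x H b) (p44_y H b) j ^ 2 ≤ Km * (3 * d) := mul_le_mul_of_nonneg_left h3 (by linarith)
    linarith
  have hin : ∀ i', H.j0 + i' ≤ H.j0 + i → ‖H.st (b : ℂ) i'‖ < κ.ρ := by
    refine p44_real_inside hS.sys b hb (JJ κ s) (H.j0 + i) (fun i' h => (hins i' h).1) ?_
    intro j hj hjh
    obtain ⟨h1, -, -⟩ := hall j hj hjh
    exact ⟨lt_of_le_of_lt ((le_max_left _ _).trans h1) hdρ, lt_of_le_of_lt ((le_max_right _ _).trans h1) hdρ, hqρ j hj hjh⟩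
  have hwn : ∀ i', i' ≤ i → wn (H.st (b : ℂ) i') = p44_w (p44_x H b) (p44_y H b) (H.j0 + i') := fun i' hi' =>
    p44_wn hS.sys b hb i' (fun i'' hi'' => hin i'' (by omega))
  -- the torus remainder
  have hJsub : H.j0 + (JJ κ s - H.j0) = JJ κ s := Nat.add_sub_cancel' hS.j0J
  have hJ0 : (0 : ℝ) < JJ κ s := by exact_mod_cast hS.J_pos
  have hrJ : p44_r H b (H.j0 + i) (JJ κ s) ≤ 8 * Cl * p44_w (p44_x H b) (p44_y H b) (JJ κ s) ^ 2 := by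
    have h1 := hS.critT (H.j0 + i) hJi hiA
    have h2 := hS.sec_t (H.j0 + i) hJi hiA
    unfold CritTor at h1
    have hcast : ((H.j0 + (JJ κ s - H.j0) : ℕ) : ℝ) = (JJ κ s : ℝ) := by rw [hJsub]
    rw [hcast] at h1
    rw [← hbdef] at h2
    have h3 : p44_r H b (H.j0 + i) (JJ κ s) ≤ Cl * ε + Cl / (JJ κ s : ℝ) ^ 2 := by
      unfold p44_r
      have := norm_add_le (H.tor (b : ℂ) (H.j0 + i) (JJ κ s - H.j0) - H.tor xyCritical (H.j0 + i) (JJ κ s - H.j0))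
        (H.tor xyCritical (H.j0 + i) (JJ κ s - H.j0))
      rw [sub_add_cancel] at this
      linarith
    have h4 : ε * (JJ κ s : ℝ) ^ 2 ≤ 1 := by
      have h5 : (JJ κ s : ℝ) ≤ K1 := by exact_mod_cast hS.JK
      have h6 : (JJ κ s : ℝ) ^ 2 ≤ (K1 : ℝ) ^ 2 := pow_le_pow_left₀ hJ0.le h5 2
      have h7 := hS.epsK
      have h8 : τ ^ 2 ≤ 1 := by nlinarith
      nlinarith
    have h5 : ε ≤ 1 / (JJ κ s : ℝ) ^ 2 := by rw [le_div_iff₀ (by positivity)]; exact h4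
    have h6 : (1 / (2 * (JJ κ s : ℝ))) ^ 2 ≤ p44_w (p44_x H b) (p44_y H b) (JJ κ s) ^ 2 :=
      pow_le_pow_left₀ (by positivity) hwJ 2
    have h7 : 8 * Cl * (1 / (2 * (JJ κ s : ℝ))) ^ 2 = Cl * (1 / (JJ κ s : ℝ) ^ 2) + Cl / (JJ κ s : ℝ) ^ 2 := by
      field_simp; ring
    have h8 : Cl * ε ≤ Cl * (1 / (JJ κ s : ℝ) ^ 2) := mul_le_mul_of_nonneg_left h5 (by linarith)
    have h9 : 8 * Cl * (1 / (2 * (JJ κ s : ℝ))) ^ 2 ≤ 8 * Cl * p44_w (p44_x H b) (p44_y H b) (JJ κ s) ^ 2 :=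
      mul_le_mul_of_nonneg_left h6 (by linarith)
    linarith
  have hsl := hslave (JJ κ s) (H.j0 + i) (p44_w (p44_x H b) (p44_y H b)) (p44_q H b) (p44_r H b (H.j0 + i))
    (fun j => norm_nonneg _)
    (fun j hj hjh => ⟨hw0 j, (hall j hj hjh).1.trans hdρ2, norm_nonneg _, (hall j hj hjh).2.1⟩)
    (fun j hj hjh => (hall j hj hjh.le).2.2) hrJ
    (by
      intro j hj hjh hsum
      obtain ⟨i', rfl⟩ := Nat.exists_eq_add_of_le (hS.j0J.trans hj)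
      have hi' : i' ≤ i := by omega
      have h1 := (htor H hS.sys.map (b : ℂ) (H.j0 + i) i' (hin i' hjh.le) (by
        rw [hwn i' hi', ← p44_q_add]
        have : ‖H.tor (b : ℂ) (H.j0 + i) i'‖ = p44_r H b (H.j0 + i) (H.j0 + i') := by
          unfold p44_r; rw [Nat.add_sub_cancel_left]
        rw [this]; exact hsum)).2 hjh
      have e1 : p44_r H b (H.j0 + i) (H.j0 + i' + 1) = ‖H.tor (b : ℂ) (H.j0 + i) (i' + 1)‖ := by
        unfold p44_r; rw [Nat.add_assoc, Nat.add_sub_cancel_left]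
      have e2 : p44_r H b (H.j0 + i) (H.j0 + i') = ‖H.tor (b : ℂ) (H.j0 + i) i'‖ := by
        unfold p44_r; rw [Nat.add_sub_cancel_left]
      rw [e1, e2, ← hwn i' hi', p44_q_add]
      exact h1)
  have er : ∀ i', p44_r H b (H.j0 + i) (H.j0 + i') = ‖H.tor (b : ℂ) (H.j0 + i) i'‖ := fun i' => by
    unfold p44_r; rw [Nat.add_sub_cancel_left]
  refine ⟨?_, hwn i le_rfl, ?_, ?_, ?_⟩
  · intro i' hi'
    by_cases hc : H.j0 + i' ≤ JJ κ s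
    · exact ⟨(hins i' hc).1, (hins i' hc).2 _ hJi hiA⟩
    · push Not at hc
      refine ⟨hin i' (by omega), ?_⟩
      have h1 := (hsl (H.j0 + i') hc.le (by omega)).2
      rw [er, ← hwn i' hi', p44_q_add] at h1
      exact (htor H hS.sys.map (b : ℂ) (H.j0 + i) i' (hin i' (by omega)) h1).1
  · rw [hwn i le_rfl]; exact (hall _ hJi le_rfl).1
  · rw [hwn i le_rfl, ← p44_q_add]
    exact (hall _ hJi le_rfl).2.1.trans (mul_le_mul_of_nonneg_right (le_max_left _ _) (by positivity))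
  · rw [hwn i le_rfl, ← er]
    exact (hsl _ hJi le_rfl).1.trans (mul_le_mul_of_nonneg_right (le_max_right _ _) (by positivity))

end Claimed.Agent.R285.E4
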