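import Claimed.Agent.R285.E4.P44Inv

/-!
# ROW 285, cut of [E] P4.4, LEAF P44-TIME (PROVED, helper14): exit time `π/κ (1 + o(1))` and smallness before it (paper-free; consequences of `p44_pass_inv`)

`c0, C3` from `p44_pass_inv`; `Φ_j = arctan (x_j/κ) ∈ (-π/2, π/2)`; `N = j - j1`; `κ ≤ τ x_{j1} ≤ τ²`, `κ j1 ≤ τ`, `x_{j1} - x_j ≤ 3 d`.
Use `arctan t ≥ π/2 - 1/t` for `t > 0` (`arctan t + arctan (1/t) = π/2`, `arctan s ≤ s`): `Φ_{j1} ≥ π/2 - κ/x_{j1} ≥ π/2 - τ`; `x_j ≤ -d → Φ_j ≤ -π/2 + κ/d`.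
* exit exists / upper bound: under NoExit at `j`: `κ N (1 - C3 (τ+μ)) ≤ Φ_{j1} - Φ_j + 3 d C3 κ/μ < π + 3 d C3 κ/μ`.
* lower bound at the exit: `κ N (1 + C3 (τ+μ)) + 3 d C3 κ/μ ≥ π - τ - κ/d`.
* before: strong induction; `κ j ≤ π - ζ` gives `Φ_j ≥ π/2 - τ - (π-ζ)(1 + C3(τ+μ)) - 3 d C3 κ/μ ≥ -π/2 + ζ/2`, so `x_j ≥ -κ tan (π/2 - ζ/2) > -d`;
  `|x_j| ≤ max τ (κ tan (π/2 - ζ/2))`, `y_j² ≤ 3 (x_j² + κ²)/2`.
Choose `μ` first (small w.r.t. `ζ / C3`), then `τ1` (small w.r.t. `μ, ζ, d, ϖ`).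
-/

set_option autoImplicit false

namespace Claimed.Agent.R285.E4

theorem p44_arctan_le_self {s : ℝ} (hs : 0 ≤ s) : Real.arctan s ≤ s := by
  have h0 : 0 ≤ Real.arctan s := Real.arctan_nonneg.2 hs
  have h1 := Real.le_tan h0 (Real.arctan_lt_pi_div_two s)
  rwa [Real.tan_arctan] at h1

theorem p44_arctan_ge {t : ℝ} (ht : 0 < t) : Real.pi / 2 - 1 / t ≤ Real.arctan t := by
  have h1 := Real.arctan_inv_of_pos (inv_pos.2 ht)
  rw [inv_inv] at h1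
  rw [h1]
  have := p44_arctan_le_self (inv_pos.2 ht).le
  rw [one_div]
  linarith

/-- the angle estimate with all parameters fixed in terms of one tolerance `ζ₁` -/
theorem p44_time_core (C2 : ℝ) (hC2 : 1 ≤ C2) : ∃ c0 C3 : ℝ, 0 < c0 ∧ c0 ≤ 1 ∧ 1 ≤ C3 ∧
    ∀ (κ τ d ζ₁ : ℝ) (j1 : ℕ) (x y : ℕ → ℝ), 0 < τ → τ ≤ c0 → 0 < d → d ≤ c0 → 0 < ζ₁ → ζ₁ ≤ 1 →
      τ ≤ ζ₁ / (70 * C3) → p44_Pass C2 κ τ d j1 x y →
      (Real.pi / 2 - τ ≤ Real.arctan (x j1 / κ) ∧ κ ≤ τ * d ∧ κ ≤ τ ^ 2 ∧ τ ≤ ζ₁ / 70) ∧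
      ∀ j, j1 ≤ j → p44_NoExit d j1 x j →
        -(2 * d) ≤ x j ∧ x j ≤ x j1 ∧
        |y j ^ 2 - x j ^ 2 - κ ^ 2| ≤ (x j ^ 2 + κ ^ 2) / 2 ∧
        |Real.arctan (x j1 / κ) - Real.arctan (x j / κ) - κ * ((j : ℝ) - j1)|
          ≤ ζ₁ / 25 * (κ * ((j : ℝ) - j1)) + ζ₁ / 40 := by
  obtain ⟨c0, C3, hc0, hc01, hC3, H⟩ := p44_pass_inv C2 hC2
  refine ⟨c0, C3, hc0, hc01, hC3, ?_⟩
  intro κ τ d ζ₁ j1 x y hτ hτ0 hd hd0 hζ hζ1 hτζ hp
  have hκ := hp.κ_pos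
  have hτ70 : τ ≤ ζ₁ / 70 := by
    refine hτζ.trans ?_
    apply div_le_div_of_nonneg_left hζ.le (by norm_num)
    linarith
  have hκd : κ ≤ τ * d := hp.κ_le.trans (mul_le_mul_of_nonneg_left hp.x_le_d hτ.le)
  have hκτ : κ ≤ τ ^ 2 := by
    rw [sq]; exact hp.κ_le.trans (mul_le_mul_of_nonneg_left hp.x_le_τ hτ.le)
  refine ⟨⟨?_, hκd, hκτ, hτ70⟩, ?_⟩
  · have h1 := p44_arctan_ge (div_pos hp.x_pos hκ)
    have h2 : 1 / (x j1 / κ) ≤ τ := by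
      rw [one_div_div, div_le_iff₀ hp.x_pos]; exact hp.κ_le
    linarith
  intro j hj hne
  obtain ⟨-, hx1, hx2, -, hhalf, hang⟩ := H κ τ d j1 x y hτ hτ0 hd hd0 hp j hj hne
  refine ⟨hx1, hx2, hhalf, ?_⟩
  have hμ : 0 < ζ₁ / (40 * C3) := by positivity
  refine (hang _ hμ).trans ?_
  have hN : 0 ≤ (j : ℝ) - j1 := by
    have : (j1 : ℝ) ≤ j := by exact_mod_cast hj
    linarith
  have hκN : 0 ≤ κ * ((j : ℝ) - j1) := mul_nonneg hκ.le hN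
  -- first term
  have h1 : C3 * (τ + ζ₁ / (40 * C3)) ≤ ζ₁ / 25 := by
    have e1 : C3 * (ζ₁ / (40 * C3)) = ζ₁ / 40 := by field_simp
    have e2 : C3 * τ ≤ ζ₁ / 70 := by
      calc C3 * τ ≤ C3 * (ζ₁ / (70 * C3)) := by gcongr
        _ = ζ₁ / 70 := by field_simp
    rw [mul_add, e1]
    linarith
  -- second term
  have h2 : C3 * (κ / (ζ₁ / (40 * C3)) * (x j1 - x j)) ≤ ζ₁ / 40 := by
    have hxx : x j1 - x j ≤ 3 := by
      have : d ≤ 1 := hd0.trans hc01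
      linarith [hp.x_le_d]
    have hxx0 : 0 ≤ x j1 - x j := by linarith
    have e1 : κ / (ζ₁ / (40 * C3)) = 40 * C3 * κ / ζ₁ := by field_simp
    rw [e1]
    have hκ2 : κ ≤ (ζ₁ / (70 * C3)) ^ 2 := hκτ.trans (pow_le_pow_left₀ hτ.le hτζ 2)
    calc C3 * (40 * C3 * κ / ζ₁ * (x j1 - x j)) ≤ C3 * (40 * C3 * (ζ₁ / (70 * C3)) ^ 2 / ζ₁ * 3) := by gcongr
      _ = 120 / 4900 * ζ₁ := by field_simp; ring
      _ ≤ ζ₁ / 40 := by linarith
  calc C3 * (κ * ((j : ℝ) - j1) * (τ + ζ₁ / (40 * C3)) + κ / (ζ₁ / (40 * C3)) * (x j1 - x j))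
      = C3 * (τ + ζ₁ / (40 * C3)) * (κ * ((j : ℝ) - j1)) + C3 * (κ / (ζ₁ / (40 * C3)) * (x j1 - x j)) := by ring
    _ ≤ ζ₁ / 25 * (κ * ((j : ℝ) - j1)) + ζ₁ / 40 := by gcongr

theorem p44_pass_time (C2 : ℝ) (hC2 : 1 ≤ C2) : ∃ c0 : ℝ, 0 < c0 ∧ ∀ d : ℝ, 0 < d → d ≤ c0 → ∀ ζ : ℝ, 0 < ζ →
    ∃ τ1 : ℝ, 0 < τ1 ∧ ∀ (κ τ : ℝ) (j1 : ℕ) (x y : ℕ → ℝ), 0 < τ → τ ≤ τ1 → p44_Pass C2 κ τ d j1 x y →
      (∃ j, j1 ≤ j ∧ x j ≤ -d) ∧
      ∀ je, j1 ≤ je → x je ≤ -d → p44_NoExit d j1 x je → |κ * je - Real.pi| ≤ ζ := by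
  obtain ⟨c0, C3, hc0, hc01, hC3, H⟩ := p44_time_core C2 hC2
  refine ⟨c0, hc0, fun d hd hd0 ζ hζ => ?_⟩
  obtain ⟨ζ₁, hζ₁def⟩ : ∃ ζ₁, ζ₁ = min ζ 1 := ⟨_, rfl⟩
  have hζ₁ : 0 < ζ₁ := by rw [hζ₁def]; exact lt_min hζ one_pos
  have hζ₁1 : ζ₁ ≤ 1 := by rw [hζ₁def]; exact min_le_right _ _
  have hζ₁ζ : ζ₁ ≤ ζ := by rw [hζ₁def]; exact min_le_left _ _
  refine ⟨min c0 (ζ₁ / (70 * C3)), lt_min hc0 (by positivity), ?_⟩
  intro κ τ j1 x y hτ hτ1 hp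
  obtain ⟨⟨hΦ1, hκd, hκτ, hτ70⟩, Hj⟩ := H κ τ d ζ₁ j1 x y hτ (hτ1.trans (min_le_left _ _)) hd hd0 hζ₁ hζ₁1
    (hτ1.trans (min_le_right _ _)) hp
  have hκ := hp.κ_pos
  have hpi1 : Real.pi < 3.15 := Real.pi_lt_d2
  have hpi0 : 3 < Real.pi := Real.pi_gt_three
  -- a priori bound of `κ N` under NoExit
  have hup : ∀ j, j1 ≤ j → p44_NoExit d j1 x j →
      κ * ((j : ℝ) - j1) ≤ Real.pi + ζ₁ / 40 + ζ₁ / 25 * (κ * ((j : ℝ) - j1)) := by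
    intro j hj hne
    obtain ⟨-, -, -, hang⟩ := Hj j hj hne
    have e := abs_le.1 hang
    have a1 := Real.arctan_lt_pi_div_two (x j1 / κ)
    have a2 := Real.neg_pi_div_two_lt_arctan (x j / κ)
    linarith [e.1]
  have hup2 : ∀ j, j1 ≤ j → p44_NoExit d j1 x j → κ * ((j : ℝ) - j1) ≤ 4 := by
    intro j hj hne
    have h1 := hup j hj hne
    have hN : 0 ≤ κ * ((j : ℝ) - j1) := by
      have : (j1 : ℝ) ≤ j := by exact_mod_cast hj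
      exact mul_nonneg hκ.le (by linarith)
    nlinarith
  constructor
  · by_contra hcon
    simp only [not_exists, not_and, not_le] at hcon
    obtain ⟨n, hn⟩ := exists_nat_gt (4 / κ)
    have hne : p44_NoExit d j1 x (j1 + n) := fun i hi _ => hcon i hi
    have h1 := hup2 (j1 + n) (by omega) hne
    have e : ((j1 + n : ℕ) : ℝ) - j1 = n := by push_cast; ring
    rw [e] at h1
    rw [div_lt_iff₀ hκ] at hn
    linarith
  · intro je hje hxe hne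
    obtain ⟨-, -, -, hang⟩ := Hj je hje hne
    have e := abs_le.1 hang
    have h4 := hup2 je hje hne
    have hN : 0 ≤ κ * ((je : ℝ) - j1) := by
      have : (j1 : ℝ) ≤ je := by exact_mod_cast hje
      exact mul_nonneg hκ.le (by linarith)
    have hu := hup je hje hne
    -- the angle at the exit
    have hΦe : Real.arctan (x je / κ) ≤ -(Real.pi / 2) + τ := by
      have h1 : x je / κ ≤ -(d / κ) := by
        rw [← neg_div]; exact div_le_div_of_nonneg_right hxe hκ.le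
      have h2 := Real.arctan_mono h1
      rw [Real.arctan_neg] at h2
      have h3 := p44_arctan_ge (div_pos hd hκ)
      have h4 : 1 / (d / κ) ≤ τ := by
        rw [one_div_div, div_le_iff₀ hd]; exact hκd
      linarith
    have hj1 : 0 ≤ κ * (j1 : ℝ) := by positivity
    have hsplit : κ * (je : ℝ) = κ * (j1 : ℝ) + κ * ((je : ℝ) - j1) := by ring
    have hδ : ζ₁ / 25 * (κ * ((je : ℝ) - j1)) ≤ ζ₁ / 25 * 4 := by gcongr
    rw [abs_le, hsplit]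
    constructor
    · linarith [e.2]
    · linarith [hp.κ_j1]

theorem p44_pass_before (C2 : ℝ) (hC2 : 1 ≤ C2) : ∃ c0 : ℝ, 0 < c0 ∧ ∀ d : ℝ, 0 < d → d ≤ c0 →
    ∀ ζ : ℝ, 0 < ζ → ∀ ϖ : ℝ, 0 < ϖ →
    ∃ τ1 : ℝ, 0 < τ1 ∧ ∀ (κ τ : ℝ) (j1 : ℕ) (x y : ℕ → ℝ), 0 < τ → τ ≤ τ1 → p44_Pass C2 κ τ d j1 x y →
      ∀ j : ℕ, j1 ≤ j → κ * j ≤ Real.pi - ζ → p44_NoExit d j1 x (j + 1) ∧ p44_w x y j ≤ ϖ := by
  obtain ⟨c0, C3, hc0, hc01, hC3, H⟩ := p44_time_core C2 hC2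
  refine ⟨c0, hc0, fun d hd hd0 ζ hζ ϖ hϖ => ?_⟩
  obtain ⟨ζ₁, hζ₁def⟩ : ∃ ζ₁, ζ₁ = min ζ 1 := ⟨_, rfl⟩
  have hζ₁ : 0 < ζ₁ := by rw [hζ₁def]; exact lt_min hζ one_pos
  have hζ₁1 : ζ₁ ≤ 1 := by rw [hζ₁def]; exact min_le_right _ _
  have hζ₁ζ : ζ₁ ≤ ζ := by rw [hζ₁def]; exact min_le_left _ _
  have hpi1 : Real.pi < 3.15 := Real.pi_lt_d2
  have hpi0 : 3 < Real.pi := Real.pi_gt_three
  obtain ⟨M, hMdef⟩ : ∃ M, M = Real.tan (Real.pi / 2 - ζ₁ / 2) := ⟨_, rfl⟩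
  have hθ1 : 0 < Real.pi / 2 - ζ₁ / 2 := by linarith
  have hθ2 : Real.pi / 2 - ζ₁ / 2 < Real.pi / 2 := by linarith
  have hM : 0 < M := by rw [hMdef]; exact Real.tan_pos_of_pos_of_lt_pi_div_two hθ1 hθ2
  have hMarc : Real.arctan M = Real.pi / 2 - ζ₁ / 2 := by
    rw [hMdef]; exact Real.arctan_tan (by linarith) hθ2
  refine ⟨min (min c0 (ζ₁ / (70 * C3))) (min (1 / (2 * (1 + M))) (ϖ / (2 * (1 + M)))),
    lt_min (lt_min hc0 (by positivity)) (lt_min (by positivity) (by positivity)), ?_⟩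
  intro κ τ j1 x y hτ hτ1 hp
  have t1 : τ ≤ c0 := hτ1.trans ((min_le_left _ _).trans (min_le_left _ _))
  have t2 : τ ≤ ζ₁ / (70 * C3) := hτ1.trans ((min_le_left _ _).trans (min_le_right _ _))
  have t3 : τ ≤ 1 / (2 * (1 + M)) := hτ1.trans ((min_le_right _ _).trans (min_le_left _ _))
  have t4 : τ ≤ ϖ / (2 * (1 + M)) := hτ1.trans ((min_le_right _ _).trans (min_le_right _ _))
  obtain ⟨⟨hΦ1, hκd, hκτ, hτ70⟩, Hj⟩ := H κ τ d ζ₁ j1 x y hτ t1 hd hd0 hζ₁ hζ₁1 t2 hp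
  have hκ := hp.κ_pos
  have hd1 : d ≤ 1 := hd0.trans hc01
  have t3' : τ * (2 * (1 + M)) ≤ 1 := by rwa [le_div_iff₀ (by positivity)] at t3
  have t4' : τ * (2 * (1 + M)) ≤ ϖ := by rwa [le_div_iff₀ (by positivity)] at t4
  have hτ1' : τ ≤ 1 := t1.trans hc01
  have key : ∀ j : ℕ, j1 ≤ j → κ * j ≤ Real.pi - ζ → -d < x j ∧ p44_w x y j ≤ ϖ := by
    intro j
    induction j using Nat.strong_induction_on with
    | _ j ih =>
      intro hj hκj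
      have hne : p44_NoExit d j1 x j := by
        intro i hi1 hi2
        refine (ih i hi2 hi1 ?_).1
        have : (i : ℝ) ≤ j := by exact_mod_cast hi2.le
        have : κ * (i : ℝ) ≤ κ * j := mul_le_mul_of_nonneg_left this hκ.le
        linarith
      obtain ⟨hx1, hx2, hhalf, hang⟩ := Hj j hj hne
      have e := abs_le.1 hang
      have hN0 : 0 ≤ κ * ((j : ℝ) - j1) := by
        have : (j1 : ℝ) ≤ j := by exact_mod_cast hj
        exact mul_nonneg hκ.le (by linarith)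
      have hN1 : κ * ((j : ℝ) - j1) ≤ Real.pi - ζ₁ := by
        have : 0 ≤ κ * (j1 : ℝ) := by positivity
        have e2 : κ * ((j : ℝ) - j1) = κ * j - κ * j1 := by ring
        linarith
      have hδ : ζ₁ / 25 * (κ * ((j : ℝ) - j1)) ≤ ζ₁ / 25 * 4 := by
        have : κ * ((j : ℝ) - j1) ≤ 4 := by linarith
        gcongr
      have hΦj : -(Real.arctan M) ≤ Real.arctan (x j / κ) := by
        rw [hMarc]; linarith [e.2]
      rw [← Real.arctan_neg, Real.arctan_le_arctan_iff, le_div_iff₀ hκ] at hΦj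
      -- `x j ≥ - M κ`
      have hκM : M * κ ≤ τ * d * M := by
        calc M * κ ≤ M * (τ * d) := by gcongr
          _ = τ * d * M := by ring
      have hτM : τ * M ≤ 1 / 2 := by
        have e1 : τ * (2 * (1 + M)) = 2 * τ + 2 * (τ * M) := by ring
        linarith
      have hxlow : -(τ * d * M) ≤ x j := by linarith
      have hdM : τ * d * M ≤ d / 2 := by
        calc τ * d * M = d * (τ * M) := by ring
          _ ≤ d * (1 / 2) := by gcongr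
          _ = d / 2 := by ring
      refine ⟨by linarith, ?_⟩
      -- sizes
      have hB0 : 0 ≤ τ * (1 + M) := by positivity
      have hτM0 : 0 ≤ τ * M := by positivity
      have hB : τ * (1 + M) = τ + τ * M := by ring
      have hdM1 : τ * d * M ≤ τ * M := by
        calc τ * d * M = d * (τ * M) := by ring
          _ ≤ 1 * (τ * M) := mul_le_mul_of_nonneg_right hd1 hτM0
          _ = τ * M := one_mul _
      have hxabs : |x j| ≤ τ * (1 + M) := by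
        rw [abs_le, hB]
        constructor
        · linarith
        · linarith [hp.x_le_τ]
      obtain ⟨-, -, -, -, -, hy2, -⟩ := p44_step_aux κ (x j) (y j) hhalf
      have hx2 : x j ^ 2 ≤ (τ * (1 + M)) ^ 2 := by
        rw [← sq_abs]; exact pow_le_pow_left₀ (abs_nonneg _) hxabs 2
      have hκB : κ ≤ τ * (1 + M) := by
        have h1 : τ ^ 2 ≤ τ * 1 := by rw [sq]; exact mul_le_mul_of_nonneg_left hτ1' hτ.le
        rw [hB]; linarith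
      have hκ2 : κ ^ 2 ≤ (τ * (1 + M)) ^ 2 := pow_le_pow_left₀ hκ.le hκB 2
      have hyabs : |y j| ≤ 2 * (τ * (1 + M)) := by
        have h1 : |y j| ^ 2 ≤ (2 * (τ * (1 + M))) ^ 2 := by
          rw [sq_abs, mul_pow]; linarith [sq_nonneg (τ * (1 + M))]
        exact (pow_le_pow_iff_left₀ (abs_nonneg _) (by positivity) (by norm_num)).1 h1
      have h2B : 2 * (τ * (1 + M)) ≤ ϖ := by
        have : τ * (2 * (1 + M)) = 2 * (τ * (1 + M)) := by ring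
        linarith
      exact max_le (by linarith) (by linarith)
  intro j hj hκj
  refine ⟨?_, (key j hj hκj).2⟩
  intro i hi1 hi2
  refine (key i hi1 ?_).1
  have : (i : ℝ) ≤ j := by exact_mod_cast (Nat.lt_succ_iff.1 hi2)
  have : κ * (i : ℝ) ≤ κ * j := mul_le_mul_of_nonneg_left this hκ.le
  linarith

end Claimed.Agent.R285.E4
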