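import Claimed.Agent.R285.E4.P41
import Claimed.Agent.R285.E4.L42Evt
import Claimed.Agent.R285.Flow.CauchyCrit

/-!
# ROW 285, [E] L4.2 / L4.3 / L5.9, layer PHYS: the two physical read-outs as a bridge between histories   (architect helper90; prefix `ph_`)

"Both are exact descriptions of the same physical torus of side `n_i`" ([E], proof of L4.2).  Instead of comparing two histories we store the information of the canonical
histories in PHYSICAL statements, which do not know any entry: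
`PhysAt κ C j` :  `torVar b_c n_j = 1/π + 1/(π b_* j) + O(log j / j²)`,   `torPhase b_c n_j = p_j / (√(b_* H) j) + O(log j / j²)`.

* `ph_read`      : for ANY history, stage `i`, stop `j = j0 + i`, real `b`: `torVar = (1 + t)/π + errors`, `torPhase = p_j z + errors`  (`repV`, `cmpV`, `rV_bd`, `v0_bd`, `kV_bd`, ...);
* `ph_read_sec`  : the same for differences in `b` (`lipV`, `lipP`);
* `ph_link`      : at the critical orders, in normal coordinates: `torVar = 1/π + x/(π b_*) + O(j⁻²)`, `torPhase = p_j y/√(b_* H) + O(j⁻²)`;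
* `ph_static`, `ph_crit` : `PhysAt` from the canonical histories (`Good` of `P41Good.lean`);
* `ph_crit_phase_lower`  : verbatim `E4.crit_phase_lower`.
-/

set_option autoImplicit false

namespace Claimed.Agent.R285.E4

open Filter Topology Claims.C0459
open Claimed.Agent.R285.Flow

noncomputable section

/-- the critical asymptotics of the two physical diagnostics on the torus `n_j` -/
def PhysAt (κ : MapC) (C : ℝ) (j : ℕ) : Prop :=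
  |torVar xyCritical (κ.n j) - (1 / Real.pi + 1 / (Real.pi * κ.bs * j))| ≤ C * Real.log (2 + j) / (j : ℝ) ^ 2 ∧
  |torPhase xyCritical (κ.n j) - κ.p j / (Real.sqrt (κ.bs * κ.Hq) * j)| ≤ C * Real.log (2 + j) / (j : ℝ) ^ 2

/-! ## 1. The read-outs of one history -/

/-- LEAF PH-1 (~60 l.).  All summands of `errAll` are nonnegative; `n_h ≥ 1`, so `κe.C (s/n)⁴ ≤ κe.C n² (s/n)⁴`. -/
theorem ph_err_parts (κ : MapC) (κe : EntC) (s h : ℕ) {η : ℝ} (hη : errAll κ κe s h ≤ η) :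
    κ.C * ((s : ℝ) / κ.n h + 1 / (κ.n h : ℝ) ^ 2) ≤ η ∧ κ.C * ((s : ℝ) / κ.n h) ^ 2 ≤ η ∧
    κe.C * ((s : ℝ) / κ.n h) ^ 4 + cutErr κ κe s h ≤ η ∧
    κe.C * (κ.n h : ℝ) ^ 2 * ((s : ℝ) / κ.n h) ^ 4 + cutErr κ κe s h ≤ η ∧ cutErr κ κe s h ≤ η := by
  have hCe : 0 < κe.C := lt_of_lt_of_le one_pos κe.hC
  have hCk : 0 < κ.C := lt_of_lt_of_le one_pos κ.hC
  have hn1 : (1 : ℝ) ≤ (κ.n h : ℝ) := by
    have : 1 ≤ κ.n h := le_trans Nat.one_le_two_pow (p41_two_pow_le_n κ h)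
    exact_mod_cast this
  have ha : 0 ≤ κ.C * ((s : ℝ) / κ.n h + 1 / (κ.n h : ℝ) ^ 2) := by positivity
  have hb : 0 ≤ κ.C * ((s : ℝ) / κ.n h) ^ 2 := by positivity
  have hc : 0 ≤ κe.C * ((s : ℝ) / κ.n h) ^ 4 := by positivity
  have hd : 0 ≤ cutErr κ κe s h := by
    unfold cutErr
    positivity
  have hcc : κe.C * ((s : ℝ) / κ.n h) ^ 4 ≤ κe.C * (κ.n h : ℝ) ^ 2 * ((s : ℝ) / κ.n h) ^ 4 := by
    have h2 : (1 : ℝ) ≤ (κ.n h : ℝ) ^ 2 := one_le_pow₀ hn1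
    have e : κe.C * (κ.n h : ℝ) ^ 2 * ((s : ℝ) / κ.n h) ^ 4 = (κe.C * ((s : ℝ) / κ.n h) ^ 4) * (κ.n h : ℝ) ^ 2 := by
      ring
    rw [e]
    exact le_mul_of_one_le_right hc h2
  unfold errAll errGrid at hη
  refine ⟨?_, ?_, ?_, ?_, ?_⟩ <;> linarith

/-- LEAF PH-2 (~120 l.).  `torVar = cV + e₁`, `cV = v0 + rV X` (`repV`), `rV X = kV t + e₂` (`rV_bd`), `v0 = 1/π + e₃`, `kV = 1/π + e₄`; `|e₁|, |e₃|, |e₄| ≤ η` by `ph_err_parts`.
Same for the phase (`repP`, `cmpP`, `rP_bd`, `kP_bd`). -/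
theorem ph_read {κ : MapC} {κe : EntC} {ρe : ℝ} {s : ℕ} {H : Hist} (hS : SysOK κ κe ρe s H) {i : ℕ} {b η : ℝ}
    (hb : (b : ℂ) ∈ disk κe s) (hv : Valid κ κe s H (H.j0 + i)) (hin : H.Inside κ.ρ b (H.j0 + i) i)
    (herr : errAll κ κe s (H.j0 + i) ≤ η) :
    ‖((torVar b (κ.n (H.j0 + i)) : ℝ) : ℂ) - (1 + (H.ts b (H.j0 + i) i).1.1) / Real.pi‖
        ≤ η * (2 + ‖(H.ts b (H.j0 + i) i).1.1‖)
          + κ.C * (‖H.tor b (H.j0 + i) i‖ + ‖H.ts b (H.j0 + i) i‖ ^ 2) ∧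
    ‖((torPhase b (κ.n (H.j0 + i)) : ℝ) : ℂ) - κ.p (H.j0 + i) * (H.ts b (H.j0 + i) i).1.2‖
        ≤ η * (1 + ‖(H.ts b (H.j0 + i) i).1.2‖)
          + κ.C * (‖H.tor b (H.j0 + i) i‖ + ‖H.ts b (H.j0 + i) i‖ ^ 2) := by
  obtain ⟨p1, p2, p3, p4, p5⟩ := ph_err_parts κ κe s (H.j0 + i) herr
  have hj : H.j0 ≤ H.j0 + i := Nat.le_add_right _ _
  have hX : H.ts b (H.j0 + i) i ∈ Metric.ball (0 : (ℂ × ℂ) × H.T (H.j0 + i) (H.j0 + i)) κ.ρ := by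
    rw [mem_ball_zero_iff]
    exact (hin i le_rfl).2
  have hX2 : (H.ts b (H.j0 + i) i).2 = H.tor b (H.j0 + i) i := rfl
  constructor
  · have r1 := hS.read.repV b i hb hv hin
    have r2 := hS.read.cmpV b (H.j0 + i) hb hv
    have r3 := hS.read.rV_bd (H.j0 + i) hj _ hX
    have r4 := hS.read.v0_bd (H.j0 + i) hj
    have r5 := hS.read.kV_bd (H.j0 + i) hj
    rw [hX2] at r3
    obtain ⟨t, ht⟩ : ∃ t : ℂ, t = (H.ts b (H.j0 + i) i).1.1 := ⟨_, rfl⟩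
    rw [← ht] at r3 ⊢
    have e : ((torVar b (κ.n (H.j0 + i)) : ℝ) : ℂ) - (1 + t) / Real.pi =
        ((torVar b (κ.n (H.j0 + i)) - H.cV (H.j0 + i) b : ℝ) : ℂ) + ((H.v0 (H.j0 + i) - 1 / Real.pi : ℝ) : ℂ)
          + (H.rV (H.j0 + i) (H.ts b (H.j0 + i) i) - H.kV (H.j0 + i) * t)
          + ((H.kV (H.j0 + i) - 1 / Real.pi : ℝ) : ℂ) * t := by
      push_cast
      rw [r1]
      ring
    rw [e]
    have n1 : ‖((torVar b (κ.n (H.j0 + i)) - H.cV (H.j0 + i) b : ℝ) : ℂ)‖ ≤ η := by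
      rw [Complex.norm_real, Real.norm_eq_abs]; linarith
    have n2 : ‖((H.v0 (H.j0 + i) - 1 / Real.pi : ℝ) : ℂ)‖ ≤ η := by
      rw [Complex.norm_real, Real.norm_eq_abs]; linarith
    have n3 : ‖((H.kV (H.j0 + i) - 1 / Real.pi : ℝ) : ℂ) * t‖ ≤ η * ‖t‖ := by
      rw [norm_mul, Complex.norm_real, Real.norm_eq_abs]
      exact mul_le_mul_of_nonneg_right (by linarith) (norm_nonneg _)
    refine (norm_add_le _ _).trans ?_
    refine (add_le_add ((norm_add_le _ _).trans (add_le_add (norm_add_le _ _) le_rfl)) le_rfl).trans ?_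
    linarith
  · have r1 := hS.read.repP b i hb hv hin
    have r2 := hS.read.cmpP b (H.j0 + i) hb hv
    have r3 := hS.read.rP_bd (H.j0 + i) hj _ hX
    have r5 := hS.read.kP_bd (H.j0 + i) hj
    rw [hX2] at r3
    obtain ⟨z, hz⟩ : ∃ z : ℂ, z = (H.ts b (H.j0 + i) i).1.2 := ⟨_, rfl⟩
    rw [← hz] at r3 ⊢
    have e : ((torPhase b (κ.n (H.j0 + i)) : ℝ) : ℂ) - κ.p (H.j0 + i) * z =
        ((torPhase b (κ.n (H.j0 + i)) - H.cP (H.j0 + i) b : ℝ) : ℂ)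
          + (H.rP (H.j0 + i) (H.ts b (H.j0 + i) i) - H.kP (H.j0 + i) * z)
          + ((H.kP (H.j0 + i) - κ.p (H.j0 + i) : ℝ) : ℂ) * z := by
      push_cast
      rw [r1]
      ring
    rw [e]
    have n1 : ‖((torPhase b (κ.n (H.j0 + i)) - H.cP (H.j0 + i) b : ℝ) : ℂ)‖ ≤ η := by
      rw [Complex.norm_real, Real.norm_eq_abs]; linarith
    have n3 : ‖((H.kP (H.j0 + i) - κ.p (H.j0 + i) : ℝ) : ℂ) * z‖ ≤ η * ‖z‖ := by
      rw [norm_mul, Complex.norm_real, Real.norm_eq_abs]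
      exact mul_le_mul_of_nonneg_right (by linarith) (norm_nonneg _)
    refine (norm_add_le _ _).trans ?_
    refine (add_le_add (norm_add_le _ _) le_rfl).trans ?_
    linarith

/-- LEAF PH-3 (~120 l.).  Differences in `b`: `lipV`, `lipP`, `repV`, `repP`; `rV X' - rV X = kV (t' - t) + (eV X' - eV X)` by the definition of `Hist.eV`. -/
theorem ph_read_sec {κ : MapC} {κe : EntC} {ρe : ℝ} {s : ℕ} {H : Hist} (hS : SysOK κ κe ρe s H) {i : ℕ} {b b' η : ℝ}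
    (hb : (b : ℂ) ∈ disk κe s) (hb' : (b' : ℂ) ∈ disk κe s) (hv : Valid κ κe s H (H.j0 + i))
    (hin : H.Inside κ.ρ b (H.j0 + i) i) (hin' : H.Inside κ.ρ b' (H.j0 + i) i)
    (herr : errAll κ κe s (H.j0 + i) ≤ η) :
    ‖((torVar b' (κ.n (H.j0 + i)) - torVar b (κ.n (H.j0 + i)) : ℝ) : ℂ)
        - ((H.ts b' (H.j0 + i) i).1.1 - (H.ts b (H.j0 + i) i).1.1) / Real.pi‖
        ≤ |b' - b| * η + η * ‖(H.ts b' (H.j0 + i) i).1.1 - (H.ts b (H.j0 + i) i).1.1‖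
          + ‖H.eV (H.j0 + i) (H.ts b' (H.j0 + i) i) - H.eV (H.j0 + i) (H.ts b (H.j0 + i) i)‖ ∧
    ‖((torPhase b' (κ.n (H.j0 + i)) - torPhase b (κ.n (H.j0 + i)) : ℝ) : ℂ)
        - κ.p (H.j0 + i) * ((H.ts b' (H.j0 + i) i).1.2 - (H.ts b (H.j0 + i) i).1.2)‖
        ≤ |b' - b| * η + η * ‖(H.ts b' (H.j0 + i) i).1.2 - (H.ts b (H.j0 + i) i).1.2‖
          + ‖H.eP (H.j0 + i) (H.ts b' (H.j0 + i) i) - H.eP (H.j0 + i) (H.ts b (H.j0 + i) i)‖ := by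
  obtain ⟨p1, p2, p3, p4, p5⟩ := ph_err_parts κ κe s (H.j0 + i) herr
  have hj : H.j0 ≤ H.j0 + i := Nat.le_add_right _ _
  constructor
  · have r1 := hS.read.repV b i hb hv hin
    have r1' := hS.read.repV b' i hb' hv hin'
    have r2 := hS.read.lipV b' b (H.j0 + i) hb' hb hv
    have r5 := hS.read.kV_bd (H.j0 + i) hj
    have e : ((torVar b' (κ.n (H.j0 + i)) - torVar b (κ.n (H.j0 + i)) : ℝ) : ℂ)
        - ((H.ts b' (H.j0 + i) i).1.1 - (H.ts b (H.j0 + i) i).1.1) / Real.pi =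
        (((torVar b' (κ.n (H.j0 + i)) - H.cV (H.j0 + i) b') - (torVar b (κ.n (H.j0 + i)) - H.cV (H.j0 + i) b) : ℝ) : ℂ)
          + ((H.kV (H.j0 + i) - 1 / Real.pi : ℝ) : ℂ) * ((H.ts b' (H.j0 + i) i).1.1 - (H.ts b (H.j0 + i) i).1.1)
          + (H.eV (H.j0 + i) (H.ts b' (H.j0 + i) i) - H.eV (H.j0 + i) (H.ts b (H.j0 + i) i)) := by
      unfold Hist.eV
      push_cast
      rw [r1, r1']
      ring
    rw [e]
    have n1 : ‖(((torVar b' (κ.n (H.j0 + i)) - H.cV (H.j0 + i) b') - (torVar b (κ.n (H.j0 + i)) - H.cV (H.j0 + i) b) : ℝ) : ℂ)‖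
        ≤ |b' - b| * η := by
      rw [Complex.norm_real, Real.norm_eq_abs]
      exact r2.trans (mul_le_mul_of_nonneg_left p4 (abs_nonneg _))
    have n3 : ‖((H.kV (H.j0 + i) - 1 / Real.pi : ℝ) : ℂ) * ((H.ts b' (H.j0 + i) i).1.1 - (H.ts b (H.j0 + i) i).1.1)‖
        ≤ η * ‖(H.ts b' (H.j0 + i) i).1.1 - (H.ts b (H.j0 + i) i).1.1‖ := by
      rw [norm_mul, Complex.norm_real, Real.norm_eq_abs]
      exact mul_le_mul_of_nonneg_right (by linarith) (norm_nonneg _)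
    refine (norm_add_le _ _).trans ?_
    refine (add_le_add (norm_add_le _ _) le_rfl).trans ?_
    linarith
  · have r1 := hS.read.repP b i hb hv hin
    have r1' := hS.read.repP b' i hb' hv hin'
    have r2 := hS.read.lipP b' b (H.j0 + i) hb' hb hv
    have r5 := hS.read.kP_bd (H.j0 + i) hj
    have e : ((torPhase b' (κ.n (H.j0 + i)) - torPhase b (κ.n (H.j0 + i)) : ℝ) : ℂ)
        - κ.p (H.j0 + i) * ((H.ts b' (H.j0 + i) i).1.2 - (H.ts b (H.j0 + i) i).1.2) =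
        (((torPhase b' (κ.n (H.j0 + i)) - H.cP (H.j0 + i) b') - (torPhase b (κ.n (H.j0 + i)) - H.cP (H.j0 + i) b) : ℝ) : ℂ)
          + ((H.kP (H.j0 + i) - κ.p (H.j0 + i) : ℝ) : ℂ) * ((H.ts b' (H.j0 + i) i).1.2 - (H.ts b (H.j0 + i) i).1.2)
          + (H.eP (H.j0 + i) (H.ts b' (H.j0 + i) i) - H.eP (H.j0 + i) (H.ts b (H.j0 + i) i)) := by
      unfold Hist.eP
      push_cast
      rw [r1, r1']
      ring
    rw [e]
    have n1 : ‖(((torPhase b' (κ.n (H.j0 + i)) - H.cP (H.j0 + i) b') - (torPhase b (κ.n (H.j0 + i)) - H.cP (H.j0 + i) b) : ℝ) : ℂ)‖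
        ≤ |b' - b| * η := by
      rw [Complex.norm_real, Real.norm_eq_abs]
      exact r2.trans (mul_le_mul_of_nonneg_left p5 (abs_nonneg _))
    have n3 : ‖((H.kP (H.j0 + i) - κ.p (H.j0 + i) : ℝ) : ℂ) * ((H.ts b' (H.j0 + i) i).1.2 - (H.ts b (H.j0 + i) i).1.2)‖
        ≤ η * ‖(H.ts b' (H.j0 + i) i).1.2 - (H.ts b (H.j0 + i) i).1.2‖ := by
      rw [norm_mul, Complex.norm_real, Real.norm_eq_abs]
      exact mul_le_mul_of_nonneg_right (by linarith) (norm_nonneg _)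
    refine (norm_add_le _ _).trans ?_
    refine (add_le_add (norm_add_le _ _) le_rfl).trans ?_
    linarith

/-- scalar arithmetic of `ph_link`: all quantities at the critical orders (`u = 1 / j`). -/
theorem ph_link_arith (K c bs r A u nx ny nq nτ w dt dz nt nz nX e : ℝ) (hK : 1 ≤ K) (hc : 0 < c) (hbs : 0 < bs) (hr : 0 < r)
    (hA : 0 ≤ A) (hu : 0 < u) (hu1 : u ≤ 1) (hnx0 : 0 ≤ nx) (hny0 : 0 ≤ ny) (hnq0 : 0 ≤ nq) (hw0 : 0 ≤ w)
    (hnx : nx ≤ A * u) (hny : ny ≤ A * u) (hw : w ≤ A * u) (hnq : nq ≤ A * u ^ 2) (hnτ : nτ ≤ A * u ^ 2)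
    (he0 : 0 ≤ e) (he : e ≤ u / c)
    (hdt : dt ≤ K * (w ^ 2 + nq)) (hdz : dz ≤ K * (e * ny + w ^ 2 + nq))
    (hnt : nt ≤ nx / bs + dt) (hnz : nz ≤ ny / r + dz) (hnX : nX ≤ max (max nt nz) nτ) (hnX0 : 0 ≤ nX) :
    dt ≤ K * (A ^ 2 + A) * u ^ 2 ∧ dz ≤ K * (A / c + A ^ 2 + A) * u ^ 2 ∧
    nt ≤ (A / bs + K * (A ^ 2 + A)) * u ∧ nz ≤ (A / r + K * (A / c + A ^ 2 + A)) * u ∧
    nX ^ 2 ≤ ((A / bs + K * (A ^ 2 + A)) + (A / r + K * (A / c + A ^ 2 + A)) + A) ^ 2 * u ^ 2 := by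
  have hK0 : 0 ≤ K := by linarith
  have hu2 : u ^ 2 ≤ u := by nlinarith
  have hu20 : 0 ≤ u ^ 2 := by positivity
  have hw2 : w ^ 2 ≤ A ^ 2 * u ^ 2 := by
    rw [← mul_pow]
    exact pow_le_pow_left₀ hw0 hw 2
  have h1 : dt ≤ K * (A ^ 2 + A) * u ^ 2 := by
    refine hdt.trans ?_
    have : w ^ 2 + nq ≤ (A ^ 2 + A) * u ^ 2 := by linarith
    calc K * (w ^ 2 + nq) ≤ K * ((A ^ 2 + A) * u ^ 2) := mul_le_mul_of_nonneg_left this hK0
      _ = _ := by ring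
  have hey : e * ny ≤ A / c * u ^ 2 := by
    calc e * ny ≤ (u / c) * (A * u) := mul_le_mul he hny hny0 (by positivity)
      _ = _ := by ring
  have h2 : dz ≤ K * (A / c + A ^ 2 + A) * u ^ 2 := by
    refine hdz.trans ?_
    have : e * ny + w ^ 2 + nq ≤ (A / c + A ^ 2 + A) * u ^ 2 := by linarith
    calc K * (e * ny + w ^ 2 + nq) ≤ K * ((A / c + A ^ 2 + A) * u ^ 2) := mul_le_mul_of_nonneg_left this hK0
      _ = _ := by ring
  have hD1 : 0 ≤ K * (A ^ 2 + A) := by positivity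
  have hD2 : 0 ≤ K * (A / c + A ^ 2 + A) := by positivity
  have h3 : nt ≤ (A / bs + K * (A ^ 2 + A)) * u := by
    have a1 : nx / bs ≤ A / bs * u := by
      calc nx / bs ≤ (A * u) / bs := div_le_div_of_nonneg_right hnx hbs.le
        _ = _ := by ring
    have a2 : K * (A ^ 2 + A) * u ^ 2 ≤ K * (A ^ 2 + A) * u := mul_le_mul_of_nonneg_left hu2 hD1
    linarith
  have h4 : nz ≤ (A / r + K * (A / c + A ^ 2 + A)) * u := by
    have a1 : ny / r ≤ A / r * u := by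
      calc ny / r ≤ (A * u) / r := div_le_div_of_nonneg_right hny hr.le
        _ = _ := by ring
    have a2 : K * (A / c + A ^ 2 + A) * u ^ 2 ≤ K * (A / c + A ^ 2 + A) * u := mul_le_mul_of_nonneg_left hu2 hD2
    linarith
  refine ⟨h1, h2, h3, h4, ?_⟩
  rw [← mul_pow]
  refine pow_le_pow_left₀ hnX0 (hnX.trans ?_) 2
  have b1 : 0 ≤ (A / bs + K * (A ^ 2 + A)) * u := by positivity
  have b2 : 0 ≤ (A / r + K * (A / c + A ^ 2 + A)) * u := by positivity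
  have b3 : 0 ≤ A * u := by positivity
  have b4 : A * u ^ 2 ≤ A * u := mul_le_mul_of_nonneg_left hu2 hA
  refine max_le (max_le ?_ ?_) ?_ <;> nlinarith

/-- the final constants of `ph_link`. -/
theorem ph_link_arith2 (K c bs r A : ℝ) (hK : 1 ≤ K) (hc : 0 < c) (hbs : 0 < bs) (hr : 0 < r) (hA : 0 ≤ A) :
    ∃ C : ℝ, 0 ≤ C ∧ ∀ u nx ny nq nτ w dt dz nt nz nX e : ℝ, 0 < u → u ≤ 1 → 0 ≤ nx → 0 ≤ ny → 0 ≤ nq → 0 ≤ w →
      nx ≤ A * u → ny ≤ A * u → w ≤ A * u → nq ≤ A * u ^ 2 → nτ ≤ A * u ^ 2 → 0 ≤ e → e ≤ u / c →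
      dt ≤ K * (w ^ 2 + nq) → dz ≤ K * (e * ny + w ^ 2 + nq) → nt ≤ nx / bs + dt → nz ≤ ny / r + dz →
      nX ≤ max (max nt nz) nτ → 0 ≤ nX →
      u ^ 2 * (2 + nt) + K * (nτ + nX ^ 2) + dt / Real.pi ≤ C * u ^ 2 ∧
      u ^ 2 * (1 + nz) + K * (nτ + nX ^ 2) + K * dz ≤ C * u ^ 2 := by
  have hK0 : 0 ≤ K := by linarith
  have hpi := Real.pi_pos
  obtain ⟨Dt, hDt⟩ : ∃ D : ℝ, D = K * (A ^ 2 + A) := ⟨_, rfl⟩
  obtain ⟨Dz, hDz⟩ : ∃ D : ℝ, D = K * (A / c + A ^ 2 + A) := ⟨_, rfl⟩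
  obtain ⟨T1, hT1⟩ : ∃ D : ℝ, D = A / bs + Dt := ⟨_, rfl⟩
  obtain ⟨Z1, hZ1⟩ : ∃ D : ℝ, D = A / r + Dz := ⟨_, rfl⟩
  obtain ⟨M, hM⟩ : ∃ D : ℝ, D = T1 + Z1 + A := ⟨_, rfl⟩
  have hDt0 : 0 ≤ Dt := by rw [hDt]; positivity
  have hDz0 : 0 ≤ Dz := by rw [hDz]; positivity
  have hT10 : 0 ≤ T1 := by rw [hT1]; positivity
  have hZ10 : 0 ≤ Z1 := by rw [hZ1]; positivity
  have hCV0 : 0 ≤ 2 + T1 + K * (A + M ^ 2) + Dt / Real.pi := by positivity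
  have hCP0 : 0 ≤ 1 + Z1 + K * (A + M ^ 2) + K * Dz := by positivity
  refine ⟨(2 + T1 + K * (A + M ^ 2) + Dt / Real.pi) + (1 + Z1 + K * (A + M ^ 2) + K * Dz), by positivity, ?_⟩
  intro u nx ny nq nτ w dt dz nt nz nX e hu hu1 hnx0 hny0 hnq0 hw0 hnx hny hw hnq hnτ he0 he hdt hdz hnt hnz hnX hnX0
  obtain ⟨a1, a2, a3, a4, a5⟩ := ph_link_arith K c bs r A u nx ny nq nτ w dt dz nt nz nX e hK hc hbs hr hA hu hu1
    hnx0 hny0 hnq0 hw0 hnx hny hw hnq hnτ he0 he hdt hdz hnt hnz hnX hnX0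
  rw [← hDt] at a1 a3 a5
  rw [← hDz] at a2 a4 a5
  rw [← hT1] at a3 a5
  rw [← hZ1] at a4 a5
  rw [← hM] at a5
  clear hdt hdz hnt hnz hnX hnx hny hw hnq he
  have hu20 : 0 ≤ u ^ 2 := by positivity
  have hcom : K * (nτ + nX ^ 2) ≤ K * (A + M ^ 2) * u ^ 2 := by
    calc K * (nτ + nX ^ 2) ≤ K * (A * u ^ 2 + M ^ 2 * u ^ 2) := mul_le_mul_of_nonneg_left (by linarith) hK0
      _ = _ := by ring
  have hT1u : T1 * u ≤ T1 := mul_le_of_le_one_right hT10 hu1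
  have hZ1u : Z1 * u ≤ Z1 := mul_le_of_le_one_right hZ10 hu1
  constructor
  · have n2 : dt / Real.pi ≤ Dt / Real.pi * u ^ 2 := by
      calc dt / Real.pi ≤ (Dt * u ^ 2) / Real.pi := div_le_div_of_nonneg_right a1 hpi.le
        _ = _ := by ring
    have n1 : u ^ 2 * (2 + nt) ≤ (2 + T1) * u ^ 2 := by
      have : 2 + nt ≤ 2 + T1 := by linarith
      calc u ^ 2 * (2 + nt) ≤ u ^ 2 * (2 + T1) := mul_le_mul_of_nonneg_left this hu20
        _ = _ := by ring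
    have fin : (2 + T1 + K * (A + M ^ 2) + Dt / Real.pi) * u ^ 2 ≤
        ((2 + T1 + K * (A + M ^ 2) + Dt / Real.pi) + (1 + Z1 + K * (A + M ^ 2) + K * Dz)) * u ^ 2 :=
      mul_le_mul_of_nonneg_right (by linarith) hu20
    have e1 : (2 + T1 + K * (A + M ^ 2) + Dt / Real.pi) * u ^ 2 =
        (2 + T1) * u ^ 2 + K * (A + M ^ 2) * u ^ 2 + Dt / Real.pi * u ^ 2 := by ring
    linarith
  · have n2 : K * dz ≤ K * Dz * u ^ 2 := by
      calc K * dz ≤ K * (Dz * u ^ 2) := mul_le_mul_of_nonneg_left a2 hK0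
        _ = _ := by ring
    have n1 : u ^ 2 * (1 + nz) ≤ (1 + Z1) * u ^ 2 := by
      have : 1 + nz ≤ 1 + Z1 := by linarith
      calc u ^ 2 * (1 + nz) ≤ u ^ 2 * (1 + Z1) := mul_le_mul_of_nonneg_left this hu20
        _ = _ := by ring
    have fin : (1 + Z1 + K * (A + M ^ 2) + K * Dz) * u ^ 2 ≤
        ((2 + T1 + K * (A + M ^ 2) + Dt / Real.pi) + (1 + Z1 + K * (A + M ^ 2) + K * Dz)) * u ^ 2 :=
      mul_le_mul_of_nonneg_right (by linarith) hu20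
    have e1 : (1 + Z1 + K * (A + M ^ 2) + K * Dz) * u ^ 2 =
        (1 + Z1) * u ^ 2 + K * (A + M ^ 2) * u ^ 2 + K * Dz * u ^ 2 := by ring
    linarith

/-- LEAF PH-4 (~200 l.).  `ph_read` at `b = b_c`, `η = 1/j²`, + `MapOK.sc_t`, `sc_z`:  `|t - x/b_*| ≤ C (wn Y ² + ‖Q‖) ≤ C (A² + A)/j²`, `|z - y/√(b_* H)| ≤ C (e^{-c j} A/j + (A² + A)/j²)`,
`e^{-c j} ≤ 1/(c j)` (`cau_exp_neg_le`); `|t|, |z| ≤ (ks A + ...)/j`, `‖X‖² ≤ C'/j²`; `p_j ≤ κ.C`. -/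
theorem ph_link (κ : MapC) (A : ℝ) : ∃ (C : ℝ) (jm : ℕ), 0 ≤ C ∧ 1 ≤ jm ∧
    ∀ (κe : EntC) (ρe : ℝ) (s : ℕ) (H : Hist), SysOK κ κe ρe s H → 0 < s →
    ∀ i j : ℕ, j = H.j0 + i → jm ≤ j → Valid κ κe s H j → H.Inside κ.ρ xyCritical j i →
      errAll κ κe s j ≤ 1 / (j : ℝ) ^ 2 → wn (H.st xyCritical i) ≤ A / j →
      ‖(H.st xyCritical i).2.2‖ ≤ A / (j : ℝ) ^ 2 → ‖H.tor xyCritical j i‖ ≤ A / (j : ℝ) ^ 2 →
      ‖((torVar xyCritical (κ.n j) : ℝ) : ℂ) - (1 / Real.pi + H.x xyCritical i / (Real.pi * κ.bs))‖ ≤ C / (j : ℝ) ^ 2 ∧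
      ‖((torPhase xyCritical (κ.n j) : ℝ) : ℂ) - κ.p j / Real.sqrt (κ.bs * κ.Hq) * H.y xyCritical i‖
        ≤ C / (j : ℝ) ^ 2 := by
  have hK : 1 ≤ κ.C := κ.hC
  have hK0 : 0 ≤ κ.C := by linarith
  have hc := κ.hc
  have hbs := κ.bs_pos
  have hr : 0 < Real.sqrt (κ.bs * κ.Hq) := Real.sqrt_pos.2 (mul_pos hbs κ.hH)
  obtain ⟨r, hrd⟩ : ∃ r : ℝ, r = Real.sqrt (κ.bs * κ.Hq) := ⟨_, rfl⟩
  rw [← hrd] at hr
  obtain ⟨B, hBd⟩ : ∃ B : ℝ, B = |A| := ⟨_, rfl⟩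
  have hB : 0 ≤ B := by rw [hBd]; exact abs_nonneg _
  have hAB : A ≤ B := by rw [hBd]; exact le_abs_self _
  have hpi := Real.pi_pos
  obtain ⟨C, hC, hfin⟩ := ph_link_arith2 κ.C κ.c κ.bs r B hK hc hbs hr hB
  refine ⟨C, 1, hC, le_rfl, ?_⟩
  intro κe ρe s H hS hs i j hj hjm hv hin herr hw hq hτ
  subst hj
  have hjj0 : H.j0 ≤ H.j0 + i := Nat.le_add_right _ _
  have hx0 : (0 : ℝ) < ((H.j0 + i : ℕ) : ℝ) := by exact_mod_cast hjm
  obtain ⟨u, hud⟩ : ∃ u : ℝ, u = 1 / ((H.j0 + i : ℕ) : ℝ) := ⟨_, rfl⟩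
  have hu : 0 < u := by rw [hud]; positivity
  have hu1 : u ≤ 1 := by
    rw [hud, div_le_one hx0]
    exact_mod_cast hjm
  have eA1 : ∀ a : ℝ, a / ((H.j0 + i : ℕ) : ℝ) = a * u := fun a => by rw [hud]; ring
  have eA2 : ∀ a : ℝ, a / ((H.j0 + i : ℕ) : ℝ) ^ 2 = a * u ^ 2 := fun a => by rw [hud]; ring
  rw [eA1] at hw
  rw [eA2] at hq hτ herr ⊢
  rw [one_mul] at herr
  have hu20 : 0 ≤ u ^ 2 := by positivity
  have hb : ((xyCritical : ℝ) : ℂ) ∈ disk κe s := by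
    unfold disk
    apply Metric.mem_ball_self
    have := κe.hc
    have hs' : (0 : ℝ) < (s : ℝ) := by exact_mod_cast hs
    positivity
  have hY : H.st xyCritical i ∈ Metric.ball (0 : ℂ × ℂ × H.Q (H.j0 + i)) κ.ρ := by
    rw [mem_ball_zero_iff]
    exact (hin i le_rfl).1
  obtain ⟨R1, R2⟩ := ph_read hS hb hv hin herr
  have s1 := hS.map.sc_t (H.j0 + i) hjj0 _ hY
  have s2 := hS.map.sc_z (H.j0 + i) hjj0 _ hY
  have et : (H.ts xyCritical (H.j0 + i) i).1.1 = (H.sc (H.j0 + i) (H.st xyCritical i)).1 := rfl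
  have ez : (H.ts xyCritical (H.j0 + i) i).1.2 = (H.sc (H.j0 + i) (H.st xyCritical i)).2 := rfl
  obtain ⟨t, ht⟩ : ∃ t : ℂ, t = (H.sc (H.j0 + i) (H.st xyCritical i)).1 := ⟨_, rfl⟩
  obtain ⟨z, hz⟩ : ∃ z : ℂ, z = (H.sc (H.j0 + i) (H.st xyCritical i)).2 := ⟨_, rfl⟩
  rw [et, ← ht] at R1
  rw [ez, ← hz] at R2
  rw [← ht] at s1
  rw [← hz, ← hrd] at s2
  have ex : H.x xyCritical i = (H.st xyCritical i).1 := rfl
  have ey : H.y xyCritical i = (H.st xyCritical i).2.1 := rfl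
  obtain ⟨x, hx⟩ : ∃ x : ℂ, x = (H.st xyCritical i).1 := ⟨_, rfl⟩
  obtain ⟨y, hy⟩ : ∃ y : ℂ, y = (H.st xyCritical i).2.1 := ⟨_, rfl⟩
  rw [ex, ey, ← hx, ← hy, ← hrd]
  rw [← hx] at s1
  rw [← hy] at s2
  have hwx : ‖x‖ ≤ wn (H.st xyCritical i) := by rw [hx]; exact le_max_left _ _
  have hwy : ‖y‖ ≤ wn (H.st xyCritical i) := by rw [hy]; exact le_max_right _ _
  have hw0 : 0 ≤ wn (H.st xyCritical i) := (norm_nonneg _).trans hwx
  have hBu : A * u ≤ B * u := mul_le_mul_of_nonneg_right hAB hu.le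
  have hBu2 : A * u ^ 2 ≤ B * u ^ 2 := mul_le_mul_of_nonneg_right hAB hu20
  have hexp : Real.exp (-κ.c * ((H.j0 + i : ℕ) : ℝ)) ≤ u / κ.c := by
    have := cau_exp_neg_le hc hx0
    rwa [← hud] at this
  have hnt : ‖t‖ ≤ ‖x‖ / κ.bs + ‖t - x / κ.bs‖ := by
    have h1 : ‖t‖ ≤ ‖x / (κ.bs : ℂ)‖ + ‖t - x / κ.bs‖ := by
      have := norm_add_le (x / (κ.bs : ℂ)) (t - x / κ.bs)
      simpa using this
    rwa [norm_div, Complex.norm_real, Real.norm_eq_abs, abs_of_pos hbs] at h1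
  have hnz : ‖z‖ ≤ ‖y‖ / r + ‖z - y / r‖ := by
    have h1 : ‖z‖ ≤ ‖y / (r : ℂ)‖ + ‖z - y / r‖ := by
      have := norm_add_le (y / (r : ℂ)) (z - y / r)
      simpa using this
    rwa [norm_div, Complex.norm_real, Real.norm_eq_abs, abs_of_pos hr] at h1
  have hnX : ‖H.ts xyCritical (H.j0 + i) i‖ ≤ max (max ‖t‖ ‖z‖) ‖H.tor xyCritical (H.j0 + i) i‖ := by
    rw [ht, hz]
    exact le_of_eq rfl
  obtain ⟨f1, f2⟩ := hfin u ‖x‖ ‖y‖ ‖(H.st xyCritical i).2.2‖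
    ‖H.tor xyCritical (H.j0 + i) i‖ (wn (H.st xyCritical i)) ‖t - x / κ.bs‖ ‖z - y / r‖ ‖t‖ ‖z‖
    ‖H.ts xyCritical (H.j0 + i) i‖ (Real.exp (-κ.c * ((H.j0 + i : ℕ) : ℝ))) hu hu1
    (norm_nonneg _) (norm_nonneg _) (norm_nonneg _) hw0 (hwx.trans (hw.trans hBu)) (hwy.trans (hw.trans hBu))
    (hw.trans hBu) (hq.trans hBu2) (hτ.trans hBu2) (Real.exp_pos _).le hexp s1 s2 hnt hnz hnX (norm_nonneg _)
  constructor
  · have e : ((torVar xyCritical (κ.n (H.j0 + i)) : ℝ) : ℂ) - (1 / Real.pi + x / (Real.pi * κ.bs)) =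
        (((torVar xyCritical (κ.n (H.j0 + i)) : ℝ) : ℂ) - (1 + t) / Real.pi) + (t - x / κ.bs) / Real.pi := by
      have h1 : (Real.pi : ℂ) ≠ 0 := by exact_mod_cast hpi.ne'
      have h2 : (κ.bs : ℂ) ≠ 0 := by exact_mod_cast hbs.ne'
      field_simp
      ring
    rw [e]
    refine (norm_add_le _ _).trans ?_
    have n2 : ‖(t - x / κ.bs) / (Real.pi : ℂ)‖ = ‖t - x / κ.bs‖ / Real.pi := by
      rw [norm_div, Complex.norm_real, Real.norm_eq_abs, abs_of_pos hpi]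
    rw [n2]
    exact (add_le_add R1 le_rfl).trans f1
  · have e : ((torPhase xyCritical (κ.n (H.j0 + i)) : ℝ) : ℂ) - κ.p (H.j0 + i) / r * y =
        (((torPhase xyCritical (κ.n (H.j0 + i)) : ℝ) : ℂ) - κ.p (H.j0 + i) * z) + κ.p (H.j0 + i) * (z - y / r) := by
      ring
    rw [e]
    refine (norm_add_le _ _).trans ?_
    have hp := κ.hp (H.j0 + i)
    have n2 : ‖(κ.p (H.j0 + i) : ℂ) * (z - y / r)‖ ≤ κ.C * ‖z - y / r‖ := by
      rw [norm_mul, Complex.norm_real, Real.norm_eq_abs, abs_of_pos (lt_of_lt_of_le hc hp.1)]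
      exact mul_le_mul_of_nonneg_right hp.2 (norm_nonneg _)
    exact (add_le_add R2 n2).trans f2

/-! ## 2. The canonical histories -/

/-- `C / j² + m * (C₀ log (2+j) / j²) ≤ (2 C + M |C₀|) log (2+j) / j²` for `0 ≤ m ≤ M`. -/
theorem ph_static_arith (C C₀ m M Lg x d : ℝ) (hC : 0 ≤ C) (hm0 : 0 ≤ m) (hm : m ≤ M) (hL : 1 / 2 ≤ Lg) (hx : 0 < x)
    (hd0 : 0 ≤ d) (hd : d ≤ C₀ * Lg / x ^ 2) :
    C / x ^ 2 + m * d ≤ (2 * C + M * |C₀|) * Lg / x ^ 2 := by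
  have hx2 : 0 < x ^ 2 := by positivity
  have h1 : C / x ^ 2 ≤ 2 * C * Lg / x ^ 2 := by
    apply div_le_div_of_nonneg_right _ hx2.le
    nlinarith
  have h2 : d ≤ |C₀| * Lg / x ^ 2 := by
    refine hd.trans ?_
    apply div_le_div_of_nonneg_right _ hx2.le
    exact mul_le_mul_of_nonneg_right (le_abs_self _) (by linarith)
  have h3 : m * d ≤ M * (|C₀| * Lg / x ^ 2) := mul_le_mul hm h2 hd0 (hm0.trans hm)
  have e : (2 * C + M * |C₀|) * Lg / x ^ 2 = 2 * C * Lg / x ^ 2 + M * (|C₀| * Lg / x ^ 2) := by ring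
  rw [e]
  linarith

/-- LEAF PH-5 (~200 l.).  `ph_link` with `A = max 2 C₀` (`p41_near_size`, `p41_near_norm`: `wn ≤ 2/j`), `Good.crit`, `critT` (stop `h = j`), `valid`, `conf`, `conft` (`Tube.lt`);
`errAll ≤ 3 e^{-c j} ≤ 1/j²` by `p41_err_small`;  then `|x - 1/j| ≤ C₀ log (2+j)/j²` and `1/j² ≤ 2 log (2+j)/j²` (`p41_log_half`).  Real parts: `|a - r| = ‖(a : ℂ) - r‖` for real `a`, `r`. -/
theorem ph_static (p : Par) : ∃ (C : ℝ) (Nm : ℕ), ∀ (s N : ℕ) (H : Hist), Good p s H N → Nm ≤ N →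
    ∀ i j : ℕ, j = H.j0 + i → N ≤ 2 * j → 2 * j ≤ 5 * N → PhysAt p.κ C j := by
  obtain ⟨C, jm, hC, hjm1, hlink⟩ := ph_link p.κ (2 + |p.C₀|)
  obtain ⟨js, hjs1, hsize⟩ := p41_near_size p.κ.ρ p.C₀ p.κ.hρ
  obtain ⟨c, Ne, hc, herr⟩ := p41_err_small p.κ p.κe p.c1 p.C1 p.hc1
  obtain ⟨je, hje⟩ := p41_exp_poly 3 c 0 2 hc
  have hbs := p.κ.bs_pos
  have hpi := Real.pi_pos
  have hr : 0 < Real.sqrt (p.κ.bs * p.κ.Hq) := Real.sqrt_pos.2 (mul_pos hbs p.κ.hH)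
  obtain ⟨r, hrd⟩ : ∃ r : ℝ, r = Real.sqrt (p.κ.bs * p.κ.Hq) := ⟨_, rfl⟩
  rw [← hrd] at hr
  have hK0 : 0 ≤ p.κ.C := le_trans zero_le_one p.κ.hC
  refine ⟨(2 * C + 1 / (Real.pi * p.κ.bs) * |p.C₀|) + (2 * C + p.κ.C / r * |p.C₀|), 2 * (jm + js + je + 1) + Ne, ?_⟩
  intro s N H hG hN i j hj h1 h2
  have hjjm : jm ≤ j := by omega
  have hjjs : js ≤ j := by omega
  have hjje : je ≤ j := by omega
  have hj1 : 1 ≤ j := by omega
  have hx : (0 : ℝ) < (j : ℝ) := by exact_mod_cast hj1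
  have hx2 : (0 : ℝ) < (j : ℝ) ^ 2 := by positivity
  have hs : 0 < s := by
    have h3 := hG.size.1
    have hN0 : (0 : ℝ) < (N : ℝ) := by
      have : 0 < N := by omega
      exact_mod_cast this
    have h4 : 0 < p.c1 * N := mul_pos p.hc1 hN0
    have : (0 : ℝ) < (s : ℝ) := lt_of_lt_of_le h4 h3
    exact_mod_cast this
  have hv : Valid p.κ p.κe s H j := hG.valid j (by omega) (by omega)
  have hin : H.Inside p.κ.ρ xyCritical j i := by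
    intro i' hi'
    exact ⟨lt_trans (hG.conf i' (by omega)) p.tube.lt, lt_trans (hG.conft j i' (by omega) (by omega) (by omega)) p.tube.lt⟩
  have hea : errAll p.κ p.κe s j ≤ 1 / (j : ℝ) ^ 2 := by
    obtain ⟨q1, q2, q3⟩ := herr s N j (by omega) hG.size.1 hG.size.2 h1 h2
    have q4 := hje j hjje
    simp only [neg_zero, zero_mul, Real.exp_zero] at q4
    have q5 : 3 * Real.exp (-c * j) ≤ 1 / (j : ℝ) ^ 2 := by
      rw [le_div_iff₀ hx2]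
      linarith
    unfold errAll errGrid
    linarith
  have hcr := hG.crit i (by omega) (by omega)
  rw [p41_critAt_iff] at hcr
  have c1 : ‖H.x xyCritical i - 1 / (j : ℂ)‖ ≤ p.C₀ * Real.log (2 + j) / (j : ℝ) ^ 2 := by
    rw [hj]; exact hcr.1
  have c2 : ‖H.y xyCritical i - 1 / (j : ℂ)‖ ≤ p.C₀ * Real.log (2 + j) / (j : ℝ) ^ 2 := by
    rw [hj]; exact hcr.2.1
  have c3 : ‖(H.st xyCritical i).2.2‖ ≤ p.C₀ / (j : ℝ) ^ 2 := by
    rw [hj]; exact hcr.2.2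
  have cT : ‖H.tor xyCritical j i‖ ≤ p.C₀ / (j : ℝ) ^ 2 := by
    rw [hj]; exact hG.critT (H.j0 + i) i (by omega) (by omega) (by omega) (by omega)
  have w1 : wn (H.st xyCritical i) ≤ 2 / (j : ℝ) := by
    rw [hj]
    obtain ⟨z1, z2, z3⟩ := hsize (H.j0 + i) (by omega)
    exact (p41_near_norm p.C₀ (by omega) z1 z2 hcr).1
  have hA0 : (2 : ℝ) ≤ 2 + |p.C₀| := by have := abs_nonneg p.C₀; linarith
  have hA1 : p.C₀ ≤ 2 + |p.C₀| := by have := le_abs_self p.C₀; linarith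
  obtain ⟨L1, L2⟩ := hlink p.κe p.ρe s H hG.sys hs i j hj hjjm hv hin hea
    (w1.trans (div_le_div_of_nonneg_right hA0 hx.le))
    (c3.trans (div_le_div_of_nonneg_right hA1 hx2.le))
    (cT.trans (div_le_div_of_nonneg_right hA1 hx2.le))
  have hLg := p41_log_half j
  have hLg0 : 0 ≤ Real.log (2 + j) / (j : ℝ) ^ 2 := by
    have : 0 ≤ Real.log (2 + j) := by linarith
    positivity
  have hxC : (j : ℂ) ≠ 0 := by exact_mod_cast hx.ne'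
  have hpiC : (Real.pi : ℂ) ≠ 0 := by exact_mod_cast hpi.ne'
  have hbsC : (p.κ.bs : ℂ) ≠ 0 := by exact_mod_cast hbs.ne'
  have hrC : (r : ℂ) ≠ 0 := by exact_mod_cast hr.ne'
  have hC1 : 0 ≤ 2 * C + 1 / (Real.pi * p.κ.bs) * |p.C₀| := by positivity
  have hC2 : 0 ≤ 2 * C + p.κ.C / r * |p.C₀| := by positivity
  rw [← hrd] at L2
  unfold PhysAt
  rw [← hrd]
  constructor
  · have e0 : |torVar xyCritical (p.κ.n j) - (1 / Real.pi + 1 / (Real.pi * p.κ.bs * j))| =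
        ‖((torVar xyCritical (p.κ.n j) : ℝ) : ℂ) - (1 / Real.pi + 1 / (Real.pi * p.κ.bs * j))‖ := by
      rw [← Real.norm_eq_abs, ← Complex.norm_real]
      push_cast
      rfl
    rw [e0]
    have e : ((torVar xyCritical (p.κ.n j) : ℝ) : ℂ) - (1 / Real.pi + 1 / (Real.pi * p.κ.bs * j)) =
        (((torVar xyCritical (p.κ.n j) : ℝ) : ℂ) - (1 / Real.pi + H.x xyCritical i / (Real.pi * p.κ.bs)))
          + ((1 / (Real.pi * p.κ.bs) : ℝ) : ℂ) * (H.x xyCritical i - 1 / (j : ℂ)) := by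
      push_cast
      field_simp
      ring
    rw [e]
    refine (norm_add_le _ _).trans ?_
    rw [norm_mul, Complex.norm_real, Real.norm_eq_abs, abs_of_pos (by positivity)]
    have k := ph_static_arith C p.C₀ (1 / (Real.pi * p.κ.bs)) (1 / (Real.pi * p.κ.bs)) (Real.log (2 + j)) j
      ‖H.x xyCritical i - 1 / (j : ℂ)‖ hC (by positivity) le_rfl hLg hx (norm_nonneg _) c1
    refine (add_le_add L1 le_rfl).trans (k.trans ?_)
    rw [mul_div_assoc, mul_div_assoc]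
    exact mul_le_mul_of_nonneg_right (by linarith) hLg0
  · have e0 : |torPhase xyCritical (p.κ.n j) - p.κ.p j / (r * j)| =
        ‖((torPhase xyCritical (p.κ.n j) : ℝ) : ℂ) - p.κ.p j / (r * j)‖ := by
      rw [← Real.norm_eq_abs, ← Complex.norm_real]
      push_cast
      rfl
    rw [e0]
    have e : ((torPhase xyCritical (p.κ.n j) : ℝ) : ℂ) - p.κ.p j / (r * j) =
        (((torPhase xyCritical (p.κ.n j) : ℝ) : ℂ) - p.κ.p j / r * H.y xyCritical i)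
          + ((p.κ.p j / r : ℝ) : ℂ) * (H.y xyCritical i - 1 / (j : ℂ)) := by
      push_cast
      field_simp
      ring
    rw [e]
    refine (norm_add_le _ _).trans ?_
    have hp := p.κ.hp j
    have hp0 : 0 < p.κ.p j := lt_of_lt_of_le p.κ.hc hp.1
    rw [norm_mul, Complex.norm_real, Real.norm_eq_abs, abs_of_pos (by positivity)]
    have k := ph_static_arith C p.C₀ (p.κ.p j / r) (p.κ.C / r) (Real.log (2 + j)) j
      ‖H.y xyCritical i - 1 / (j : ℂ)‖ hC (by positivity) (div_le_div_of_nonneg_right hp.2 hr.le) hLg hx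
      (norm_nonneg _) c2
    refine (add_le_add L2 le_rfl).trans (k.trans ?_)
    rw [mul_div_assoc, mul_div_assoc]
    exact mul_le_mul_of_nonneg_right (by linarith) hLg0

/-- GLUE: the critical physical asymptotics. -/
theorem ph_crit {κ : MapC} {κe : EntC} {ρe ρt : ℝ} {H : ℕ → Hist} (hy : Hyp κ κe ρe ρt H) (hT : Tube κ ρt) :
    ∃ C : ℝ, ∀ᶠ j : ℕ in atTop, PhysAt κ C j := by
  obtain ⟨C₀, hG⟩ := p41_good hy hT
  set p : Par := ⟨κ, κe, ρe, ρt, C₀, hy.crit.c1, hy.crit.C1, hT, hy.crit.hc1⟩ with hp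
  have hG' : ∀ᶠ k : ℕ in atTop, Good p (hy.crit.sk k) ((fun k => H (hy.crit.sk k)) k) (2 ^ k) := hG
  obtain ⟨C, Nm, hst⟩ := ph_static p
  refine ⟨C, ?_⟩
  filter_upwards [p41_sp_good hG' Nm] with j hj
  obtain ⟨g, _, hN, h1, h2, h3⟩ := hj
  refine hst _ _ _ g hN _ j h3 (by omega) ?_
  rw [pow_succ] at h2
  omega

/-- LEAF PH-6 (~100 l.).  `torPhase ≥ p_j/(√(b_* H) j) - C log (2+j)/j² ≥ (κ.c/√(b_* H) - C log (2+j)/j)/j`, `p41_log_div`; `κ.n j = κ.D0 * κ.L ^ j` by `rfl`. -/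
theorem ph_phase_lower (κ : MapC) (C : ℝ) (h : ∀ᶠ j : ℕ in atTop, PhysAt κ C j) :
    ∃ c : ℝ, 0 < c ∧ ∀ᶠ j : ℕ in atTop, c / (j : ℝ) ≤ torPhase xyCritical (κ.D0 * κ.L ^ j) := by
  have hbs := κ.bs_pos
  have hr : 0 < Real.sqrt (κ.bs * κ.Hq) := Real.sqrt_pos.2 (mul_pos hbs κ.hH)
  obtain ⟨r, hrd⟩ : ∃ r : ℝ, r = Real.sqrt (κ.bs * κ.Hq) := ⟨_, rfl⟩
  rw [← hrd] at hr
  have hc := κ.hc
  have hc2 : 0 < κ.c / (2 * r) := by positivity
  refine ⟨κ.c / (2 * r), hc2, ?_⟩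
  have hev : ∀ᶠ j : ℕ in atTop, C * (Real.log (2 + j) / (j : ℝ)) < κ.c / (2 * r) := by
    have := p41_log_div.const_mul C
    rw [mul_zero] at this
    exact this.eventually (eventually_lt_nhds (b := κ.c / (2 * r)) hc2)
  filter_upwards [h, hev, eventually_ge_atTop 1] with j hj hs hj1
  have hx : (0 : ℝ) < (j : ℝ) := by exact_mod_cast hj1
  have h2 := hj.2
  rw [← hrd] at h2
  have h3 := (abs_le.1 h2).1
  have hn : κ.n j = κ.D0 * κ.L ^ j := rfl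
  rw [hn] at h3
  have hp := (κ.hp j).1
  have h4 : κ.c / (r * j) ≤ κ.p j / (r * j) := div_le_div_of_nonneg_right hp (by positivity)
  have h5 : C * Real.log (2 + j) / (j : ℝ) ^ 2 ≤ κ.c / (2 * r) / (j : ℝ) := by
    have e : C * Real.log (2 + j) / (j : ℝ) ^ 2 = C * (Real.log (2 + j) / (j : ℝ)) / (j : ℝ) := by
      field_simp
    rw [e]
    exact div_le_div_of_nonneg_right hs.le hx.le
  have e6 : κ.c / (r * j) = κ.c / (2 * r) / (j : ℝ) + κ.c / (2 * r) / (j : ℝ) := by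
    field_simp
    ring
  linarith

/-- **[E] L5.9, first half** (verbatim `E4.crit_phase_lower`). -/
theorem ph_crit_phase_lower (κ : MapC) : ∃ ρt1 : ℝ, 0 < ρt1 ∧ ∀ ρt : ℝ, ρt ≤ ρt1 → ∃ ρe1 : ℝ, 0 < ρe1 ∧ ∀ ρe : ℝ, ρe ≤ ρe1 →
    ∀ (κe : EntC) (H : ℕ → Hist) (_ : Hyp κ κe ρe ρt H),
      ∃ c : ℝ, 0 < c ∧ ∀ᶠ j : ℕ in atTop, c / (j : ℝ) ≤ torPhase xyCritical (κ.D0 * κ.L ^ j) := by
  obtain ⟨ρt1, hρt1, hT⟩ := p41_tube κ
  refine ⟨ρt1, hρt1, fun ρt hρt => ⟨1, one_pos, fun ρe _ κe H hy => ?_⟩⟩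
  obtain ⟨C, hC⟩ := ph_crit hy (hT ρt hρt)
  exact ph_phase_lower κ C hC

/-- Stores the on-demand equation lemmas of the definitions above in THIS module (rule 6 hygiene). -/
theorem ph_forced : True := by
  have := @PhysAt.eq_1
  trivial

end

end Claimed.Agent.R285.E4
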