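import Mathlib

/-!
# ROW 285, [E] (4.5)-(4.7), (4.19): SLAVING of the remainder derivatives / secants to the scalar ones        (helper90)

Pure sequences.  `v j = |V_j|` (scalar derivative or secant), `q j = r_{j|h}` (remainder derivatives or secants).  Hypotheses on `l ≤ j < J`:
* backward scalar step  `v j ≤ (1 + C / j) v (j+1) + (C / j) q j`   (from (4.3): `V_{j+1} = V_j + O(|V_j| / j) + O(q_j / j)`);
* forward remainder step `q (j+1) ≤ θ₁ q j + (C / j) v j`            ((4.4)).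
Conclusion: `q j ≤ (K / j) v j + r^{j-l} q l` for all `l ≤ j ≤ J`, if `l ≥ j1 (θ₁, r, C)`.

REMARK.  The paper uses weighted maxima `S_v`, `S_q` on `[j/2, j]`; a plain forward induction on the statement itself does the same job:
if `q_j ≤ (K/j) v_j + e_j`, the backward step gives `v_j ≤ (1+u)(1+Cu) v_{j+1} + (1+u) C u e_j`, `u = 1/j`, and the forward step closes the induction
with `K = 2C / (1-θ₁)`.  No restriction `l ≥ J/2` is needed.
-/

set_option autoImplicit false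

namespace Claimed.Agent.R285.E4

open Filter Topology

/-- one step of the induction; `u = 1 / j`, `u' = 1 / (j + 1) = u / (1 + u)`. -/
theorem slv_step {θ1 r C K u v v' q q' e : ℝ} (hθ0 : 0 ≤ θ1) (hC : 0 ≤ C) (hK : 0 ≤ K)
    (hKdef : θ1 * K + C ≤ (1 + θ1) / 2 * K) (hu0 : 0 < u)
    (c1 : 2 * C * K * u ≤ 1) (c2 : (1 + θ1) / 2 * (1 + u) ^ 2 * (1 + C * u) ≤ 1)
    (c3 : (1 + θ1) / 2 * K * C * u ^ 2 * (1 + u) + θ1 ≤ r)
    (hv : 0 ≤ v) (hv' : 0 ≤ v') (he : 0 ≤ e)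
    (h1 : v ≤ (1 + C * u) * v' + C * u * q) (h2 : q' ≤ θ1 * q + C * u * v) (h3 : q ≤ K * u * v + e) :
    q' ≤ K * (u / (1 + u)) * v' + r * e := by
  have hCu : 0 ≤ C * u := mul_nonneg hC hu0.le
  set x : ℝ := C * K * u ^ 2 with hx
  have hx0 : 0 ≤ x := by positivity
  have hxu : 2 * x ≤ u := by
    have : 2 * x = (2 * C * K * u) * u := by rw [hx]; ring
    rw [this]
    exact mul_le_of_le_one_left hu0.le c1
  set R : ℝ := (1 + C * u) * v' + C * u * e with hR
  have hR0 : 0 ≤ R := by positivity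
  have s2 : v * (1 - x) ≤ R := by
    have : C * u * q ≤ C * u * (K * u * v + e) := mul_le_mul_of_nonneg_left h3 hCu
    have e1 : C * u * (K * u * v + e) = x * v + C * u * e := by rw [hx]; ring
    rw [hR]
    linarith
  -- we need `u ≤ 1`-free bound: `x ≤ 1/2` follows from c2?  use c1-type bound through `hxu` and `c2`
  have hu1 : u ≤ 1 := by
    by_contra hcon
    push Not at hcon
    have a1 : (1 : ℝ) / 2 ≤ (1 + θ1) / 2 := by linarith
    have a2 : (4 : ℝ) ≤ (1 + u) ^ 2 := by nlinarith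
    have a3 : (1 : ℝ) ≤ 1 + C * u := by linarith
    have a4 : (2 : ℝ) ≤ (1 + θ1) / 2 * (1 + u) ^ 2 := by nlinarith
    have a5 : (2 : ℝ) ≤ (1 + θ1) / 2 * (1 + u) ^ 2 * (1 + C * u) := by nlinarith
    linarith
  have hx12 : x ≤ 1 / 2 := by linarith
  have s3 : v ≤ (1 + 2 * x) * R := by
    have a1 : 1 ≤ (1 + 2 * x) * (1 - x) := by nlinarith
    have a2 : v ≤ v * ((1 + 2 * x) * (1 - x)) := le_mul_of_one_le_right hv a1
    have a3 : v * ((1 + 2 * x) * (1 - x)) = (1 + 2 * x) * (v * (1 - x)) := by ring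
    have a4 : (1 + 2 * x) * (v * (1 - x)) ≤ (1 + 2 * x) * R := mul_le_mul_of_nonneg_left s2 (by linarith)
    linarith
  have s5 : v ≤ (1 + u) * R := s3.trans (mul_le_mul_of_nonneg_right (by linarith) hR0)
  set μ : ℝ := (1 + θ1) / 2 with hμ
  have hμ0 : 0 ≤ μ := by rw [hμ]; linarith
  have s6 : q' ≤ μ * K * u * v + θ1 * e := by
    have a1 : θ1 * q ≤ θ1 * (K * u * v + e) := mul_le_mul_of_nonneg_left h3 hθ0
    have a2 : (θ1 * K + C) * (u * v) ≤ μ * K * (u * v) := mul_le_mul_of_nonneg_right hKdef (by positivity)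
    nlinarith
  have s7 : μ * K * u * v ≤ μ * K * u * ((1 + u) * R) := mul_le_mul_of_nonneg_left s5 (by positivity)
  have hu1p : 0 < 1 + u := by linarith
  have a' : μ * K * u * ((1 + u) * ((1 + C * u) * v')) ≤ K * (u / (1 + u)) * v' := by
    have b1 : μ * K * u * ((1 + u) * ((1 + C * u) * v'))
        = (μ * (1 + u) ^ 2 * (1 + C * u)) * (K * (u / (1 + u)) * v') := by
      field_simp
    rw [b1]
    exact mul_le_of_le_one_left (by positivity) c2
  have b' : μ * K * u * ((1 + u) * (C * u * e)) + θ1 * e ≤ r * e := by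
    have b1 : μ * K * u * ((1 + u) * (C * u * e)) + θ1 * e = (μ * K * C * u ^ 2 * (1 + u) + θ1) * e := by ring
    rw [b1]
    exact mul_le_mul_of_nonneg_right c3 he
  have e2 : μ * K * u * ((1 + u) * R)
      = μ * K * u * ((1 + u) * ((1 + C * u) * v')) + μ * K * u * ((1 + u) * (C * u * e)) := by
    rw [hR]; ring
  linarith

/-- the smallness conditions hold for all large `j`. -/
theorem slv_small {θ1 r C K : ℝ} (hθ1 : θ1 < 1) (hθr : θ1 < r) : ∀ᶠ j : ℕ in atTop,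
    2 * C * K * (1 / (j : ℝ)) ≤ 1 ∧ (1 + θ1) / 2 * (1 + 1 / (j : ℝ)) ^ 2 * (1 + C * (1 / (j : ℝ))) ≤ 1 ∧
    (1 + θ1) / 2 * K * C * (1 / (j : ℝ)) ^ 2 * (1 + 1 / (j : ℝ)) + θ1 ≤ r := by
  have key : ∀ᶠ u : ℝ in 𝓝 0, 2 * C * K * u ≤ 1 ∧ (1 + θ1) / 2 * (1 + u) ^ 2 * (1 + C * u) ≤ 1 ∧
      (1 + θ1) / 2 * K * C * u ^ 2 * (1 + u) + θ1 ≤ r := by
    have f1 : Continuous fun u : ℝ => 2 * C * K * u := by fun_prop
    have f2 : Continuous fun u : ℝ => (1 + θ1) / 2 * (1 + u) ^ 2 * (1 + C * u) := by fun_prop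
    have f3 : Continuous fun u : ℝ => (1 + θ1) / 2 * K * C * u ^ 2 * (1 + u) + θ1 := by fun_prop
    have g1 := (f1.tendsto 0).eventually (eventually_lt_nhds (b := 1) (by norm_num))
    have g2 := (f2.tendsto 0).eventually (eventually_lt_nhds (b := 1) (by norm_num; linarith))
    have g3 := (f3.tendsto 0).eventually (eventually_lt_nhds (b := r) (by norm_num; linarith))
    filter_upwards [g1, g2, g3] with u h1 h2 h3
    exact ⟨h1.le, h2.le, h3.le⟩
  exact tendsto_one_div_atTop_nhds_zero_nat.eventually key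

/-- **SLAVING** ([E] (4.7), (4.19)). -/
theorem slv_main {θ1 r C : ℝ} (hθ0 : 0 ≤ θ1) (hθ1 : θ1 < 1) (hθr : θ1 < r) (hC : 0 ≤ C) :
    ∃ (K : ℝ) (j1 : ℕ), 0 ≤ K ∧ 1 ≤ j1 ∧ ∀ (v q : ℕ → ℝ) (l J : ℕ), j1 ≤ l → (∀ j, 0 ≤ v j) → 0 ≤ q l →
      (∀ j, l ≤ j → j < J → v j ≤ (1 + C / (j : ℝ)) * v (j + 1) + C / (j : ℝ) * q j) →
      (∀ j, l ≤ j → j < J → q (j + 1) ≤ θ1 * q j + C / (j : ℝ) * v j) →
      ∀ j, l ≤ j → j ≤ J → q j ≤ K / (j : ℝ) * v j + r ^ (j - l) * q l := by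
  set K : ℝ := 2 * C / (1 - θ1) with hK
  have h1θ : 0 < 1 - θ1 := by linarith
  have hK0 : 0 ≤ K := by positivity
  have hKdef : θ1 * K + C ≤ (1 + θ1) / 2 * K := by
    have : C = (1 - θ1) / 2 * K := by rw [hK]; field_simp
    nlinarith
  obtain ⟨j0, hj0⟩ := eventually_atTop.1 (slv_small (C := C) (K := K) hθ1 hθr)
  have hr0 : 0 ≤ r := hθ0.trans hθr.le
  refine ⟨K, max j0 1, hK0, le_max_right _ _, ?_⟩
  intro v q l J hl hv hq hb hf j hlj
  induction j, hlj using Nat.le_induction with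
  | base =>
    intro _
    have : 0 ≤ K / (l : ℝ) * v l := mul_nonneg (by positivity) (hv l)
    simp only [Nat.sub_self, pow_zero, one_mul]
    linarith
  | succ j hlj ih =>
    intro hjJ
    have hjJ' : j < J := hjJ
    have ih' := ih hjJ'.le
    have hj1 : 1 ≤ j := (le_max_right j0 1).trans (hl.trans hlj)
    have hjpos : (0 : ℝ) < j := by exact_mod_cast hj1
    obtain ⟨c1, c2, c3⟩ := hj0 j ((le_max_left j0 1).trans (hl.trans hlj))
    have e1 : ∀ a : ℝ, a / (j : ℝ) = a * (1 / (j : ℝ)) := fun a => by ring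
    have hbj := hb j hlj hjJ'
    have hfj := hf j hlj hjJ'
    rw [e1] at hbj hfj ih'
    have hstep := slv_step (e := r ^ (j - l) * q l) hθ0 hC hK0 hKdef (by positivity) c1 c2 c3 (hv j) (hv (j + 1))
      (by positivity) hbj hfj ih'
    have e2 : (1 / (j : ℝ)) / (1 + 1 / (j : ℝ)) = 1 / ((j + 1 : ℕ) : ℝ) := by
      push_cast
      field_simp
    have e3 : r * (r ^ (j - l) * q l) = r ^ (j + 1 - l) * q l := by
      rw [Nat.succ_sub hlj, pow_succ]; ring
    rw [e2, e3] at hstep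
    have e4 : K / ((j + 1 : ℕ) : ℝ) = K * (1 / ((j + 1 : ℕ) : ℝ)) := by ring
    rw [e4]
    exact hstep

end Claimed.Agent.R285.E4
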